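import Claimed.Agent.R296.P2.AngStep

/-!
# Row 296, paper 2, Proposition 2.4: counting cells and scalar estimates (packages P2-ANG-COUNT, P2-ANG-SCAL; owner helper271)
-/

set_option autoImplicit false
set_option linter.unusedSectionVars false
set_option linter.unusedVariables false

namespace Claimed.Agent.R296

variable {q : ℕ} [NeZero q] {J Δ : ℝ} {L : ℕ}

/-- the quotients `n / σ` of the integers `n ∈ [c - ρ, c + ρ]` lie in an interval of integers. -/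
theorem angc_ediv_mem {σ : ℤ} (hσ : 0 < σ) (c ρ : ℝ) (n : ℤ) (hn : |(n : ℝ) - c| ≤ ρ) :
    n / σ ∈ Finset.Icc ⌊(c - ρ) / σ⌋ ⌊(c + ρ) / σ⌋ := by
  have hσR : (0 : ℝ) < σ := by exact_mod_cast hσ
  obtain ⟨h1, h2⟩ := abs_le.mp hn
  have hk1 : (((n / σ : ℤ) : ℝ)) * σ ≤ n := by exact_mod_cast Int.ediv_mul_le n hσ.ne'
  have hk2 : (n : ℝ) < (((n / σ : ℤ) : ℝ) + 1) * σ := by
    exact_mod_cast Int.lt_ediv_add_one_mul_self n hσ
  rw [Finset.mem_Icc]
  constructor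
  · have h3 : ((⌊(c - ρ) / σ⌋ : ℤ) : ℝ) < ((n / σ : ℤ) : ℝ) + 1 := by
      calc ((⌊(c - ρ) / σ⌋ : ℤ) : ℝ) ≤ (c - ρ) / σ := Int.floor_le _
        _ ≤ n / σ := by gcongr; linarith
        _ < ((n / σ : ℤ) : ℝ) + 1 := by rw [div_lt_iff₀ hσR]; exact hk2
    have h4 : ⌊(c - ρ) / σ⌋ < n / σ + 1 := by exact_mod_cast h3
    omega
  · rw [Int.le_floor, le_div_iff₀ hσR]
    linarith

theorem angc_card_Icc_le {σ : ℤ} (hσ : 0 < σ) (c ρ : ℝ) (hρ : 0 ≤ ρ) :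
    ((Finset.Icc ⌊(c - ρ) / σ⌋ ⌊(c + ρ) / σ⌋).card : ℝ) ≤ 2 * ρ / σ + 2 := by
  have hσR : (0 : ℝ) < σ := by exact_mod_cast hσ
  rw [Int.card_Icc]
  have h0 : (0 : ℝ) ≤ 2 * ρ / σ + 2 := by positivity
  have h1 : ((⌊(c + ρ) / σ⌋ + 1 - ⌊(c - ρ) / σ⌋ : ℤ) : ℝ) ≤ 2 * ρ / σ + 2 := by
    have ha := Int.sub_one_lt_floor ((c - ρ) / σ)
    have hb := Int.floor_le ((c + ρ) / σ)
    have he : (c + ρ) / σ - (c - ρ) / σ = 2 * ρ / σ := by ring
    push_cast
    linarith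
  rcases le_total 0 (⌊(c + ρ) / σ⌋ + 1 - ⌊(c - ρ) / σ⌋) with h | h
  · have h2 : (((⌊(c + ρ) / σ⌋ + 1 - ⌊(c - ρ) / σ⌋).toNat : ℤ) : ℝ)
        = ((⌊(c + ρ) / σ⌋ + 1 - ⌊(c - ρ) / σ⌋ : ℤ) : ℝ) := by rw [Int.toNat_of_nonneg h]
    calc (((⌊(c + ρ) / σ⌋ + 1 - ⌊(c - ρ) / σ⌋).toNat : ℕ) : ℝ)
        = (((⌊(c + ρ) / σ⌋ + 1 - ⌊(c - ρ) / σ⌋).toNat : ℤ) : ℝ) := by norm_cast
      _ ≤ 2 * ρ / σ + 2 := h2 ▸ h1
  · rw [Int.toNat_of_nonpos h]
    simpa using h0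

/-- the sites within sup distance `ρ` of a point of the plane meet at most `(2ρ/σ + 2)²` cells of side `σ` -/
theorem cells_in_square_le {σ : ℤ} (hσ : 0 < σ) (z : ℝ × ℝ) (ρ : ℝ) (hρ : 0 ≤ ρ)
    (Y : Finset (GSite L)) (hY : ∀ x ∈ Y, gdR x z ≤ ρ) :
    ((Y.image fun x => cellIdx σ (gpt x)).card : ℝ) ≤ (2 * ρ / σ + 2) ^ 2 := by
  have hsub : (Y.image fun x => cellIdx σ (gpt x)) ⊆
      Finset.Icc ⌊(z.1 - ρ) / σ⌋ ⌊(z.1 + ρ) / σ⌋ ×ˢ Finset.Icc ⌊(z.2 - ρ) / σ⌋ ⌊(z.2 + ρ) / σ⌋ := by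
    intro k hk
    obtain ⟨x, hx, rfl⟩ := Finset.mem_image.mp hk
    have h := hY x hx
    unfold gdR at h
    rw [Finset.mem_product]
    constructor
    · apply angc_ediv_mem hσ
      simpa [gpt] using (le_max_left _ _).trans h
    · apply angc_ediv_mem hσ
      simpa [gpt] using (le_max_right _ _).trans h
  have h1 := Finset.card_le_card hsub
  rw [Finset.card_product] at h1
  have h2 : ((Y.image fun x => cellIdx σ (gpt x)).card : ℝ) ≤
      ((Finset.Icc ⌊(z.1 - ρ) / σ⌋ ⌊(z.1 + ρ) / σ⌋).card : ℝ) *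
        ((Finset.Icc ⌊(z.2 - ρ) / σ⌋ ⌊(z.2 + ρ) / σ⌋).card : ℝ) := by exact_mod_cast h1
  refine h2.trans ?_
  rw [sq]
  exact mul_le_mul (angc_card_Icc_le hσ _ _ hρ) (angc_card_Icc_le hσ _ _ hρ) (Nat.cast_nonneg _)
    (by have : (0 : ℝ) < σ := by exact_mod_cast hσ
        positivity)

/-- enlargement of a set contained in a square -/
theorem enl_subset_square (Y : Finset (GSite L)) (z : ℝ × ℝ) (ρ r : ℝ)
    (hY : ∀ x ∈ Y, gdR x z ≤ ρ) : ∀ x ∈ enl Y r, gdR x z ≤ ρ + r := by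
  intro x hx
  unfold enl at hx
  rw [Finset.mem_filter] at hx
  obtain ⟨-, x0, hx0, hd⟩ := hx
  have h0 := hY x0 hx0
  unfold gdR at h0 ⊢
  unfold gd dInf gpt at hd
  push_cast at hd
  have h1 := (le_max_left _ _).trans h0
  have h2 := (le_max_right _ _).trans h0
  have h3 := (le_max_left _ _).trans hd
  have h4 := (le_max_right _ _).trans hd
  apply max_le
  · calc |(((x.1 : ℕ) : ℝ)) - z.1| = |((((x0.1 : ℕ) : ℝ)) - z.1) - ((((x0.1 : ℕ) : ℝ)) - ((x.1 : ℕ) : ℝ))| := by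
          congr 1; ring
      _ ≤ |(((x0.1 : ℕ) : ℝ)) - z.1| + |(((x0.1 : ℕ) : ℝ)) - ((x.1 : ℕ) : ℝ)| := abs_sub _ _
      _ ≤ ρ + r := add_le_add h1 h3
  · calc |(((x.2 : ℕ) : ℝ)) - z.2| = |((((x0.2 : ℕ) : ℝ)) - z.2) - ((((x0.2 : ℕ) : ℝ)) - ((x.2 : ℕ) : ℝ))| := by
          congr 1; ring
      _ ≤ |(((x0.2 : ℕ) : ℝ)) - z.2| + |(((x0.2 : ℕ) : ℝ)) - ((x.2 : ℕ) : ℝ)| := abs_sub _ _
      _ ≤ ρ + r := add_le_add h2 h4

/-- all scalar requirements of `angular_step`, uniformly in the scale `s ≥ D log L`: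
`σ = ⌊d s⌋`, `t = ⌊σ^γ⌋ + 1`, `γ = (1+max β 0)/2`.  Order of choices: first `D`, then `L0`. -/
theorem angular_scalars (a a' d β C0 C1 u0 Cp p : ℝ) (Nc : ℕ) (hβ : β < 1) (ha' : 0 < a')
    (hd : 0 < d) (hd' : d ≤ a' / 2) (haa : 3 * a' + d < a / 2) (hp : 0 < p) (hCp : 0 ≤ Cp)
    (hC0 : 0 ≤ C0) (hC1 : 0 ≤ C1) :
    ∃ (D : ℝ) (L0 : ℕ), 0 < D ∧ 2 ≤ L0 ∧ ∀ L : ℕ, L0 ≤ L → ∀ s : ℝ, D * Real.log L ≤ s →
      ∃ σ t : ℤ, (σ : ℝ) ≤ d * s ∧ d * s / 2 ≤ (σ : ℝ) ∧ 0 < σ ∧ u0 ≤ (σ : ℝ) ∧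
        (σ : ℝ) ^ β < (t : ℝ) ∧ 2 * t ≤ σ ∧ (σ : ℝ) ^ β < (a / 2 - 3 * a') * s - σ ∧
        Cp * (1 + ((L : ℝ) ^ (-p) + Nc * (C0 + C1 * t)) + Real.log L) < a' * s / 2 := by
  set β' : ℝ := max β 0 with hβ'
  have hβ'1 : β' < 1 := max_lt hβ one_pos
  have hββ' : β ≤ β' := le_max_left _ _
  set γ : ℝ := (1 + β') / 2 with hγ
  have hγ1 : 0 < 1 - γ := by rw [hγ]; linarith
  have hβγ : β ≤ γ := by rw [hγ]; linarith
  set κ : ℝ := a / 2 - 3 * a' - d with hκ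
  have hκ0 : 0 < κ := by rw [hκ]; linarith
  set W : ℝ := Cp * Nc * C1 with hW
  have hW0 : 0 ≤ W := by positivity
  set ε0 : ℝ := min (1 / 4) (min (κ / (2 * d)) (a' / (8 * (W * d + 1)))) with hε0
  have hε0pos : 0 < ε0 := by
    rw [hε0]
    refine lt_min (by norm_num) (lt_min (by positivity) (by positivity))
  obtain ⟨M, hM⟩ : ∃ M : ℝ, ∀ x ≥ M, x ^ (-(1 - γ)) < ε0 :=
    Filter.eventually_atTop.mp ((tendsto_rpow_neg_atTop hγ1).eventually (gt_mem_nhds hε0pos))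
  set M' : ℝ := max (max M 4) u0 with hM'
  have hM'M : M ≤ M' := (le_max_left _ _).trans (le_max_left _ _)
  have hM'4 : 4 ≤ M' := (le_max_right _ _).trans (le_max_left _ _)
  have hM'u : u0 ≤ M' := le_max_right _ _
  set Kc : ℝ := Cp * (2 + Nc * C0 + Nc * C1) with hKc
  set S0 : ℝ := max (2 * M' / d) (8 * Kc / a' + 1) with hS0
  set D : ℝ := 8 * Cp / a' + 1 with hD
  have hD0 : 0 < D := by positivity
  refine ⟨D, max 2 ⌈Real.exp (S0 / D)⌉₊, hD0, le_max_left _ _, fun L hL s hs => ?_⟩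
  have hL2 : 2 ≤ L := (le_max_left _ _).trans hL
  have hLpos : (0 : ℝ) < L := by
    have : 0 < L := by omega
    exact_mod_cast this
  have hL1 : (1 : ℝ) ≤ L := by
    have : 1 ≤ L := by omega
    exact_mod_cast this
  have hLexp : Real.exp (S0 / D) ≤ L :=
    (Nat.le_ceil _).trans (by exact_mod_cast (le_max_right _ _).trans hL)
  have hlogL : S0 / D ≤ Real.log L := (Real.le_log_iff_exp_le hLpos).mpr hLexp
  have hlog0 : 0 ≤ Real.log L := Real.log_nonneg hL1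
  have hS : S0 ≤ s := by
    calc S0 = D * (S0 / D) := by field_simp
      _ ≤ D * Real.log L := mul_le_mul_of_nonneg_left hlogL hD0.le
      _ ≤ s := hs
  have hs1 : 2 * M' / d ≤ s := (le_max_left _ _).trans hS
  have hs2 : 8 * Kc / a' + 1 ≤ s := (le_max_right _ _).trans hS
  have hds : M' ≤ d * s / 2 := by
    rw [div_le_iff₀ hd] at hs1
    linarith
  have hs0 : 0 < s := by
    have : 0 < d * s := by linarith
    exact (mul_pos_iff_of_pos_left hd).mp this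
  set σ : ℤ := ⌊d * s⌋ with hσ
  set x : ℝ := (σ : ℝ) with hx
  have hx1 : x ≤ d * s := Int.floor_le _
  have hx2 : d * s - 1 < x := Int.sub_one_lt_floor _
  have hx3 : d * s / 2 ≤ x := by linarith
  have hxM' : M' ≤ x := hds.trans hx3
  have hx4 : 4 ≤ x := hM'4.trans hxM'
  have hx0 : 0 < x := by linarith
  set ε : ℝ := x ^ (-(1 - γ)) with hε
  have hεlt : ε < ε0 := hM x (hM'M.trans hxM')
  have hεpos : 0 < ε := Real.rpow_pos_of_pos hx0 _
  have hε1 : ε < 1 / 4 := hεlt.trans_le (min_le_left _ _)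
  have hε2 : ε < κ / (2 * d) := hεlt.trans_le ((min_le_right _ _).trans (min_le_left _ _))
  have hε3 : ε < a' / (8 * (W * d + 1)) :=
    hεlt.trans_le ((min_le_right _ _).trans (min_le_right _ _))
  have hxγ : x ^ γ = x * ε := by
    rw [hε]
    nth_rewrite 2 [← Real.rpow_one x]
    rw [← Real.rpow_add hx0]
    congr 1
    ring
  have hxβ : x ^ β ≤ x ^ γ := Real.rpow_le_rpow_of_exponent_le (by linarith) hβγ
  set t : ℤ := ⌊x ^ γ⌋ + 1 with ht
  have ht1 : x ^ γ < (t : ℝ) := by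
    rw [ht]
    push_cast
    exact Int.lt_floor_add_one _
  have ht2 : (t : ℝ) ≤ x ^ γ + 1 := by
    rw [ht]
    push_cast
    linarith [Int.floor_le (x ^ γ)]
  have hxε : x * ε ≤ x / 4 := by
    calc x * ε ≤ x * (1 / 4) := mul_le_mul_of_nonneg_left hε1.le hx0.le
      _ = x / 4 := by ring
  refine ⟨σ, t, hx1, hx3, ?_, hM'u.trans hxM', hxβ.trans_lt ht1, ?_, ?_, ?_⟩
  · have : (0 : ℝ) < (σ : ℝ) := hx0
    exact_mod_cast this
  · have : (2 : ℝ) * (t : ℝ) ≤ (σ : ℝ) := by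
      rw [hxγ] at ht2
      linarith
    exact_mod_cast this
  · have h1 : x * ε < κ * s := by
      rw [lt_div_iff₀ (by positivity)] at hε2
      have h2 : x * ε ≤ d * s * ε := mul_le_mul_of_nonneg_right hx1 hεpos.le
      have h3 : d * s * ε = s * (ε * (2 * d)) / 2 := by ring
      have h4 : s * (ε * (2 * d)) < s * κ := mul_lt_mul_of_pos_left hε2 hs0
      have h5 : 0 < s * κ := by positivity
      linarith
    have h6 : κ * s ≤ (a / 2 - 3 * a') * s - x := by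
      have h7 : κ * s = (a / 2 - 3 * a') * s - d * s := by rw [hκ]; ring
      linarith
    calc x ^ β ≤ x ^ γ := hxβ
      _ = x * ε := hxγ
      _ < κ * s := h1
      _ ≤ _ := h6
  · have hLp : (L : ℝ) ^ (-p) ≤ 1 := Real.rpow_le_one_of_one_le_of_nonpos hL1 (by linarith)
    have hWt : W * (t : ℝ) ≤ a' * s / 8 + W := by
      rw [lt_div_iff₀ (by positivity)] at hε3
      have h1 : W * (t : ℝ) ≤ W * (x * ε + 1) := by
        rw [hxγ] at ht2
        exact mul_le_mul_of_nonneg_left ht2 hW0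
      have h2 : W * (x * ε) ≤ W * (d * s * ε) := by
        apply mul_le_mul_of_nonneg_left _ hW0
        exact mul_le_mul_of_nonneg_right hx1 hεpos.le
      have h3 : W * d * ε ≤ a' / 8 := by
        have h6 : ε * (8 * (W * d + 1)) = 8 * (W * d * ε) + 8 * ε := by ring
        linarith
      have h4 : W * (d * s * ε) = (W * d * ε) * s := by ring
      have h5 : (W * d * ε) * s ≤ a' / 8 * s := mul_le_mul_of_nonneg_right h3 hs0.le
      linarith
    have hlog : Cp * Real.log L ≤ a' * s / 8 := by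
      have h1 : a' * D = 8 * Cp + a' := by
        rw [hD]
        field_simp
      have h2 : a' * (D * Real.log L) ≤ a' * s := mul_le_mul_of_nonneg_left hs ha'.le
      have h3 : a' * (D * Real.log L) = 8 * (Cp * Real.log L) + a' * Real.log L := by
        calc a' * (D * Real.log L) = (a' * D) * Real.log L := by ring
          _ = (8 * Cp + a') * Real.log L := by rw [h1]
          _ = _ := by ring
      have h4 : 0 ≤ a' * Real.log L := by positivity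
      linarith
    have hK : Kc < a' * s / 8 := by
      have h1 : 8 * Kc / a' < s := by linarith
      rw [div_lt_iff₀ ha'] at h1
      linarith
    have hexp : Cp * (1 + ((L : ℝ) ^ (-p) + Nc * (C0 + C1 * t)) + Real.log L)
        = Cp + Cp * (L : ℝ) ^ (-p) + Cp * Nc * C0 + W * t + Cp * Real.log L := by
      rw [hW]
      ring
    have hCpL : Cp * (L : ℝ) ^ (-p) ≤ Cp := by
      calc Cp * (L : ℝ) ^ (-p) ≤ Cp * 1 := mul_le_mul_of_nonneg_left hLp hCp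
        _ = Cp := mul_one _
    have hKc' : Kc = Cp + Cp + Cp * Nc * C0 + W := by
      rw [hKc, hW]
      ring
    rw [hexp]
    have : 0 < a' * s := by positivity
    linarith

end Claimed.Agent.R296
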