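import Claimed.Agent.R296.P2.EntSet
import Claimed.Agent.R296.Count

/-!
# Row 296, paper 2, Proposition 2.4 (`prop:angular`): one layer (package P2-ANG-STEP, PROVED by helper189)

Grid of integer side `σ` anchored at the origin, `cellIdx σ p = (p.1 / σ, p.2 / σ)`.
`R`    := all sites whose cell contains a site of `enl A (1.5 a' s)`;   `Cc := enl E (1.5 a' s)`;
`Rold` := the same with `Aold`;  `Rold ⊆ enl Aold (2 a' s)` because `σ ≤ a' s / 2`; so `I(Rold : Cc) ≤ L^-p` (monotonicity).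
The other cells of `R` contain a site of `enl (A \ Aold) (1.5 a' s)`: at most `Nc` cells.  Add them one at a time:
`sfI_chain` + `GCellStmt` (`B` = the sites already included = a union of whole cells; every point of the AMBIENT cell is within
`1.5 a' s + σ` of `A`, hence at distance `≥ (a/2 - 3a') s - σ` from `Cc`).   Thus `I(R:Cc) ≤ L^-p + Nc (C0 + C1 t) =: b`.
Finally `GResetStmt` with `R0 = enl A (a' s)`, `C0 = enl E (a' s)`: both cores are `> a' s / 2` away from the complements.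
-/

set_option autoImplicit false
set_option linter.unusedSectionVars false
set_option linter.unusedVariables false

namespace Claimed.Agent.R296

variable {q : ℕ} [NeZero q] {J Δ : ℝ} {L : ℕ}

/-- index of the cell of side `σ` (grid anchored at the origin) containing a lattice point -/
def cellIdx (σ : ℤ) (p : ℤ × ℤ) : ℤ × ℤ := (p.1 / σ, p.2 / σ)

theorem angs_ediv_eq_iff {σ : ℤ} (hσ : 0 < σ) (k n : ℤ) :
    n / σ = k ↔ σ * k ≤ n ∧ n < σ * (k + 1) := by
  constructor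
  · rintro rfl
    constructor
    · exact Int.mul_ediv_self_le hσ.ne'
    · exact Int.lt_mul_ediv_self_add hσ |>.trans_eq (by ring)
  · rintro ⟨h1, h2⟩
    apply le_antisymm
    · have : n / σ < k + 1 := by
        rw [Int.ediv_lt_iff_lt_mul hσ]
        linarith
      omega
    · rw [Int.le_ediv_iff_mul_le hσ]
      linarith

theorem inCell_iff_cellIdx {σ : ℤ} (hσ : 0 < σ) (k p : ℤ × ℤ) :
    InCell (0, 0) σ k p ↔ cellIdx σ p = k := by
  unfold InCell cellIdx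
  rw [Prod.ext_iff]
  simp only [zero_add]
  rw [angs_ediv_eq_iff hσ, angs_ediv_eq_iff hσ]
  tauto

/-- two points of one cell are at distance `< σ` -/
theorem angs_same_cell {σ : ℤ} (hσ : 0 < σ) {k x y : ℤ × ℤ} (hx : InCell (0, 0) σ k x)
    (hy : InCell (0, 0) σ k y) : dInf x y ≤ σ := by
  unfold InCell at hx hy
  unfold dInf
  simp only [zero_add, mul_add, mul_one] at hx hy
  simp only [max_le_iff, abs_le]
  generalize σ * k.1 = P1 at hx hy
  generalize σ * k.2 = P2 at hx hy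
  omega

/-- real-valued distance: triangle inequality through an ambient point -/
theorem angs_tri (x y z : ℤ × ℤ) :
    ((dInf x z : ℤ) : ℝ) ≤ ((dInf x y : ℤ) : ℝ) + ((dInf y z : ℤ) : ℝ) := by
  exact_mod_cast ct_dInf_triangle x y z

theorem mem_enl {A : Finset (GSite L)} {r : ℝ} {y : GSite L} :
    y ∈ enl A r ↔ ∃ x ∈ A, ((gd x y : ℤ) : ℝ) ≤ r := by
  unfold enl
  rw [Finset.mem_filter]
  exact and_iff_right (Finset.mem_univ y)

theorem enl_mono_radius (A : Finset (GSite L)) {r r' : ℝ} (h : r ≤ r') : enl A r ⊆ enl A r' := by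
  intro y hy
  obtain ⟨x, hx, hxy⟩ := mem_enl.1 hy
  exact mem_enl.2 ⟨x, hx, hxy.trans h⟩

theorem subset_enl (A : Finset (GSite L)) {r : ℝ} (h : 0 ≤ r) : A ⊆ enl A r := by
  intro y hy
  refine mem_enl.2 ⟨y, hy, ?_⟩
  have : gd y y = 0 := ct_dInf_self _
  rw [this]
  simpa using h

/-- all sites whose cell index belongs to `K` -/
noncomputable def cellsOf (σ : ℤ) (K : Finset (ℤ × ℤ)) : Finset (GSite L) :=
  Finset.univ.filter fun x => cellIdx σ (gpt x) ∈ K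

theorem mem_cellsOf {σ : ℤ} {K : Finset (ℤ × ℤ)} {x : GSite L} :
    x ∈ cellsOf σ K ↔ cellIdx σ (gpt x) ∈ K := by
  unfold cellsOf
  rw [Finset.mem_filter]
  exact and_iff_right (Finset.mem_univ x)

/-- adding cells one at a time -/
theorem angs_add_cells (hE : EntApiStmt) {β C0 C1 u0 : ℝ}
    (hcell : GCellStmt q J Δ β C0 C1 u0) (M : GModel q J Δ L) (σ t : ℤ) (hσ : 0 < σ)
    (h2 : u0 ≤ (σ : ℝ)) (h3 : (σ : ℝ) ^ β < (t : ℝ)) (h4 : 2 * t ≤ σ) (hc : 0 ≤ C0 + C1 * t)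
    (Cc : Finset (GSite L)) (Ko : Finset (ℤ × ℤ)) (hKo : ∀ x ∈ Cc, cellIdx σ (gpt x) ∉ Ko)
    (Kn : Finset (ℤ × ℤ))
    (hKn : ∀ k ∈ Kn, ∀ x ∈ Cc, ∀ p, InCell (0, 0) σ k p →
      (σ : ℝ) ^ β < ((dInf (gpt x) p : ℤ) : ℝ)) :
    M.I (cellsOf σ (Ko ∪ Kn)) Cc ≤ M.I (cellsOf σ Ko) Cc + Kn.card * (C0 + C1 * t) := by
  classical
  have hσβ : (0 : ℝ) ≤ (σ : ℝ) ^ β := Real.rpow_nonneg (by exact_mod_cast hσ.le) _
  induction Kn using Finset.induction_on with
  | empty => simp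
  | insert k Kn hk ih =>
    have ih' := ih (fun k' hk' => hKn k' (Finset.mem_insert_of_mem hk'))
    rw [Finset.card_insert_of_notMem hk]
    push_cast
    by_cases hkK : k ∈ Ko
    · have e : Ko ∪ insert k Kn = Ko ∪ Kn := by
        ext y
        simp only [Finset.mem_union, Finset.mem_insert]
        constructor
        · rintro (h | rfl | h)
          exacts [Or.inl h, Or.inl hkK, Or.inr h]
        · rintro (h | h)
          exacts [Or.inl h, Or.inr (Or.inr h)]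
      rw [e]
      linarith
    · have e : (cellsOf σ (Ko ∪ insert k Kn) : Finset (GSite L))
          = cellsOf σ (Ko ∪ Kn) ∪ cellsOf σ {k} := by
        ext y
        simp only [Finset.mem_union, mem_cellsOf, Finset.mem_insert, Finset.mem_singleton]
        tauto
      have hnot : ∀ x ∈ Cc, ∀ k' ∈ insert k Kn, cellIdx σ (gpt x) ≠ k' := by
        intro x hx k' hk' hxk
        have h := hKn k' hk' x hx (gpt x) ((inCell_iff_cellIdx hσ _ _).2 hxk)
        rw [ct_dInf_self] at h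
        simp only [Int.cast_zero] at h
        linarith
      have hci : M.CI (cellsOf σ {k}) Cc (cellsOf σ (Ko ∪ Kn)) ≤ C0 + C1 * t := by
        refine hcell L M σ t (0, 0) k (↑(Ko ∪ Kn) : Set (ℤ × ℤ)) h2 h3 h4 ?_ _ _ _ ?_ ?_ ?_ ?_
        · simp only [Finset.coe_union, Set.mem_union, Finset.mem_coe, not_or]
          exact ⟨hkK, hk⟩
        · intro x
          rw [mem_cellsOf, Finset.mem_singleton, inCell_iff_cellIdx hσ]
        · intro x
          rw [mem_cellsOf]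
          constructor
          · intro h
            exact ⟨_, Finset.mem_coe.2 h, (inCell_iff_cellIdx hσ _ _).2 rfl⟩
          · rintro ⟨k', hk', h⟩
            rw [(inCell_iff_cellIdx hσ _ _).1 h]
            exact Finset.mem_coe.1 hk'
        · rw [Finset.disjoint_left]
          intro x hx hx'
          rcases Finset.mem_union.1 hx' with h | h
          · rcases Finset.mem_union.1 (mem_cellsOf.1 h) with h | h
            · exact hKo x hx h
            · exact hnot x hx _ (Finset.mem_insert_of_mem h) rfl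
          · exact hnot x hx k (Finset.mem_insert_self _ _) (Finset.mem_singleton.1 (mem_cellsOf.1 h))
        · exact hKn k (Finset.mem_insert_self _ _)
      rw [e, M.I_eq_sfI, sfI_chain, ← M.I_eq_sfI, ← M.CI_eq_sfCI]
      linarith

theorem angular_step (hE : EntApiStmt) {β C0 C1 u0 p Cp : ℝ} {L0 : ℕ}
    (hcell : GCellStmt q J Δ β C0 C1 u0) (hreset : GResetStmt q J Δ p Cp L0)
    (hC0 : 0 ≤ C0) (hC1 : 0 ≤ C1)
    (hL : L0 ≤ L) (hL1 : 1 ≤ L) (M : GModel q J Δ L) (s a a' : ℝ) (σ t : ℤ) (Nc : ℕ)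
    (hs : 0 < s) (ha' : 0 < a') (hσ : 0 < σ)
    (A Aold E : Finset (GSite L)) (hsub : Aold ⊆ A)
    (hsep : ∀ x ∈ A, ∀ e ∈ E, a / 2 * s ≤ ((gd x e : ℤ) : ℝ))
    (hold : M.I (enl Aold (2 * a' * s)) (enl E (2 * a' * s)) ≤ (L : ℝ) ^ (-p))
    (hcells : ((enl (A \ Aold) (3 / 2 * a' * s)).image fun x => cellIdx σ (gpt x)).card ≤ Nc)
    (h1 : (σ : ℝ) ≤ a' * s / 2) (h2 : u0 ≤ (σ : ℝ)) (h3 : (σ : ℝ) ^ β < (t : ℝ)) (h4 : 2 * t ≤ σ)
    (h5 : (σ : ℝ) ^ β < (a / 2 - 3 * a') * s - σ)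
    (h7 : 4 * a' < a / 2)
    (h6 : Cp * (1 + ((L : ℝ) ^ (-p) + Nc * (C0 + C1 * t)) + Real.log L) < a' * s / 2) :
    M.I (enl A (a' * s)) (enl E (a' * s)) ≤ (L : ℝ) ^ (-p) := by
  classical
  have hP := M.pureEnt hE
  have has : 0 < a' * s := mul_pos ha' hs
  have hσβ : (0 : ℝ) ≤ (σ : ℝ) ^ β := Real.rpow_nonneg (by exact_mod_cast hσ.le) _
  have ht : (0 : ℝ) < (t : ℝ) := by linarith
  have hc : 0 ≤ C0 + C1 * t := by positivity
  set ρ : ℝ := 3 / 2 * a' * s with hρ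
  set Cc : Finset (GSite L) := enl E ρ with hCc
  set Ko : Finset (ℤ × ℤ) := (enl Aold ρ).image fun x => cellIdx σ (gpt x) with hKo
  set Kn : Finset (ℤ × ℤ) := (enl (A \ Aold) ρ).image fun x => cellIdx σ (gpt x) with hKn
  -- every ambient point of a cell of `Ko ∪ Kn` is close to `A`
  have hnear : ∀ k ∈ Ko ∪ Kn, ∀ pt, InCell (0, 0) σ k pt →
      ∃ z ∈ A, ((dInf (gpt z) pt : ℤ) : ℝ) ≤ ρ + σ := by
    intro k hk pt hpt
    have : ∃ y ∈ enl A ρ, cellIdx σ (gpt y) = k := by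
      rcases Finset.mem_union.1 hk with h | h
      · obtain ⟨y, hy, hyk⟩ := Finset.mem_image.1 h
        obtain ⟨z, hz, hzy⟩ := mem_enl.1 hy
        exact ⟨y, mem_enl.2 ⟨z, hsub hz, hzy⟩, hyk⟩
      · obtain ⟨y, hy, hyk⟩ := Finset.mem_image.1 h
        obtain ⟨z, hz, hzy⟩ := mem_enl.1 hy
        exact ⟨y, mem_enl.2 ⟨z, (Finset.mem_sdiff.1 hz).1, hzy⟩, hyk⟩
    obtain ⟨y, hy, hyk⟩ := this
    obtain ⟨z, hz, hzy⟩ := mem_enl.1 hy
    refine ⟨z, hz, ?_⟩
    have h8 : ((dInf (gpt y) pt : ℤ) : ℝ) ≤ σ := by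
      exact_mod_cast angs_same_cell hσ ((inCell_iff_cellIdx hσ _ _).2 hyk) hpt
    have h9 := angs_tri (gpt z) (gpt y) pt
    have h10 : ((dInf (gpt z) (gpt y) : ℤ) : ℝ) ≤ ρ := hzy
    linarith
  -- distance of `Cc` from these cells
  have hfar : ∀ k ∈ Ko ∪ Kn, ∀ x ∈ Cc, ∀ pt, InCell (0, 0) σ k pt →
      (σ : ℝ) ^ β < ((dInf (gpt x) pt : ℤ) : ℝ) := by
    intro k hk x hx pt hpt
    obtain ⟨z, hz, hzp⟩ := hnear k hk pt hpt
    obtain ⟨e, he, hex⟩ := mem_enl.1 hx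
    have h8 := hsep z hz e he
    have h9 : ((gd z e : ℤ) : ℝ) ≤ ((dInf (gpt z) pt : ℤ) : ℝ) + ((dInf pt (gpt e) : ℤ) : ℝ) :=
      angs_tri _ _ _
    have h10 := angs_tri pt (gpt x) (gpt e)
    have h11 : ((dInf (gpt x) (gpt e) : ℤ) : ℝ) ≤ ρ := by
      rw [ct_dInf_comm]; exact hex
    have h12 : dInf pt (gpt x) = dInf (gpt x) pt := ct_dInf_comm _ _
    rw [h12] at h10
    have h13 : (a / 2 - 3 * a') * s - σ = a / 2 * s - 2 * ρ - σ := by rw [hρ]; ring
    linarith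
  have hnotin : ∀ x ∈ Cc, cellIdx σ (gpt x) ∉ Ko ∪ Kn := by
    intro x hx hk
    have h := hfar _ hk x hx (gpt x) ((inCell_iff_cellIdx hσ _ _).2 rfl)
    rw [ct_dInf_self] at h
    simp only [Int.cast_zero] at h
    linarith
  -- the old part
  have hdis2 : Disjoint (enl Aold (2 * a' * s)) (enl E (2 * a' * s)) := by
    rw [Finset.disjoint_left]
    intro x hx hx'
    obtain ⟨z, hz, hzx⟩ := mem_enl.1 hx
    obtain ⟨e, he, hex⟩ := mem_enl.1 hx'
    have h8 := hsep z (hsub hz) e he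
    have h9 : ((gd z e : ℤ) : ℝ) ≤ ((gd z x : ℤ) : ℝ) + ((gd x e : ℤ) : ℝ) := angs_tri _ _ _
    have h10 : gd x e = gd e x := ct_dInf_comm _ _
    rw [h10] at h9
    nlinarith
  have hRold : (cellsOf σ Ko : Finset (GSite L)) ⊆ enl Aold (2 * a' * s) := by
    intro x hx
    obtain ⟨y, hy, hyk⟩ := Finset.mem_image.1 (mem_cellsOf.1 hx)
    obtain ⟨z, hz, hzy⟩ := mem_enl.1 hy
    refine mem_enl.2 ⟨z, hz, ?_⟩
    have h8 : ((gd y x : ℤ) : ℝ) ≤ σ := by
      exact_mod_cast angs_same_cell hσ ((inCell_iff_cellIdx hσ _ _).2 hyk)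
        ((inCell_iff_cellIdx hσ _ _).2 rfl)
    have h9 : ((gd z x : ℤ) : ℝ) ≤ ((gd z y : ℤ) : ℝ) + ((gd y x : ℤ) : ℝ) := angs_tri _ _ _
    have : 2 * a' * s = ρ + a' * s / 2 := by rw [hρ]; ring
    linarith
  have hCcsub : Cc ⊆ enl E (2 * a' * s) := enl_mono_radius E (by rw [hρ]; nlinarith)
  have hIold : M.I (cellsOf σ Ko) Cc ≤ (L : ℝ) ^ (-p) :=
    (hP.sfI_mono hRold hCcsub hdis2).trans hold
  -- all cells
  have hadd := angs_add_cells hE hcell M σ t hσ h2 h3 h4 hc Cc Ko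
    (fun x hx h => hnotin x hx (Finset.mem_union_left _ h)) Kn
    (fun k hk => hfar k (Finset.mem_union_right _ hk))
  have hcard : (Kn.card : ℝ) * (C0 + C1 * t) ≤ Nc * (C0 + C1 * t) :=
    mul_le_mul_of_nonneg_right (by exact_mod_cast hcells) hc
  have hLp : (0 : ℝ) ≤ (L : ℝ) ^ (-p) := Real.rpow_nonneg (Nat.cast_nonneg _) _
  refine hreset L hL M ((L : ℝ) ^ (-p) + Nc * (C0 + C1 * t)) (by positivity)
    (cellsOf σ (Ko ∪ Kn)) Cc (enl A (a' * s)) (enl E (a' * s)) ?_ ?_ ?_ (by linarith) ?_ ?_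
  · rw [Finset.disjoint_left]
    intro x hx hx'
    exact hnotin x hx' (mem_cellsOf.1 hx)
  · intro x hx
    obtain ⟨z, hz, hzx⟩ := mem_enl.1 hx
    have hzx' : ((gd z x : ℤ) : ℝ) ≤ ρ := hzx.trans (by rw [hρ]; nlinarith)
    rw [mem_cellsOf]
    by_cases hzo : z ∈ Aold
    · exact Finset.mem_union_left _ (Finset.mem_image.2 ⟨x, mem_enl.2 ⟨z, hzo, hzx'⟩, rfl⟩)
    · exact Finset.mem_union_right _ (Finset.mem_image.2
        ⟨x, mem_enl.2 ⟨z, Finset.mem_sdiff.2 ⟨hz, hzo⟩, hzx'⟩, rfl⟩)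
  · exact enl_mono_radius E (by rw [hρ]; nlinarith)
  · intro x hx y hy
    obtain ⟨z, hz, hzx⟩ := mem_enl.1 hx
    have hzy : ρ < ((gd z y : ℤ) : ℝ) := by
      by_contra hcon
      rw [not_lt] at hcon
      apply hy
      rw [mem_cellsOf]
      by_cases hzo : z ∈ Aold
      · exact Finset.mem_union_left _ (Finset.mem_image.2 ⟨y, mem_enl.2 ⟨z, hzo, hcon⟩, rfl⟩)
      · exact Finset.mem_union_right _ (Finset.mem_image.2
          ⟨y, mem_enl.2 ⟨z, Finset.mem_sdiff.2 ⟨hz, hzo⟩, hcon⟩, rfl⟩)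
    have h9 : ((gd z y : ℤ) : ℝ) ≤ ((gd z x : ℤ) : ℝ) + ((gd x y : ℤ) : ℝ) := angs_tri _ _ _
    have : ρ = a' * s + a' * s / 2 := by rw [hρ]; ring
    linarith
  · intro x hx y hy
    obtain ⟨z, hz, hzx⟩ := mem_enl.1 hx
    have hzy : ρ < ((gd z y : ℤ) : ℝ) := by
      by_contra hcon
      rw [not_lt] at hcon
      exact hy (mem_enl.2 ⟨z, hz, hcon⟩)
    have h9 : ((gd z y : ℤ) : ℝ) ≤ ((gd z x : ℤ) : ℝ) + ((gd x y : ℤ) : ℝ) := angs_tri _ _ _
    have : ρ = a' * s + a' * s / 2 := by rw [hρ]; ring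
    linarith

end Claimed.Agent.R296
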