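import Claimed.Agent.R296.P2.AngCount

/-!
# Row 296, paper 2, Proposition 2.4 (`prop:angular`): the induction over the layers (package P2-ANG-MAIN, PROVED by helper189)

`a' := min(a,1)/100`, `d := a'/4`, `Nc := ⌈max(m0,1) (4 (max(A0,2) + 2)/d + 2)²⌉`; `(D, L0)` from `angular_scalars` (and the reset threshold).
`s_j := n / 2^j`, `m` := the last `j` with `D log L ≤ s_j` (so `s_m < 2 D log L`);
`A_j := { x ∈ X : ∀ v ∈ VV, s_j ≤ gdR x v }` for `j < m`, `A_m := X`.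
Invariant, by induction on `j ≤ m` with `angular_step`:  `I(enl A_j (a' s_j) : enl E (a' s_j)) ≤ L^-p`.
* start: `Aold = ∅`, `enl ∅ r = ∅`, `I(∅ : ·) = 0`; `A_0 ⊆ X` lies in a square of radius `A0 n`;
* step: `A_j \ A_{j-1}` lies in the union of the squares of radius `2 s_j` about the marked points;
* separation: `a s_j ≤ gd x e` for `j < m` (take `τ = s_j`), `a D log L ≥ (a/2) s_m` for `j = m`.
End: monotonicity `X ⊆ enl X r`, `E ⊆ enl E r`.
-/

set_option autoImplicit false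
set_option linter.unusedSectionVars false
set_option linter.unusedVariables false

namespace Claimed.Agent.R296

variable {q : ℕ} [NeZero q] {J Δ : ℝ} {L : ℕ}

theorem GResetStmt.mono_Cp {p Cp Cp' : ℝ} {L0 : ℕ} (h : GResetStmt q J Δ p Cp L0)
    (hC : Cp ≤ Cp') : GResetStmt q J Δ p Cp' L0 := by
  intro L hL M b hb R Cc R0 C0 hd h1 h2 hI h3 h4
  have hpos : 0 ≤ 1 + b + Real.log L := by
    have := Real.log_natCast_nonneg L
    linarith
  have hle : Cp * (1 + b + Real.log L) ≤ Cp' * (1 + b + Real.log L) :=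
    mul_le_mul_of_nonneg_right hC hpos
  exact h L hL M b hb R Cc R0 C0 hd h1 h2 hI
    (fun x hx y hy => lt_of_le_of_lt hle (h3 x hx y hy))
    (fun x hx y hy => lt_of_le_of_lt hle (h4 x hx y hy))

/-- the real point of a grid site -/
def gptR (x : GSite L) : ℝ × ℝ := (((x.1 : ℕ) : ℝ), ((x.2 : ℕ) : ℝ))

theorem gdR_gptR (x y : GSite L) : gdR x (gptR y) = ((gd x y : ℤ) : ℝ) := by
  unfold gdR gptR gd dInf gpt
  push_cast
  rfl

theorem angm_count_one {σ : ℤ} (hσ : 0 < σ) (z : ℝ × ℝ) (s d K r : ℝ) (hs : 0 < s) (hd : 0 < d)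
    (hσ' : d * s / 2 ≤ (σ : ℝ)) (Y : Finset (GSite L)) (hY : ∀ x ∈ Y, gdR x z ≤ K * s)
    (hK : 0 ≤ K) (hr2 : r ≤ 2 * s) :
    (((enl Y r).image fun x => cellIdx σ (gpt x)).card : ℝ) ≤ (4 * (K + 2) / d + 2) ^ 2 := by
  have h1 : ∀ x ∈ enl Y r, gdR x z ≤ (K + 2) * s := by
    intro x hx
    have := enl_subset_square Y z (K * s) r hY x hx
    linarith
  have h2 := cells_in_square_le hσ z ((K + 2) * s) (by positivity) (enl Y r) h1
  refine h2.trans ?_
  have hσR : (0 : ℝ) < (σ : ℝ) := by exact_mod_cast hσ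
  have h3 : 2 * ((K + 2) * s) / (σ : ℝ) ≤ 4 * (K + 2) / d := by
    rw [div_le_div_iff₀ hσR hd]
    have : 0 ≤ K + 2 := by linarith
    nlinarith
  have h4 : 0 ≤ 2 * ((K + 2) * s) / (σ : ℝ) := by positivity
  exact pow_le_pow_left₀ (by linarith) (by linarith) 2

theorem angm_count_many {σ : ℤ} (hσ : 0 < σ) (VV : Finset (ℝ × ℝ)) (s d K r : ℝ) (hs : 0 < s)
    (hd : 0 < d) (hσ' : d * s / 2 ≤ (σ : ℝ)) (Y : Finset (GSite L))
    (hY : ∀ x ∈ Y, ∃ v ∈ VV, gdR x v ≤ K * s) (hK : 0 ≤ K) (hr2 : r ≤ 2 * s) :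
    (((enl Y r).image fun x => cellIdx σ (gpt x)).card : ℝ) ≤
      VV.card * (4 * (K + 2) / d + 2) ^ 2 := by
  classical
  have hsub : ((enl Y r).image fun x => cellIdx σ (gpt x)) ⊆
      VV.biUnion fun v => (enl (Y.filter fun x => gdR x v ≤ K * s) r).image
        fun x => cellIdx σ (gpt x) := by
    intro k hk
    obtain ⟨y, hy, hyk⟩ := Finset.mem_image.1 hk
    obtain ⟨x, hx, hxy⟩ := mem_enl.1 hy
    obtain ⟨v, hv, hxv⟩ := hY x hx
    exact Finset.mem_biUnion.2 ⟨v, hv, Finset.mem_image.2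
      ⟨y, mem_enl.2 ⟨x, Finset.mem_filter.2 ⟨hx, hxv⟩, hxy⟩, hyk⟩⟩
  have h1 := (Finset.card_le_card hsub).trans Finset.card_biUnion_le
  have h2 : (((enl Y r).image fun x => cellIdx σ (gpt x)).card : ℝ) ≤
      ∑ v ∈ VV, (((enl (Y.filter fun x => gdR x v ≤ K * s) r).image
        fun x => cellIdx σ (gpt x)).card : ℝ) := by exact_mod_cast h1
  refine h2.trans ?_
  rw [← nsmul_eq_mul]
  apply Finset.sum_le_card_nsmul
  intro v hv
  exact angm_count_one hσ v s d K r hs hd hσ' _ (fun x hx => (Finset.mem_filter.1 hx).2) hK hr2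

theorem angm_exists_scale (n ℓ : ℝ) (hℓ : 0 < ℓ) (hn : ℓ ≤ n) :
    ∃ m : ℕ, ℓ ≤ n / 2 ^ m ∧ n / 2 ^ m < 2 * ℓ := by
  classical
  have hex : ∃ j : ℕ, n / 2 ^ j < 2 * ℓ := by
    obtain ⟨j, hj⟩ := pow_unbounded_of_one_lt (n / (2 * ℓ)) (show (1 : ℝ) < 2 by norm_num)
    refine ⟨j, ?_⟩
    rw [div_lt_iff₀ (by positivity)] at hj ⊢
    linarith
  refine ⟨Nat.find hex, ?_, Nat.find_spec hex⟩
  rcases Nat.eq_zero_or_pos (Nat.find hex) with h0 | hpos
  · rw [h0]; simpa using hn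
  · have h1 := Nat.find_min hex (Nat.sub_lt hpos one_pos)
    rw [not_lt] at h1
    obtain ⟨k, hk⟩ : ∃ k, Nat.find hex = k + 1 := ⟨Nat.find hex - 1, by omega⟩
    rw [hk] at h1 ⊢
    simp only [Nat.add_sub_cancel] at h1
    rw [pow_succ, ← div_div]
    linarith

theorem enl_empty (r : ℝ) : enl (∅ : Finset (GSite L)) r = ∅ := by
  ext y
  simp [mem_enl]

theorem gAngular (hE : EntApiStmt) {β C0 C1 u0 : ℝ} (hβ : β < 1) (hC0 : 0 ≤ C0) (hC1 : 0 ≤ C1)
    (hcell : GCellStmt q J Δ β C0 C1 u0)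
    (hreset : ∀ p : ℝ, 0 < p → ∃ (Cp : ℝ) (L0 : ℕ), GResetStmt q J Δ p Cp L0)
    (a A0 : ℝ) (m0 : ℕ) (p : ℝ) (ha : 0 < a) (hA0 : 1 ≤ A0) (hp : 0 < p) :
    ∃ (D : ℝ) (L0 : ℕ), 0 < D ∧ GAngularStmt q J Δ a A0 m0 p D L0 := by
  classical
  obtain ⟨Cp0, L1, hres0⟩ := hreset p hp
  have hres : GResetStmt q J Δ p (max Cp0 0) L1 := hres0.mono_Cp (le_max_left _ _)
  set Cp := max Cp0 0 with hCp
  obtain ⟨a', ha'def⟩ : ∃ a' : ℝ, a' = min a 1 / 100 := ⟨_, rfl⟩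
  have ha' : 0 < a' := by
    rw [ha'def]
    have : 0 < min a 1 := lt_min ha one_pos
    positivity
  have ha'a : a' ≤ a / 100 := by
    rw [ha'def]
    have := min_le_left a 1
    linarith
  have ha'1 : a' ≤ 1 / 100 := by
    rw [ha'def]
    have := min_le_right a 1
    linarith
  obtain ⟨d, hddef⟩ : ∃ d : ℝ, d = a' / 4 := ⟨_, rfl⟩
  have hd : 0 < d := by rw [hddef]; positivity
  obtain ⟨Kb, hKb⟩ : ∃ Kb : ℝ, Kb = (4 * (max A0 2 + 2) / d + 2) ^ 2 := ⟨_, rfl⟩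
  have hKb0 : 0 ≤ Kb := by rw [hKb]; positivity
  obtain ⟨Nc, hNc⟩ : ∃ Nc : ℕ, (max (m0 : ℝ) 1) * Kb ≤ (Nc : ℝ) := exists_nat_ge _
  obtain ⟨D, L2, hD, hL2, hscal⟩ := angular_scalars a a' d β C0 C1 u0 Cp p Nc hβ ha' hd
    (by rw [hddef]; linarith) (by rw [hddef]; linarith) hp (le_max_right _ _) hC0 hC1
  refine ⟨D, max L1 L2, hD, ?_⟩
  intro L hL M VV hVV X E n hn hnL hdiam hsep0 hsepτ
  have hP := M.pureEnt hE
  have hLL1 : L1 ≤ L := (le_max_left _ _).trans hL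
  have hLL2 : L2 ≤ L := (le_max_right _ _).trans hL
  have hL2' : 2 ≤ L := hL2.trans hLL2
  have hlog : 0 < Real.log L := Real.log_pos (by exact_mod_cast hL2')
  obtain ⟨ℓ, hℓdef⟩ : ∃ ℓ : ℝ, ℓ = D * Real.log L := ⟨_, rfl⟩
  rw [← hℓdef] at hn hsep0
  have hℓ : 0 < ℓ := by rw [hℓdef]; positivity
  have hLp : (0 : ℝ) ≤ (L : ℝ) ^ (-p) := Real.rpow_nonneg (Nat.cast_nonneg _) _
  -- one layer
  have layer : ∀ (s : ℝ) (A Aold : Finset (GSite L)), ℓ ≤ s → Aold ⊆ A →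
      (∀ x ∈ A, ∀ e ∈ E, a / 2 * s ≤ ((gd x e : ℤ) : ℝ)) →
      M.I (enl Aold (2 * a' * s)) (enl E (2 * a' * s)) ≤ (L : ℝ) ^ (-p) →
      (∀ σ : ℤ, 0 < σ → d * s / 2 ≤ (σ : ℝ) →
        (((enl (A \ Aold) (3 / 2 * a' * s)).image fun x => cellIdx σ (gpt x)).card : ℝ) ≤
          max (m0 : ℝ) 1 * Kb) →
      M.I (enl A (a' * s)) (enl E (a' * s)) ≤ (L : ℝ) ^ (-p) := by
    intro s A Aold hs hsub hsep hold hcells
    have hs0 : 0 < s := lt_of_lt_of_le hℓ hs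
    obtain ⟨σ, t, c1, c2, c3, c4, c5, c6, c7, c8⟩ := hscal L hLL2 s (by rw [← hℓdef]; exact hs)
    refine angular_step hE hcell hres hC0 hC1 hLL1 (by omega) M s a a' σ t Nc hs0 ha' c3 A Aold E
      hsub hsep hold ?_ ?_ c4 c5 c6 c7 (by linarith) c8
    · have := (hcells σ c3 c2).trans hNc
      exact_mod_cast this
    · refine c1.trans ?_
      rw [hddef]
      nlinarith
  -- the sets
  set Aof : ℝ → Finset (GSite L) := fun s => X.filter fun x => ∀ v ∈ VV, s ≤ gdR x v with hAof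
  have hAofX : ∀ s, Aof s ⊆ X := fun s => Finset.filter_subset _ _
  have hr2 : ∀ s : ℝ, 0 < s → 3 / 2 * a' * s ≤ 2 * s := by
    intro s hs
    nlinarith
  -- counting, first layer
  have count0 : ∀ A : Finset (GSite L), A ⊆ X → ∀ σ : ℤ, 0 < σ → d * n / 2 ≤ (σ : ℝ) →
      (((enl (A \ ∅) (3 / 2 * a' * n)).image fun x => cellIdx σ (gpt x)).card : ℝ) ≤
        max (m0 : ℝ) 1 * Kb := by
    intro A hA σ hσ hσ'
    have hn0 : 0 < n := lt_of_lt_of_le hℓ hn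
    rw [Finset.sdiff_empty]
    rcases A.eq_empty_or_nonempty with rfl | ⟨x0, hx0⟩
    · rw [enl_empty]
      simp only [Finset.image_empty, Finset.card_empty, Nat.cast_zero]
      positivity
    · have h1 := angm_count_one hσ (gptR x0) n d (max A0 2) (3 / 2 * a' * n) hn0 hd hσ' A
        (fun x hx => by
          rw [gdR_gptR]
          refine (hdiam x (hA hx) x0 (hA hx0)).trans ?_
          exact mul_le_mul_of_nonneg_right (le_max_left _ _) hn0.le)
        (by positivity) (hr2 n hn0)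
      rw [← hKb] at h1
      refine h1.trans ?_
      have : (1 : ℝ) ≤ max (m0 : ℝ) 1 := le_max_right _ _
      nlinarith
  -- counting, later layers
  have count1 : ∀ (s : ℝ) (A : Finset (GSite L)), 0 < s → A ⊆ X → ∀ σ : ℤ, 0 < σ →
      d * s / 2 ≤ (σ : ℝ) →
      (((enl (A \ Aof (2 * s)) (3 / 2 * a' * s)).image fun x => cellIdx σ (gpt x)).card : ℝ) ≤
        max (m0 : ℝ) 1 * Kb := by
    intro s A hs hA σ hσ hσ'
    have h1 := angm_count_many hσ VV s d (max A0 2) (3 / 2 * a' * s) hs hd hσ' (A \ Aof (2 * s))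
      (fun x hx => by
        obtain ⟨hxA, hxn⟩ := Finset.mem_sdiff.1 hx
        have : ¬ ∀ v ∈ VV, 2 * s ≤ gdR x v := fun h =>
          hxn (Finset.mem_filter.2 ⟨hA hxA, h⟩)
        simp only [not_forall, not_le] at this
        obtain ⟨v, hv, hxv⟩ := this
        refine ⟨v, hv, hxv.le.trans ?_⟩
        exact mul_le_mul_of_nonneg_right (le_max_right _ _) hs.le)
      (by positivity) (hr2 s hs)
    rw [← hKb] at h1
    refine h1.trans ?_
    apply mul_le_mul_of_nonneg_right _ hKb0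
    exact le_trans (by exact_mod_cast hVV) (le_max_left _ _)
  have hI0 : ∀ r r' : ℝ, M.I (enl ∅ r) (enl E r') ≤ (L : ℝ) ^ (-p) := by
    intro r r'
    rw [enl_empty, M.I_eq_sfI]
    unfold sfI
    rw [Finset.empty_union, hP.empty]
    linarith
  -- separation for `Aof s`
  have hsepA : ∀ s : ℝ, 0 < s → s ≤ n → ∀ x ∈ Aof s, ∀ e ∈ E, a / 2 * s ≤ ((gd x e : ℤ) : ℝ) := by
    intro s hs hsn x hx e he
    obtain ⟨hxX, hxv⟩ := Finset.mem_filter.1 hx
    have := hsepτ x hxX e he s hsn hxv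
    nlinarith
  -- the invariant
  have inv : ∀ j : ℕ, ℓ ≤ n / 2 ^ j →
      M.I (enl (Aof (n / 2 ^ j)) (a' * (n / 2 ^ j))) (enl E (a' * (n / 2 ^ j))) ≤
        (L : ℝ) ^ (-p) := by
    intro j
    induction j with
    | zero =>
      intro _
      simp only [pow_zero, div_one]
      exact layer n (Aof n) ∅ hn (Finset.empty_subset _)
        (hsepA n (lt_of_lt_of_le hℓ hn) le_rfl) (hI0 _ _) (count0 _ (hAofX n))
    | succ j ih =>
      intro hj
      have hn0 : 0 < n := lt_of_lt_of_le hℓ hn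
      have e2 : 2 * (n / 2 ^ (j + 1)) = n / 2 ^ j := by
        rw [pow_succ]; field_simp
      have hs0 : 0 < n / 2 ^ (j + 1) := by positivity
      have hjj : ℓ ≤ n / 2 ^ j := by rw [← e2]; linarith
      have hsn : n / 2 ^ (j + 1) ≤ n := div_le_self hn0.le (one_le_pow₀ (by norm_num))
      have ih' := ih hjj
      refine layer (n / 2 ^ (j + 1)) (Aof (n / 2 ^ (j + 1))) (Aof (2 * (n / 2 ^ (j + 1)))) hj ?_
        (hsepA _ hs0 hsn) ?_ (count1 _ _ hs0 (hAofX _))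
      · intro x hx
        obtain ⟨hxX, hxv⟩ := Finset.mem_filter.1 hx
        exact Finset.mem_filter.2 ⟨hxX, fun v hv => le_trans (by linarith) (hxv v hv)⟩
      · have e3 : 2 * a' * (n / 2 ^ (j + 1)) = a' * (n / 2 ^ j) := by rw [← e2]; ring
        rw [e3, e2]
        exact ih'
  -- the last layer
  obtain ⟨m, hm1, hm2⟩ := angm_exists_scale n ℓ hℓ hn
  have hn0 : 0 < n := lt_of_lt_of_le hℓ hn
  have hsm0 : 0 < n / 2 ^ m := by positivity
  have hsepX : ∀ x ∈ X, ∀ e ∈ E, a / 2 * (n / 2 ^ m) ≤ ((gd x e : ℤ) : ℝ) := by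
    intro x hx e he
    have := hsep0 x hx e he
    nlinarith
  have hlast : M.I (enl X (a' * (n / 2 ^ m))) (enl E (a' * (n / 2 ^ m))) ≤ (L : ℝ) ^ (-p) := by
    rcases Nat.eq_zero_or_pos m with rfl | hmpos
    · simp only [pow_zero, div_one] at hm1 hsepX ⊢
      exact layer n X ∅ hn (Finset.empty_subset _) hsepX (hI0 _ _) (count0 _ le_rfl)
    · obtain ⟨j, rfl⟩ : ∃ j, m = j + 1 := ⟨m - 1, by omega⟩
      have e2 : 2 * (n / 2 ^ (j + 1)) = n / 2 ^ j := by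
        rw [pow_succ]; field_simp
      have hjj : ℓ ≤ n / 2 ^ j := by rw [← e2]; linarith
      refine layer (n / 2 ^ (j + 1)) X (Aof (2 * (n / 2 ^ (j + 1)))) hm1 (hAofX _) hsepX ?_
        (count1 _ _ hsm0 le_rfl)
      have e3 : 2 * a' * (n / 2 ^ (j + 1)) = a' * (n / 2 ^ j) := by rw [← e2]; ring
      rw [e3, e2]
      exact inv j hjj
  -- monotonicity
  have hr0 : 0 ≤ a' * (n / 2 ^ m) := by positivity
  have hdis : Disjoint (enl X (a' * (n / 2 ^ m))) (enl E (a' * (n / 2 ^ m))) := by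
    rw [Finset.disjoint_left]
    intro x hx hx'
    obtain ⟨z, hz, hzx⟩ := mem_enl.1 hx
    obtain ⟨e, he, hex⟩ := mem_enl.1 hx'
    have h8 := hsepX z hz e he
    have h9 : ((gd z e : ℤ) : ℝ) ≤ ((gd z x : ℤ) : ℝ) + ((gd x e : ℤ) : ℝ) := angs_tri _ _ _
    have h10 : gd x e = gd e x := ct_dInf_comm _ _
    rw [h10] at h9
    nlinarith
  exact (hP.sfI_mono (subset_enl X hr0) (subset_enl E hr0) hdis).trans hlast

end Claimed.Agent.R296
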