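import Mathlib

/-!
# Row 296, paper 2, Lemma 7.1 (`lem:columns`): one column of an operator close to a rank-one projector

LEAF `P2-ASM-COL`.  Self-contained (only Mathlib).
Proof (paper): `E = S - |Ω⟩⟨Ω|`, `a_z = conj (Ω z)`.  `∑_z ‖E z‖² ≤ η² = η² ∑_z |a_z|²`, so some `z` with
`a_z ≠ 0` has `‖E z‖ ≤ η |a_z|`.  `w = (S z)/a_z` satisfies `‖w - Ω‖ ≤ η < 1`, hence `w ≠ 0`,
`|‖w‖ - 1| ≤ η`, `‖w/‖w‖ - Ω‖ ≤ 2η`; the phase is `e^{iθ} = a_z/|a_z|`.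
-/

set_option autoImplicit false

namespace Claimed.Agent.R296

open Matrix

theorem asm_columns {n : Type} [Fintype n] [DecidableEq n] (Ω : n → ℂ) (hΩ : star Ω ⬝ᵥ Ω = 1)
    (S : Matrix n n ℂ) (η : ℝ) (h0 : 0 ≤ η) (h1 : η < 1)
    (h : ∑ x, ∑ y, ‖S x y - Ω x * star (Ω y)‖ ^ 2 ≤ η ^ 2) :
    ∃ z : n, (fun x => S x z) ≠ 0 ∧ ∃ θ : ℝ,
      ∑ x, ‖S x z / (Real.sqrt (∑ y, ‖S y z‖ ^ 2) : ℂ) -
        Complex.exp ((θ : ℂ) * Complex.I) * Ω x‖ ^ 2 ≤ (2 * η) ^ 2 := by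
  classical
  -- `Ω` is a unit vector
  have hΩ1 : ∑ x, ‖Ω x‖ ^ 2 = 1 := by
    have h2 : star Ω ⬝ᵥ Ω = ((∑ x, ‖Ω x‖ ^ 2 : ℝ) : ℂ) := by
      simp only [dotProduct, Pi.star_apply, Complex.star_def]
      push_cast
      refine Finset.sum_congr rfl fun x _ => ?_
      rw [Complex.conj_mul']
    rw [h2] at hΩ
    exact_mod_cast hΩ
  -- choice of the column
  set s : Finset n := Finset.univ.filter fun z => Ω z ≠ 0 with hs
  have hsum : ∑ z ∈ s, ‖Ω z‖ ^ 2 = 1 := by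
    rw [← hΩ1, hs, Finset.sum_filter]
    refine Finset.sum_congr rfl fun z _ => ?_
    by_cases hz : Ω z = 0 <;> simp [hz]
  have hne : s.Nonempty := by
    by_contra hcon
    rw [Finset.not_nonempty_iff_eq_empty] at hcon
    rw [hcon] at hsum
    simp at hsum
  have hle : ∑ z ∈ s, ∑ x, ‖S x z - Ω x * star (Ω z)‖ ^ 2 ≤ ∑ z ∈ s, η ^ 2 * ‖Ω z‖ ^ 2 := by
    rw [← Finset.mul_sum, hsum, mul_one]
    refine le_trans ?_ h
    rw [Finset.sum_comm (s := Finset.univ) (t := Finset.univ)]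
    exact Finset.sum_le_sum_of_subset_of_nonneg (Finset.subset_univ _)
      fun z _ _ => Finset.sum_nonneg fun x _ => by positivity
  obtain ⟨z, hz, hzle⟩ := Finset.exists_le_of_sum_le hne hle
  have hz0 : Ω z ≠ 0 := (Finset.mem_filter.mp hz).2
  -- vectors of `ℓ²`
  set a : ℂ := star (Ω z) with ha
  have ha0 : a ≠ 0 := by simpa [ha] using hz0
  have han : ‖a‖ = ‖Ω z‖ := by simp [ha]
  have hapos : 0 < ‖a‖ := norm_pos_iff.mpr ha0
  set v : EuclideanSpace ℂ n := WithLp.toLp 2 fun x => S x z with hv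
  set w : EuclideanSpace ℂ n := WithLp.toLp 2 Ω with hw
  have hwn : ‖w‖ = 1 := by
    rw [EuclideanSpace.norm_eq]
    simp only [hw]
    rw [hΩ1, Real.sqrt_one]
  have hvn : ‖v‖ = Real.sqrt (∑ y, ‖S y z‖ ^ 2) := by
    rw [EuclideanSpace.norm_eq]
  have hdist : ‖v - a • w‖ ≤ η * ‖a‖ := by
    have h2 : ‖v - a • w‖ ^ 2 ≤ (η * ‖a‖) ^ 2 := by
      rw [EuclideanSpace.norm_sq_eq, mul_pow, han]
      refine le_trans (le_of_eq ?_) hzle
      refine Finset.sum_congr rfl fun x _ => ?_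
      simp [hv, hw, mul_comm]
    exact abs_le_of_sq_le_sq' h2 (by positivity) |>.2 |> fun h3 => by
      simpa using h3
  have hawn : ‖a • w‖ = ‖a‖ := by rw [norm_smul, hwn, mul_one]
  have hdiff : |‖v‖ - ‖a‖| ≤ η * ‖a‖ := by
    rw [← hawn]
    exact (abs_norm_sub_norm_le v (a • w)).trans (by rw [hawn]; exact hdist)
  have hvpos : 0 < ‖v‖ := by
    have := (abs_le.mp hdiff).1
    nlinarith
  refine ⟨z, ?_, Complex.arg a, ?_⟩
  · intro hcol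
    have : v = 0 := by
      rw [hv, hcol]
      rfl
    rw [this, norm_zero] at hvpos
    exact lt_irrefl _ hvpos
  · rw [← hvn]
    set e : ℂ := Complex.exp ((Complex.arg a : ℂ) * Complex.I) with he
    have hae : (‖a‖ : ℂ) * e = a := Complex.norm_mul_exp_arg_mul_I a
    have hgoal : ∑ x, ‖S x z / (‖v‖ : ℂ) - e * Ω x‖ ^ 2 = ‖((‖v‖ : ℂ))⁻¹ • v - e • w‖ ^ 2 := by
      rw [EuclideanSpace.norm_sq_eq]
      refine Finset.sum_congr rfl fun x _ => ?_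
      simp [hv, hw, div_eq_inv_mul]
    rw [hgoal]
    refine pow_le_pow_left₀ (norm_nonneg _) ?_ 2
    have hvc : (‖v‖ : ℂ) ≠ 0 := by exact_mod_cast hvpos.ne'
    have hac : (‖a‖ : ℂ) ≠ 0 := by exact_mod_cast hapos.ne'
    have hsplit : ((‖v‖ : ℂ))⁻¹ • v - e • w =
        (((‖v‖ : ℂ))⁻¹ - ((‖a‖ : ℂ))⁻¹) • v + ((‖a‖ : ℂ))⁻¹ • (v - a • w) := by
      have : e = ((‖a‖ : ℂ))⁻¹ * a := by
        rw [eq_inv_mul_iff_mul_eq₀ hac]
        exact hae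
      rw [this, sub_smul, smul_sub, smul_smul]
      abel
    have n1 : ‖(((‖v‖ : ℂ))⁻¹ - ((‖a‖ : ℂ))⁻¹) • v‖ ≤ η := by
      have h3 : ((‖v‖ : ℂ))⁻¹ - ((‖a‖ : ℂ))⁻¹ = (((‖a‖ - ‖v‖) / (‖v‖ * ‖a‖) : ℝ) : ℂ) := by
        push_cast
        field_simp
      rw [norm_smul, h3, Complex.norm_real, Real.norm_eq_abs, abs_div,
        abs_of_pos (mul_pos hvpos hapos), abs_sub_comm]
      calc |‖v‖ - ‖a‖| / (‖v‖ * ‖a‖) * ‖v‖ = |‖v‖ - ‖a‖| / ‖a‖ := by field_simp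
        _ ≤ η := by
            rw [div_le_iff₀ hapos]
            exact hdiff
    have n2 : ‖((‖a‖ : ℂ))⁻¹ • (v - a • w)‖ ≤ η := by
      rw [norm_smul, norm_inv, Complex.norm_real, Real.norm_eq_abs, abs_of_pos hapos,
        inv_mul_le_iff₀ hapos, mul_comm]
      exact hdist
    rw [hsplit]
    calc _ ≤ ‖(((‖v‖ : ℂ))⁻¹ - ((‖a‖ : ℂ))⁻¹) • v‖ + ‖((‖a‖ : ℂ))⁻¹ • (v - a • w)‖ :=
          norm_add_le _ _
      _ ≤ 2 * η := by linarith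

end Claimed.Agent.R296
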