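import Claimed.Agent.R296.P2.CompBound

/-!
# Row 296, paper 2, Theorem 4.2 (distributed density compression): final statement

`cp_compression` is what Sections 5-7 consume.  No trace norm is used: closeness is stated by duality
(`∀ W` contraction, `|Tr (W (σ - ρ))| ≤ ε`); `cp_hs_of_dual` converts it to the Hilbert-Schmidt bound
needed by the column lemma (Lemma 7.1).
-/

set_option autoImplicit false

namespace Claimed.Agent.R296

open Matrix

variable {PP : Type} [DecidableEq PP] [Fintype PP] {Mem : PP → Type}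
  [∀ P, Fintype (Mem P)] [∀ P, DecidableEq (Mem P)]
  {Phys : PP → Type} [∀ P, Fintype (Phys P)] [∀ P, DecidableEq (Phys P)]

/-- **Theorem 4.2** (explicit form).  `Wc` bounds the lifetime cost of every party, `d0` the physical
dimensions, `k` is the number of samples per step. -/
theorem cp_compression (C : CpCircuit Mem) (hC : C.Valid) (rd : CpRead Mem Phys)
    (Wc d0 : ℝ) (hWc : 1 ≤ Wc) (hd0 : 1 ≤ d0) (hW : ∀ P, C.pcost P ≤ Wc)
    (hd : ∀ P, (Fintype.card (Phys P) : ℝ) ≤ d0) (k : ℕ) (hk : 0 < k) :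
    ∃ ω : C.Smp k, ∀ W : Matrix (Cfg Phys) (Cfg Phys) ℂ, CpContr W →
      ‖Matrix.trace (W * (C.sigma k rd ω - C.rho rd))‖ ≤
        (1 + Wc ^ 4 * d0 ^ 4 / Real.sqrt k) ^ C.nsteps - 1 := by
  obtain ⟨ω, hω⟩ := cp_exists_le_avg (fun ω : C.Smp k => C.domY k rd ω)
  exact ⟨ω, fun W hWc' => (C.dom_bound k hC hk rd ω W hWc').trans
    (hω.trans (C.avg_domY_le k hC hk rd Wc d0 hWc hd0 hW hd))⟩

/-- dual (trace norm) closeness implies Hilbert-Schmidt closeness -/
theorem cp_hs_of_dual {n : Type} [Fintype n] [DecidableEq n] (E : Matrix n n ℂ) (ε : ℝ)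
    (h : ∀ W : Matrix n n ℂ, CpContr W → ‖Matrix.trace (W * E)‖ ≤ ε) :
    ∑ x, ∑ y, ‖E x y‖ ^ 2 ≤ ε ^ 2 := by
  set N : ℝ := ∑ x, ∑ y, ‖E x y‖ ^ 2 with hN
  have hN0 : 0 ≤ N := Finset.sum_nonneg fun x _ => Finset.sum_nonneg fun y _ => by positivity
  have hε : 0 ≤ ε := by
    have := h 0 (fun v => by
      simp only [Matrix.zero_mulVec]
      unfold cpNsq
      simp only [Pi.zero_apply, norm_zero, ne_eq, OfNat.ofNat_ne_zero, not_false_eq_true, zero_pow,
        Finset.sum_const_zero]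
      exact Finset.sum_nonneg fun i _ => by positivity)
    simpa using this
  rcases eq_or_lt_of_le hN0 with h0 | hpos
  · rw [← h0]; positivity
  -- W = Eᴴ / √N
  have hs : 0 < Real.sqrt N := Real.sqrt_pos.mpr hpos
  have htr : Matrix.trace (Eᴴ * E) = ((N : ℝ) : ℂ) := by
    simp only [Matrix.trace, Matrix.diag, Matrix.mul_apply, Matrix.conjTranspose_apply]
    rw [hN, Finset.sum_comm]
    push_cast
    refine Finset.sum_congr rfl fun x _ => Finset.sum_congr rfl fun y _ => ?_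
    rw [Complex.star_def, Complex.conj_mul', ]
  have hW : CpContr ((((Real.sqrt N)⁻¹ : ℝ) : ℂ) • Eᴴ) := by
    intro v
    unfold cpNsq
    have key : ∀ i, ‖(((((Real.sqrt N)⁻¹ : ℝ) : ℂ) • Eᴴ) *ᵥ v) i‖ ^ 2 ≤
        N⁻¹ * ((∑ j, ‖E j i‖ ^ 2) * ∑ j, ‖v j‖ ^ 2) := by
      intro i
      rw [Matrix.smul_mulVec, Pi.smul_apply, smul_eq_mul, norm_mul, mul_pow]
      have h1 : ‖(((Real.sqrt N)⁻¹ : ℝ) : ℂ)‖ ^ 2 = N⁻¹ := by
        rw [Complex.norm_real, Real.norm_eq_abs, sq_abs, inv_pow, Real.sq_sqrt hN0]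
      rw [h1]
      refine mul_le_mul_of_nonneg_left ?_ (inv_nonneg.mpr hN0)
      simp only [Matrix.mulVec, dotProduct, Matrix.conjTranspose_apply]
      calc ‖∑ j, star (E j i) * v j‖ ^ 2 ≤ (∑ j, ‖E j i‖ * ‖v j‖) ^ 2 := by
            refine pow_le_pow_left₀ (norm_nonneg _) ?_ 2
            refine (norm_sum_le _ _).trans (Finset.sum_le_sum fun j _ => ?_)
            rw [norm_mul, norm_star]
        _ ≤ _ := Finset.sum_mul_sq_le_sq_mul_sq _ _ _
    calc ∑ i, ‖(((((Real.sqrt N)⁻¹ : ℝ) : ℂ) • Eᴴ) *ᵥ v) i‖ ^ 2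
        ≤ ∑ i, N⁻¹ * ((∑ j, ‖E j i‖ ^ 2) * ∑ j, ‖v j‖ ^ 2) := Finset.sum_le_sum fun i _ => key i
      _ = N⁻¹ * (∑ i, ∑ j, ‖E j i‖ ^ 2) * ∑ j, ‖v j‖ ^ 2 := by
            rw [← Finset.mul_sum, ← Finset.sum_mul, mul_assoc]
      _ = ∑ j, ‖v j‖ ^ 2 := by
            rw [Finset.sum_comm, ← hN, inv_mul_cancel₀ hpos.ne', one_mul]
  have h2 := h _ hW
  rw [Matrix.smul_mul, Matrix.trace_smul, htr, smul_eq_mul, ← Complex.ofReal_mul, Complex.norm_real,
    Real.norm_eq_abs, abs_of_nonneg (by positivity)] at h2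
  have h3 : (Real.sqrt N)⁻¹ * N = Real.sqrt N := by
    field_simp
    exact (Real.sq_sqrt hN0).symm
  rw [h3] at h2
  calc N = Real.sqrt N ^ 2 := (Real.sq_sqrt hN0).symm
    _ ≤ ε ^ 2 := pow_le_pow_left₀ hs.le h2 2

/-- pairing of the output density with an observable, in terms of the final vector -/
theorem cp_trace_mul_rho (C : CpCircuit Mem) (rd : CpRead Mem Phys)
    (W : Matrix (Cfg Phys) (Cfg Phys) ℂ) :
    Matrix.trace (W * C.rho rd) = ∑ σ, ∑ τ,
      (if ∀ P, rd.gb P (σ P) = rd.gb P (τ P) then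
        star (C.vec τ) * W (fun P => rd.ph P (τ P)) (fun P => rd.ph P (σ P)) * C.vec σ else 0) := by
  unfold CpCircuit.rho
  rw [cp_trace_out]
  simp only [Matrix.trace, Matrix.diag, Matrix.mul_apply, CpRead.pull, Matrix.of_apply,
    vecMulVec_apply, Pi.star_apply]
  rw [Finset.sum_comm]
  refine Finset.sum_congr rfl fun σ _ => Finset.sum_congr rfl fun τ _ => ?_
  by_cases h : ∀ P, rd.gb P (σ P) = rd.gb P (τ P)
  · rw [if_pos h, if_pos fun P => (h P).symm]; ring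
  · rw [if_neg h, if_neg fun h' => h fun P => (h' P).symm]; ring

end Claimed.Agent.R296
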