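import Claimed.Agent.R296.P2.Model
import Claimed.Agent.R296.P2.CompMain

/-!
# Row 296, paper 2, Section 7 (assembly): definitions and the interface `ProtocolStmt` (prefix `asm`/`Asm`)

`ProtocolStmt` is what Sections 5 and 6 deliver (a valid distributed construction in the model of
`CompModel.lean`, with polynomial costs, whose physical output is close to the ground state, together
with routing data on the grid).  `AsmTop.lean` derives the frozen statement `S0546` from it and from
`cp_compression`.  Design notes: `Notes/P2S05_07.lean`.

* parties are `GSite L ⊕ Aux`: the party `inl x` finally holds the physical register of the site `x`,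
  the parties `inr a` have no physical output;
* every party has a position `pos P` on the grid, every gate `t` has a carrier `car t`: a connected
  set of grid vertices which contains the positions of all participants;
* congestion: every grid edge has both end points in at most `χ` carriers.
-/

set_option autoImplicit false

namespace Claimed.Agent.R296

open Matrix Claims.C0474

/-- parties of the final construction -/
abbrev APty (L : ℕ) (Aux : Type) : Type := GSite L ⊕ Aux

/-- physical output types -/
def aPhys (q L : ℕ) (Aux : Type) : APty L Aux → Type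
  | .inl _ => Fin q
  | .inr _ => Unit

instance (q L : ℕ) (Aux : Type) (P : APty L Aux) : Fintype (aPhys q L Aux P) := by
  cases P <;> (unfold aPhys; infer_instance)

instance (q L : ℕ) (Aux : Type) (P : APty L Aux) : DecidableEq (aPhys q L Aux P) := by
  cases P <;> (unfold aPhys; infer_instance)

/-- the value of the physical output of a party read from one site value -/
def aRead (q L : ℕ) (Aux : Type) : ∀ P : APty L Aux, Fin q → aPhys q L Aux P
  | .inl _ => fun s => s
  | .inr _ => fun _ => ()

/-- a grid configuration as a physical output configuration -/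
def aCfg {q L : ℕ} (Aux : Type) (σ : GCfg q L) : Cfg (aPhys q L Aux) :=
  fun P => match P with
    | .inl x => σ x
    | .inr _ => ()

/-- one step along a grid edge inside `S` -/
def AsmStep {L : ℕ} (S : Finset (GSite L)) (a b : GSite L) : Prop :=
  ∃ e : GridEdge L, e.1.1 ∈ S ∧ e.1.2 ∈ S ∧ ((a = e.1.1 ∧ b = e.1.2) ∨ (a = e.1.2 ∧ b = e.1.1))

/-- `S` is connected in the grid -/
def AsmConn {L : ℕ} (S : Finset (GSite L)) : Prop :=
  ∀ x ∈ S, ∀ y ∈ S, Relation.ReflTransGen (AsmStep S) x y

/-- number of members of a family of carriers which contain both end points of the edge `e` -/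
noncomputable def asmCong {L : ℕ} {V : Type} [Fintype V] (car : V → Finset (GSite L))
    (e : GridEdge L) : ℕ := by
  classical
  exact (Finset.univ.filter fun v => e.1.1 ∈ car v ∧ e.1.2 ∈ car v).card

/-- **Interface of Sections 5-6 with Section 7.**  For `L ≥ L0` there is a valid distributed
construction with lifetime costs `≤ L^cW`, at most `L^cN` steps, at most `L^cK` labels and at most `r0`
steps per gate, Hilbert-Schmidt error `≤ L^-5` of the physical output, and routing data of congestion
`≤ χ`. -/
def ProtocolStmt (q : ℕ) [NeZero q] (J Δ : ℝ) (cK cW cN r0 χ L0 : ℕ) : Prop :=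
  ∀ L : ℕ, L0 ≤ L → ∀ M : GModel q J Δ L,
    ∃ (Aux : Type) (_ : Fintype Aux) (_ : DecidableEq Aux) (Mem : APty L Aux → Type)
      (_ : ∀ P, Fintype (Mem P)) (_ : ∀ P, DecidableEq (Mem P))
      (C : CpCircuit Mem) (rd : CpRead Mem (aPhys q L Aux))
      (pos : APty L Aux → GSite L) (car : Fin C.M → Finset (GSite L)),
      C.Valid ∧
      (∀ P, C.pcost P ≤ (L : ℝ) ^ cW) ∧
      C.nsteps ≤ L ^ cN ∧
      (∀ t, Fintype.card (C.gate t).Ξ ≤ L ^ cK) ∧
      (∀ t, (C.gate t).r ≤ r0) ∧
      (∀ x, pos (.inl x) = x) ∧
      (∀ t, (car t).Nonempty ∧ AsmConn (car t) ∧ ∀ P ∈ (C.gate t).part, pos P ∈ car t) ∧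
      (∀ e, asmCong car e ≤ χ) ∧
      ∑ x : GCfg q L, ∑ y : GCfg q L,
        ‖C.rho rd (aCfg Aux x) (aCfg Aux y) - M.Ω x * star (M.Ω y)‖ ^ 2 ≤ ((L : ℝ) ^ (-(5 : ℝ))) ^ 2

end Claimed.Agent.R296
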