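import Claimed.Agent.R296.P2.AsmDefs

/-!
# Row 296, paper 2, Section 7: a party network with carriers of bounded congestion is a PEPS

LEAF `P2-ASM-ROUTE` (pure tensor-network plumbing, no analysis).  Proved by helper246 (helper prefix `asmr_`);
statements verbatim from the skeleton.

Construction.  `G = ∀ v, N.D v` (global assignments), `γ0 : G` a default.  For every edge `e` choose
`code e : G → Fin (d ^ χ)` with `code e γ = code e γ' ↔ γ, γ'` agree on the indices carried by `e`
(cardinality count).  Vertex tensor at `x`: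
  `A x s b = ∑_γ [γ = γ0 off the indices with x ∈ car v] [b e = code e γ for all incident e] ∏_{pos P = x} T P (f P s) γ`.
`asmr_contract`: `∑_β ∏_x A x = ∑_{Γ : site → G} [Γ x normalised] [code e (Γ e₁) = code e (Γ e₂)] ∏_x …`;
by connectedness of the carriers the admissible `Γ` are exactly the masked copies of one global `γ`.
-/

set_option autoImplicit false

namespace Claimed.Agent.R296

open Matrix Claims.C0474

/-! ### contraction of a network whose vertex tensors are sums over local copies -/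

theorem asmr_contract {S E B G : Type} [Fintype S] [DecidableEq S] [Fintype E] [DecidableEq E]
    [Fintype B] [Fintype G]
    (a b : E → S) (code : E → G → B) (mem : S → G → Prop) (t : S → G → ℂ)
    [∀ (β : E → B) (x : S) (γ : G),
      Decidable (mem x γ ∧ ∀ e, (x = a e ∨ x = b e) → β e = code e γ)]
    [∀ Γ : S → G, Decidable ((∀ x, mem x (Γ x)) ∧ ∀ e, code e (Γ (a e)) = code e (Γ (b e)))] :
    ∑ β : E → B, ∏ x, ∑ γ : G,
        (if mem x γ ∧ ∀ e, (x = a e ∨ x = b e) → β e = code e γ then t x γ else 0)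
      = ∑ Γ : S → G, if (∀ x, mem x (Γ x)) ∧ ∀ e, code e (Γ (a e)) = code e (Γ (b e))
          then ∏ x, t x (Γ x) else 0 := by
  simp_rw [Finset.prod_univ_sum, Fintype.piFinset_univ]
  rw [Finset.sum_comm]
  refine Finset.sum_congr rfl fun Γ _ => ?_
  simp_rw [Finset.prod_ite_zero]
  by_cases h : (∀ x, mem x (Γ x)) ∧ ∀ e, code e (Γ (a e)) = code e (Γ (b e))
  · rw [if_pos h, Finset.sum_eq_single (fun e => code e (Γ (a e)))]
    · rw [if_pos]
      intro x _
      refine ⟨h.1 x, ?_⟩
      rintro e (rfl | rfl)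
      · rfl
      · exact h.2 e
    · intro β _ hβ
      rw [if_neg]
      intro hc
      apply hβ
      funext e
      exact (hc (a e) (Finset.mem_univ _)).2 e (Or.inl rfl)
    · intro hh
      exact absurd (Finset.mem_univ _) hh
  · rw [if_neg h]
    refine Finset.sum_eq_zero fun β _ => ?_
    rw [if_neg]
    intro hc
    apply h
    refine ⟨fun x => (hc x (Finset.mem_univ _)).1, fun e => ?_⟩
    rw [← (hc (a e) (Finset.mem_univ _)).2 e (Or.inl rfl),
      (hc (b e) (Finset.mem_univ _)).2 e (Or.inr rfl)]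

/-- a sum over the range of an injective map -/
theorem asmr_sum_range {G H : Type} [Fintype G] [Fintype H] (Θ : G → H)
    (hinj : Function.Injective Θ) (good : H → Prop) [DecidablePred good]
    (hgood : ∀ Γ, good Γ ↔ ∃ γ, Θ γ = Γ)
    (h : H → ℂ) : (∑ Γ : H, if good Γ then h Γ else 0) = ∑ γ : G, h (Θ γ) := by
  symm
  refine Fintype.sum_of_injective Θ hinj _ _ ?_ ?_
  · intro Γ hΓ
    rw [if_neg]
    intro hg
    exact hΓ ((hgood Γ).1 hg)
  · intro γ
    rw [if_pos ((hgood _).2 ⟨γ, rfl⟩)]

/-- codes of the restriction of a global assignment to at most `χ` indices -/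
theorem asmr_exists_code {V : Type} [Fintype V] (D : V → Type) [∀ v, Fintype (D v)]
    (p : V → Prop) (d χ : ℕ) (hd1 : 1 ≤ d) (hd : ∀ v, Fintype.card (D v) ≤ d)
    (hp : Nat.card {v // p v} ≤ χ) :
    ∃ code : (∀ v, D v) → Fin (d ^ χ), ∀ γ γ', code γ = code γ' ↔ ∀ v, p v → γ v = γ' v := by
  classical
  have hcard : Fintype.card (∀ v : {v // p v}, D v.1) ≤ Fintype.card (Fin (d ^ χ)) := by
    rw [Fintype.card_pi, Fintype.card_fin]
    calc ∏ v : {v // p v}, Fintype.card (D v.1) ≤ ∏ _v : {v // p v}, d :=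
          Finset.prod_le_prod' fun v _ => hd v.1
      _ = d ^ Fintype.card {v // p v} := by rw [Finset.prod_const, Finset.card_univ]
      _ ≤ d ^ χ := Nat.pow_le_pow_right hd1 (by rwa [Nat.card_eq_fintype_card] at hp)
  obtain ⟨emb⟩ := Function.Embedding.nonempty_of_card_le hcard
  refine ⟨fun γ => emb fun v => γ v.1, fun γ γ' => ?_⟩
  constructor
  · intro h v hv
    exact congrFun (emb.injective h) ⟨v, hv⟩
  · intro h
    show emb _ = emb _
    congr 1
    funext v
    exact h v.1 v.2

theorem asmr_cong_card {L : ℕ} {V : Type} [Fintype V] (car : V → Finset (GSite L))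
    (e : GridEdge L) :
    Nat.card {v // e.1.1 ∈ car v ∧ e.1.2 ∈ car v} = asmCong car e := by
  classical
  unfold asmCong
  rw [Nat.card_eq_fintype_card, Fintype.card_subtype]

theorem asm_net_to_peps {L q : ℕ} {PP : Type} [Fintype PP] [DecidableEq PP] {X : PP → Type}
    (N : CpNet PP X) (pos : PP → GSite L) (f : ∀ P, Fin q → X P)
    (car : N.V → Finset (GSite L))
    (hne : ∀ v, (car v).Nonempty) (hconn : ∀ v, AsmConn (car v))
    (huse : ∀ v, ∀ P ∈ N.use v, pos P ∈ car v)
    (d χ : ℕ) (hd1 : 1 ≤ d) (hd : ∀ v, Fintype.card (N.D v) ≤ d)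
    (hcong : ∀ e, asmCong car e ≤ χ) :
    ∃ A : ∀ v : GSite L, Fin q → (IncidentEdge v → Fin (d ^ χ)) → ℂ,
      pepsVector A = fun σ => N.val fun P => f P (σ (pos P)) := by
  classical
  by_cases hemp : ∃ v, IsEmpty (N.D v)
  · -- an empty index range: both sides vanish
    obtain ⟨v, hv⟩ := hemp
    obtain ⟨x, hx⟩ := hne v
    refine ⟨fun _ _ _ => 0, ?_⟩
    funext σ
    have h1 : pepsVector (L := L) (q := q) (D := d ^ χ) (fun _ _ _ => 0) σ = 0 := by
      unfold pepsVector
      exact Finset.sum_eq_zero fun β _ => Finset.prod_eq_zero (Finset.mem_univ x) rfl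
    have h2 : IsEmpty (∀ v, N.D v) := ⟨fun γ => hv.elim (γ v)⟩
    rw [h1]
    unfold CpNet.val
    rw [Finset.univ_eq_empty, Finset.sum_empty]
  · have hnon : ∀ v, Nonempty (N.D v) := fun v =>
      not_isEmpty_iff.1 fun h => hemp ⟨v, h⟩
    let γ0 : ∀ v, N.D v := fun v => (hnon v).some
    choose code hcode using fun e : GridEdge L =>
      asmr_exists_code N.D (fun v => e.1.1 ∈ car v ∧ e.1.2 ∈ car v) d χ hd1 hd
        (by rw [asmr_cong_card]; exact hcong e)
    let mem : GSite L → (∀ v, N.D v) → Prop := fun x γ => ∀ v, x ∉ car v → γ v = γ0 v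
    let tt : GSite L → Fin q → (∀ v, N.D v) → ℂ := fun x s γ =>
      ∏ P ∈ Finset.univ.filter (fun P => pos P = x), N.T P (f P s) γ
    refine ⟨fun x s b => ∑ γ, if mem x γ ∧ ∀ e : IncidentEdge x, b e = code e.1 γ
      then tt x s γ else 0, ?_⟩
    funext σ
    have h1 : pepsVector (fun x s b => ∑ γ, if mem x γ ∧ ∀ e : IncidentEdge x, b e = code e.1 γ
          then tt x s γ else 0) σ
        = ∑ β : GridEdge L → Fin (d ^ χ), ∏ x, ∑ γ,
            (if mem x γ ∧ ∀ e : GridEdge L, (x = e.1.1 ∨ x = e.1.2) → β e = code e γ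
              then tt x (σ x) γ else 0) := by
      unfold pepsVector
      refine Finset.sum_congr rfl fun β _ => Finset.prod_congr rfl fun x _ =>
        Finset.sum_congr rfl fun γ _ => ?_
      refine if_congr ?_ rfl rfl
      simp only [Subtype.forall]
    rw [h1, asmr_contract (fun e : GridEdge L => e.1.1) (fun e : GridEdge L => e.1.2) code mem
      (fun x γ => tt x (σ x) γ)]
    let Θ : (∀ v, N.D v) → (GSite L → ∀ v, N.D v) := fun γ x v =>
      if x ∈ car v then γ v else γ0 v
    have hΘ1 : ∀ γ x v, x ∈ car v → Θ γ x v = γ v := fun γ x v h => if_pos h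
    have hΘ2 : ∀ γ x v, x ∉ car v → Θ γ x v = γ0 v := fun γ x v h => if_neg h
    have hinj : Function.Injective Θ := by
      intro γ γ' h
      funext v
      obtain ⟨x, hx⟩ := hne v
      have := congrFun (congrFun h x) v
      rwa [hΘ1 _ _ _ hx, hΘ1 _ _ _ hx] at this
    have hgood : ∀ Γ : GSite L → ∀ v, N.D v,
        ((∀ x, mem x (Γ x)) ∧ ∀ e : GridEdge L, code e (Γ e.1.1) = code e (Γ e.1.2)) ↔
          ∃ γ, Θ γ = Γ := by
      intro Γ
      constructor
      · rintro ⟨hm, hc⟩
        choose xv hxv using hne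
        refine ⟨fun v => Γ (xv v) v, ?_⟩
        funext x v
        by_cases hx : x ∈ car v
        · rw [hΘ1 _ _ _ hx]
          have key : ∀ y, Relation.ReflTransGen (AsmStep (car v)) (xv v) y →
              Γ (xv v) v = Γ y v := by
            intro y hy
            induction hy with
            | refl => rfl
            | tail _ hstep ih =>
              rw [ih]
              obtain ⟨e, he1, he2, hcase⟩ := hstep
              have h3 := (hcode e _ _).1 (hc e) v ⟨he1, he2⟩
              rcases hcase with ⟨h4, h5⟩ | ⟨h4, h5⟩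
              · rw [h4, h5]; exact h3
              · rw [h4, h5]; exact h3.symm
          exact key x (hconn v _ (hxv v) x hx)
        · rw [hΘ2 _ _ _ hx]
          exact (hm x v hx).symm
      · rintro ⟨γ, rfl⟩
        refine ⟨fun x v hx => hΘ2 _ _ _ hx, fun e => ?_⟩
        rw [hcode]
        rintro v ⟨h4, h5⟩
        rw [hΘ1 _ _ _ h4, hΘ1 _ _ _ h5]
    rw [asmr_sum_range Θ hinj _ hgood]
    unfold CpNet.val
    refine Finset.sum_congr rfl fun γ _ => ?_
    rw [← Finset.prod_fiberwise Finset.univ pos (fun P => N.T P (f P (σ (pos P))) γ)]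
    refine Finset.prod_congr rfl fun x _ => Finset.prod_congr rfl fun P hP => ?_
    have hPx : pos P = x := (Finset.mem_filter.1 hP).2
    rw [hPx]
    refine N.loc P _ _ _ fun v hv => hΘ1 _ _ _ ?_
    rw [← hPx]
    exact huse v P hv

/-! ### the whole grid is connected -/

theorem asmr_step_symm {L : ℕ} (S : Finset (GSite L)) {a b : GSite L} (hab : AsmStep S a b) :
    AsmStep S b a := by
  obtain ⟨e, h1, h2, h⟩ := hab
  refine ⟨e, h1, h2, ?_⟩
  rcases h with ⟨ha, hb⟩ | ⟨ha, hb⟩
  · exact Or.inr ⟨hb, ha⟩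
  · exact Or.inl ⟨hb, ha⟩

theorem asmr_reach_symm {L : ℕ} (S : Finset (GSite L)) {a b : GSite L}
    (h : Relation.ReflTransGen (AsmStep S) a b) : Relation.ReflTransGen (AsmStep S) b a := by
  induction h with
  | refl => exact Relation.ReflTransGen.refl
  | tail _ hstep ih => exact Relation.ReflTransGen.head (asmr_step_symm S hstep) ih

theorem asmr_step_fst {L : ℕ} (i : ℕ) (hi : i + 1 < L) (j : Fin L) :
    AsmStep (Finset.univ : Finset (GSite L)) (⟨i, by omega⟩, j) (⟨i + 1, hi⟩, j) :=
  ⟨⟨((⟨i, by omega⟩, j), (⟨i + 1, hi⟩, j)),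
      ⟨Fin.mk_le_mk.2 (Nat.le_succ i), le_rfl, by show i + (j : ℕ) + 1 = i + 1 + j; omega⟩⟩,
    Finset.mem_univ _, Finset.mem_univ _, Or.inl ⟨rfl, rfl⟩⟩

theorem asmr_step_snd {L : ℕ} (j : ℕ) (hj : j + 1 < L) (i : Fin L) :
    AsmStep (Finset.univ : Finset (GSite L)) (i, ⟨j, by omega⟩) (i, ⟨j + 1, hj⟩) :=
  ⟨⟨((i, ⟨j, by omega⟩), (i, ⟨j + 1, hj⟩)),
      ⟨le_rfl, Fin.mk_le_mk.2 (Nat.le_succ j), by show (i : ℕ) + j + 1 = i + (j + 1); omega⟩⟩,
    Finset.mem_univ _, Finset.mem_univ _, Or.inl ⟨rfl, rfl⟩⟩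

theorem asmr_reach_fst {L : ℕ} (i : ℕ) (hi : i < L) (j : Fin L) :
    Relation.ReflTransGen (AsmStep (Finset.univ : Finset (GSite L)))
      (⟨0, by omega⟩, j) (⟨i, hi⟩, j) := by
  induction i with
  | zero => exact Relation.ReflTransGen.refl
  | succ i ih => exact (ih (by omega)).tail (asmr_step_fst i hi j)

theorem asmr_reach_snd {L : ℕ} (j : ℕ) (hj : j < L) (i : Fin L) :
    Relation.ReflTransGen (AsmStep (Finset.univ : Finset (GSite L)))
      (i, ⟨0, by omega⟩) (i, ⟨j, hj⟩) := by
  induction j with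
  | zero => exact Relation.ReflTransGen.refl
  | succ j ih => exact (ih (by omega)).tail (asmr_step_snd j hj i)

/-- the whole grid is connected -/
theorem asm_conn_univ (L : ℕ) : AsmConn (Finset.univ : Finset (GSite L)) := by
  have key : ∀ x : GSite L, Relation.ReflTransGen (AsmStep (Finset.univ : Finset (GSite L)))
      (⟨0, by have := x.1.2; omega⟩, ⟨0, by have := x.1.2; omega⟩) x := by
    intro x
    exact (asmr_reach_snd x.2.1 x.2.2 ⟨0, by have := x.1.2; omega⟩).trans
      (asmr_reach_fst x.1.1 x.1.2 x.2)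
  intro x _ y _
  exact (asmr_reach_symm _ (key x)).trans (key y)

/-! ### padding and exact representation -/

/-- the bond dimension of a PEPS can be increased (extra index values get the weight zero) -/
theorem asm_peps_pad {L q D D' : ℕ} (h : D ≤ D')
    (A : ∀ v : GSite L, Fin q → (IncidentEdge v → Fin D) → ℂ) :
    ∃ A' : ∀ v : GSite L, Fin q → (IncidentEdge v → Fin D') → ℂ, pepsVector A' = pepsVector A := by
  classical
  refine ⟨fun x s b => if hb : ∀ e, (b e : ℕ) < D then A x s (fun e => ⟨b e, hb e⟩) else 0, ?_⟩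
  funext σ
  unfold pepsVector
  symm
  refine Fintype.sum_of_injective
    (fun β : GridEdge L → Fin D => fun e => Fin.castLE h (β e)) ?_ _ _ ?_ ?_
  · intro β β' hβ
    funext e
    exact Fin.castLE_injective h (congrFun hβ e)
  · intro β' hβ'
    have hex : ∃ e, D ≤ (β' e : ℕ) := by
      by_contra hc
      push Not at hc
      exact hβ' ⟨fun e => ⟨β' e, hc e⟩, by funext e; rfl⟩
    obtain ⟨e, he⟩ := hex
    refine Finset.prod_eq_zero (Finset.mem_univ e.1.1) ?_
    beta_reduce
    rw [dif_neg]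
    intro hb
    exact absurd (hb ⟨e, Or.inl rfl⟩) (not_lt.2 he)
  · intro β
    refine Finset.prod_congr rfl fun x _ => ?_
    beta_reduce
    have hb : ∀ e : IncidentEdge x, ((Fin.castLE h (β e.1) : Fin D') : ℕ) < D :=
      fun e => (β e.1).2
    rw [dif_pos hb]
    rfl

/-- every vector is an exact PEPS of bond dimension `q ^ (L * L)` (one common index on all edges);
corollary of `asm_net_to_peps` with parties `= GSite L`, one virtual index `GCfg q L`, carrier `univ`, `χ = 1`,
`T x s z = [z x = s] * (if x = x0 then ψ z else 1)`. -/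
theorem asm_exact_peps {L q : ℕ} (hL : 1 ≤ L) (hq : 1 ≤ q) (ψ : GCfg q L → ℂ) :
    ∃ A : ∀ v : GSite L, Fin q → (IncidentEdge v → Fin (q ^ (L * L))) → ℂ, pepsVector A = ψ := by
  classical
  let x0 : GSite L := (⟨0, hL⟩, ⟨0, hL⟩)
  let N : CpNet (GSite L) (fun _ => Fin q) :=
    { V := Unit
      D := fun _ => GCfg q L
      use := fun _ => Finset.univ
      T := fun x s z => (if z () x = s then 1 else 0) * (if x = x0 then ψ (z ()) else 1)
      loc := fun P x β β' hβ => by rw [hβ () (Finset.mem_univ _)] }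
  have hval : ∀ σ : GCfg q L, N.val (fun P => σ P) = ψ σ := by
    intro σ
    show ∑ β : Unit → GCfg q L,
      ∏ x, ((if β () x = σ x then (1 : ℂ) else 0) * (if x = x0 then ψ (β ()) else 1)) = ψ σ
    rw [Finset.sum_eq_single (fun _ => σ)]
    · simp
    · intro β _ hβ
      have hex : ∃ x, β () x ≠ σ x := by
        by_contra hc
        push Not at hc
        exact hβ (funext fun _ => funext hc)
      obtain ⟨x, hx⟩ := hex
      refine Finset.prod_eq_zero (Finset.mem_univ x) ?_
      rw [if_neg hx, zero_mul]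
    · intro hh
      exact absurd (Finset.mem_univ _) hh
  obtain ⟨A, hA⟩ := asm_net_to_peps N (fun x => x) (fun _ s => s) (fun _ => Finset.univ)
    (fun _ => ⟨x0, Finset.mem_univ _⟩) (fun _ => asm_conn_univ L)
    (fun _ _ _ => Finset.mem_univ _) (q ^ (L * L)) 1 (Nat.one_le_pow _ _ hq)
    (fun _ => by
      show Fintype.card (GCfg q L) ≤ q ^ (L * L)
      simp)
    (fun e => by
      rw [← asmr_cong_card]
      have : Nat.card {v : Unit // e.1.1 ∈ (Finset.univ : Finset (GSite L)) ∧
          e.1.2 ∈ (Finset.univ : Finset (GSite L))} ≤ Nat.card Unit :=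
        Nat.card_le_card_of_injective _ Subtype.val_injective
      simp)
  obtain ⟨A', hA'⟩ := asm_peps_pad (le_of_eq (pow_one (q ^ (L * L)))) A
  refine ⟨A', ?_⟩
  rw [hA', hA]
  funext σ
  exact hval σ

end Claimed.Agent.R296
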