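import Claimed.Agent.R296.P2.AsmCol
import Claimed.Agent.R296.P2.AsmRoute

/-!
# Row 296, paper 2, Section 7: from `ProtocolStmt` to the frozen statement `S0546`

LEAVES `P2-ASM-LARGE` (`asm_large`) and `P2-ASM-TOP` (`asm_top`).

`asm_large`: fix `L ≥ max L0 2` and the construction `C` of `ProtocolStmt`.
 1. `k := (4 * L^cN * L^(4 cW) * q^4 * L^5 + 1)^2`; then `x := Wc^4 d0^4 / √k` satisfies `nsteps * x ≤ L^-5 / 4`, so
    `(1 + x)^nsteps - 1 ≤ exp (nsteps x) - 1 ≤ 2 nsteps x ≤ L^-5`   (`Wc = L^cW`, `d0 = q`).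
 2. `cp_compression` + `cp_hs_of_dual`: Hilbert-Schmidt distance of `C.sigma k rd ω` and `C.rho rd` is `≤ L^-5`.
    `Cfg (aPhys q L Aux) ≃ GCfg q L` via `aCfg` (bijective), so with `S x y := C.sigma k rd ω (aCfg x) (aCfg y)`
    the Hilbert-Schmidt distance of `S` and `|Ω⟩⟨Ω|` is `≤ 2 L^-5 ≤ 1/(2L)`.
 3. `asm_columns` with `η = 1/(2L)` gives the column `z`.
 4. the column is the value of the network `N'` obtained from `C.net k rd ω` by fixing the bra argument: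
    `X P := aPhys q L Aux P`, `T' P x β := T P (x, aCfg z P) β`.
 5. `asm_net_to_peps` with `car (inl t) := car t`, `car (inr ⟨t, i⟩) := car t`, `d := max (L^(2 cK)) k`,
    congestion `χ * (1 + r0)`.
-/

set_option autoImplicit false

namespace Claimed.Agent.R296

open Matrix Claims.C0474

/-- conclusion of `S0546` for one model -/
def AsmGoal {q L : ℕ} (Ω : GCfg q L → ℂ) (D : ℕ) : Prop :=
  ∃ A : ∀ v : Fin L × Fin L, Fin q → (IncidentEdge v → Fin D) → ℂ,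
    pepsVector A ≠ 0 ∧
    ∃ θ : ℝ,
      ∑ σ, ‖pepsVector A σ / (Real.sqrt (∑ τ, ‖pepsVector A τ‖ ^ 2) : ℂ) -
          Complex.exp ((θ : ℂ) * Complex.I) * Ω σ‖ ^ 2 ≤ (1 / (L : ℝ)) ^ 2

/-- the explicit bond dimension for large `L` -/
def asmBond (q cK cW cN r0 χ L : ℕ) : ℕ :=
  (max (L ^ (2 * cK)) ((4 * L ^ cN * L ^ (4 * cW) * q ^ 4 * L ^ 5 + 1) ^ 2)) ^ (χ * (1 + r0))

/-! ### numerics -/

theorem asmt_pow_sub_one_le {x δ : ℝ} (n : ℕ) (hx : 0 ≤ x) (hy : n * x ≤ δ) (hδ : δ ≤ 1 / 2) :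
    (1 + x) ^ n - 1 ≤ 2 * δ := by
  have hy0 : 0 ≤ (n : ℝ) * x := by positivity
  have h1 : (1 + x) ^ n ≤ Real.exp (n * x) := by
    rw [Real.exp_nat_mul]
    refine pow_le_pow_left₀ (by linarith) ?_ n
    have := Real.add_one_le_exp x
    linarith
  have h2 : Real.exp (n * x) ≤ 1 / (1 - n * x) :=
    Real.exp_bound_div_one_sub_of_interval hy0 (by linarith)
  have h3 : 1 / (1 - n * x) ≤ 1 + 2 * (n * x) := by
    rw [div_le_iff₀ (by linarith)]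
    nlinarith
  linarith

theorem asmt_eps_le (q cW cN L n : ℕ) (hL : 1 ≤ L) (hn : n ≤ L ^ cN) :
    (1 + ((L : ℝ) ^ cW) ^ 4 * (q : ℝ) ^ 4 /
        Real.sqrt (((4 * L ^ cN * L ^ (4 * cW) * q ^ 4 * L ^ 5 + 1) ^ 2 : ℕ) : ℝ)) ^ n - 1
      ≤ ((L : ℝ) ^ 5)⁻¹ := by
  have hL0 : (1 : ℝ) ≤ L := by exact_mod_cast hL
  have hL5 : (1 : ℝ) ≤ (L : ℝ) ^ 5 := one_le_pow₀ hL0
  set K : ℝ := 4 * (L : ℝ) ^ cN * (L : ℝ) ^ (4 * cW) * (q : ℝ) ^ 4 * (L : ℝ) ^ 5 + 1 with hK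
  have hK0 : 0 < K := by positivity
  have hsq : Real.sqrt (((4 * L ^ cN * L ^ (4 * cW) * q ^ 4 * L ^ 5 + 1) ^ 2 : ℕ) : ℝ) = K := by
    push_cast
    rw [← hK, Real.sqrt_sq hK0.le]
  rw [hsq]
  have hW : ((L : ℝ) ^ cW) ^ 4 = (L : ℝ) ^ (4 * cW) := by rw [← pow_mul, mul_comm]
  rw [hW]
  set x : ℝ := (L : ℝ) ^ (4 * cW) * (q : ℝ) ^ 4 / K with hx
  have hx0 : 0 ≤ x := by positivity
  have hn' : (n : ℝ) ≤ (L : ℝ) ^ cN := by exact_mod_cast hn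
  have hy : (n : ℝ) * x ≤ ((L : ℝ) ^ 5)⁻¹ / 4 := by
    calc (n : ℝ) * x ≤ (L : ℝ) ^ cN * x := mul_le_mul_of_nonneg_right hn' hx0
      _ = (L : ℝ) ^ cN * (L : ℝ) ^ (4 * cW) * (q : ℝ) ^ 4 / K := by rw [hx]; ring
      _ ≤ ((L : ℝ) ^ 5)⁻¹ / 4 := by
          rw [div_le_iff₀ hK0, hK]
          have h5 : ((L : ℝ) ^ 5)⁻¹ * (L : ℝ) ^ 5 = 1 := inv_mul_cancel₀ (by positivity)
          have h6 : 0 ≤ ((L : ℝ) ^ 5)⁻¹ := by positivity
          have e : ((L : ℝ) ^ 5)⁻¹ / 4 *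
              (4 * (L : ℝ) ^ cN * (L : ℝ) ^ (4 * cW) * (q : ℝ) ^ 4 * (L : ℝ) ^ 5 + 1)
              = (L : ℝ) ^ cN * (L : ℝ) ^ (4 * cW) * (q : ℝ) ^ 4 * (((L : ℝ) ^ 5)⁻¹ * (L : ℝ) ^ 5)
                + ((L : ℝ) ^ 5)⁻¹ / 4 := by ring
          rw [e, h5]
          linarith
  have hinv : ((L : ℝ) ^ 5)⁻¹ ≤ 1 := inv_le_one_of_one_le₀ hL5
  have h0 : 0 ≤ ((L : ℝ) ^ 5)⁻¹ := by positivity
  have := asmt_pow_sub_one_le n hx0 hy (by linarith)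
  linarith

theorem asmt_sum_add_sq_le {ι : Type} [Fintype ι] (a b : ι → ℂ) :
    ∑ i, ‖a i + b i‖ ^ 2 ≤ 2 * ∑ i, ‖a i‖ ^ 2 + 2 * ∑ i, ‖b i‖ ^ 2 := by
  rw [Finset.mul_sum, Finset.mul_sum, ← Finset.sum_add_distrib]
  refine Finset.sum_le_sum fun i _ => ?_
  have h1 := norm_add_le (a i) (b i)
  have h2 := norm_nonneg (a i + b i)
  nlinarith [sq_nonneg (‖a i‖ - ‖b i‖)]

theorem asmt_sum_comp_le {α β : Type} [Fintype α] [Fintype β] (e : α → β)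
    (he : Function.Injective e) (f : β → ℝ) (hf : ∀ b, 0 ≤ f b) :
    ∑ a, f (e a) ≤ ∑ b, f b := by
  classical
  rw [← Finset.sum_image (f := f) (s := Finset.univ) (g := e) fun a _ b _ h => he h]
  exact Finset.sum_le_sum_of_subset_of_nonneg (Finset.subset_univ _) fun b _ _ => hf b

theorem asmt_aCfg_injective {q L : ℕ} (Aux : Type) :
    Function.Injective (aCfg (q := q) (L := L) Aux) := by
  intro σ τ h
  funext x
  exact congrFun h (Sum.inl x)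

theorem asmt_card_aPhys (q L : ℕ) [NeZero q] (Aux : Type) (P : APty L Aux) :
    Fintype.card (aPhys q L Aux P) ≤ q := by
  rw [← Nat.card_eq_fintype_card]
  cases P with
  | inl x =>
    show Nat.card (Fin q) ≤ q
    simp
  | inr a =>
    show Nat.card Unit ≤ q
    have : 1 ≤ q := Nat.one_le_iff_ne_zero.2 (NeZero.ne q)
    simpa using this

theorem asmt_aRead {q L : ℕ} (Aux : Type) (pos : APty L Aux → GSite L)
    (hpos : ∀ x, pos (.inl x) = x) (σ : GCfg q L) (P : APty L Aux) :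
    aRead q L Aux P (σ (pos P)) = aCfg Aux σ P := by
  cases P with
  | inl x =>
    show σ (pos (.inl x)) = σ x
    rw [hpos]
  | inr a => rfl

/-- carriers of the virtual indices of the sampled network -/
def asmtCar {L Mn : ℕ} (r : Fin Mn → ℕ) (car : Fin Mn → Finset (GSite L)) :
    Fin Mn ⊕ (Σ t : Fin Mn, Fin (r t)) → Finset (GSite L)
  | .inl t => car t
  | .inr p => car p.1

theorem asmt_cong {L Mn : ℕ} (r : Fin Mn → ℕ) (r0 χ : ℕ) (hr : ∀ t, r t ≤ r0)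
    (car : Fin Mn → Finset (GSite L)) (e : GridEdge L) (hc : asmCong car e ≤ χ) :
    asmCong (asmtCar r car) e ≤ χ * (1 + r0) := by
  rw [← asmr_cong_card] at hc ⊢
  let φ : {v : Fin Mn ⊕ (Σ t : Fin Mn, Fin (r t)) //
        e.1.1 ∈ asmtCar r car v ∧ e.1.2 ∈ asmtCar r car v} →
      {t : Fin Mn // e.1.1 ∈ car t ∧ e.1.2 ∈ car t} × Fin (1 + r0) := fun v =>
    match v with
    | ⟨.inl t, h⟩ => (⟨t, h⟩, ⟨0, by omega⟩)
    | ⟨.inr p, h⟩ => (⟨p.1, h⟩, ⟨1 + p.2, by have := p.2.2; have := hr p.1; omega⟩)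
  have hφ : Function.Injective φ := by
    rintro ⟨v | ⟨t, i⟩, h⟩ ⟨v' | ⟨t', i'⟩, h'⟩ heq
    · simp only [φ, Prod.mk.injEq, and_true] at heq
      have h1 : v = v' := congrArg Subtype.val heq
      subst h1
      rfl
    · simp only [φ, Prod.mk.injEq, Fin.mk.injEq] at heq
      omega
    · simp only [φ, Prod.mk.injEq, Fin.mk.injEq] at heq
      omega
    · simp only [φ, Prod.mk.injEq, Fin.mk.injEq] at heq
      obtain ⟨h1, h2⟩ := heq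
      have h1' : t = t' := congrArg Subtype.val h1
      subst h1'
      have h3 : i = i' := Fin.ext (by omega)
      subst h3
      rfl
  calc Nat.card {v : Fin Mn ⊕ (Σ t : Fin Mn, Fin (r t)) //
        e.1.1 ∈ asmtCar r car v ∧ e.1.2 ∈ asmtCar r car v}
      ≤ Nat.card ({t : Fin Mn // e.1.1 ∈ car t ∧ e.1.2 ∈ car t} × Fin (1 + r0)) :=
        Nat.card_le_card_of_injective φ hφ
    _ = Nat.card {t : Fin Mn // e.1.1 ∈ car t ∧ e.1.2 ∈ car t} * (1 + r0) := by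
        rw [Nat.card_prod, Nat.card_fin]
    _ ≤ χ * (1 + r0) := Nat.mul_le_mul_right _ hc

theorem asmt_sum2_add_sq_le {ι : Type} [Fintype ι] (a b : ι → ι → ℂ) :
    ∑ x, ∑ y, ‖a x y + b x y‖ ^ 2
      ≤ 2 * ∑ x, ∑ y, ‖a x y‖ ^ 2 + 2 * ∑ x, ∑ y, ‖b x y‖ ^ 2 := by
  calc ∑ x, ∑ y, ‖a x y + b x y‖ ^ 2
      ≤ ∑ x, (2 * ∑ y, ‖a x y‖ ^ 2 + 2 * ∑ y, ‖b x y‖ ^ 2) :=
        Finset.sum_le_sum fun x _ => asmt_sum_add_sq_le _ _
    _ = _ := by rw [Finset.sum_add_distrib, Finset.mul_sum, Finset.mul_sum]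

/-- the core of `asm_large`, for explicit data -/
theorem asmt_core (q : ℕ) [NeZero q] (cK cW cN r0 χ L : ℕ) (hL2 : 2 ≤ L) (Ω : GCfg q L → ℂ)
    (hΩ : star Ω ⬝ᵥ Ω = 1)
    {Aux : Type} [Fintype Aux] [DecidableEq Aux] {Mem : APty L Aux → Type}
    [∀ P, Fintype (Mem P)] [∀ P, DecidableEq (Mem P)]
    (C : CpCircuit Mem) (rd : CpRead Mem (aPhys q L Aux)) (pos : APty L Aux → GSite L)
    (car : Fin C.M → Finset (GSite L))
    (hV : C.Valid) (hcost : ∀ P, C.pcost P ≤ (L : ℝ) ^ cW) (hn : C.nsteps ≤ L ^ cN)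
    (hΞ : ∀ t, Fintype.card (C.gate t).Ξ ≤ L ^ cK) (hr : ∀ t, (C.gate t).r ≤ r0)
    (hpos : ∀ x, pos (.inl x) = x)
    (hcar : ∀ t, (car t).Nonempty ∧ AsmConn (car t) ∧ ∀ P ∈ (C.gate t).part, pos P ∈ car t)
    (hcong : ∀ e, asmCong car e ≤ χ)
    (hHS : ∑ x : GCfg q L, ∑ y : GCfg q L,
        ‖C.rho rd (aCfg Aux x) (aCfg Aux y) - Ω x * star (Ω y)‖ ^ 2
          ≤ ((L : ℝ) ^ (-(5 : ℝ))) ^ 2) :
    AsmGoal Ω (asmBond q cK cW cN r0 χ L) := by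
  have hL1 : 1 ≤ L := by omega
  have hLr : (2 : ℝ) ≤ L := by exact_mod_cast hL2
  have hLr1 : (1 : ℝ) ≤ L := by linarith
  obtain ⟨k, hk⟩ : ∃ k : ℕ, k = (4 * L ^ cN * L ^ (4 * cW) * q ^ 4 * L ^ 5 + 1) ^ 2 := ⟨_, rfl⟩
  have hk0 : 0 < k := by rw [hk]; positivity
  have hq1 : 1 ≤ q := Nat.one_le_iff_ne_zero.2 (NeZero.ne q)
  obtain ⟨ω, hω⟩ := cp_compression C hV rd ((L : ℝ) ^ cW) (q : ℝ) (one_le_pow₀ hLr1)
    (by exact_mod_cast hq1) hcost (fun P => by exact_mod_cast asmt_card_aPhys q L Aux P) k hk0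
  obtain ⟨δ, hδ⟩ : ∃ δ : ℝ, δ = ((L : ℝ) ^ 5)⁻¹ := ⟨_, rfl⟩
  have hδ0 : 0 ≤ δ := by rw [hδ]; positivity
  have hε : (1 + ((L : ℝ) ^ cW) ^ 4 * (q : ℝ) ^ 4 / Real.sqrt k) ^ C.nsteps - 1 ≤ δ := by
    rw [hk, hδ]
    exact asmt_eps_le q cW cN L C.nsteps hL1 hn
  have hdual := cp_hs_of_dual (C.sigma k rd ω - C.rho rd) δ (fun W hW => (hω W hW).trans hε)
  -- restriction to grid configurations
  have hres : ∑ x : GCfg q L, ∑ y : GCfg q L,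
      ‖(C.sigma k rd ω - C.rho rd) (aCfg Aux x) (aCfg Aux y)‖ ^ 2 ≤ δ ^ 2 := by
    refine le_trans ?_ hdual
    calc ∑ x : GCfg q L, ∑ y : GCfg q L,
          ‖(C.sigma k rd ω - C.rho rd) (aCfg Aux x) (aCfg Aux y)‖ ^ 2
        ≤ ∑ x : GCfg q L, ∑ y', ‖(C.sigma k rd ω - C.rho rd) (aCfg Aux x) y'‖ ^ 2 :=
          Finset.sum_le_sum fun x _ => asmt_sum_comp_le _ (asmt_aCfg_injective Aux)
            (fun y' => ‖(C.sigma k rd ω - C.rho rd) (aCfg Aux x) y'‖ ^ 2) fun _ => by positivity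
      _ ≤ _ := asmt_sum_comp_le _ (asmt_aCfg_injective Aux)
            (fun x' => ∑ y', ‖(C.sigma k rd ω - C.rho rd) x' y'‖ ^ 2)
            fun _ => Finset.sum_nonneg fun _ _ => by positivity
  have hrp : (L : ℝ) ^ (-(5 : ℝ)) = δ := by
    rw [Real.rpow_neg (by positivity), hδ]
    norm_cast
  rw [hrp] at hHS
  let S : Matrix (GCfg q L) (GCfg q L) ℂ :=
    Matrix.of fun x y => C.sigma k rd ω (aCfg Aux x) (aCfg Aux y)
  have hδL : 2 * δ ≤ 1 / (2 * (L : ℝ)) := by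
    have h1 : 4 * (L : ℝ) ≤ (L : ℝ) ^ 5 := by
      have h2 : (4 : ℝ) ≤ (L : ℝ) ^ 4 := by
        calc (4 : ℝ) ≤ 2 ^ 4 := by norm_num
          _ ≤ (L : ℝ) ^ 4 := pow_le_pow_left₀ (by norm_num) hLr 4
      calc 4 * (L : ℝ) ≤ (L : ℝ) ^ 4 * L := mul_le_mul_of_nonneg_right h2 (by linarith)
        _ = (L : ℝ) ^ 5 := by ring
    have h3 : δ ≤ (4 * (L : ℝ))⁻¹ := by
      rw [hδ]
      exact inv_anti₀ (by linarith) h1
    have h4 : (4 * (L : ℝ))⁻¹ * 2 = 1 / (2 * (L : ℝ)) := by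
      field_simp
      norm_num
    linarith
  have hS : ∑ x, ∑ y, ‖S x y - Ω x * star (Ω y)‖ ^ 2 ≤ (1 / (2 * (L : ℝ))) ^ 2 := by
    have h1 : ∀ x y, S x y - Ω x * star (Ω y)
        = (C.sigma k rd ω - C.rho rd) (aCfg Aux x) (aCfg Aux y)
          + (C.rho rd (aCfg Aux x) (aCfg Aux y) - Ω x * star (Ω y)) := by
      intro x y
      simp only [S, Matrix.of_apply, Matrix.sub_apply]
      ring
    simp_rw [h1]
    refine (asmt_sum2_add_sq_le _ _).trans ?_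
    calc 2 * ∑ x : GCfg q L, ∑ y : GCfg q L,
            ‖(C.sigma k rd ω - C.rho rd) (aCfg Aux x) (aCfg Aux y)‖ ^ 2
          + 2 * ∑ x : GCfg q L, ∑ y : GCfg q L,
            ‖C.rho rd (aCfg Aux x) (aCfg Aux y) - Ω x * star (Ω y)‖ ^ 2
        ≤ 2 * δ ^ 2 + 2 * δ ^ 2 := by linarith
      _ = (2 * δ) ^ 2 := by ring
      _ ≤ (1 / (2 * (L : ℝ))) ^ 2 := pow_le_pow_left₀ (by linarith) hδL 2
  have hη1 : 1 / (2 * (L : ℝ)) < 1 := by
    rw [div_lt_one (by linarith)]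
    linarith
  obtain ⟨z, hz0, θ, hθ⟩ := asm_columns Ω hΩ S (1 / (2 * (L : ℝ))) (by positivity) hη1 hS
  -- the column as a network
  let N' : CpNet (APty L Aux) (aPhys q L Aux) :=
    { V := C.NetV
      D := C.NetD k
      use := C.netUse
      T := fun P x β => (C.net k rd ω).T P (x, aCfg Aux z P) β
      loc := fun P x β β' h => (C.net k rd ω).loc P _ β β' h }
  have hne : ∀ v : N'.V, (asmtCar (fun t => (C.gate t).r) car v).Nonempty := by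
    rintro (t | p)
    · exact (hcar t).1
    · exact (hcar p.1).1
  have hconn : ∀ v : N'.V, AsmConn (asmtCar (fun t => (C.gate t).r) car v) := by
    rintro (t | p)
    · exact (hcar t).2.1
    · exact (hcar p.1).2.1
  have huse : ∀ v : N'.V, ∀ P ∈ N'.use v, pos P ∈ asmtCar (fun t => (C.gate t).r) car v := by
    rintro (t | p) P hP
    · exact (hcar t).2.2 P hP
    · refine (hcar p.1).2.2 P ?_
      exact Finset.mem_insert_of_mem (Finset.mem_biUnion.2 ⟨p.2, Finset.mem_univ _, hP⟩)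
  have hd : ∀ v : N'.V, Fintype.card (N'.D v) ≤ max (L ^ (2 * cK)) k := by
    intro v
    rw [← Nat.card_eq_fintype_card]
    rcases v with t | p
    · show Nat.card ((C.gate t).Ξ × (C.gate t).Ξ) ≤ _
      rw [Nat.card_prod, Nat.card_eq_fintype_card]
      refine le_trans ?_ (le_max_left _ _)
      calc Fintype.card (C.gate t).Ξ * Fintype.card (C.gate t).Ξ ≤ L ^ cK * L ^ cK :=
            Nat.mul_le_mul (hΞ t) (hΞ t)
        _ = L ^ (2 * cK) := by rw [← pow_add]; congr 1; omega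
    · show Nat.card (Fin k) ≤ _
      rw [Nat.card_fin]
      exact le_max_right _ _
  obtain ⟨A, hA⟩ := asm_net_to_peps N' pos (aRead q L Aux)
    (asmtCar (fun t => (C.gate t).r) car) hne hconn huse (max (L ^ (2 * cK)) k) (χ * (1 + r0))
    (le_trans hk0 (le_max_right _ _)) hd (fun e => asmt_cong _ r0 χ hr car e (hcong e))
  have hAS : pepsVector A = fun σ => S σ z := by
    rw [hA]
    funext σ
    have h1 : (fun P => aRead q L Aux P (σ (pos P))) = aCfg Aux σ :=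
      funext (asmt_aRead Aux pos hpos σ)
    rw [h1]
    rfl
  have hbond : asmBond q cK cW cN r0 χ L = (max (L ^ (2 * cK)) k) ^ (χ * (1 + r0)) := by
    rw [hk]
    rfl
  rw [hbond]
  refine ⟨A, ?_, θ, ?_⟩
  · rw [hAS]
    exact hz0
  · rw [hAS]
    refine hθ.trans (le_of_eq ?_)
    congr 1
    field_simp

theorem asm_large (q : ℕ) [NeZero q] (J Δ : ℝ) (cK cW cN r0 χ L0 : ℕ)
    (h : ProtocolStmt q J Δ cK cW cN r0 χ L0) (L : ℕ) (hL : L0 ≤ L) (hL2 : 2 ≤ L)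
    (M : GModel q J Δ L) : AsmGoal M.Ω (asmBond q cK cW cN r0 χ L) := by
  obtain ⟨Aux, iF, iD, Mem, iMF, iMD, C, rd, pos, car, hV, hcost, hn, hΞ, hr, hpos, hcar, hcong,
    hHS⟩ := h L hL M
  exact asmt_core q cK cW cN r0 χ L hL2 M.Ω M.nrm C rd pos car hV hcost hn hΞ hr hpos hcar hcong hHS

/-- small sizes: the exact PEPS -/
theorem asm_small (q : ℕ) [NeZero q] (L : ℕ) (hL2 : 2 ≤ L) (Ω : GCfg q L → ℂ)
    (hΩ : star Ω ⬝ᵥ Ω = 1) : AsmGoal Ω (q ^ (L * L)) := by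
  have hq1 : 1 ≤ q := Nat.one_le_iff_ne_zero.2 (NeZero.ne q)
  obtain ⟨A, hA⟩ := asm_exact_peps (by omega : 1 ≤ L) hq1 Ω
  have hΩ1 : ∑ x, ‖Ω x‖ ^ 2 = 1 := by
    have h2 : star Ω ⬝ᵥ Ω = ((∑ x, ‖Ω x‖ ^ 2 : ℝ) : ℂ) := by
      simp only [dotProduct, Pi.star_apply, Complex.star_def]
      push_cast
      refine Finset.sum_congr rfl fun x _ => ?_
      rw [Complex.conj_mul']
    rw [h2] at hΩ
    exact_mod_cast hΩ
  refine ⟨A, ?_, 0, ?_⟩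
  · rw [hA]
    intro h0
    rw [h0] at hΩ
    simp at hΩ
  · rw [hA, hΩ1]
    simp only [Real.sqrt_one, Complex.ofReal_one, div_one, Complex.ofReal_zero, zero_mul,
      Complex.exp_zero, one_mul, sub_self, norm_zero, ne_eq, OfNat.ofNat_ne_zero,
      not_false_eq_true, zero_pow, Finset.sum_const_zero]
    positivity

/-- polynomial bound of the explicit bond dimension -/
theorem asmt_bond_le (q cK cW cN r0 χ L : ℕ) (hq : 1 ≤ q) (hL : 1 ≤ L) :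
    asmBond q cK cW cN r0 χ L ≤
      (25 * q ^ 8) ^ (χ * (1 + r0)) * L ^ ((2 * (cN + 4 * cW + 5) + 2 * cK) * (χ * (1 + r0))) := by
  unfold asmBond
  rw [pow_mul L (2 * (cN + 4 * cW + 5) + 2 * cK) (χ * (1 + r0)), ← mul_pow]
  refine Nat.pow_le_pow_left ?_ _
  have hq8 : 1 ≤ 25 * q ^ 8 := by
    have : 1 ≤ q ^ 8 := Nat.one_le_pow _ _ hq
    omega
  refine max_le ?_ ?_
  · calc L ^ (2 * cK) ≤ L ^ (2 * (cN + 4 * cW + 5) + 2 * cK) :=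
          Nat.pow_le_pow_right hL (by omega)
      _ = 1 * L ^ (2 * (cN + 4 * cW + 5) + 2 * cK) := (one_mul _).symm
      _ ≤ 25 * q ^ 8 * L ^ (2 * (cN + 4 * cW + 5) + 2 * cK) := Nat.mul_le_mul_right _ hq8
  · have h1 : L ^ cN * L ^ (4 * cW) * L ^ 5 = L ^ (cN + 4 * cW + 5) := by
      rw [← pow_add, ← pow_add]
    have h2 : 1 ≤ q ^ 4 * L ^ (cN + 4 * cW + 5) :=
      Nat.mul_pos (Nat.pow_pos hq) (Nat.pow_pos hL)
    have h3 : 4 * L ^ cN * L ^ (4 * cW) * q ^ 4 * L ^ 5 + 1 ≤ 5 * (q ^ 4 * L ^ (cN + 4 * cW + 5)) := by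
      have e : 4 * L ^ cN * L ^ (4 * cW) * q ^ 4 * L ^ 5
          = 4 * (q ^ 4 * (L ^ cN * L ^ (4 * cW) * L ^ 5)) := by ring
      rw [e, h1]
      omega
    calc (4 * L ^ cN * L ^ (4 * cW) * q ^ 4 * L ^ 5 + 1) ^ 2
        ≤ (5 * (q ^ 4 * L ^ (cN + 4 * cW + 5))) ^ 2 := Nat.pow_le_pow_left h3 2
      _ = 25 * q ^ 8 * L ^ (2 * (cN + 4 * cW + 5)) := by ring
      _ ≤ 25 * q ^ 8 * L ^ (2 * (cN + 4 * cW + 5) + 2 * cK) :=
          Nat.mul_le_mul_left _ (Nat.pow_le_pow_right hL (by omega))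

/-- **`S0546` from `ProtocolStmt`.** -/
theorem asm_top (q : ℕ) [NeZero q] (hq : 2 ≤ q) (J Δ : ℝ) (hJ : 0 < J) (hΔ : 0 < Δ)
    (cK cW cN r0 χ L0 : ℕ) (h : ProtocolStmt q J Δ cK cW cN r0 χ L0) :
    ∃ C c : ℝ, 0 < C ∧ 0 < c ∧ ∀ L : ℕ, 2 ≤ L →
      ∀ (hv : Fin L × Fin L → Matrix (Fin L × Fin L → Fin q) (Fin L × Fin L → Fin q) ℂ)
        (he : GridEdge L → Matrix (Fin L × Fin L → Fin q) (Fin L × Fin L → Fin q) ℂ),
        (∀ v, HermNormLE (embedAt {v} (hv v)) J) →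
        (∀ e, HermNormLE (embedAt e.support (he e)) J) →
        ∀ (E₀ : ℝ) (Ω : (Fin L × Fin L → Fin q) → ℂ),
          star Ω ⬝ᵥ Ω = 1 →
          gridHamiltonian L q hv he *ᵥ Ω = (E₀ : ℂ) • Ω →
          IsPSD (gridHamiltonian L q hv he - (E₀ : ℂ) • 1 -
              (Δ : ℂ) • (1 - vecMulVec Ω (star Ω))) →
          ∃ D : ℕ, (D : ℝ) ≤ C * (L : ℝ) ^ c ∧
            ∃ A : ∀ v : Fin L × Fin L, Fin q → (IncidentEdge v → Fin D) → ℂ,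
              pepsVector A ≠ 0 ∧
              ∃ θ : ℝ,
                ∑ σ, ‖pepsVector A σ / (Real.sqrt (∑ τ, ‖pepsVector A τ‖ ^ 2) : ℂ) -
                    Complex.exp ((θ : ℂ) * Complex.I) * Ω σ‖ ^ 2 ≤ (1 / (L : ℝ)) ^ 2 := by
  have hq1 : 1 ≤ q := by omega
  obtain ⟨X, hX⟩ : ∃ X : ℕ, X = χ * (1 + r0) := ⟨_, rfl⟩
  obtain ⟨e, he'⟩ : ∃ e : ℕ, e = (2 * (cN + 4 * cW + 5) + 2 * cK) * X := ⟨_, rfl⟩
  have hC1 : (0 : ℝ) < (q : ℝ) ^ (L0 * L0) := by positivity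
  have hC2 : (0 : ℝ) < (25 * (q : ℝ) ^ 8) ^ X := by positivity
  refine ⟨(q : ℝ) ^ (L0 * L0) + (25 * (q : ℝ) ^ 8) ^ X, ((e + 1 : ℕ) : ℝ), by positivity,
    by positivity, ?_⟩
  intro L hL2 hv he hvJ heJ E₀ Ω hΩ heig hgap
  have hLr : (1 : ℝ) ≤ L := by
    have : (2 : ℝ) ≤ L := by exact_mod_cast hL2
    linarith
  rw [Real.rpow_natCast]
  have hLe : (1 : ℝ) ≤ (L : ℝ) ^ (e + 1) := one_le_pow₀ hLr
  rcases Nat.lt_or_ge L L0 with hlt | hge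
  · refine ⟨q ^ (L * L), ?_, asm_small q L hL2 Ω hΩ⟩
    have h1 : ((q ^ (L * L) : ℕ) : ℝ) ≤ (q : ℝ) ^ (L0 * L0) := by
      exact_mod_cast Nat.pow_le_pow_right hq1 (Nat.mul_le_mul hlt.le hlt.le)
    calc ((q ^ (L * L) : ℕ) : ℝ) ≤ (q : ℝ) ^ (L0 * L0) := h1
      _ ≤ (q : ℝ) ^ (L0 * L0) + (25 * (q : ℝ) ^ 8) ^ X := by linarith
      _ = ((q : ℝ) ^ (L0 * L0) + (25 * (q : ℝ) ^ 8) ^ X) * 1 := (mul_one _).symm
      _ ≤ ((q : ℝ) ^ (L0 * L0) + (25 * (q : ℝ) ^ 8) ^ X) * (L : ℝ) ^ (e + 1) :=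
          mul_le_mul_of_nonneg_left hLe (by positivity)
  · let M : GModel q J Δ L :=
      { hv := hv, he := he, hvJ := hvJ, heJ := heJ, E₀ := E₀, Ω := Ω, nrm := hΩ, eig := heig,
        gap := hgap }
    refine ⟨asmBond q cK cW cN r0 χ L, ?_, asm_large q J Δ cK cW cN r0 χ L0 h L hge hL2 M⟩
    have h1 := asmt_bond_le q cK cW cN r0 χ L hq1 (by omega)
    rw [← hX, ← he'] at h1
    have h2 : ((asmBond q cK cW cN r0 χ L : ℕ) : ℝ) ≤ (25 * (q : ℝ) ^ 8) ^ X * (L : ℝ) ^ e := by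
      exact_mod_cast h1
    have h3 : (L : ℝ) ^ e ≤ (L : ℝ) ^ (e + 1) := pow_le_pow_right₀ hLr (Nat.le_succ e)
    calc ((asmBond q cK cW cN r0 χ L : ℕ) : ℝ) ≤ (25 * (q : ℝ) ^ 8) ^ X * (L : ℝ) ^ e := h2
      _ ≤ (25 * (q : ℝ) ^ 8) ^ X * (L : ℝ) ^ (e + 1) := mul_le_mul_of_nonneg_left h3 hC2.le
      _ ≤ ((q : ℝ) ^ (L0 * L0) + (25 * (q : ℝ) ^ 8) ^ X) * (L : ℝ) ^ (e + 1) :=
          mul_le_mul_of_nonneg_right (by linarith) (by positivity)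

end Claimed.Agent.R296
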