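import Claimed.Agent.R296.P2.FrMain
import Claimed.Agent.R296.P2.AsmTop

/-!
# Row 296, paper 2: the arithmetic glue  `GeoStmt ⇒ ProtocolStmt`  (prefix `asg_`; owner helper178)

`GeoStmt` is what Section 6 (files `Geo*.lean`) has to deliver: for `L ≥ L0` and every model an admissible schedule (all hypotheses of
`fr_main`) with `ε = δ = L^(-p)` and polynomial bounds with NATURAL exponents and without constants
(`asg_poly_nat` turns `x ≤ C * L^c` into `x ≤ L^(⌈c⌉₊ + 1)` for `L ≥ max 1 ⌈C⌉₊`).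
`asg_protocol`: `GeoStmt` with `2 (cLen + 7) ≤ p`, `cHI + 7 ≤ p` implies `ProtocolStmt` (for explicit exponents).
Choices: `η = L^-(cLen+7)`, `R = L^cR`, `kk = (R^(m0+2h0) 4(m0+4h0))² L^(2(cLen+7)) + 1`.
-/

set_option autoImplicit false

namespace Claimed.Agent.R296

open Matrix Claims.C0474

/-- **Interface of Section 6 with Sections 5 and 7.** -/
def GeoStmt (q : ℕ) [NeZero q] (J Δ p : ℝ) (cR cLen cAux cHI m0 h0 b w χ L0 : ℕ) : Prop :=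
  ∀ L : ℕ, L0 ≤ L → ∀ M : GModel q J Δ L,
    ∃ (Aux SH HI : Type) (_ : Fintype Aux) (_ : DecidableEq Aux) (_ : Fintype SH)
      (_ : DecidableEq SH) (_ : Fintype HI) (_ : DecidableEq HI)
      (pat : HI → FrPatch M.Ω ((L : ℝ) ^ (-p)))
      (ops : List (FrOp (APty L Aux) SH (GSite L) HI))
      (st0 : FrState (APty L Aux) SH (GSite L) HI) (s0 : SH) (pos : APty L Aux → GSite L)
      (carO : Fin ops.length → Finset (GSite L)),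
      (∀ a, (pat a).nb ≤ L ^ cR) ∧ st0.Init ∧
      FrSchedOk pat ((L : ℝ) ^ (-p)) m0 h0 b ops st0 ∧
      (frRun pat ops st0).Final s0 Sum.inl ∧ (∀ P, frCostly ops P ≤ w) ∧
      (∀ x, pos (.inl x) = x) ∧
      (∀ i, (carO i).Nonempty ∧ AsmConn (carO i) ∧ ∀ P ∈ (ops.get i).part, pos P ∈ carO i) ∧
      (∀ e, asmCong carO e ≤ χ) ∧
      ops.length ≤ L ^ cLen ∧ Fintype.card Aux ≤ L ^ cAux ∧ Fintype.card (SH × HI) ≤ L ^ cHI

/-- polynomial bounds with real constants give polynomial bounds with natural exponents -/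
theorem asg_poly_nat (x L : ℕ) (C c : ℝ) (h : (x : ℝ) ≤ C * (L : ℝ) ^ c) (hL1 : 1 ≤ L)
    (hL : ⌈C⌉₊ ≤ L) : x ≤ L ^ (⌈c⌉₊ + 1) := by
  have hL1' : (1 : ℝ) ≤ L := by exact_mod_cast hL1
  have hC : C ≤ L := (Nat.le_ceil C).trans (by exact_mod_cast hL)
  have h1 : (L : ℝ) ^ c ≤ (L : ℝ) ^ ⌈c⌉₊ := by
    rw [← Real.rpow_natCast]
    exact Real.rpow_le_rpow_of_exponent_le hL1' (Nat.le_ceil c)
  have h0 : (0 : ℝ) ≤ (L : ℝ) ^ c := Real.rpow_nonneg (by positivity) _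
  have h2 : (x : ℝ) ≤ (L : ℝ) ^ (⌈c⌉₊ + 1) := by
    calc (x : ℝ) ≤ C * (L : ℝ) ^ c := h
      _ ≤ L * (L : ℝ) ^ c := mul_le_mul_of_nonneg_right hC h0
      _ ≤ L * (L : ℝ) ^ ⌈c⌉₊ := mul_le_mul_of_nonneg_left h1 (by positivity)
      _ = (L : ℝ) ^ (⌈c⌉₊ + 1) := by rw [pow_succ]; ring
  exact_mod_cast h2

/-- exponent of `kk` -/
def asgEk (cR cLen m0 h0 : ℕ) : ℕ := 2 * (cR * (m0 + 2 * h0) + 1) + 2 * (cLen + 7) + 1

/-- exponent of the number of labels -/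
def asgCK (cR cLen m0 h0 : ℕ) : ℕ :=
  cR * (m0 + 2 * (2 * h0)) + asgEk cR cLen m0 h0 * (2 * (m0 + 2 * (2 * h0)))

/-- threshold -/
def asgL0 (m0 h0 b L0 : ℕ) : ℕ :=
  L0 + 2 + 4 * (m0 + 4 * h0) + frSteps m0 h0 b + 12 + 2 * (m0 + h0)

/-- the bound for the number of labels -/
theorem asg_lab_le (L cR cLen m0 h0 : ℕ) (hL2 : 2 ≤ L) (hL : 4 * (m0 + 4 * h0) ≤ L) :
    frLab (L ^ cR) m0 (2 * h0)
      (((L ^ cR) ^ (m0 + 2 * h0) * (4 * (m0 + 4 * h0))) ^ 2 * L ^ (2 * (cLen + 7)) + 1) ≤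
      L ^ asgCK cR cLen m0 h0 := by
  have hL1 : 1 ≤ L := by omega
  have hX : (L ^ cR) ^ (m0 + 2 * h0) * (4 * (m0 + 4 * h0)) ≤ L ^ (cR * (m0 + 2 * h0) + 1) := by
    rw [← pow_mul, pow_succ]
    exact Nat.mul_le_mul_left _ hL
  generalize hXdef : (L ^ cR) ^ (m0 + 2 * h0) * (4 * (m0 + 4 * h0)) = X at hX ⊢
  have hkk : X ^ 2 * L ^ (2 * (cLen + 7)) + 1 ≤ L ^ asgEk cR cLen m0 h0 := by
    have h1 : X ^ 2 * L ^ (2 * (cLen + 7)) ≤
        L ^ (2 * (cR * (m0 + 2 * h0) + 1) + 2 * (cLen + 7)) := by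
      have e : L ^ (2 * (cR * (m0 + 2 * h0) + 1) + 2 * (cLen + 7)) =
          (L ^ (cR * (m0 + 2 * h0) + 1)) ^ 2 * L ^ (2 * (cLen + 7)) := by
        rw [← pow_mul, ← pow_add]
        congr 1
        ring
      rw [e]
      exact Nat.mul_le_mul_right _ (Nat.pow_le_pow_left hX 2)
    have h2 : 1 ≤ L ^ (2 * (cR * (m0 + 2 * h0) + 1) + 2 * (cLen + 7)) := Nat.one_le_pow _ _ hL1
    have e : L ^ asgEk cR cLen m0 h0 =
        L ^ (2 * (cR * (m0 + 2 * h0) + 1) + 2 * (cLen + 7)) * L := by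
      unfold asgEk
      rw [pow_succ]
    rw [e]
    generalize L ^ (2 * (cR * (m0 + 2 * h0) + 1) + 2 * (cLen + 7)) = Y at h1 h2 ⊢
    generalize X ^ 2 * L ^ (2 * (cLen + 7)) = Z at h1 ⊢
    nlinarith
  have e : L ^ asgCK cR cLen m0 h0 = (L ^ cR) ^ (m0 + 2 * (2 * h0)) *
      (L ^ asgEk cR cLen m0 h0) ^ (2 * (m0 + 2 * (2 * h0))) := by
    unfold asgCK
    rw [← pow_mul, ← pow_mul, ← pow_add]
  unfold frLab
  rw [e]
  exact Nat.mul_le_mul le_rfl (Nat.pow_le_pow_left hkk _)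

/-- the error estimate -/
theorem asg_err_le (L cLen cHI m0 h0 len crd : ℕ) (p : ℝ) (hp : 2 * ((cLen : ℝ) + 7) ≤ p)
    (hp' : (cHI : ℝ) + 7 ≤ p) (hL : 12 + 2 * (m0 + h0) ≤ L) (hlen : len ≤ L ^ cLen)
    (hcrd : crd ≤ L ^ cHI) :
    2 * ((len : ℝ) * frErr ((L : ℝ) ^ (-p)) ((L : ℝ) ^ (-p)) (((L : ℝ) ^ (cLen + 7))⁻¹) m0 h0) +
      2 * (crd : ℝ) * (L : ℝ) ^ (-p) ≤ (L : ℝ) ^ (-(5 : ℝ)) := by
  have hL1 : (1 : ℝ) ≤ L := by
    have : 1 ≤ L := by omega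
    exact_mod_cast this
  have hL0 : (0 : ℝ) < L := by linarith
  have hLr : (12 : ℝ) + 2 * ((m0 : ℝ) + h0) ≤ L := by exact_mod_cast hL
  -- the small quantities
  have e1 : ∀ n : ℕ, (n : ℝ) ≤ p → (L : ℝ) ^ (-p) ≤ ((L : ℝ) ^ n)⁻¹ := by
    intro n hn
    rw [← Real.rpow_natCast, ← Real.rpow_neg hL0.le]
    exact Real.rpow_le_rpow_of_exponent_le hL1 (by linarith)
  have e2 : Real.sqrt ((L : ℝ) ^ (-p)) ≤ ((L : ℝ) ^ (cLen + 7))⁻¹ := by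
    rw [Real.sqrt_eq_rpow, ← Real.rpow_mul hL0.le, ← Real.rpow_natCast, ← Real.rpow_neg hL0.le]
    refine Real.rpow_le_rpow_of_exponent_le hL1 ?_
    push_cast
    linarith
  have e3 : (L : ℝ) ^ (-p) ≤ ((L : ℝ) ^ (cLen + 7))⁻¹ := e1 _ (by push_cast; linarith)
  have e4 : (L : ℝ) ^ (-p) ≤ ((L : ℝ) ^ (cHI + 7))⁻¹ := e1 _ (by push_cast; linarith)
  have hlen' : (len : ℝ) ≤ (L : ℝ) ^ cLen := by exact_mod_cast hlen
  have hcrd' : (crd : ℝ) ≤ (L : ℝ) ^ cHI := by exact_mod_cast hcrd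
  set t : ℝ := ((L : ℝ) ^ 7)⁻¹ with ht
  have ht0 : 0 < t := by positivity
  have f1 : (len : ℝ) * ((L : ℝ) ^ (cLen + 7))⁻¹ ≤ t := by
    calc (len : ℝ) * ((L : ℝ) ^ (cLen + 7))⁻¹ ≤ (L : ℝ) ^ cLen * ((L : ℝ) ^ (cLen + 7))⁻¹ :=
          mul_le_mul_of_nonneg_right hlen' (by positivity)
      _ = t := by
          rw [ht, pow_add]
          field_simp
  have f2 : (crd : ℝ) * ((L : ℝ) ^ (cHI + 7))⁻¹ ≤ t := by
    calc (crd : ℝ) * ((L : ℝ) ^ (cHI + 7))⁻¹ ≤ (L : ℝ) ^ cHI * ((L : ℝ) ^ (cHI + 7))⁻¹ :=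
          mul_le_mul_of_nonneg_right hcrd' (by positivity)
      _ = t := by
          rw [ht, pow_add]
          field_simp
  have hlen0 : (0 : ℝ) ≤ len := by positivity
  have hcrd0 : (0 : ℝ) ≤ crd := by positivity
  have g1 : (len : ℝ) * Real.sqrt ((L : ℝ) ^ (-p)) ≤ t :=
    (mul_le_mul_of_nonneg_left e2 hlen0).trans f1
  have g2 : (len : ℝ) * (L : ℝ) ^ (-p) ≤ t := (mul_le_mul_of_nonneg_left e3 hlen0).trans f1
  have g4 : (crd : ℝ) * (L : ℝ) ^ (-p) ≤ t := (mul_le_mul_of_nonneg_left e4 hcrd0).trans f2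
  have hfin : (L : ℝ) ^ (-(5 : ℝ)) = (L : ℝ) ^ 2 * t := by
    rw [ht, Real.rpow_neg hL0.le]
    have : (L : ℝ) ^ (5 : ℝ) = (L : ℝ) ^ 5 := by
      rw [← Real.rpow_natCast]; norm_num
    rw [this]
    field_simp
  have hmh : (0 : ℝ) ≤ (m0 : ℝ) + h0 := by positivity
  have g2' : ((m0 : ℝ) + h0) * ((len : ℝ) * (L : ℝ) ^ (-p)) ≤ ((m0 : ℝ) + h0) * t :=
    mul_le_mul_of_nonneg_left g2 hmh
  have hsum : 2 * ((len : ℝ) * frErr ((L : ℝ) ^ (-p)) ((L : ℝ) ^ (-p))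
      (((L : ℝ) ^ (cLen + 7))⁻¹) m0 h0) + 2 * (crd : ℝ) * (L : ℝ) ^ (-p) ≤
      (12 + 2 * ((m0 : ℝ) + h0)) * t := by
    unfold frErr
    push_cast
    nlinarith
  rw [hfin]
  refine hsum.trans (mul_le_mul_of_nonneg_right ?_ ht0.le)
  nlinarith

/-- **the glue** -/
theorem asg_protocol (q : ℕ) [NeZero q] (J Δ p : ℝ) (cR cLen cAux cHI m0 h0 b w χ L0 : ℕ)
    (hp : 2 * ((cLen : ℝ) + 7) ≤ p) (hp' : (cHI : ℝ) + 7 ≤ p)
    (h : GeoStmt q J Δ p cR cLen cAux cHI m0 h0 b w χ L0) :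
    ProtocolStmt q J Δ (asgCK cR cLen m0 h0) (asgCK cR cLen m0 h0 * w) (cLen + (cAux + 4) + 1)
      (frSteps m0 h0 b) χ (asgL0 m0 h0 b L0) := by
  intro L hL M
  unfold asgL0 at hL
  obtain ⟨Aux, SH, HI, i1, i2, i3, i4, i5, i6, pat, ops, st0, s0, pos, carO, hnb, hinit, hok,
    hfin, hw, hpos, hcar, hχ, hlen, hAux, hHI⟩ := h L (by omega) M
  have hL1 : 1 ≤ L := by omega
  have hL2 : 2 ≤ L := by omega
  have hLr : (0 : ℝ) < L := by exact_mod_cast hL1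
  set X : ℕ := (L ^ cR) ^ (m0 + 2 * h0) * (4 * (m0 + 4 * h0)) with hX
  set kk : ℕ := X ^ 2 * L ^ (2 * (cLen + 7)) + 1 with hkkdef
  have hη : (0 : ℝ) < ((L : ℝ) ^ (cLen + 7))⁻¹ := by positivity
  have hkk : ((X : ℕ) : ℝ) ^ 2 ≤ (((L : ℝ) ^ (cLen + 7))⁻¹) ^ 2 * kk := by
    rw [hkkdef]
    push_cast
    have h1 : (((L : ℝ) ^ (cLen + 7))⁻¹) ^ 2 * (L : ℝ) ^ (2 * (cLen + 7)) = 1 := by
      rw [mul_comm 2 (cLen + 7), pow_mul, inv_pow]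
      exact inv_mul_cancel₀ (by positivity)
    have h2 : (0 : ℝ) ≤ (((L : ℝ) ^ (cLen + 7))⁻¹) ^ 2 := by positivity
    calc (X : ℝ) ^ 2 = (X : ℝ) ^ 2 * ((((L : ℝ) ^ (cLen + 7))⁻¹) ^ 2 * (L : ℝ) ^ (2 * (cLen + 7))) := by
          rw [h1, mul_one]
      _ ≤ _ := by nlinarith
  obtain ⟨C, rd, car, hV, hcost, hsteps, hlab, hr, hcar', hχ', herr⟩ :=
    fr_main pat M.nrm (Real.rpow_nonneg hLr.le _) ((L : ℝ) ^ (-p)) (((L : ℝ) ^ (cLen + 7))⁻¹) hη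
      (L ^ cR) m0 h0 b kk w hnb (Nat.one_le_pow _ _ hL1) (by rw [hkkdef]; omega) hkk ops st0 hinit
      hok s0 hfin hw pos carO hcar χ hχ
  have hLab : frLab (L ^ cR) m0 (2 * h0) kk ≤ L ^ asgCK cR cLen m0 h0 :=
    asg_lab_le L cR cLen m0 h0 hL2 (by omega)
  refine ⟨Aux, i1, i2, _, inferInstance, inferInstance, C, rd, pos, car, hV, ?_, ?_, ?_, hr, hpos,
    hcar', hχ', ?_⟩
  · intro P
    refine (hcost P).trans ?_
    rw [pow_mul]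
    refine pow_le_pow_left₀ (by positivity) ?_ w
    exact_mod_cast hLab
  · refine hsteps.trans ?_
    have hc : Fintype.card (APty L Aux) + 3 ≤ L ^ (cAux + 4) := by
      have h1 : Fintype.card (APty L Aux) = L * L + Fintype.card Aux := by
        simp [APty, GSite, Fintype.card_sum, Fintype.card_prod]
      have h2 : L ^ cAux ≤ L ^ (cAux + 2) := Nat.pow_le_pow_right hL1 (by omega)
      have h3 : L * L ≤ L ^ (cAux + 2) := by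
        calc L * L = L ^ 2 := (sq L).symm
          _ ≤ L ^ (cAux + 2) := Nat.pow_le_pow_right hL1 (by omega)
      have h4 : 4 ≤ L * L := Nat.mul_le_mul hL2 hL2
      have h5 : L ^ (cAux + 4) = L ^ (cAux + 2) * (L * L) := by ring
      rw [h1, h5]
      nlinarith
    have hs : frSteps m0 h0 b ≤ L := by omega
    calc ops.length * (Fintype.card (APty L Aux) + 3) * frSteps m0 h0 b
        ≤ L ^ cLen * L ^ (cAux + 4) * L := Nat.mul_le_mul (Nat.mul_le_mul hlen hc) hs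
      _ = L ^ (cLen + (cAux + 4) + 1) := by ring
  · intro t
    exact (hlab t).trans hLab
  · refine herr.trans ?_
    have hle := asg_err_le L cLen cHI m0 h0 ops.length (Fintype.card (SH × HI)) p hp hp' (by omega)
      hlen hHI
    refine pow_le_pow_left₀ ?_ hle 2
    have h0 : (0 : ℝ) ≤ (L : ℝ) ^ (-p) := Real.rpow_nonneg hLr.le _
    unfold frErr
    have := Real.sqrt_nonneg ((L : ℝ) ^ (-p))
    positivity

/-- **`S0546` from `GeoStmt`** (so `S0546.lean` is `asg_top q hq J Δ hJ hΔ .. <the theorem of GeoMain.lean>`). -/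
theorem asg_top (q : ℕ) [NeZero q] (hq : 2 ≤ q) (J Δ : ℝ) (hJ : 0 < J) (hΔ : 0 < Δ) (p : ℝ)
    (cR cLen cAux cHI m0 h0 b w χ L0 : ℕ) (hp : 2 * ((cLen : ℝ) + 7) ≤ p)
    (hp' : (cHI : ℝ) + 7 ≤ p) (h : GeoStmt q J Δ p cR cLen cAux cHI m0 h0 b w χ L0) :
    ∃ C c : ℝ, 0 < C ∧ 0 < c ∧ ∀ L : ℕ, 2 ≤ L →
      ∀ (hv : Fin L × Fin L → Matrix (Fin L × Fin L → Fin q) (Fin L × Fin L → Fin q) ℂ)
        (he : GridEdge L → Matrix (Fin L × Fin L → Fin q) (Fin L × Fin L → Fin q) ℂ),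
        (∀ v, HermNormLE (embedAt {v} (hv v)) J) →
        (∀ e, HermNormLE (embedAt e.support (he e)) J) →
        ∀ (E₀ : ℝ) (Ω : (Fin L × Fin L → Fin q) → ℂ),
          star Ω ⬝ᵥ Ω = 1 →
          gridHamiltonian L q hv he *ᵥ Ω = (E₀ : ℂ) • Ω →
          IsPSD (gridHamiltonian L q hv he - (E₀ : ℂ) • 1 -
              (Δ : ℂ) • (1 - vecMulVec Ω (star Ω))) →
          ∃ D : ℕ, (D : ℝ) ≤ C * (L : ℝ) ^ c ∧
            ∃ A : ∀ v : Fin L × Fin L, Fin q → (IncidentEdge v → Fin D) → ℂ,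
              pepsVector A ≠ 0 ∧
              ∃ θ : ℝ,
                ∑ σ, ‖pepsVector A σ / (Real.sqrt (∑ τ, ‖pepsVector A τ‖ ^ 2) : ℂ) -
                    Complex.exp ((θ : ℂ) * Complex.I) * Ω σ‖ ^ 2 ≤ (1 / (L : ℝ)) ^ 2 :=
  asm_top q hq J Δ hJ hΔ _ _ _ _ _ _ (asg_protocol q J Δ p cR cLen cAux cHI m0 h0 b w χ L0 hp hp' h)

end Claimed.Agent.R296
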