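import Mathlib

/-!
# Row 296, paper 2: vectors as column matrices

In the files of `R296/P2` a vector is a column `Matrix n Unit ℂ`, normed by the `L2` operator norm
(= Euclidean norm).  Then `‖A * v‖ ≤ ‖A‖ * ‖v‖` is `Matrix.l2_opNorm_mul`, the inner product is
`vᴴ * w`, and all manipulations are matrix algebra.  `colV` translates from functions `n → ℂ`.
-/

set_option autoImplicit false
set_option linter.unusedSectionVars false

namespace Claimed.Agent.R296

open Matrix
open scoped Matrix.Norms.L2Operator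

variable {n m : Type} [Fintype n] [DecidableEq n] [Fintype m] [DecidableEq m]

/-- a function as a column -/
def colV (v : n → ℂ) : Matrix n Unit ℂ := Matrix.of fun i _ => v i

omit [Fintype n] [DecidableEq n] in
@[simp] theorem colV_apply (v : n → ℂ) (i : n) (u : Unit) : colV v i u = v i := rfl

omit [DecidableEq n] [Fintype m] [DecidableEq m] in
theorem colV_mulVec (A : Matrix m n ℂ) (v : n → ℂ) : colV (A *ᵥ v) = A * colV v := by
  ext i u
  simp [Matrix.mul_apply, Matrix.mulVec, dotProduct]

omit [Fintype n] [DecidableEq n] in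
theorem colV_add (v w : n → ℂ) : colV (v + w) = colV v + colV w := by
  ext i u; simp

omit [Fintype n] [DecidableEq n] in
theorem colV_sub (v w : n → ℂ) : colV (v - w) = colV v - colV w := by
  ext i u; simp

omit [Fintype n] [DecidableEq n] in
theorem colV_smul (c : ℂ) (v : n → ℂ) : colV (c • v) = c • colV v := by
  ext i u; simp

omit [Fintype n] [DecidableEq n] in
theorem colV_injective : Function.Injective (colV : (n → ℂ) → Matrix n Unit ℂ) := by
  intro v w h
  funext i
  exact congrFun (congrFun h i) ()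

/-- the scalar `⟨v, w⟩` -/
def ipC (v w : Matrix n Unit ℂ) : ℂ := (vᴴ * w) () ()

omit [DecidableEq n] in
theorem conjTranspose_mul_eq_ipC (v w : Matrix n Unit ℂ) :
    vᴴ * w = ipC v w • (1 : Matrix Unit Unit ℂ) := by
  ext i j
  simp [ipC]

omit [DecidableEq n] in
theorem ipC_colV (v w : n → ℂ) : ipC (colV v) (colV w) = star v ⬝ᵥ w := by
  simp [ipC, Matrix.mul_apply, dotProduct]

theorem norm_unit_matrix (a : Matrix Unit Unit ℂ) : ‖a‖ = ‖a () ()‖ := by
  have : a = diagonal (fun _ => a () ()) := by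
    ext i j; simp
  rw [this, l2_opNorm_diagonal]
  simp [Pi.norm_def]

theorem norm_sq_eq_ipC (v : Matrix n Unit ℂ) : ‖v‖ ^ 2 = (ipC v v).re := by
  have h1 := l2_opNorm_conjTranspose_mul_self v
  rw [norm_unit_matrix] at h1
  have h2 : (vᴴ * v) () () = ((∑ i, ‖v i ()‖ ^ 2 : ℝ) : ℂ) := by
    simp only [Matrix.mul_apply, conjTranspose_apply]
    push_cast
    refine Finset.sum_congr rfl fun i _ => ?_
    rw [Complex.star_def, Complex.conj_mul']
  have h3 : 0 ≤ ∑ i, ‖v i ()‖ ^ 2 := Finset.sum_nonneg fun i _ => by positivity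
  rw [ipC, h2, Complex.ofReal_re, sq, ← h1, h2, Complex.norm_real, Real.norm_of_nonneg h3]

theorem norm_colV_sq (v : n → ℂ) : ‖colV v‖ ^ 2 = ∑ i, ‖v i‖ ^ 2 := by
  rw [norm_sq_eq_ipC, ipC_colV]
  simp only [dotProduct, Pi.star_apply, Complex.re_sum]
  refine Finset.sum_congr rfl fun i _ => ?_
  rw [Complex.star_def, Complex.conj_mul']
  norm_cast

theorem norm_colV_eq_one_iff (v : n → ℂ) : ‖colV v‖ = 1 ↔ star v ⬝ᵥ v = 1 := by
  have h1 := norm_sq_eq_ipC (colV v)
  rw [ipC_colV] at h1
  have h2 : (star v ⬝ᵥ v).im = 0 := by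
    simp only [dotProduct, Pi.star_apply, Complex.im_sum]
    refine Finset.sum_eq_zero fun i _ => ?_
    rw [Complex.star_def, Complex.conj_mul']
    norm_cast
  constructor
  · intro h
    rw [h] at h1
    apply Complex.ext
    · rw [← h1]; simp
    · rw [h2]; simp
  · intro h
    rw [h] at h1
    have h3 : ‖colV v‖ ^ 2 = 1 := by simpa using h1
    have h4 : 0 ≤ ‖colV v‖ := norm_nonneg _
    nlinarith

end Claimed.Agent.R296
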