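import Claimed.Agent.R296.P2.Model
import Claimed.Agent.R296.P2.Vec
import Claimed.Agent.R296.BridgeNorm
import Claimed.Agent.R296.LocEmb

/-!
# Row 296, paper 2: basic facts on a grid model (package MF)

The interaction terms as one family `M.term i`, `i : GTerm L = GSite L ⊕ GridEdge L`, with supports `gsupp i`:
Hermitian, norm `≤ J`, supported in `gsupp i`; the gap in Loewner form; counting facts.
-/

set_option autoImplicit false
set_option linter.unusedSectionVars false

namespace Claimed.Agent.R296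

open Matrix
open scoped MatrixOrder Matrix.Norms.L2Operator ComplexOrder

/-- local index types of the grid -/
abbrev gio (q L : ℕ) : GSite L → Type := fun _ => Fin q

/-- index type of the interaction terms -/
abbrev GTerm (L : ℕ) : Type := GSite L ⊕ Claims.C0474.GridEdge L

/-- support of an interaction term -/
def gsupp {L : ℕ} : GTerm L → Finset (GSite L)
  | Sum.inl v => {v}
  | Sum.inr e => e.support

variable {q : ℕ} [NeZero q] {J Δ : ℝ} {L : ℕ}

/-- the interaction terms -/
def GModel.term (M : GModel q J Δ L) : GTerm L → Matrix (GCfg q L) (GCfg q L) ℂ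
  | Sum.inl v => Claims.C0474.embedAt {v} (M.hv v)
  | Sum.inr e => Claims.C0474.embedAt e.support (M.he e)

theorem GModel.H_eq_sum (M : GModel q J Δ L) : M.H = ∑ i, M.term i := by
  rw [Fintype.sum_sum_type]
  rfl

theorem GModel.term_herm (M : GModel q J Δ L) (i : GTerm L) : (M.term i).IsHermitian := by
  cases i with
  | inl v => exact (M.hvJ v).1
  | inr e => exact (M.heJ e).1

theorem GModel.H_herm (M : GModel q J Δ L) : M.H.IsHermitian := by
  rw [M.H_eq_sum]
  unfold Matrix.IsHermitian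
  rw [Matrix.conjTranspose_sum]
  exact Finset.sum_congr rfl fun i _ => M.term_herm i

theorem GModel.term_norm_le (hJ : 0 ≤ J) (M : GModel q J Δ L) (i : GTerm L) : ‖M.term i‖ ≤ J := by
  cases i with
  | inl v => exact bn_norm_le hJ (M.hvJ v).1 (M.hvJ v).2.1 (M.hvJ v).2.2
  | inr e => exact bn_norm_le hJ (M.heJ e).1 (M.heJ e).2.1 (M.heJ e).2.2

theorem GModel.term_suppIn (M : GModel q J Δ L) (i : GTerm L) :
    SuppIn (io := gio q L) (gsupp i) (M.term i) := by
  cases i with
  | inl v => exact br_suppIn_embedAt {v} (M.hv v)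
  | inr e => exact br_suppIn_embedAt e.support (M.he e)

/-- the gap in Loewner form -/
theorem GModel.gap_le (M : GModel q J Δ L) :
    (Δ : ℂ) • (1 - pureOp M.Ω) ≤ M.H - (M.E₀ : ℂ) • 1 := by
  rw [Matrix.le_iff]
  exact br_isPSD_iff.mp M.gap

theorem GModel.eig_col (M : GModel q J Δ L) : M.H * colV M.Ω = (M.E₀ : ℂ) • colV M.Ω := by
  rw [← colV_mulVec, ← colV_smul]
  exact congrArg colV M.eig

theorem GModel.norm_col (M : GModel q J Δ L) : ‖colV M.Ω‖ = 1 :=
  (norm_colV_eq_one_iff _).mpr M.nrm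

theorem pureOp_eq_col {n : Type} (v : n → ℂ) : pureOp v = colV v * (colV v)ᴴ := by
  ext i j
  simp [pureOp, vecMulVec_apply, Matrix.mul_apply]

/-! ### counting -/

theorem gsupp_card_le (i : GTerm L) : (gsupp i).card ≤ 2 := by
  cases i with
  | inl v => simp [gsupp]
  | inr e => exact Finset.card_le_two

theorem gsupp_nonempty (i : GTerm L) : (gsupp i).Nonempty := by
  cases i with
  | inl v => simp [gsupp]
  | inr e => exact ⟨e.1.1, by simp [gsupp, Claims.C0474.GridEdge.support]⟩

/-- an edge goes one step to the right or one step up -/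
theorem mfc_edge_cases (e : Claims.C0474.GridEdge L) :
    ((e.1.2.1 : ℕ) = e.1.1.1 + 1 ∧ (e.1.2.2 : ℕ) = e.1.1.2) ∨
      ((e.1.2.1 : ℕ) = e.1.1.1 ∧ (e.1.2.2 : ℕ) = e.1.1.2 + 1) := by
  obtain ⟨h1, h2, h3⟩ := e.2
  have h1' : (e.1.1.1 : ℕ) ≤ e.1.2.1 := h1
  have h2' : (e.1.1.2 : ℕ) ≤ e.1.2.2 := h2
  omega

theorem mfc_site_ext {x y : GSite L} (h1 : (x.1 : ℕ) = y.1) (h2 : (x.2 : ℕ) = y.2) : x = y :=
  Prod.ext (Fin.ext h1) (Fin.ext h2)

theorem mfc_edge_ext {e e' : Claims.C0474.GridEdge L} (h1 : (e.1.1.1 : ℕ) = e'.1.1.1)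
    (h2 : (e.1.1.2 : ℕ) = e'.1.1.2) (h3 : (e.1.2.1 : ℕ) = e'.1.2.1)
    (h4 : (e.1.2.2 : ℕ) = e'.1.2.2) : e = e' :=
  Subtype.ext (Prod.ext (mfc_site_ext h1 h2) (mfc_site_ext h3 h4))

/-- two sites of one support are at sup distance at most one -/
theorem gd_le_one_of_mem_gsupp (i : GTerm L) {x y : GSite L} (hx : x ∈ gsupp i)
    (hy : y ∈ gsupp i) : gd x y ≤ 1 := by
  cases i with
  | inl v =>
    simp only [gsupp, Finset.mem_singleton] at hx hy
    subst hx
    subst hy
    simp [gd, dInf]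
  | inr e =>
    simp only [gsupp, Claims.C0474.GridEdge.support, Finset.mem_insert, Finset.mem_singleton] at hx hy
    have hc := mfc_edge_cases e
    simp only [gd, dInf, gpt]
    refine max_le (abs_le.2 ?_) (abs_le.2 ?_) <;>
      rcases hx with rfl | rfl <;> rcases hy with rfl | rfl <;> constructor <;> omega

/-- the number of edges -/
theorem mfc_card_edge_le (L : ℕ) : Fintype.card (Claims.C0474.GridEdge L) ≤ 2 * L ^ 2 := by
  have h : Function.Injective (fun e : Claims.C0474.GridEdge L =>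
      (e.1.1, decide ((e.1.1.2 : ℕ) = e.1.2.2))) := by
    intro e e' hee
    simp only [Prod.mk.injEq, decide_eq_decide] at hee
    obtain ⟨ha, hd⟩ := hee
    have h1 : (e.1.1.1 : ℕ) = e'.1.1.1 := by rw [ha]
    have h2 : (e.1.1.2 : ℕ) = e'.1.1.2 := by rw [ha]
    have hc := mfc_edge_cases e
    have hc' := mfc_edge_cases e'
    refine mfc_edge_ext h1 h2 ?_ ?_ <;> omega
  have h2 := Fintype.card_le_of_injective _ h
  simp only [Fintype.card_prod, Fintype.card_fin, Fintype.card_bool] at h2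
  nlinarith

/-- the number of terms -/
theorem card_GTerm_le (L : ℕ) : Fintype.card (GTerm L) ≤ 3 * L ^ 2 := by
  have h := mfc_card_edge_le L
  simp only [Fintype.card_sum, Fintype.card_prod, Fintype.card_fin]
  nlinarith

/-- a site lies in at most five supports -/
theorem card_terms_at_le (x : GSite L) :
    (Finset.univ.filter fun i : GTerm L => x ∈ gsupp i).card ≤ 5 := by
  let f : GTerm L → Option (Bool × Bool) := fun i =>
    match i with
    | Sum.inl _ => none
    | Sum.inr e => some (decide (x = e.1.1), decide ((e.1.1.2 : ℕ) = e.1.2.2))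
  have hinj : Set.InjOn f (Finset.univ.filter fun i : GTerm L => x ∈ gsupp i : Finset (GTerm L)) := by
    intro i hi j hj hij
    simp only [Finset.coe_filter, Finset.mem_univ, true_and, Set.mem_ofPred_eq] at hi hj
    cases i with
    | inl v =>
      cases j with
      | inl w =>
        simp only [gsupp, Finset.mem_singleton] at hi hj
        rw [← hi, ← hj]
      | inr e => simp [f] at hij
    | inr e =>
      cases j with
      | inl w => simp [f] at hij
      | inr e' =>
        simp only [f, Option.some.injEq, Prod.mk.injEq, decide_eq_decide] at hij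
        obtain ⟨h1, h2⟩ := hij
        simp only [gsupp, Claims.C0474.GridEdge.support, Finset.mem_insert,
          Finset.mem_singleton] at hi hj
        have hc := mfc_edge_cases e
        have hc' := mfc_edge_cases e'
        congr 1
        by_cases hx : x = e.1.1
        · have hx' : x = e'.1.1 := h1.1 hx
          have e1 : (e.1.1.1 : ℕ) = e'.1.1.1 := by rw [← hx, ← hx']
          have e2 : (e.1.1.2 : ℕ) = e'.1.1.2 := by rw [← hx, ← hx']
          refine mfc_edge_ext e1 e2 ?_ ?_ <;> omega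
        · have hx' : ¬ x = e'.1.1 := fun h => hx (h1.2 h)
          have hb : x = e.1.2 := hi.resolve_left hx
          have hb' : x = e'.1.2 := hj.resolve_left hx'
          have e1 : (e.1.2.1 : ℕ) = e'.1.2.1 := by rw [← hb, ← hb']
          have e2 : (e.1.2.2 : ℕ) = e'.1.2.2 := by rw [← hb, ← hb']
          refine mfc_edge_ext ?_ ?_ e1 e2 <;> omega
  have h := Finset.card_le_card_of_injOn (t := (Finset.univ : Finset (Option (Bool × Bool)))) f
    (fun _ _ => Finset.mem_univ _) hinj
  simpa using h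

/-- an integer rectangle has at most `2 (w₁ + w₂)` crossing edges -/
theorem gbd_rect_le (r : (ℤ × ℤ) × (ℤ × ℤ)) (A : Finset (GSite L))
    (hA : ∀ x, x ∈ A ↔ InRect r (gpt x)) (h1 : r.1.1 ≤ r.2.1 + 1) (h2 : r.1.2 ≤ r.2.2 + 1) :
    ((gbd A : ℕ) : ℤ) ≤ 2 * (r.2.1 - r.1.1 + 1) + 2 * (r.2.2 - r.1.2 + 1) := by
  let f : Claims.C0474.GridEdge L → (ℤ × Bool) ⊕ (ℤ × Bool) := fun e =>
    if (e.1.1.2 : ℕ) = e.1.2.2 then Sum.inl (((e.1.1.2 : ℕ) : ℤ), decide (e.1.1 ∈ A))
    else Sum.inr (((e.1.1.1 : ℕ) : ℤ), decide (e.1.1 ∈ A))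
  let T : Finset ((ℤ × Bool) ⊕ (ℤ × Bool)) :=
    ((Finset.Icc r.1.2 r.2.2) ×ˢ (Finset.univ : Finset Bool)).disjSum
      ((Finset.Icc r.1.1 r.2.1) ×ˢ (Finset.univ : Finset Bool))
  have hA' : ∀ x : GSite L, x ∈ A ↔
      (r.1.1 ≤ ((x.1 : ℕ) : ℤ) ∧ ((x.1 : ℕ) : ℤ) ≤ r.2.1 ∧ r.1.2 ≤ ((x.2 : ℕ) : ℤ) ∧
        ((x.2 : ℕ) : ℤ) ≤ r.2.2) := fun x => hA x
  have hmaps : ∀ e ∈ (Finset.univ.filter fun e : Claims.C0474.GridEdge L =>
      ¬ (e.1.1 ∈ A ↔ e.1.2 ∈ A)), f e ∈ T := by
    intro e he
    simp only [Finset.mem_filter, Finset.mem_univ, true_and] at he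
    rw [hA', hA'] at he
    have hc := mfc_edge_cases e
    simp only [f, T]
    split_ifs with hh
    · rw [Finset.inl_mem_disjSum, Finset.mem_product, Finset.mem_Icc]
      refine ⟨?_, Finset.mem_univ _⟩
      simp only
      by_contra hcon
      apply he
      constructor <;> intro h <;> exfalso <;> omega
    · rw [Finset.inr_mem_disjSum, Finset.mem_product, Finset.mem_Icc]
      refine ⟨?_, Finset.mem_univ _⟩
      simp only
      by_contra hcon
      apply he
      constructor <;> intro h <;> exfalso <;> omega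
  have hinj : Set.InjOn f (Finset.univ.filter fun e : Claims.C0474.GridEdge L =>
      ¬ (e.1.1 ∈ A ↔ e.1.2 ∈ A) : Finset (Claims.C0474.GridEdge L)) := by
    intro e he e' he' hee
    simp only [Finset.coe_filter, Finset.mem_univ, true_and, Set.mem_ofPred_eq] at he he'
    have hc := mfc_edge_cases e
    have hc' := mfc_edge_cases e'
    simp only [f] at hee
    split_ifs at hee with hh hh'
    · simp only [Sum.inl.injEq, Prod.mk.injEq, decide_eq_decide] at hee
      obtain ⟨hj, hs⟩ := hee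
      rw [hA', hA'] at he he' hs
      by_cases ha : (r.1.1 ≤ ((e.1.1.1 : ℕ) : ℤ) ∧ ((e.1.1.1 : ℕ) : ℤ) ≤ r.2.1 ∧
          r.1.2 ≤ ((e.1.1.2 : ℕ) : ℤ) ∧ ((e.1.1.2 : ℕ) : ℤ) ≤ r.2.2)
      · have ha' := hs.1 ha
        have hb := fun h => (not_iff.1 he).2 h ha
        have hb' := fun h => (not_iff.1 he').2 h ha'
        refine mfc_edge_ext ?_ ?_ ?_ ?_ <;> omega
      · have ha' := fun h => ha (hs.2 h)
        have hb := (not_iff.1 he).1 ha
        have hb' := (not_iff.1 he').1 ha'
        refine mfc_edge_ext ?_ ?_ ?_ ?_ <;> omega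
    · simp only [Sum.inr.injEq, Prod.mk.injEq, decide_eq_decide] at hee
      obtain ⟨hj, hs⟩ := hee
      rw [hA', hA'] at he he' hs
      by_cases ha : (r.1.1 ≤ ((e.1.1.1 : ℕ) : ℤ) ∧ ((e.1.1.1 : ℕ) : ℤ) ≤ r.2.1 ∧
          r.1.2 ≤ ((e.1.1.2 : ℕ) : ℤ) ∧ ((e.1.1.2 : ℕ) : ℤ) ≤ r.2.2)
      · have ha' := hs.1 ha
        have hb := fun h => (not_iff.1 he).2 h ha
        have hb' := fun h => (not_iff.1 he').2 h ha'
        refine mfc_edge_ext ?_ ?_ ?_ ?_ <;> omega
      · have ha' := fun h => ha (hs.2 h)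
        have hb := (not_iff.1 he).1 ha
        have hb' := (not_iff.1 he').1 ha'
        refine mfc_edge_ext ?_ ?_ ?_ ?_ <;> omega
  have h := Finset.card_le_card_of_injOn f hmaps hinj
  have hT : T.card = (r.2.2 + 1 - r.1.2).toNat * 2 + (r.2.1 + 1 - r.1.1).toNat * 2 := by
    simp only [T, Finset.card_disjSum, Finset.card_product, Int.card_Icc, Finset.card_univ,
      Fintype.card_bool]
  rw [hT] at h
  unfold gbd
  omega

end Claimed.Agent.R296
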