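import Claimed.Agent.R296.P2.EntSet
import Claimed.Agent.R296.P2.ModelFacts

/-!
# Row 296, paper 2, Lemma 2.2 (`lem:cell-cmi`) in the one-generation form (package P2-CELL, PROVED by helper189)

Cut the cell `k0` (side `s`) into the 3 x 3 pattern with widths `t, s - 2t, t`.
`Hh` = the four corner boxes; `U₁` = the side strips whose adjacent cell belongs to `KK`; `U₀` = centre + other side strips;
`W` = all remaining sites.  `PureEnt.cell_entropy` (EntSet.lean) gives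
`I(G:C|B) ≤ I(U₀ : C ∪ B) + 2 S(Hh) + I(U₁ : C ∪ W)`.
* first and third term `≤ C` by `GCoarseStmt` with `N0 = 5`, `A0 = 1`, `u = s`: the ambient templates are unions of at most 5
  integer rectangles, at sup distance `≥ t > s^β` from every cell of `KK` (resp. every cell outside `KK ∪ {k0}`);
* `S(Hh) ≤ ∑ S(corner) ≤ CA ∑ gbd(corner) ≤ 16 CA t` (`PureEnt.subadd`, `GAreaStmt`, `gbd_rect_le`).
-/

set_option autoImplicit false
set_option linter.unusedSectionVars false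
set_option linter.unusedVariables false

namespace Claimed.Agent.R296

variable {q : ℕ} [NeZero q] {J Δ : ℝ} {L : ℕ}

/-- half-closed box with origin `o` and side `s` -/
def gcl_Box (o : ℤ × ℤ) (s : ℤ) (p : ℤ × ℤ) : Prop :=
  o.1 ≤ p.1 ∧ p.1 < o.1 + s ∧ o.2 ≤ p.2 ∧ p.2 < o.2 + s

/-- origin of a cell -/
def gcl_org (g : ℤ × ℤ) (s : ℤ) (k : ℤ × ℤ) : ℤ × ℤ := (g.1 + s * k.1, g.2 + s * k.2)

theorem gcl_inCell_iff (g : ℤ × ℤ) (s : ℤ) (k p : ℤ × ℤ) :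
    InCell g s k p ↔ gcl_Box (gcl_org g s k) s p := by
  unfold InCell gcl_Box gcl_org
  simp only [mul_add, mul_one, add_assoc]

theorem gcl_inCell_unique {g : ℤ × ℤ} {s : ℤ} (hs : 0 < s) {k k' p : ℤ × ℤ}
    (h : InCell g s k p) (h' : InCell g s k' p) : k = k' := by
  obtain ⟨a1, a2, a3, a4⟩ := h
  obtain ⟨b1, b2, b3, b4⟩ := h'
  have c1 : k.1 < k'.1 + 1 := lt_of_mul_lt_mul_left (by linarith) hs.le
  have c2 : k'.1 < k.1 + 1 := lt_of_mul_lt_mul_left (by linarith) hs.le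
  have c3 : k.2 < k'.2 + 1 := lt_of_mul_lt_mul_left (by linarith) hs.le
  have c4 : k'.2 < k.2 + 1 := lt_of_mul_lt_mul_left (by linarith) hs.le
  exact Prod.ext (by omega) (by omega)

/-- centre and the four side strips -/
def gcl_rect (o : ℤ × ℤ) (s t : ℤ) : Fin 5 → (ℤ × ℤ) × (ℤ × ℤ)
  | 0 => ((o.1 + t, o.2 + t), (o.1 + s - t - 1, o.2 + s - t - 1))
  | 1 => ((o.1, o.2 + t), (o.1 + t - 1, o.2 + s - t - 1))
  | 2 => ((o.1 + s - t, o.2 + t), (o.1 + s - 1, o.2 + s - t - 1))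
  | 3 => ((o.1 + t, o.2), (o.1 + s - t - 1, o.2 + t - 1))
  | 4 => ((o.1 + t, o.2 + s - t), (o.1 + s - t - 1, o.2 + s - 1))

/-- the four corners -/
def gcl_corner (o : ℤ × ℤ) (s t : ℤ) : Fin 4 → (ℤ × ℤ) × (ℤ × ℤ)
  | 0 => ((o.1, o.2), (o.1 + t - 1, o.2 + t - 1))
  | 1 => ((o.1 + s - t, o.2), (o.1 + s - 1, o.2 + t - 1))
  | 2 => ((o.1, o.2 + s - t), (o.1 + t - 1, o.2 + s - 1))
  | 3 => ((o.1 + s - t, o.2 + s - t), (o.1 + s - 1, o.2 + s - 1))

/-- index of the cell adjacent to a strip (the cell itself for the centre) -/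
def gcl_adjIdx (k : ℤ × ℤ) : Fin 5 → ℤ × ℤ
  | 0 => k
  | 1 => (k.1 - 1, k.2)
  | 2 => (k.1 + 1, k.2)
  | 3 => (k.1, k.2 - 1)
  | 4 => (k.1, k.2 + 1)

/-- origin of the adjacent cell -/
def gcl_adj (o : ℤ × ℤ) (s : ℤ) : Fin 5 → ℤ × ℤ
  | 0 => o
  | 1 => (o.1 - s, o.2)
  | 2 => (o.1 + s, o.2)
  | 3 => (o.1, o.2 - s)
  | 4 => (o.1, o.2 + s)

theorem gcl_adj_org (g : ℤ × ℤ) (s : ℤ) (k : ℤ × ℤ) (a : Fin 5) :
    gcl_adj (gcl_org g s k) s a = gcl_org g s (gcl_adjIdx k a) := by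
  fin_cases a <;> simp only [gcl_adj, gcl_org, gcl_adjIdx] <;> refine Prod.ext ?_ ?_ <;>
    simp only [] <;> ring

theorem gcl_sep (o : ℤ × ℤ) (s t : ℤ) (ht : 0 < t) (h2 : 2 * t ≤ s) (a : Fin 5) (e y : ℤ × ℤ)
    (he0 : ¬ gcl_Box o s e) (he1 : ¬ gcl_Box (gcl_adj o s a) s e)
    (hy : InRect (gcl_rect o s t a) y) : t ≤ dInf e y := by
  unfold dInf
  simp only [le_max_iff, le_abs]
  fin_cases a <;> simp only [gcl_Box, gcl_adj, gcl_rect, InRect] at he0 he1 hy ⊢ <;> omega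

theorem gcl_rect_box (o : ℤ × ℤ) (s t : ℤ) (ht : 0 < t) (h2 : 2 * t ≤ s) (a : Fin 5) (y : ℤ × ℤ)
    (hy : InRect (gcl_rect o s t a) y) : gcl_Box o s y := by
  fin_cases a <;> simp only [gcl_Box, gcl_rect, InRect] at hy ⊢ <;> omega

theorem gcl_corner_box (o : ℤ × ℤ) (s t : ℤ) (ht : 0 < t) (h2 : 2 * t ≤ s) (c : Fin 4) (y : ℤ × ℤ)
    (hy : InRect (gcl_corner o s t c) y) : gcl_Box o s y := by
  fin_cases c <;> simp only [gcl_Box, gcl_corner, InRect] at hy ⊢ <;> omega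

theorem gcl_rect_unique (o : ℤ × ℤ) (s t : ℤ) (ht : 0 < t) (h2 : 2 * t ≤ s) (a a' : Fin 5)
    (y : ℤ × ℤ) (hy : InRect (gcl_rect o s t a) y) (hy' : InRect (gcl_rect o s t a') y) : a = a' := by
  fin_cases a <;> fin_cases a' <;> simp only [gcl_rect, InRect] at hy hy' <;>
    first | rfl | (exfalso; omega)

theorem gcl_rect_corner (o : ℤ × ℤ) (s t : ℤ) (ht : 0 < t) (h2 : 2 * t ≤ s) (a : Fin 5) (c : Fin 4)
    (y : ℤ × ℤ) (hy : InRect (gcl_rect o s t a) y) (hy' : InRect (gcl_corner o s t c) y) : False := by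
  fin_cases a <;> fin_cases c <;> simp only [gcl_rect, gcl_corner, InRect] at hy hy' <;> omega

theorem gcl_cover (o : ℤ × ℤ) (s t : ℤ) (y : ℤ × ℤ) (hy : gcl_Box o s y) :
    (∃ a, InRect (gcl_rect o s t a) y) ∨ ∃ c, InRect (gcl_corner o s t c) y := by
  obtain ⟨h1, h2, h3, h4⟩ := hy
  by_cases a1 : y.1 < o.1 + t
  · by_cases b1 : y.2 < o.2 + t
    · exact Or.inr ⟨0, by simp only [gcl_corner, InRect]; omega⟩
    · by_cases b2 : y.2 < o.2 + s - t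
      · exact Or.inl ⟨1, by simp only [gcl_rect, InRect]; omega⟩
      · exact Or.inr ⟨2, by simp only [gcl_corner, InRect]; omega⟩
  · by_cases a2 : y.1 < o.1 + s - t
    · by_cases b1 : y.2 < o.2 + t
      · exact Or.inl ⟨3, by simp only [gcl_rect, InRect]; omega⟩
      · by_cases b2 : y.2 < o.2 + s - t
        · exact Or.inl ⟨0, by simp only [gcl_rect, InRect]; omega⟩
        · exact Or.inl ⟨4, by simp only [gcl_rect, InRect]; omega⟩
    · by_cases b1 : y.2 < o.2 + t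
      · exact Or.inr ⟨1, by simp only [gcl_corner, InRect]; omega⟩
      · by_cases b2 : y.2 < o.2 + s - t
        · exact Or.inl ⟨2, by simp only [gcl_rect, InRect]; omega⟩
        · exact Or.inr ⟨3, by simp only [gcl_corner, InRect]; omega⟩

theorem gcl_box_diam (o : ℤ × ℤ) (s : ℤ) (x y : ℤ × ℤ) (hx : gcl_Box o s x) (hy : gcl_Box o s y) :
    dInf x y ≤ s := by
  unfold dInf
  simp only [max_le_iff, abs_le]
  simp only [gcl_Box] at hx hy
  omega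

/-- `GCoarseStmt` applied to a selection of the five rectangles -/
theorem gcl_coarse {β C u0 : ℝ} (hC : GCoarseStmt q J Δ 5 1 β C u0) (M : GModel q J Δ L)
    (o : ℤ × ℤ) (s t : ℤ) (ht : 0 < t) (h2 : 2 * t ≤ s) (hs : u0 ≤ (s : ℝ)) (sel : Fin 5 → Prop)
    (X E : Finset (GSite L))
    (hX : ∀ x ∈ X, ∃ a, sel a ∧ InRect (gcl_rect o s t a) (gpt x))
    (hE : ∀ e ∈ E, ∀ a, sel a → ∀ y, InRect (gcl_rect o s t a) y →
      (s : ℝ) ^ β < ((dInf (gpt e) y : ℤ) : ℝ)) : M.I X E ≤ C := by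
  classical
  set rect : Fin 5 → (ℤ × ℤ) × (ℤ × ℤ) :=
    fun a => if sel a then gcl_rect o s t a else ((1, 1), (0, 0)) with hrect
  have hr : ∀ a p, InRect (rect a) p ↔ sel a ∧ InRect (gcl_rect o s t a) p := by
    intro a p
    by_cases ha : sel a
    · simp [hrect, ha]
    · simp only [hrect, ha, if_false, false_and, iff_false]
      simp only [InRect]
      omega
  set T : Finset (ℤ × ℤ) := Finset.univ.biUnion fun a => Finset.Icc (rect a).1 (rect a).2 with hT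
  have hTm : ∀ p, p ∈ T ↔ ∃ a, InRect (rect a) p := by
    intro p
    simp only [hT, Finset.mem_biUnion, Finset.mem_univ, true_and, Finset.mem_Icc, Prod.le_def,
      InRect]
    constructor
    · rintro ⟨a, ⟨h1, h2⟩, h3, h4⟩
      exact ⟨a, h1, h3, h2, h4⟩
    · rintro ⟨a, h1, h3, h2, h4⟩
      exact ⟨a, ⟨h1, h2⟩, h3, h4⟩
  refine hC L M (s : ℝ) hs T rect hTm ?_ X E ?_ ?_
  · intro x hx y hy
    obtain ⟨a, ha⟩ := (hTm x).1 hx
    obtain ⟨b, hb⟩ := (hTm y).1 hy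
    have h1 := gcl_rect_box o s t ht h2 a x ((hr a x).1 ha).2
    have h3 := gcl_rect_box o s t ht h2 b y ((hr b y).1 hb).2
    rw [one_mul]
    exact_mod_cast gcl_box_diam o s x y h1 h3
  · intro x hx
    obtain ⟨a, ha, hxa⟩ := hX x hx
    exact (hTm _).2 ⟨a, (hr a _).2 ⟨ha, hxa⟩⟩
  · intro e he y hy
    obtain ⟨a, ha⟩ := (hTm y).1 hy
    exact hE e he a ((hr a y).1 ha).1 y ((hr a y).1 ha).2

/-- entropy of one corner -/
theorem gcl_corner_ent {CA : ℝ} (hCA : 0 ≤ CA) (hA : GAreaStmt q J Δ CA) (M : GModel q J Δ L)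
    (o : ℤ × ℤ) (s t : ℤ) (ht : 0 < t) (c : Fin 4) (K : Finset (GSite L))
    (hK : ∀ x, x ∈ K ↔ InRect (gcl_corner o s t c) (gpt x)) : M.S K ≤ CA * (4 * t) := by
  have h1 := hA L M K
  have h2 : ((gbd K : ℕ) : ℤ) ≤ 4 * t := by
    have h3 := gbd_rect_le (gcl_corner o s t c) K hK
    fin_cases c <;> simp only [gcl_corner] at h3 <;>
      exact (h3 (by omega) (by omega)).trans (by omega)
  have h4 : ((gbd K : ℕ) : ℝ) ≤ 4 * (t : ℝ) := by exact_mod_cast h2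
  exact h1.trans (mul_le_mul_of_nonneg_left h4 hCA)

theorem gCell (hE : EntApiStmt) {CA β C u0 : ℝ} (hCA : 0 ≤ CA) (hA : GAreaStmt q J Δ CA)
    (hC : GCoarseStmt q J Δ 5 1 β C u0) : GCellStmt q J Δ β (2 * C) (32 * CA) (max u0 1) := by
  classical
  intro L M s t g k0 KK hs hst h2t hk0 G B Cc hG hB hdisj hCc
  have hP := M.pureEnt hE
  have hs1 : (1 : ℝ) ≤ (s : ℝ) := (le_max_right _ _).trans hs
  have hsu : u0 ≤ (s : ℝ) := (le_max_left _ _).trans hs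
  have hs0 : 0 < s := by
    have : (0 : ℝ) < (s : ℝ) := by linarith
    exact_mod_cast this
  have ht : 0 < t := by
    have h1 : (0 : ℝ) ≤ (s : ℝ) ^ β := Real.rpow_nonneg (by linarith) _
    have : (0 : ℝ) < (t : ℝ) := by linarith
    exact_mod_cast this
  set o := gcl_org g s k0 with ho
  have hGo : ∀ x, x ∈ G ↔ gcl_Box o s (gpt x) := fun x => (hG x).trans (gcl_inCell_iff _ _ _ _)
  -- the pieces
  obtain ⟨U₀, mU₀⟩ : ∃ U₀ : Finset (GSite L), ∀ x, x ∈ U₀ ↔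
      ∃ a, gcl_adjIdx k0 a ∉ KK ∧ InRect (gcl_rect o s t a) (gpt x) :=
    ⟨Finset.univ.filter fun x => ∃ a, gcl_adjIdx k0 a ∉ KK ∧ InRect (gcl_rect o s t a) (gpt x),
      fun x => by rw [Finset.mem_filter]; exact and_iff_right (Finset.mem_univ x)⟩
  obtain ⟨U₁, mU₁⟩ : ∃ U₁ : Finset (GSite L), ∀ x, x ∈ U₁ ↔
      ∃ a, gcl_adjIdx k0 a ∈ KK ∧ InRect (gcl_rect o s t a) (gpt x) :=
    ⟨Finset.univ.filter fun x => ∃ a, gcl_adjIdx k0 a ∈ KK ∧ InRect (gcl_rect o s t a) (gpt x),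
      fun x => by rw [Finset.mem_filter]; exact and_iff_right (Finset.mem_univ x)⟩
  obtain ⟨K, mK⟩ : ∃ K : Fin 4 → Finset (GSite L), ∀ c x, x ∈ K c ↔
      InRect (gcl_corner o s t c) (gpt x) :=
    ⟨fun c => Finset.univ.filter fun x => InRect (gcl_corner o s t c) (gpt x),
      fun c x => by rw [Finset.mem_filter]; exact and_iff_right (Finset.mem_univ x)⟩
  obtain ⟨W, mW⟩ : ∃ W : Finset (GSite L), ∀ x, x ∈ W ↔ x ∉ G ∧ x ∉ B ∧ x ∉ Cc :=
    ⟨Finset.univ.filter fun x => x ∉ G ∧ x ∉ B ∧ x ∉ Cc,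
      fun x => by rw [Finset.mem_filter]; exact and_iff_right (Finset.mem_univ x)⟩
  obtain ⟨Hh, hHh⟩ : ∃ Hh : Finset (GSite L), Hh = K 0 ∪ K 1 ∪ K 2 ∪ K 3 := ⟨_, rfl⟩
  have mHh : ∀ x, x ∈ Hh ↔ ∃ c, InRect (gcl_corner o s t c) (gpt x) := by
    intro x
    simp only [hHh, Finset.mem_union, mK]
    constructor
    · rintro (((h | h) | h) | h)
      exacts [⟨0, h⟩, ⟨1, h⟩, ⟨2, h⟩, ⟨3, h⟩]
    · rintro ⟨c, h⟩
      fin_cases c
      · exact Or.inl (Or.inl (Or.inl h))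
      · exact Or.inl (Or.inl (Or.inr h))
      · exact Or.inl (Or.inr h)
      · exact Or.inr h
  have hGB : ∀ x, x ∈ G → x ∉ B := by
    intro x hx hxB
    obtain ⟨k, hk, hkx⟩ := (hB x).1 hxB
    have := gcl_inCell_unique hs0 hkx ((hG x).1 hx)
    exact hk0 (this ▸ hk)
  have hCcG : ∀ x, x ∈ Cc → x ∉ G ∧ x ∉ B := by
    intro x hx
    have := Finset.disjoint_left.1 hdisj hx
    simp only [Finset.mem_union, not_or] at this
    exact ⟨this.2, this.1⟩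
  have hU₀G : ∀ x, x ∈ U₀ → x ∈ G := by
    intro x hx
    obtain ⟨a, _, ha⟩ := (mU₀ x).1 hx
    exact (hGo x).2 (gcl_rect_box o s t ht h2t a _ ha)
  have hU₁G : ∀ x, x ∈ U₁ → x ∈ G := by
    intro x hx
    obtain ⟨a, _, ha⟩ := (mU₁ x).1 hx
    exact (hGo x).2 (gcl_rect_box o s t ht h2t a _ ha)
  have hHhG : ∀ x, x ∈ Hh → x ∈ G := by
    intro x hx
    obtain ⟨c, hc⟩ := (mHh x).1 hx
    exact (hGo x).2 (gcl_corner_box o s t ht h2t c _ hc)
  have hU₀₁ : ∀ x, x ∈ U₀ → x ∉ U₁ := by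
    intro x hx hx'
    obtain ⟨a, ha, hxa⟩ := (mU₀ x).1 hx
    obtain ⟨a', ha', hxa'⟩ := (mU₁ x).1 hx'
    have := gcl_rect_unique o s t ht h2t a a' _ hxa hxa'
    exact ha (this ▸ ha')
  have hU₀H : ∀ x, x ∈ U₀ → x ∉ Hh := by
    intro x hx hx'
    obtain ⟨a, _, hxa⟩ := (mU₀ x).1 hx
    obtain ⟨c, hc⟩ := (mHh x).1 hx'
    exact gcl_rect_corner o s t ht h2t a c _ hxa hc
  have hU₁H : ∀ x, x ∈ U₁ → x ∉ Hh := by
    intro x hx hx'
    obtain ⟨a, _, hxa⟩ := (mU₁ x).1 hx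
    obtain ⟨c, hc⟩ := (mHh x).1 hx'
    exact gcl_rect_corner o s t ht h2t a c _ hxa hc
  have hGcov : ∀ x, x ∈ G → x ∈ U₀ ∨ x ∈ Hh ∨ x ∈ U₁ := by
    intro x hx
    rcases gcl_cover o s t _ ((hGo x).1 hx) with ⟨a, ha⟩ | ⟨c, hc⟩
    · by_cases hk : gcl_adjIdx k0 a ∈ KK
      · exact Or.inr (Or.inr ((mU₁ x).2 ⟨a, hk, ha⟩))
      · exact Or.inl ((mU₀ x).2 ⟨a, hk, ha⟩)
    · exact Or.inr (Or.inl ((mHh x).2 ⟨c, hc⟩))
  have hGeq : G = U₀ ∪ Hh ∪ U₁ := by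
    ext x
    simp only [Finset.mem_union]
    constructor
    · intro hx
      rcases hGcov x hx with h | h | h
      exacts [Or.inl (Or.inl h), Or.inl (Or.inr h), Or.inr h]
    · rintro ((h | h) | h)
      exacts [hU₀G x h, hHhG x h, hU₁G x h]
  have main := hP.cell_entropy (U₀ := U₀) (Hh := Hh) (U₁ := U₁) (B := B) (C := Cc) (W := W)
    (by
      intro x
      have gB : x ∈ G → x ∉ B ∧ x ∉ Cc ∧ x ∉ W := fun h =>
        ⟨hGB x h, fun hc => (hCcG x hc).1 h, fun hw => ((mW x).1 hw).1 h⟩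
      exact ⟨fun h => ⟨hU₀H x h, hU₀₁ x h, gB (hU₀G x h)⟩,
        fun h => ⟨fun h' => hU₁H x h' h, gB (hHhG x h)⟩, fun h => gB (hU₁G x h),
        fun h => ⟨fun hc => (hCcG x hc).2 h, fun hw => ((mW x).1 hw).2.1 h⟩,
        fun h hw => ((mW x).1 hw).2.2 h⟩)
    (by
      intro x
      by_cases h1 : x ∈ G
      · rcases hGcov x h1 with h | h | h
        exacts [Or.inl h, Or.inr (Or.inl h), Or.inr (Or.inr (Or.inl h))]
      · by_cases h2 : x ∈ B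
        · exact Or.inr (Or.inr (Or.inr (Or.inl h2)))
        · by_cases h3 : x ∈ Cc
          · exact Or.inr (Or.inr (Or.inr (Or.inr (Or.inl h3))))
          · exact Or.inr (Or.inr (Or.inr (Or.inr (Or.inr ((mW x).2 ⟨h1, h2, h3⟩))))))
  -- separation
  have hsepR : ∀ e : GSite L, e ∉ G → ∀ a, ¬ InCell g s (gcl_adjIdx k0 a) (gpt e) →
      ∀ y, InRect (gcl_rect o s t a) y → (s : ℝ) ^ β < ((dInf (gpt e) y : ℤ) : ℝ) := by
    intro e heG a hea y hy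
    have h1 : ¬ gcl_Box o s (gpt e) := fun h => heG ((hGo e).2 h)
    have h2 : ¬ gcl_Box (gcl_adj o s a) s (gpt e) := by
      rw [ho, gcl_adj_org, ← gcl_inCell_iff]
      exact hea
    have h3 := gcl_sep o s t ht h2t a (gpt e) y h1 h2 hy
    have h4 : (t : ℝ) ≤ ((dInf (gpt e) y : ℤ) : ℝ) := by exact_mod_cast h3
    linarith
  have hsepC : ∀ e ∈ Cc, ∀ a, ∀ y, InRect (gcl_rect o s t a) y →
      (s : ℝ) ^ β < ((dInf (gpt e) y : ℤ) : ℝ) := by
    intro e he a y hy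
    exact hCc e he y ((gcl_inCell_iff _ _ _ _).2 (gcl_rect_box o s t ht h2t a y hy))
  have t1 : sfI M.S U₀ (Cc ∪ B) ≤ C := by
    apply gcl_coarse hC M o s t ht h2t hsu (fun a => gcl_adjIdx k0 a ∉ KK) U₀ (Cc ∪ B)
      (fun x hx => (mU₀ x).1 hx)
    intro e he a ha y hy
    rcases Finset.mem_union.1 he with he | he
    · exact hsepC e he a y hy
    · obtain ⟨k, hk, hke⟩ := (hB e).1 he
      refine hsepR e (fun h => hGB e h he) a (fun h => ?_) y hy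
      have := gcl_inCell_unique hs0 hke h
      exact ha (this ▸ hk)
  have t3 : sfI M.S U₁ (Cc ∪ W) ≤ C := by
    apply gcl_coarse hC M o s t ht h2t hsu (fun a => gcl_adjIdx k0 a ∈ KK) U₁ (Cc ∪ W)
      (fun x hx => (mU₁ x).1 hx)
    intro e he a ha y hy
    rcases Finset.mem_union.1 he with he | he
    · exact hsepC e he a y hy
    · have hw := (mW e).1 he
      exact hsepR e hw.1 a (fun h => hw.2.1 ((hB e).2 ⟨_, ha, h⟩)) y hy
  have t2 : M.S Hh ≤ 16 * CA * t := by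
    have c0 := gcl_corner_ent hCA hA M o s t ht 0 (K 0) (mK 0)
    have c1 := gcl_corner_ent hCA hA M o s t ht 1 (K 1) (mK 1)
    have c2 := gcl_corner_ent hCA hA M o s t ht 2 (K 2) (mK 2)
    have c3 := gcl_corner_ent hCA hA M o s t ht 3 (K 3) (mK 3)
    have s1 := hP.subadd (K 0 ∪ K 1 ∪ K 2) (K 3)
    have s2 := hP.subadd (K 0 ∪ K 1) (K 2)
    have s3 := hP.subadd (K 0) (K 1)
    rw [hHh]
    linarith
  rw [M.CI_eq_sfCI, hGeq]
  linarith

end Claimed.Agent.R296
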