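import Claimed.Agent.R296.P2.CompModel

/-!
# Row 296, P2 Section 4, leaf BASE-A: euclidean norm, contractions, block contractions

Everything is elementary (finite sums, Cauchy-Schwarz).  `CpBC f` says that the block operator
`(v_i)_i ↦ (∑ i, f i o v_i)_o` is a contraction.
-/

set_option autoImplicit false
set_option linter.unusedSectionVars false
set_option linter.unusedDecidableInType false

namespace Claimed.Agent.R296

open Matrix

/-- inner product, conjugate linear in the first argument -/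
def cpIp {n : Type} [Fintype n] (u v : n → ℂ) : ℂ := ∑ i, star (u i) * v i

/-- block contraction (vectors) -/
def CpBCv {I O n : Type} [Fintype I] [Fintype O] [Fintype n] (f : I → O → n → ℂ) : Prop :=
  ∀ u : I → ℂ, ∑ o, cpNsq (∑ i, u i • f i o) ≤ ∑ i, ‖u i‖ ^ 2

section Vec

variable {n : Type} [Fintype n]

theorem cpNsq_nonneg (v : n → ℂ) : 0 ≤ cpNsq v :=
  Finset.sum_nonneg fun _ _ => sq_nonneg _

theorem cpNsq_zero : cpNsq (0 : n → ℂ) = 0 := by
  simp [cpNsq]

theorem cpNsq_smul (c : ℂ) (v : n → ℂ) : cpNsq (c • v) = ‖c‖ ^ 2 * cpNsq v := by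
  rw [cpNsq, cpNsq, Finset.mul_sum]
  refine Finset.sum_congr rfl fun i _ => ?_
  rw [Pi.smul_apply, smul_eq_mul, norm_mul, mul_pow]

theorem cpIp_self (v : n → ℂ) : cpIp v v = ((cpNsq v : ℝ) : ℂ) := by
  rw [cpIp, cpNsq, Complex.ofReal_sum]
  refine Finset.sum_congr rfl fun i _ => ?_
  rw [Complex.star_def, Complex.conj_mul']
  push_cast
  rfl

theorem cpIp_conj (u v : n → ℂ) : star (cpIp u v) = cpIp v u := by
  rw [cpIp, cpIp, star_sum]
  refine Finset.sum_congr rfl fun i _ => ?_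
  rw [star_mul', star_star, mul_comm]

theorem cpIp_add_right (u v w : n → ℂ) : cpIp u (v + w) = cpIp u v + cpIp u w := by
  simp only [cpIp, Pi.add_apply, mul_add, Finset.sum_add_distrib]

theorem cpIp_smul_right (c : ℂ) (u v : n → ℂ) : cpIp u (c • v) = c * cpIp u v := by
  simp only [cpIp, Pi.smul_apply, smul_eq_mul, Finset.mul_sum]
  exact Finset.sum_congr rfl fun i _ => by ring

theorem cpIp_smul_left (c : ℂ) (u v : n → ℂ) : cpIp (c • u) v = star c * cpIp u v := by
  simp only [cpIp, Pi.smul_apply, smul_eq_mul, Finset.mul_sum, star_mul']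
  exact Finset.sum_congr rfl fun i _ => by ring

theorem cpIp_sum_right {ι : Type} (s : Finset ι) (u : n → ℂ) (v : ι → n → ℂ) :
    cpIp u (∑ i ∈ s, v i) = ∑ i ∈ s, cpIp u (v i) := by
  simp only [cpIp, Finset.sum_apply, Finset.mul_sum]
  exact Finset.sum_comm

theorem cpIp_sum_left {ι : Type} (s : Finset ι) (u : ι → n → ℂ) (v : n → ℂ) :
    cpIp (∑ i ∈ s, u i) v = ∑ i ∈ s, cpIp (u i) v := by
  simp only [cpIp, Finset.sum_apply, star_sum, Finset.sum_mul]
  exact Finset.sum_comm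

/-- Cauchy-Schwarz -/
theorem cpIp_norm_sq_le (u v : n → ℂ) : ‖cpIp u v‖ ^ 2 ≤ cpNsq u * cpNsq v := by
  have h1 : ‖cpIp u v‖ ≤ ∑ i, ‖u i‖ * ‖v i‖ := by
    rw [cpIp]
    refine (norm_sum_le _ _).trans (le_of_eq (Finset.sum_congr rfl fun i _ => ?_))
    rw [norm_mul, norm_star]
  calc ‖cpIp u v‖ ^ 2 ≤ (∑ i, ‖u i‖ * ‖v i‖) ^ 2 := pow_le_pow_left₀ (norm_nonneg _) h1 2
    _ ≤ cpNsq u * cpNsq v := Finset.sum_mul_sq_le_sq_mul_sq _ _ _

/-- Cauchy-Schwarz for families -/
theorem cpIp_sum_norm_sq_le {α : Type} [Fintype α] (x y : α → n → ℂ) :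
    ‖∑ a, cpIp (x a) (y a)‖ ^ 2 ≤ (∑ a, cpNsq (x a)) * ∑ a, cpNsq (y a) := by
  have h := cpIp_norm_sq_le (fun p : α × n => x p.1 p.2) (fun p : α × n => y p.1 p.2)
  simpa only [cpIp, cpNsq, Fintype.sum_prod_type] using h

/-- from `N² ≤ V N` to `N ≤ V` -/
theorem cp_le_of_sq_le_mul {N V : ℝ} (hN : 0 ≤ N) (hV : 0 ≤ V) (h : N ^ 2 ≤ V * N) : N ≤ V := by
  rcases hN.eq_or_lt with h0 | h0
  · rw [← h0]; exact hV
  · have : N * N ≤ V * N := by rwa [← sq]
    exact le_of_mul_le_mul_right this h0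

/-- adjoint -/
theorem cpIp_mulVec {m : Type} [Fintype m] (A : Matrix m n ℂ) (u : m → ℂ) (v : n → ℂ) :
    cpIp u (A *ᵥ v) = cpIp (Aᴴ *ᵥ u) v := by
  simp only [cpIp, mulVec, dotProduct, conjTranspose_apply, star_sum, star_mul', star_star,
    Finset.mul_sum, Finset.sum_mul]
  rw [Finset.sum_comm]
  exact Finset.sum_congr rfl fun j _ => Finset.sum_congr rfl fun i _ => by ring

/-- `Tr (T |v⟩⟨u|) = ⟨u, T v⟩` -/
theorem cp_trace_mul_vecMulVec [DecidableEq n] (T : Matrix n n ℂ) (u v : n → ℂ) :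
    Matrix.trace (T * vecMulVec v (star u)) = cpIp u (T *ᵥ v) := by
  simp only [Matrix.trace, Matrix.diag_apply, Matrix.mul_apply, vecMulVec_apply, cpIp, mulVec,
    dotProduct, Pi.star_apply, Finset.mul_sum]
  exact Finset.sum_congr rfl fun i _ => Finset.sum_congr rfl fun j _ => by ring

end Vec

section Contr

variable {n : Type} [Fintype n] [DecidableEq n]

theorem CpContr.one : CpContr (1 : Matrix n n ℂ) := fun v => by rw [one_mulVec]

theorem CpContr.mul {A B : Matrix n n ℂ} (hA : CpContr A) (hB : CpContr B) : CpContr (A * B) :=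
  fun v => by
    rw [← mulVec_mulVec]
    exact (hA _).trans (hB v)

theorem CpRow.conjTranspose {α : Type} [Fintype α] {s : α → Matrix n n ℂ} (h : CpRow s) :
    CpCol fun a => (s a)ᴴ := by
  intro v
  set w : α → n → ℂ := fun a => (s a)ᴴ *ᵥ v with hw
  set N : ℝ := ∑ a, cpNsq (w a) with hN
  have hN0 : 0 ≤ N := Finset.sum_nonneg fun a _ => cpNsq_nonneg _
  have e : ((N : ℝ) : ℂ) = cpIp v (∑ a, s a *ᵥ w a) := by
    rw [cpIp_sum_right, hN, Complex.ofReal_sum]
    refine Finset.sum_congr rfl fun a _ => ?_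
    rw [cpIp_mulVec, ← cpIp_self]
  have h1 := cpIp_norm_sq_le v (∑ a, s a *ᵥ w a)
  rw [← e, Complex.norm_real, Real.norm_of_nonneg hN0] at h1
  exact cp_le_of_sq_le_mul hN0 (cpNsq_nonneg v)
    (h1.trans (mul_le_mul_of_nonneg_left (h w) (cpNsq_nonneg v)))

theorem CpCol.conjTranspose {α : Type} [Fintype α] {s : α → Matrix n n ℂ} (h : CpCol s) :
    CpRow fun a => (s a)ᴴ := by
  intro v
  set y : n → ℂ := ∑ a, (s a)ᴴ *ᵥ v a with hy
  set N : ℝ := cpNsq y with hN
  have hN0 : 0 ≤ N := cpNsq_nonneg _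
  have hV0 : 0 ≤ ∑ a, cpNsq (v a) := Finset.sum_nonneg fun a _ => cpNsq_nonneg _
  have e : ((N : ℝ) : ℂ) = ∑ a, cpIp (v a) (s a *ᵥ y) := by
    rw [hN, ← cpIp_self]
    conv_lhs => rw [hy, cpIp_sum_left]
    refine Finset.sum_congr rfl fun a _ => ?_
    rw [cpIp_mulVec]
  have h1 := cpIp_sum_norm_sq_le v (fun a => s a *ᵥ y)
  rw [← e, Complex.norm_real, Real.norm_of_nonneg hN0] at h1
  exact cp_le_of_sq_le_mul hN0 hV0 (h1.trans (mul_le_mul_of_nonneg_left (h y) hV0))

theorem CpContr.conjTranspose {A : Matrix n n ℂ} (hA : CpContr A) : CpContr Aᴴ := by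
  have hrow : CpRow (fun _ : Unit => A) := fun v => by
    simpa only [Finset.univ_unique, Finset.sum_singleton] using hA (v default)
  have hcol := hrow.conjTranspose
  intro v
  simpa only [Finset.univ_unique, Finset.sum_singleton] using hcol v

theorem cpNsq_eq_norm_sq (v : n → ℂ) :
    cpNsq v = ‖(WithLp.toLp 2 v : EuclideanSpace ℂ n)‖ ^ 2 := by
  rw [cpNsq, EuclideanSpace.norm_sq_eq]

/-- bridge to the operator norm used in the rest of row 296 -/
theorem cpContr_iff_norm_le_one (A : Matrix n n ℂ) :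
    CpContr A ↔ (open scoped Matrix.Norms.L2Operator in ‖A‖ ≤ 1) := by
  constructor
  · intro h
    rw [Matrix.l2_opNorm_def]
    refine ContinuousLinearMap.opNorm_le_bound _ zero_le_one fun x => ?_
    rw [one_mul]
    have h1 := h (WithLp.ofLp x)
    rw [cpNsq_eq_norm_sq, cpNsq_eq_norm_sq] at h1
    exact (pow_le_pow_iff_left₀ (norm_nonneg _) (norm_nonneg _) two_ne_zero).1 h1
  · intro h v
    rw [cpNsq_eq_norm_sq, cpNsq_eq_norm_sq]
    have h1 := Matrix.l2_opNorm_mulVec A (WithLp.toLp 2 v)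
    have h2 : ‖(WithLp.toLp 2 (A *ᵥ v) : EuclideanSpace ℂ n)‖
        ≤ ‖(WithLp.toLp 2 v : EuclideanSpace ℂ n)‖ :=
      h1.trans ((mul_le_mul_of_nonneg_right h (norm_nonneg _)).trans (le_of_eq (one_mul _)))
    exact pow_le_pow_left₀ (norm_nonneg _) h2 2

theorem CpRow.contr {α : Type} [Fintype α] [DecidableEq α] {s : α → Matrix n n ℂ} (h : CpRow s)
    (a : α) : CpContr (s a) := by
  intro w
  have h1 := h (Pi.single a w)
  have e1 : ∑ b, s b *ᵥ (Pi.single a w : α → n → ℂ) b = s a *ᵥ w := by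
    rw [Finset.sum_eq_single a]
    · rw [Pi.single_eq_same]
    · intro b _ hb
      rw [Pi.single_eq_of_ne hb, mulVec_zero]
    · intro hh
      exact absurd (Finset.mem_univ a) hh
  have e2 : ∑ b, cpNsq ((Pi.single a w : α → n → ℂ) b) = cpNsq w := by
    rw [Finset.sum_eq_single a]
    · rw [Pi.single_eq_same]
    · intro b _ hb
      rw [Pi.single_eq_of_ne hb, cpNsq_zero]
    · intro hh
      exact absurd (Finset.mem_univ a) hh
  rwa [e1, e2] at h1

theorem CpCol.contr {α : Type} [Fintype α] {s : α → Matrix n n ℂ} (h : CpCol s) (a : α) :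
    CpContr (s a) := fun v =>
  (Finset.single_le_sum (f := fun a => cpNsq (s a *ᵥ v)) (fun _ _ => cpNsq_nonneg _)
    (Finset.mem_univ a)).trans (h v)

/-- a source link is a contraction (no commutation needed) -/
theorem cp_link_contr_row {α : Type} [Fintype α] [DecidableEq α] {s s' : α → Matrix n n ℂ}
    (h : CpRow s) (h' : CpRow s') (lam : α → ℝ) (h0 : ∀ a, 0 ≤ lam a) (h1 : ∑ a, lam a ≤ 1) :
    CpContr (∑ a, ((Real.sqrt (lam a) : ℝ) : ℂ) • (s a * s' a)) := by
  intro v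
  have e : (∑ a, ((Real.sqrt (lam a) : ℝ) : ℂ) • (s a * s' a)) *ᵥ v
      = ∑ a, s a *ᵥ (((Real.sqrt (lam a) : ℝ) : ℂ) • (s' a *ᵥ v)) := by
    rw [Matrix.sum_mulVec]
    refine Finset.sum_congr rfl fun a _ => ?_
    rw [smul_mulVec, ← mulVec_mulVec, mulVec_smul]
  rw [e]
  calc cpNsq (∑ a, s a *ᵥ (((Real.sqrt (lam a) : ℝ) : ℂ) • (s' a *ᵥ v)))
      ≤ ∑ a, cpNsq (((Real.sqrt (lam a) : ℝ) : ℂ) • (s' a *ᵥ v)) := h _
    _ = ∑ a, lam a * cpNsq (s' a *ᵥ v) := by
        refine Finset.sum_congr rfl fun a _ => ?_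
        rw [cpNsq_smul, Complex.norm_real, Real.norm_of_nonneg (Real.sqrt_nonneg _),
          Real.sq_sqrt (h0 a)]
    _ ≤ ∑ a, lam a * cpNsq v :=
        Finset.sum_le_sum fun a _ => mul_le_mul_of_nonneg_left (h'.contr a v) (h0 a)
    _ = (∑ a, lam a) * cpNsq v := by rw [Finset.sum_mul]
    _ ≤ 1 * cpNsq v := mul_le_mul_of_nonneg_right h1 (cpNsq_nonneg v)
    _ = cpNsq v := one_mul _

/-- an effect link is a contraction (no commutation needed) -/
theorem cp_link_contr_col {α : Type} [Fintype α] [DecidableEq α] {s s' : α → Matrix n n ℂ}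
    (h : CpCol s) (h' : CpCol s') (lam : α → ℝ) (h0 : ∀ a, 0 ≤ lam a) (h1 : ∑ a, lam a ≤ 1) :
    CpContr (∑ a, ((Real.sqrt (lam a) : ℝ) : ℂ) • (s a * s' a)) := by
  have h2 := (cp_link_contr_row h'.conjTranspose h.conjTranspose lam h0 h1).conjTranspose
  have e : (∑ a, ((Real.sqrt (lam a) : ℝ) : ℂ) • ((s' a)ᴴ * (s a)ᴴ))ᴴ
      = ∑ a, ((Real.sqrt (lam a) : ℝ) : ℂ) • (s a * s' a) := by
    rw [conjTranspose_sum]
    refine Finset.sum_congr rfl fun a _ => ?_
    rw [conjTranspose_smul, conjTranspose_mul, conjTranspose_conjTranspose,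
      conjTranspose_conjTranspose, Complex.star_def, Complex.conj_ofReal]
  rwa [e] at h2

end Contr

section BC

variable {n : Type} [Fintype n] [DecidableEq n]

theorem cpBC_of_contr {A : Matrix n n ℂ} (hA : CpContr A) :
    CpBC (fun (_ _ : Unit) => A) := fun v => by
  simpa only [Finset.univ_unique, Finset.sum_singleton] using hA (v default)

theorem cpBC_of_row {α : Type} [Fintype α] {s : α → Matrix n n ℂ} (h : CpRow s) :
    CpBC (fun (a : α) (_ : Unit) => s a) := fun v => by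
  simpa only [Finset.univ_unique, Finset.sum_singleton] using h v

theorem cpBC_of_col {α : Type} [Fintype α] {s : α → Matrix n n ℂ} (h : CpCol s) :
    CpBC (fun (_ : Unit) (a : α) => s a) := fun v => by
  simpa only [Finset.univ_unique, Finset.sum_singleton] using h (v default)

/-- composition of block contractions: `g` acts after `f` -/
theorem CpBC.comp {I O I' O' : Type} [Fintype I] [Fintype O] [Fintype I'] [Fintype O']
    {f : I → O → Matrix n n ℂ} {g : I' → O' → Matrix n n ℂ} (hf : CpBC f) (hg : CpBC g) :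
    CpBC (fun (i : I × I') (o : O × O') => g i.2 o.2 * f i.1 o.1) := by
  intro v
  have e : ∀ o : O × O', ∑ i : I × I', (g i.2 o.2 * f i.1 o.1) *ᵥ v i
      = ∑ i', g i' o.2 *ᵥ (∑ i, f i o.1 *ᵥ v (i, i')) := by
    intro o
    rw [Fintype.sum_prod_type_right]
    refine Finset.sum_congr rfl fun i' _ => ?_
    rw [mulVec_sum]
    refine Finset.sum_congr rfl fun i _ => ?_
    rw [mulVec_mulVec]
  simp only [e]
  rw [Fintype.sum_prod_type]
  calc ∑ o, ∑ o', cpNsq (∑ i', g i' o' *ᵥ (∑ i, f i o *ᵥ v (i, i')))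
      ≤ ∑ o, ∑ i', cpNsq (∑ i, f i o *ᵥ v (i, i')) :=
        Finset.sum_le_sum fun o _ => hg fun i' => ∑ i, f i o *ᵥ v (i, i')
    _ = ∑ i', ∑ o, cpNsq (∑ i, f i o *ᵥ v (i, i')) := Finset.sum_comm
    _ ≤ ∑ i', ∑ i, cpNsq (v (i, i')) := Finset.sum_le_sum fun i' _ => hf fun i => v (i, i')
    _ = ∑ i : I × I', cpNsq (v i) := (Fintype.sum_prod_type_right fun i : I × I' => cpNsq (v i)).symm

/-- reindexing of a block contraction along equivalences -/
theorem CpBC.reindex {I O I' O' : Type} [Fintype I] [Fintype O] [Fintype I'] [Fintype O']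
    {f : I → O → Matrix n n ℂ} (hf : CpBC f) (e : I' ≃ I) (e' : O' ≃ O) :
    CpBC (fun i o => f (e i) (e' o)) := by
  intro v
  have h := hf (fun i => v (e.symm i))
  rw [← Equiv.sum_comp e' , ← Equiv.sum_comp e (fun i => cpNsq (v (e.symm i)))] at h
  simp only [Equiv.symm_apply_apply] at h
  refine le_trans (le_of_eq ?_) h
  refine Finset.sum_congr rfl fun o _ => ?_
  rw [← Equiv.sum_comp e (fun i => f i (e' o) *ᵥ v (e.symm i))]
  simp only [Equiv.symm_apply_apply]

/-- apply a block contraction to a vector of norm at most one -/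
theorem CpBC.vec {I O : Type} [Fintype I] [Fintype O] {f : I → O → Matrix n n ℂ} (hf : CpBC f)
    {ψ : n → ℂ} (hψ : cpNsq ψ ≤ 1) : CpBCv (fun i o => f i o *ᵥ ψ) := by
  intro u
  have h := hf (fun i => u i • ψ)
  simp only [mulVec_smul, cpNsq_smul] at h
  refine h.trans (Finset.sum_le_sum fun i _ => ?_)
  calc ‖u i‖ ^ 2 * cpNsq ψ ≤ ‖u i‖ ^ 2 * 1 := mul_le_mul_of_nonneg_left hψ (sq_nonneg _)
    _ = ‖u i‖ ^ 2 := mul_one _

end BC

end Claimed.Agent.R296
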