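import Claimed.Agent.R296.P2.CompBaseA

/-!
# Row 296, P2 Section 4, leaf BASE-B: time ordered products, finite averages, independence

* `cpTprod_sum` : a time ordered product of sums is the sum over choice functions;
* `cpAvg` : average over a finite type; `cpAvg_mul_of_dependsOn` : independence on finite products.
-/

set_option autoImplicit false

namespace Claimed.Agent.R296

open Matrix

section Tprod

theorem cpTprod_zero {R : Type*} [Monoid R] (f : Fin 0 → R) : cpTprod 0 f = 1 := rfl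

theorem cpTprod_succ {R : Type*} [Monoid R] (n : ℕ) (f : Fin (n + 1) → R) :
    cpTprod (n + 1) f = f (Fin.last n) * cpTprod n (fun i => f i.castSucc) := rfl

theorem cpTprod_congr {R : Type*} [Monoid R] (n : ℕ) {f g : Fin n → R} (h : ∀ i, f i = g i) :
    cpTprod n f = cpTprod n g :=
  congrArg (cpTprod n) (funext h)

theorem cpTprod_one {R : Type*} [Monoid R] (n : ℕ) : cpTprod n (fun _ => (1 : R)) = 1 := by
  induction n with
  | zero => rfl
  | succ n ih => rw [cpTprod_succ, ih, mul_one]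

/-- a predicate closed under multiplication passes to time ordered products -/
theorem cpTprod_mem {R : Type*} [Monoid R] (p : R → Prop) (h1 : p 1)
    (hmul : ∀ a b, p a → p b → p (a * b)) (n : ℕ) (f : Fin n → R) (hf : ∀ i, p (f i)) :
    p (cpTprod n f) := by
  induction n with
  | zero => exact h1
  | succ n ih =>
    rw [cpTprod_succ]
    exact hmul _ _ (hf _) (ih _ fun i => hf _)

/-- monoid homomorphisms commute with time ordered products -/
theorem cpTprod_map {R S : Type*} [Monoid R] [Monoid S] (φ : R →* S) (n : ℕ) (f : Fin n → R) :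
    φ (cpTprod n f) = cpTprod n (fun i => φ (f i)) := by
  induction n with
  | zero => exact map_one φ
  | succ n ih => rw [cpTprod_succ, cpTprod_succ, map_mul, ih]

/-- product of sums = sum over choice functions (noncommutative) -/
theorem cpTprod_sum {R : Type*} [Semiring R] (n : ℕ) (κ : Fin n → Type) [∀ i, Fintype (κ i)]
    (f : ∀ i, κ i → R) :
    cpTprod n (fun i => ∑ j, f i j) = ∑ p : ∀ i, κ i, cpTprod n (fun i => f i (p i)) := by
  induction n with
  | zero =>
    simp only [cpTprod_zero]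
    rw [Finset.sum_const, Finset.card_univ, Fintype.card_unique, one_smul]
  | succ n ih =>
    rw [cpTprod_succ, ih (fun i => κ i.castSucc) (fun i => f i.castSucc), Finset.sum_mul_sum,
      ← Equiv.sum_comp (Fin.snocEquiv κ), Fintype.sum_prod_type]
    refine Finset.sum_congr rfl fun j _ => Finset.sum_congr rfl fun p _ => ?_
    rw [cpTprod_succ]
    simp only [Fin.snocEquiv, Equiv.coe_fn_mk, Fin.snoc_last, Fin.snoc_castSucc]

/-- separation of two commuting families -/
theorem cpTprod_mul_of_commute {R : Type*} [Monoid R] (n : ℕ) (a x : Fin n → R)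
    (h : ∀ i j, Commute (a i) (x j)) :
    cpTprod n (fun i => a i * x i) = cpTprod n a * cpTprod n x := by
  induction n with
  | zero => exact (mul_one 1).symm
  | succ n ih =>
    rw [cpTprod_succ, cpTprod_succ, cpTprod_succ,
      ih (fun i => a i.castSucc) (fun i => x i.castSucc) fun i j => h _ _]
    have hc : Commute (cpTprod n fun i => a i.castSucc) (x (Fin.last n)) :=
      cpTprod_mem (fun r => Commute r (x (Fin.last n))) (Commute.one_left _)
        (fun _ _ h1 h2 => h1.mul_left h2) n _ fun i => h _ _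
    calc a (Fin.last n) * x (Fin.last n) *
          ((cpTprod n fun i => a i.castSucc) * cpTprod n fun i => x i.castSucc)
        = a (Fin.last n) * (x (Fin.last n) * (cpTprod n fun i => a i.castSucc)) *
            cpTprod n fun i => x i.castSucc := by simp only [mul_assoc]
      _ = a (Fin.last n) * ((cpTprod n fun i => a i.castSucc) * x (Fin.last n)) *
            cpTprod n fun i => x i.castSucc := by rw [hc.eq]
      _ = _ := by simp only [mul_assoc]

/-- scalars -/
theorem cpTprod_smul {R : Type*} [Semiring R] [Algebra ℂ R] (n : ℕ) (c : Fin n → ℂ)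
    (f : Fin n → R) : cpTprod n (fun i => c i • f i) = (∏ i, c i) • cpTprod n f := by
  induction n with
  | zero => simp [cpTprod_zero]
  | succ n ih =>
    rw [cpTprod_succ, cpTprod_succ, ih (fun i => c i.castSucc) (fun i => f i.castSucc),
      smul_mul_smul_comm, Fin.prod_univ_castSucc, mul_comm]

/-- adjoint action of a time ordered product (`R ↦ A R Bᴴ` composes) -/
theorem cpTprod_sandwich {m : Type} [Fintype m] [DecidableEq m] (n : ℕ)
    (A B : Fin n → Matrix m m ℂ) (R : Matrix m m ℂ) :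
    (cpTprod n fun i => (show Module.End ℂ (Matrix m m ℂ) from
      (LinearMap.mulLeft ℂ (A i)).comp (LinearMap.mulRight ℂ (B i)ᴴ))) R
      = cpTprod n A * R * (cpTprod n B)ᴴ := by
  induction n with
  | zero => simp [cpTprod_zero]
  | succ n ih =>
    rw [cpTprod_succ, cpTprod_succ, cpTprod_succ, Module.End.mul_apply,
      ih (fun i => A i.castSucc) (fun i => B i.castSucc), conjTranspose_mul]
    simp only [LinearMap.comp_apply, LinearMap.mulLeft_apply, LinearMap.mulRight_apply,
      Matrix.mul_assoc]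

theorem CpContr.tprod {m : Type} [Fintype m] [DecidableEq m] (n : ℕ) (A : Fin n → Matrix m m ℂ)
    (h : ∀ i, CpContr (A i)) : CpContr (cpTprod n A) :=
  cpTprod_mem (fun M : Matrix m m ℂ => CpContr M) CpContr.one (fun _ _ ha hb => ha.mul hb) n A h

end Tprod

section Avg

/-- average over a finite type -/
noncomputable def cpAvg {Ω E : Type} [Fintype Ω] [AddCommMonoid E] [Module ℝ E] (f : Ω → E) : E :=
  ((Fintype.card Ω : ℝ)⁻¹) • ∑ ω, f ω

variable {Ω : Type} [Fintype Ω]

theorem cpAvg_const [Nonempty Ω] {E : Type} [AddCommMonoid E] [Module ℝ E] (c : E) :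
    cpAvg (fun _ : Ω => c) = c := by
  have h : (Fintype.card Ω : ℝ) ≠ 0 := by exact_mod_cast Fintype.card_ne_zero
  rw [cpAvg, Finset.sum_const, Finset.card_univ, ← Nat.cast_smul_eq_nsmul ℝ, smul_smul,
    inv_mul_cancel₀ h, one_smul]

theorem cpAvg_add {E : Type} [AddCommMonoid E] [Module ℝ E] (f g : Ω → E) :
    cpAvg (fun ω => f ω + g ω) = cpAvg f + cpAvg g := by
  rw [cpAvg, cpAvg, cpAvg, Finset.sum_add_distrib, smul_add]

theorem cpAvg_sum {E ι : Type} [AddCommMonoid E] [Module ℝ E] (s : Finset ι) (f : ι → Ω → E) :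
    cpAvg (fun ω => ∑ i ∈ s, f i ω) = ∑ i ∈ s, cpAvg (f i) := by
  simp only [cpAvg]
  rw [Finset.sum_comm, Finset.smul_sum]

theorem cpAvg_mul_left (c : ℝ) (f : Ω → ℝ) : cpAvg (fun ω => c * f ω) = c * cpAvg f := by
  rw [cpAvg, cpAvg, ← Finset.mul_sum, smul_eq_mul, smul_eq_mul]
  ring

theorem cpAvg_mul_leftC (c : ℂ) (f : Ω → ℂ) : cpAvg (fun ω => c * f ω) = c * cpAvg f := by
  rw [cpAvg, cpAvg, ← Finset.mul_sum, Complex.real_smul, Complex.real_smul]
  ring

theorem cpAvg_mono {f g : Ω → ℝ} (h : ∀ ω, f ω ≤ g ω) : cpAvg f ≤ cpAvg g := by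
  rw [cpAvg, cpAvg, smul_eq_mul, smul_eq_mul]
  exact mul_le_mul_of_nonneg_left (Finset.sum_le_sum fun ω _ => h ω)
    (inv_nonneg.2 (Nat.cast_nonneg _))

theorem cpAvg_ofReal (f : Ω → ℝ) : cpAvg (fun ω => ((f ω : ℝ) : ℂ)) = ((cpAvg f : ℝ) : ℂ) := by
  rw [cpAvg, cpAvg, Complex.real_smul, smul_eq_mul]
  push_cast
  rfl

/-- Jensen / Cauchy-Schwarz: `E √Y ≤ √(E Y)` -/
theorem cpAvg_sqrt_le [Nonempty Ω] (f : Ω → ℝ) (h : ∀ ω, 0 ≤ f ω) :
    cpAvg (fun ω => Real.sqrt (f ω)) ≤ Real.sqrt (cpAvg f) := by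
  have hc : (0 : ℝ) < Fintype.card Ω := by exact_mod_cast Fintype.card_pos
  apply Real.le_sqrt_of_sq_le
  rw [cpAvg, cpAvg, smul_eq_mul, smul_eq_mul, mul_pow]
  have h1 := Finset.sum_mul_sq_le_sq_mul_sq Finset.univ (fun _ : Ω => (1 : ℝ))
    (fun ω => Real.sqrt (f ω))
  simp only [one_mul, one_pow, Finset.sum_const, Finset.card_univ, nsmul_eq_mul, mul_one] at h1
  have h2 : ∑ ω, Real.sqrt (f ω) ^ 2 = ∑ ω, f ω :=
    Finset.sum_congr rfl fun ω _ => Real.sq_sqrt (h ω)
  rw [h2] at h1
  calc ((Fintype.card Ω : ℝ))⁻¹ ^ 2 * (∑ ω, Real.sqrt (f ω)) ^ 2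
      ≤ ((Fintype.card Ω : ℝ))⁻¹ ^ 2 * ((Fintype.card Ω : ℝ) * ∑ ω, f ω) :=
        mul_le_mul_of_nonneg_left h1 (sq_nonneg _)
    _ = ((Fintype.card Ω : ℝ))⁻¹ * ∑ ω, f ω := by
        field_simp

/-- first moment method -/
theorem cp_exists_le_avg [Nonempty Ω] (f : Ω → ℝ) : ∃ ω, f ω ≤ cpAvg f := by
  have hc : (Fintype.card Ω : ℝ) ≠ 0 := by exact_mod_cast Fintype.card_ne_zero
  have h : ∑ ω, f ω ≤ ∑ _ω : Ω, cpAvg f := by
    rw [Finset.sum_const, Finset.card_univ, nsmul_eq_mul, cpAvg, smul_eq_mul, ← mul_assoc,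
      mul_inv_cancel₀ hc, one_mul]
  obtain ⟨ω, -, hω⟩ := Finset.exists_le_of_sum_le Finset.univ_nonempty h
  exact ⟨ω, hω⟩

open Classical in
/-- independence: functions of disjoint blocks of coordinates of a finite product -/
theorem cpAvg_mul_of_dependsOn {ι : Type} [Fintype ι] [DecidableEq ι] {W : ι → Type}
    [∀ i, Fintype (W i)] [∀ i, Nonempty (W i)] (f g : (∀ i, W i) → ℂ) (J J' : Set ι)
    (hJ : Disjoint J J') (hf : DependsOn f J) (hg : DependsOn g J') :
    cpAvg (fun ω => f ω * g ω) = cpAvg f * cpAvg g := by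
  have hc : ((Fintype.card (∀ i, W i) : ℝ) : ℂ) ≠ 0 := by
    exact_mod_cast Fintype.card_ne_zero
  let mix : (∀ i, W i) → (∀ i, W i) → ∀ i, W i := fun ω ω' i => if i ∈ J then ω i else ω' i
  have hinv : Function.Involutive
      (fun x : (∀ i, W i) × (∀ i, W i) => ((mix x.1 x.2, mix x.2 x.1) : (∀ i, W i) × (∀ i, W i))) := by
    rintro ⟨ω, ω'⟩
    refine Prod.ext (funext fun i => ?_) (funext fun i => ?_) <;>
    · by_cases hi : i ∈ J <;> simp [mix, hi]
  have hfm : ∀ ω ω', f (mix ω ω') = f ω := fun ω ω' => hf fun i hi => by simp [mix, hi]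
  have hgm : ∀ ω ω', g (mix ω ω') = g ω' := fun ω ω' => hg fun i hi => by
    have : i ∉ J := fun h => (Set.disjoint_left.1 hJ h) hi
    simp [mix, this]
  have key : (∑ ω, f ω) * ∑ ω', g ω' = (Fintype.card (∀ i, W i) : ℂ) * ∑ ω, f ω * g ω := by
    calc (∑ ω, f ω) * ∑ ω', g ω'
        = ∑ x : (∀ i, W i) × (∀ i, W i), f x.1 * g x.2 := by
          rw [Finset.sum_mul_sum, Fintype.sum_prod_type]
      _ = ∑ x : (∀ i, W i) × (∀ i, W i), f (mix x.1 x.2) * g (mix x.1 x.2) :=
          Finset.sum_congr rfl fun x _ => by rw [hfm, hgm]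
      _ = ∑ x : (∀ i, W i) × (∀ i, W i), f x.1 * g x.1 :=
          Equiv.sum_comp hinv.toPerm (fun x : (∀ i, W i) × (∀ i, W i) => f x.1 * g x.1)
      _ = (Fintype.card (∀ i, W i) : ℂ) * ∑ ω, f ω * g ω := by
          rw [Fintype.sum_prod_type, Finset.mul_sum]
          refine Finset.sum_congr rfl fun ω _ => ?_
          dsimp only
          rw [Finset.sum_const, Finset.card_univ, nsmul_eq_mul]
  simp only [cpAvg, Complex.real_smul]
  push_cast
  push_cast at hc
  have : ((Fintype.card (∀ i, W i) : ℂ))⁻¹ * (∑ ω, f ω) * (((Fintype.card (∀ i, W i) : ℂ))⁻¹ * ∑ ω, g ω)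
      = ((Fintype.card (∀ i, W i) : ℂ))⁻¹ * ((Fintype.card (∀ i, W i) : ℂ))⁻¹ *
        ((∑ ω, f ω) * ∑ ω', g ω') := by ring
  rw [this, key]
  field_simp

/-- a function of one coordinate: the average is the average over that coordinate -/
theorem cpAvg_eval {ι : Type} [Fintype ι] [DecidableEq ι] {W : ι → Type}
    [∀ i, Fintype (W i)] [∀ i, Nonempty (W i)] (i : ι) (f : W i → ℂ) :
    cpAvg (fun ω : ∀ i, W i => f (ω i)) = cpAvg f := by
  have hc : (Fintype.card (∀ i, W i) : ℂ) ≠ 0 := by exact_mod_cast Fintype.card_ne_zero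
  have hc' : (Fintype.card (W i) : ℂ) ≠ 0 := by exact_mod_cast Fintype.card_ne_zero
  have hinv : Function.Involutive
      (fun x : (∀ i, W i) × W i => ((Function.update x.1 i x.2, x.1 i) : (∀ i, W i) × W i)) := by
    rintro ⟨s, y⟩
    simp
  have key : (Fintype.card (∀ i, W i) : ℂ) * ∑ y, f y
      = (Fintype.card (W i) : ℂ) * ∑ ω : ∀ i, W i, f (ω i) := by
    calc (Fintype.card (∀ i, W i) : ℂ) * ∑ y, f y
        = ∑ x : (∀ i, W i) × W i, f x.2 := by
          rw [Fintype.sum_prod_type]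
          dsimp only
          rw [Finset.sum_const, Finset.card_univ, nsmul_eq_mul]
      _ = ∑ x : (∀ i, W i) × W i, f (Function.update x.1 i x.2 i) :=
          Finset.sum_congr rfl fun x _ => by rw [Function.update_self]
      _ = ∑ x : (∀ i, W i) × W i, f (x.1 i) :=
          Equiv.sum_comp hinv.toPerm (fun x : (∀ i, W i) × W i => f (x.1 i))
      _ = (Fintype.card (W i) : ℂ) * ∑ ω : ∀ i, W i, f (ω i) := by
          rw [Fintype.sum_prod_type, Finset.mul_sum]
          refine Finset.sum_congr rfl fun ω _ => ?_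
          dsimp only
          rw [Finset.sum_const, Finset.card_univ, nsmul_eq_mul]
  simp only [cpAvg, Complex.real_smul]
  push_cast
  field_simp
  linear_combination -key

end Avg

end Claimed.Agent.R296
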