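import Claimed.Agent.R296.P2.CompCore

/-!
# Row 296, P2 Section 4, package CORE-C: Lemma W, the core bound, the second moment

PROOFS.
**Lemma W.**  `√(wI wO wI' wO') ≤ (wI wO' + wI' wO)/2` (AM-GM).  First half: for fixed `i, o'`:
`∑_{o} ∑_{i'} |⟨f' i' o', T f i o⟩|² ≤ ∑_o ‖T f i o‖² ≤ ∑_o ‖f i o‖² ≤ 1`; the first step is BESSEL for the
family `i' ↦ f' i' o'`: put `β i' = ⟨f' i' o', φ⟩`; `∑|β|² = ⟨∑ β i' • f' i' o', φ⟩ ≤ ‖∑ β • f'‖ ‖φ‖ ≤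
(∑|β|²)^{1/2} ‖φ‖` by `hf'` (drop the other `o'`); the last step is `hf` with `u = δ_i`.  Second half:
the same with the roles exchanged and `Tᴴ` (`cpIp_mulVec`, `CpContr.conjTranspose`).
**Core bound.**  `Tr(E M op |ψ⟩⟨ψ| op'ᴴ) = ⟨op' ψ, E M op ψ⟩` (`cp_trace_mul_vecMulVec`), `E M a x = (E a)(M x)`
(`hs.comm`), `hs.fac` gives `⟨a'ψ, E a ψ⟩ ⟨x'ψ, M x ψ⟩`.  So the trace is `∑_{t,t'} √(τ τ') Z(t,t') N(t,t')`,
`Z = ∑_{c,c'} z (p p')^{1/4} ⟨a'ψ, E a ψ⟩`, `N = ⟨x' ψ, M x ψ⟩`.  Cauchy-Schwarz with weights `√(τ τ')`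
and `∑ √(τ τ') |N|² ≤ 1` (Lemma W for `f (i,o) = x (i,o) ψ`, `CpBC.vec`).
**Second moment.**  `E|∑_κ z_κ y_κ|² = ∑_κ E|z_κ|² |y_κ|² ≤ V ∑ |y_κ|²` by `orth`, `var`; then
`∑ √(τ τ' p p') |⟨a'ψ, E a ψ⟩|² ≤ 1` is Lemma W for `f ((ci,ti),(co,to)) = a ψ` with product weights.
`cp_core_avg`: `cpAvg_sqrt_le` + monotonicity of `√`.
-/

set_option autoImplicit false

namespace Claimed.Agent.R296

open Matrix


/-- Bessel inequality for a family that is a contraction as a map of coefficient vectors -/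
theorem cpc_bessel {J n : Type} [Fintype J] [Fintype n] (g : J → n → ℂ)
    (hg : ∀ u : J → ℂ, cpNsq (∑ j, u j • g j) ≤ ∑ j, ‖u j‖ ^ 2) (φ : n → ℂ) :
    ∑ j, ‖cpIp (g j) φ‖ ^ 2 ≤ cpNsq φ := by
  set β : J → ℂ := fun j => cpIp (g j) φ with hβ
  set S : ℝ := ∑ j, ‖β j‖ ^ 2 with hS
  have hS0 : 0 ≤ S := Finset.sum_nonneg fun j _ => by positivity
  have h1 : cpIp (∑ j, β j • g j) φ = ((S : ℝ) : ℂ) := by
    rw [cpIp_sum_left]
    rw [hS]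
    push_cast
    refine Finset.sum_congr rfl fun j _ => ?_
    rw [cpIp_smul_left, Complex.star_def, Complex.conj_mul']
  have h2 := cpIp_norm_sq_le (∑ j, β j • g j) φ
  rw [h1, Complex.norm_real, Real.norm_eq_abs, sq_abs] at h2
  have h3 : S ^ 2 ≤ S * cpNsq φ :=
    h2.trans (mul_le_mul_of_nonneg_right (hg β) (cpNsq_nonneg φ))
  rcases eq_or_lt_of_le hS0 with h0 | hpos
  · rw [← h0]; exact cpNsq_nonneg φ
  · have : S * S ≤ S * cpNsq φ := by rwa [← sq]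
    exact le_of_mul_le_mul_left this hpos

theorem CpBCv.slice {I O n : Type} [Fintype I] [Fintype O] [Fintype n] {f : I → O → n → ℂ}
    (hf : CpBCv f) (o : O) (u : I → ℂ) : cpNsq (∑ i, u i • f i o) ≤ ∑ i, ‖u i‖ ^ 2 :=
  (Finset.single_le_sum (f := fun o => cpNsq (∑ i, u i • f i o))
    (fun o _ => cpNsq_nonneg _) (Finset.mem_univ o)).trans (hf u)

theorem CpBCv.col {I O n : Type} [Fintype I] [Fintype O] [Fintype n] {f : I → O → n → ℂ}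
    (hf : CpBCv f) (i : I) : ∑ o, cpNsq (f i o) ≤ 1 := by
  classical
  have h := hf (Pi.single i 1)
  have h1 : ∀ o, ∑ j, (Pi.single i (1 : ℂ) : I → ℂ) j • f j o = f i o := by
    intro o
    rw [Finset.sum_eq_single i]
    · simp
    · intro j _ hj; simp [Pi.single_eq_of_ne hj]
    · intro h; exact absurd (Finset.mem_univ i) h
  have h2 : ∑ j, ‖(Pi.single i (1 : ℂ) : I → ℂ) j‖ ^ 2 = 1 := by
    rw [Finset.sum_eq_single i]
    · simp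
    · intro j _ hj; simp [Pi.single_eq_of_ne hj]
    · intro h; exact absurd (Finset.mem_univ i) h
  simp only [h1, h2] at h
  exact h

/-- half of Lemma W -/
theorem cpc_half {I O I' O' n : Type} [Fintype I] [Fintype O] [Fintype I'] [Fintype O']
    [Fintype n] [DecidableEq n] (f : I → O → n → ℂ) (f' : I' → O' → n → ℂ) (hf : CpBCv f)
    (hf' : CpBCv f') (T : Matrix n n ℂ) (hT : CpContr T) (i : I) (o' : O') :
    ∑ o, ∑ i', ‖cpIp (f' i' o') (T *ᵥ f i o)‖ ^ 2 ≤ 1 :=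
  calc ∑ o, ∑ i', ‖cpIp (f' i' o') (T *ᵥ f i o)‖ ^ 2
      ≤ ∑ o, cpNsq (T *ᵥ f i o) :=
        Finset.sum_le_sum fun o _ => cpc_bessel (fun i' => f' i' o') (hf'.slice o') _
    _ ≤ ∑ o, cpNsq (f i o) := Finset.sum_le_sum fun o _ => hT _
    _ ≤ 1 := hf.col i

theorem cp_weighted_hs {I O I' O' n : Type} [Fintype I] [Fintype O] [Fintype I'] [Fintype O']
    [Fintype n] [DecidableEq n] (f : I → O → n → ℂ) (f' : I' → O' → n → ℂ) (hf : CpBCv f)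
    (hf' : CpBCv f') (T : Matrix n n ℂ) (hT : CpContr T)
    (wI : I → ℝ) (wO : O → ℝ) (wI' : I' → ℝ) (wO' : O' → ℝ)
    (hI : ∀ i, 0 ≤ wI i) (hO : ∀ i, 0 ≤ wO i) (hI' : ∀ i, 0 ≤ wI' i) (hO' : ∀ i, 0 ≤ wO' i)
    (sI : ∑ i, wI i ≤ 1) (sO : ∑ i, wO i ≤ 1) (sI' : ∑ i, wI' i ≤ 1) (sO' : ∑ i, wO' i ≤ 1) :
    ∑ i, ∑ o, ∑ i', ∑ o', Real.sqrt (wI i * wO o * (wI' i' * wO' o')) *
      ‖cpIp (f' i' o') (T *ᵥ f i o)‖ ^ 2 ≤ 1 := by
  set N : I → O → I' → O' → ℝ := fun i o i' o' => ‖cpIp (f' i' o') (T *ᵥ f i o)‖ ^ 2 with hN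
  have hN0 : ∀ i o i' o', 0 ≤ N i o i' o' := fun i o i' o' => by positivity
  -- AM-GM
  have amgm : ∀ i o i' o', Real.sqrt (wI i * wO o * (wI' i' * wO' o')) ≤
      (wI i * wO' o' + wI' i' * wO o) / 2 := by
    intro i o i' o'
    have hx : 0 ≤ wI i * wO' o' := mul_nonneg (hI i) (hO' o')
    have hy : 0 ≤ wI' i' * wO o := mul_nonneg (hI' i') (hO o)
    rw [show wI i * wO o * (wI' i' * wO' o') = (wI i * wO' o') * (wI' i' * wO o) by ring]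
    rw [Real.sqrt_le_left (by positivity)]
    nlinarith [sq_nonneg (wI i * wO' o' - wI' i' * wO o)]
  have prodle : ∀ {X Y : Type} [Fintype X] [Fintype Y] (a : X → ℝ) (b : Y → ℝ) (F : X → Y → ℝ),
      (∀ x, 0 ≤ a x) → (∀ y, 0 ≤ b y) → ∑ x, a x ≤ 1 → ∑ y, b y ≤ 1 → (∀ x y, F x y ≤ 1) →
      ∑ x, ∑ y, a x * b y * F x y ≤ 1 := by
    intro X Y _ _ a b F ha hb sa sb hF
    calc ∑ x, ∑ y, a x * b y * F x y ≤ ∑ x, ∑ y, a x * b y :=
          Finset.sum_le_sum fun x _ => Finset.sum_le_sum fun y _ =>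
            mul_le_of_le_one_right (mul_nonneg (ha x) (hb y)) (hF x y)
      _ = (∑ x, a x) * ∑ y, b y := by rw [Finset.sum_mul_sum]
      _ ≤ 1 := mul_le_one₀ sa (Finset.sum_nonneg fun y _ => hb y) sb
  -- first half
  have A : ∑ i, ∑ o, ∑ i', ∑ o', wI i * wO' o' * N i o i' o' ≤ 1 := by
    have e : ∑ i, ∑ o, ∑ i', ∑ o', wI i * wO' o' * N i o i' o' =
        ∑ i, ∑ o', wI i * wO' o' * ∑ o, ∑ i', N i o i' o' := by
      refine Finset.sum_congr rfl fun i _ => ?_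
      rw [(Finset.sum_congr rfl fun o _ => Finset.sum_comm).trans Finset.sum_comm]
      refine Finset.sum_congr rfl fun o' _ => ?_
      simp only [Finset.mul_sum]
    rw [e]
    exact prodle wI wO' _ hI hO' sI sO' fun i o' => cpc_half f f' hf hf' T hT i o'
  -- second half
  have hsymm : ∀ i o i' o', N i o i' o' = ‖cpIp (f i o) (Tᴴ *ᵥ f' i' o')‖ ^ 2 := by
    intro i o i' o'
    simp only [hN]
    rw [cpIp_mulVec, ← cpIp_conj, norm_star]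
  have B : ∑ i, ∑ o, ∑ i', ∑ o', wI' i' * wO o * N i o i' o' ≤ 1 := by
    have e : ∑ i, ∑ o, ∑ i', ∑ o', wI' i' * wO o * N i o i' o' =
        ∑ i', ∑ o, wI' i' * wO o * ∑ o', ∑ i, N i o i' o' := by
      calc ∑ i, ∑ o, ∑ i', ∑ o', wI' i' * wO o * N i o i' o'
          = ∑ i, ∑ i', ∑ o, ∑ o', wI' i' * wO o * N i o i' o' :=
            Finset.sum_congr rfl fun i _ => Finset.sum_comm
        _ = ∑ i', ∑ i, ∑ o, ∑ o', wI' i' * wO o * N i o i' o' := Finset.sum_comm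
        _ = ∑ i', ∑ o, ∑ i, ∑ o', wI' i' * wO o * N i o i' o' :=
            Finset.sum_congr rfl fun i' _ => Finset.sum_comm
        _ = ∑ i', ∑ o, ∑ o', ∑ i, wI' i' * wO o * N i o i' o' :=
            Finset.sum_congr rfl fun i' _ => Finset.sum_congr rfl fun o _ => Finset.sum_comm
        _ = _ := by simp only [Finset.mul_sum]
    rw [e]
    refine prodle wI' wO _ hI' hO sI' sO fun i' o => ?_
    simp only [hsymm]
    exact cpc_half f' f hf' hf Tᴴ hT.conjTranspose i' o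
  calc ∑ i, ∑ o, ∑ i', ∑ o', Real.sqrt (wI i * wO o * (wI' i' * wO' o')) * N i o i' o'
      ≤ ∑ i, ∑ o, ∑ i', ∑ o', ((wI i * wO' o' * N i o i' o') / 2 +
          (wI' i' * wO o * N i o i' o') / 2) := by
        refine Finset.sum_le_sum fun i _ => Finset.sum_le_sum fun o _ =>
          Finset.sum_le_sum fun i' _ => Finset.sum_le_sum fun o' _ => ?_
        have := mul_le_mul_of_nonneg_right (amgm i o i' o') (hN0 i o i' o')
        linarith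
    _ = (∑ i, ∑ o, ∑ i', ∑ o', wI i * wO' o' * N i o i' o') / 2 +
          (∑ i, ∑ o, ∑ i', ∑ o', wI' i' * wO o * N i o i' o') / 2 := by
        simp only [Finset.sum_add_distrib, Finset.sum_div]
    _ ≤ 1 := by linarith


/-- second moment of a linear combination of orthogonal random variables -/
theorem cpc_orth_sum {Ω X : Type} [Fintype Ω] [Fintype X] [DecidableEq X] (z : Ω → X → ℂ)
    (V : ℝ) (horth : ∀ x x', x ≠ x' → cpAvg (fun ω => z ω x * star (z ω x')) = 0)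
    (hvar : ∀ x, cpAvg (fun ω => ‖z ω x‖ ^ 2) ≤ V) (y : X → ℂ) :
    cpAvg (fun ω => ‖∑ x, z ω x * y x‖ ^ 2) ≤ V * ∑ x, ‖y x‖ ^ 2 := by
  have h1 : cpAvg (fun ω => ‖∑ x, z ω x * y x‖ ^ 2) =
      ∑ x, ‖y x‖ ^ 2 * cpAvg (fun ω => ‖z ω x‖ ^ 2) := by
    have hc : (((cpAvg (fun ω => ‖∑ x, z ω x * y x‖ ^ 2) : ℝ)) : ℂ) =
        (((∑ x, ‖y x‖ ^ 2 * cpAvg (fun ω => ‖z ω x‖ ^ 2) : ℝ)) : ℂ) := by
      rw [← cpAvg_ofReal]
      have e : ∀ ω, (((‖∑ x, z ω x * y x‖ ^ 2 : ℝ)) : ℂ) =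
          ∑ x ∈ Finset.univ, ∑ x' ∈ Finset.univ, (y x * star (y x')) * (z ω x * star (z ω x')) := by
        intro ω
        rw [Complex.ofReal_pow, ← Complex.mul_conj', ← Complex.star_def, star_sum,
          Finset.sum_mul_sum]
        refine Finset.sum_congr rfl fun x _ => Finset.sum_congr rfl fun x' _ => ?_
        rw [star_mul']
        ring
      simp only [e]
      rw [cpAvg_sum]
      push_cast
      refine Finset.sum_congr rfl fun x _ => ?_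
      rw [cpAvg_sum, Finset.sum_eq_single x]
      · rw [cpAvg_mul_leftC, ← cpAvg_ofReal]
        congr 1
        · rw [Complex.star_def, Complex.mul_conj']
        · congr 1
          funext ω
          rw [Complex.star_def, Complex.mul_conj', Complex.ofReal_pow]
      · intro x' _ hx'
        rw [cpAvg_mul_leftC, horth x x' (Ne.symm hx'), mul_zero]
      · intro h; exact absurd (Finset.mem_univ x) h
    exact_mod_cast hc
  rw [h1, Finset.mul_sum]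
  refine Finset.sum_le_sum fun x _ => ?_
  rw [mul_comm]
  exact mul_le_mul_of_nonneg_right (hvar x) (by positivity)


variable {n : Type} [Fintype n] [DecidableEq n] {ι : Type} [Fintype ι] [DecidableEq ι]
  {W : ι → Type} [∀ i, Fintype (W i)] [∀ i, Nonempty (W i)]
  {AA XX : Set (Matrix n n ℂ)} {ψ : n → ℂ}

/-- one term of the double layer pairing -/
theorem cpc_term (hs : CpSides AA XX ψ) {E M a x a' x' : Matrix n n ℂ} (hE : E ∈ AA) (hM : M ∈ XX)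
    (ha : a ∈ AA) (hx : x ∈ XX) (ha' : a' ∈ AA) (hx' : x' ∈ XX) :
    Matrix.trace (E * M * ((a * x) * (vecMulVec ψ (star ψ) * (a' * x')ᴴ))) =
      cpIp (a' *ᵥ ψ) (E *ᵥ (a *ᵥ ψ)) * cpIp (x' *ᵥ ψ) (M *ᵥ (x *ᵥ ψ)) := by
  have h1 : vecMulVec ψ (star ψ) * (a' * x')ᴴ = vecMulVec ψ (star ((a' * x') *ᵥ ψ)) := by
    rw [Matrix.vecMulVec_mul, Matrix.star_mulVec]
  rw [h1, Matrix.mul_vecMulVec, cp_trace_mul_vecMulVec, Matrix.mulVec_mulVec]
  have h2 : E * M * (a * x) = (E * a) * (M * x) := by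
    rw [Matrix.mul_assoc, ← Matrix.mul_assoc M a x, ← hs.comm a ha M hM]
    simp only [Matrix.mul_assoc]
  rw [h2, hs.fac (E * a) (hs.mul_A E hE a ha) a' ha' (M * x) (hs.mul_X M hM x hx) x' hx']
  simp only [Matrix.mulVec_mulVec]

/-- weighted Cauchy-Schwarz for complex sums -/
theorem cpc_cs {X : Type} [Fintype X] (w : X → ℝ) (hw : ∀ x, 0 ≤ w x) (Z N : X → ℂ) :
    ‖∑ x, ((w x : ℝ) : ℂ) * Z x * N x‖ ≤
      Real.sqrt (∑ x, w x * ‖Z x‖ ^ 2) * Real.sqrt (∑ x, w x * ‖N x‖ ^ 2) := by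
  have h1 : ‖∑ x, ((w x : ℝ) : ℂ) * Z x * N x‖ ≤
      ∑ x, (Real.sqrt (w x) * ‖Z x‖) * (Real.sqrt (w x) * ‖N x‖) := by
    refine (norm_sum_le _ _).trans (le_of_eq (Finset.sum_congr rfl fun x _ => ?_))
    rw [norm_mul, norm_mul, Complex.norm_real, Real.norm_eq_abs, abs_of_nonneg (hw x)]
    nth_rewrite 1 [← Real.mul_self_sqrt (hw x)]
    ring
  refine h1.trans ?_
  rw [← Real.sqrt_mul (Finset.sum_nonneg fun x _ => mul_nonneg (hw x) (by positivity))]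
  refine Real.le_sqrt_of_sq_le ?_
  refine (Finset.sum_mul_sq_le_sq_mul_sq _ _ _).trans (le_of_eq ?_)
  congr 1 <;> refine Finset.sum_congr rfl fun x _ => ?_ <;>
    rw [mul_pow, Real.sq_sqrt (hw x)]

theorem cp_core_bound (hs : CpSides AA XX ψ) {S : CpRB n (∀ i, W i)} {J : Set ι}
    (h : S.Valid AA XX J) {E M : Matrix n n ℂ} (hE : E ∈ AA) (hM : M ∈ XX) (cM : CpContr M)
    (ω : ∀ i, W i) :
    ‖Matrix.trace (E * M * S.sup ω (vecMulVec ψ (star ψ)))‖ ≤ Real.sqrt (S.Ysq ψ E ω) := by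
  set Z : S.K.T × S.B.T → ℂ := fun q => ∑ c, ∑ c', S.z ω c c' *
      ((cpQrt (S.K.p c * S.B.p c') : ℝ) : ℂ) * cpIp (S.B.a c' q.2 *ᵥ ψ) (E *ᵥ (S.K.a c q.1 *ᵥ ψ))
    with hZ
  set N : S.K.T × S.B.T → ℂ := fun q => cpIp (S.B.x q.2 *ᵥ ψ) (M *ᵥ (S.K.x q.1 *ᵥ ψ)) with hN
  set w : S.K.T × S.B.T → ℝ := fun q => Real.sqrt (S.K.τ q.1 * S.B.τ q.2) with hw
  have hw0 : ∀ q, 0 ≤ w q := fun q => Real.sqrt_nonneg _
  have e1 : Matrix.trace (E * M * S.sup ω (vecMulVec ψ (star ψ))) =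
      ∑ q, ((w q : ℝ) : ℂ) * Z q * N q := by
    have e0 : Matrix.trace (E * M * S.sup ω (vecMulVec ψ (star ψ))) =
        ∑ c, ∑ t, ∑ c', ∑ t', ((w (t, t') : ℝ) : ℂ) * (S.z ω c c' *
          ((cpQrt (S.K.p c * S.B.p c') : ℝ) : ℂ) *
          cpIp (S.B.a c' t' *ᵥ ψ) (E *ᵥ (S.K.a c t *ᵥ ψ))) * N (t, t') := by
      unfold CpRB.sup
      simp only [LinearMap.sum_apply, LinearMap.smul_apply, LinearMap.comp_apply,
        LinearMap.mulLeft_apply, LinearMap.mulRight_apply, Matrix.mul_sum, Matrix.mul_smul,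
        Matrix.trace_sum, Matrix.trace_smul, CpH.op]
      simp only [cpc_term hs hE hM (h.K.a_mem _ _) (h.K.x_mem _) (h.B.a_mem _ _) (h.B.x_mem _)]
      refine Finset.sum_congr rfl fun c _ => Finset.sum_congr rfl fun t _ =>
        Finset.sum_congr rfl fun c' _ => Finset.sum_congr rfl fun t' _ => ?_
      simp only [hN, hw, CpRB.amp, smul_eq_mul]
      push_cast
      ring
    rw [e0]
    conv_rhs => rw [Fintype.sum_prod_type]
    calc _ = ∑ t, ∑ c, ∑ c', ∑ t', ((w (t, t') : ℝ) : ℂ) * (S.z ω c c' *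
          ((cpQrt (S.K.p c * S.B.p c') : ℝ) : ℂ) *
          cpIp (S.B.a c' t' *ᵥ ψ) (E *ᵥ (S.K.a c t *ᵥ ψ))) * N (t, t') := Finset.sum_comm
      _ = ∑ t, ∑ c, ∑ t', ∑ c', ((w (t, t') : ℝ) : ℂ) * (S.z ω c c' *
          ((cpQrt (S.K.p c * S.B.p c') : ℝ) : ℂ) *
          cpIp (S.B.a c' t' *ᵥ ψ) (E *ᵥ (S.K.a c t *ᵥ ψ))) * N (t, t') :=
          Finset.sum_congr rfl fun t _ => Finset.sum_congr rfl fun c _ => Finset.sum_comm
      _ = ∑ t, ∑ t', ∑ c, ∑ c', ((w (t, t') : ℝ) : ℂ) * (S.z ω c c' *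
          ((cpQrt (S.K.p c * S.B.p c') : ℝ) : ℂ) *
          cpIp (S.B.a c' t' *ᵥ ψ) (E *ᵥ (S.K.a c t *ᵥ ψ))) * N (t, t') :=
          Finset.sum_congr rfl fun t _ => Finset.sum_comm
      _ = _ := by
          refine Finset.sum_congr rfl fun t _ => Finset.sum_congr rfl fun t' _ => ?_
          simp only [hZ, Finset.mul_sum, Finset.sum_mul]
  have e2 : ∑ q, w q * ‖Z q‖ ^ 2 = S.Ysq ψ E ω := by
    rw [Fintype.sum_prod_type]
    rfl
  have e3 : ∑ q, w q * ‖N q‖ ^ 2 ≤ 1 := by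
    have := cp_weighted_hs (fun i o => S.K.x (i, o) *ᵥ ψ) (fun i o => S.B.x (i, o) *ᵥ ψ)
      (h.K.x_bc.vec hs.nrm.le) (h.B.x_bc.vec hs.nrm.le) M cM S.K.tI S.K.tO S.B.tI S.B.tO
      h.K.tI_nonneg h.K.tO_nonneg h.B.tI_nonneg h.B.tO_nonneg h.K.tI_sum h.K.tO_sum h.B.tI_sum
      h.B.tO_sum
    refine le_trans (le_of_eq ?_) this
    rw [Fintype.sum_prod_type, Fintype.sum_prod_type]
    refine Finset.sum_congr rfl fun i _ => Finset.sum_congr rfl fun o _ => ?_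
    rw [Fintype.sum_prod_type]
    rfl
  rw [e1]
  refine (cpc_cs w hw0 Z N).trans ?_
  rw [e2]
  calc Real.sqrt (S.Ysq ψ E ω) * Real.sqrt (∑ q, w q * ‖N q‖ ^ 2)
      ≤ Real.sqrt (S.Ysq ψ E ω) * 1 :=
        mul_le_mul_of_nonneg_left (Real.sqrt_le_one.mpr e3) (Real.sqrt_nonneg _)
    _ = _ := mul_one _



theorem cpQrt_sq {x : ℝ} : cpQrt x ^ 2 = Real.sqrt x := by
  unfold cpQrt
  exact Real.sq_sqrt (Real.sqrt_nonneg x)

/-- the deterministic weighted Hilbert-Schmidt bound on the affected side -/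
theorem cpc_affected_hs (hs : CpSides AA XX ψ) {K B : CpH n} (hK : K.Valid AA XX)
    (hB : B.Valid AA XX) {E : Matrix n n ℂ} (cE : CpContr E) :
    ∑ t, ∑ t', Real.sqrt (K.τ t * B.τ t') * ∑ q : K.C × B.C,
      ‖((cpQrt (K.p q.1 * B.p q.2) : ℝ) : ℂ) * cpIp (B.a q.2 t' *ᵥ ψ) (E *ᵥ (K.a q.1 t *ᵥ ψ))‖ ^ 2
      ≤ 1 := by
  have hW := cp_weighted_hs
    (fun (i : K.CI × K.TI) (o : K.CO × K.TO) => K.a (i.1, o.1) (i.2, o.2) *ᵥ ψ)
    (fun (i : B.CI × B.TI) (o : B.CO × B.TO) => B.a (i.1, o.1) (i.2, o.2) *ᵥ ψ)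
    (hK.a_bc.vec hs.nrm.le) (hB.a_bc.vec hs.nrm.le) E cE
    (fun i => K.pI i.1 * K.tI i.2) (fun o => K.pO o.1 * K.tO o.2)
    (fun i => B.pI i.1 * B.tI i.2) (fun o => B.pO o.1 * B.tO o.2)
    (fun i => mul_nonneg (hK.pI_nonneg _) (hK.tI_nonneg _))
    (fun i => mul_nonneg (hK.pO_nonneg _) (hK.tO_nonneg _))
    (fun i => mul_nonneg (hB.pI_nonneg _) (hB.tI_nonneg _))
    (fun i => mul_nonneg (hB.pO_nonneg _) (hB.tO_nonneg _))
    (by rw [Fintype.sum_prod_type, ← Finset.sum_mul_sum]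
        exact mul_le_one₀ hK.pI_sum (Finset.sum_nonneg fun i _ => hK.tI_nonneg i) hK.tI_sum)
    (by rw [Fintype.sum_prod_type, ← Finset.sum_mul_sum]
        exact mul_le_one₀ hK.pO_sum (Finset.sum_nonneg fun i _ => hK.tO_nonneg i) hK.tO_sum)
    (by rw [Fintype.sum_prod_type, ← Finset.sum_mul_sum]
        exact mul_le_one₀ hB.pI_sum (Finset.sum_nonneg fun i _ => hB.tI_nonneg i) hB.tI_sum)
    (by rw [Fintype.sum_prod_type, ← Finset.sum_mul_sum]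
        exact mul_le_one₀ hB.pO_sum (Finset.sum_nonneg fun i _ => hB.tO_nonneg i) hB.tO_sum)
  refine le_trans (le_of_eq ?_) hW
  -- both sides as sums over one product type
  set F : ((K.CI × K.TI) × (K.CO × K.TO)) × ((B.CI × B.TI) × (B.CO × B.TO)) → ℝ := fun r =>
    Real.sqrt (K.pI r.1.1.1 * K.tI r.1.1.2 * (K.pO r.1.2.1 * K.tO r.1.2.2) *
      (B.pI r.2.1.1 * B.tI r.2.1.2 * (B.pO r.2.2.1 * B.tO r.2.2.2))) *
      ‖cpIp (B.a (r.2.1.1, r.2.2.1) (r.2.1.2, r.2.2.2) *ᵥ ψ)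
        (E *ᵥ (K.a (r.1.1.1, r.1.2.1) (r.1.1.2, r.1.2.2) *ᵥ ψ))‖ ^ 2 with hF
  have eR : (∑ i : K.CI × K.TI, ∑ o : K.CO × K.TO, ∑ i' : B.CI × B.TI, ∑ o' : B.CO × B.TO,
      F ((i, o), (i', o'))) = ∑ r, F r := by
    rw [Fintype.sum_prod_type (f := F),
      Fintype.sum_prod_type (f := fun x : (K.CI × K.TI) × (K.CO × K.TO) => ∑ y, F (x, y))]
    refine Finset.sum_congr rfl fun i _ => Finset.sum_congr rfl fun o _ => ?_
    rw [Fintype.sum_prod_type (f := fun y : (B.CI × B.TI) × (B.CO × B.TO) => F ((i, o), y))]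
  let e : ((K.T × B.T) × (K.C × B.C)) ≃
      ((K.CI × K.TI) × (K.CO × K.TO)) × ((B.CI × B.TI) × (B.CO × B.TO)) :=
    { toFun := fun q => (((q.2.1.1, q.1.1.1), (q.2.1.2, q.1.1.2)),
        ((q.2.2.1, q.1.2.1), (q.2.2.2, q.1.2.2)))
      invFun := fun r => (((r.1.1.2, r.1.2.2), (r.2.1.2, r.2.2.2)),
        ((r.1.1.1, r.1.2.1), (r.2.1.1, r.2.2.1)))
      left_inv := fun _ => rfl
      right_inv := fun _ => rfl }
  have eL : (∑ t, ∑ t', Real.sqrt (K.τ t * B.τ t') * ∑ q : K.C × B.C,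
      ‖((cpQrt (K.p q.1 * B.p q.2) : ℝ) : ℂ) *
        cpIp (B.a q.2 t' *ᵥ ψ) (E *ᵥ (K.a q.1 t *ᵥ ψ))‖ ^ 2) = ∑ q, F (e q) := by
    rw [Fintype.sum_prod_type (f := fun q => F (e q)),
      Fintype.sum_prod_type (f := fun x : K.T × B.T => ∑ y, F (e (x, y)))]
    refine Finset.sum_congr rfl fun t _ => Finset.sum_congr rfl fun t' _ => ?_
    rw [Finset.mul_sum]
    refine Finset.sum_congr rfl fun q _ => ?_
    simp only [hF, e, Equiv.coe_fn_mk]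
    have h0 : 0 ≤ K.τ t * B.τ t' := mul_nonneg (mul_nonneg (hK.tI_nonneg _) (hK.tO_nonneg _))
        (mul_nonneg (hB.tI_nonneg _) (hB.tO_nonneg _))
    rw [norm_mul, mul_pow, Complex.norm_real, Real.norm_eq_abs, sq_abs, cpQrt_sq, ← mul_assoc,
      ← Real.sqrt_mul h0]
    congr 2
    simp only [CpH.τ, CpH.p]
    ring
  rw [eL, Fintype.sum_equiv e _ F (fun _ => rfl), ← eR]

theorem cp_core_second_moment (hs : CpSides AA XX ψ) {S : CpRB n (∀ i, W i)} {J : Set ι}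
    (h : S.Valid AA XX J) {E : Matrix n n ℂ} (cE : CpContr E) :
    cpAvg (fun ω => S.Ysq ψ E ω) ≤ S.V := by
  unfold CpRB.Ysq
  rw [cpAvg_sum]
  have step : ∀ t t', cpAvg (fun ω => Real.sqrt (S.K.τ t * S.B.τ t') *
      ‖∑ c, ∑ c', S.z ω c c' * ((cpQrt (S.K.p c * S.B.p c') : ℝ) : ℂ) *
        cpIp (S.B.a c' t' *ᵥ ψ) (E *ᵥ (S.K.a c t *ᵥ ψ))‖ ^ 2) ≤
      S.V * (Real.sqrt (S.K.τ t * S.B.τ t') * ∑ q : S.K.C × S.B.C,
        ‖((cpQrt (S.K.p q.1 * S.B.p q.2) : ℝ) : ℂ) *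
          cpIp (S.B.a q.2 t' *ᵥ ψ) (E *ᵥ (S.K.a q.1 t *ᵥ ψ))‖ ^ 2) := by
    intro t t'
    rw [cpAvg_mul_left, mul_left_comm]
    refine mul_le_mul_of_nonneg_left ?_ (Real.sqrt_nonneg _)
    have := cpc_orth_sum (fun ω (q : S.K.C × S.B.C) => S.z ω q.1 q.2) S.V
      (fun x x' hx => h.orth x.1 x.2 x'.1 x'.2 hx) (fun x => h.var x.1 x.2)
      (fun q => ((cpQrt (S.K.p q.1 * S.B.p q.2) : ℝ) : ℂ) *
          cpIp (S.B.a q.2 t' *ᵥ ψ) (E *ᵥ (S.K.a q.1 t *ᵥ ψ)))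
    refine le_trans (le_of_eq ?_) this
    congr 1
    funext ω
    rw [Fintype.sum_prod_type (f := fun x : S.K.C × S.B.C => S.z ω x.1 x.2 *
      (((cpQrt (S.K.p x.1 * S.B.p x.2) : ℝ) : ℂ) *
        cpIp (S.B.a x.2 t' *ᵥ ψ) (E *ᵥ (S.K.a x.1 t *ᵥ ψ))))]
    simp only [mul_assoc]
  calc ∑ t, cpAvg (fun ω => ∑ t', Real.sqrt (S.K.τ t * S.B.τ t') *
      ‖∑ c, ∑ c', S.z ω c c' * ((cpQrt (S.K.p c * S.B.p c') : ℝ) : ℂ) *
        cpIp (S.B.a c' t' *ᵥ ψ) (E *ᵥ (S.K.a c t *ᵥ ψ))‖ ^ 2)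
      ≤ ∑ t, ∑ t', S.V * (Real.sqrt (S.K.τ t * S.B.τ t') * ∑ q : S.K.C × S.B.C,
        ‖((cpQrt (S.K.p q.1 * S.B.p q.2) : ℝ) : ℂ) *
          cpIp (S.B.a q.2 t' *ᵥ ψ) (E *ᵥ (S.K.a q.1 t *ᵥ ψ))‖ ^ 2) := by
        refine Finset.sum_le_sum fun t _ => ?_
        rw [cpAvg_sum]
        exact Finset.sum_le_sum fun t' _ => step t t'
    _ = S.V * ∑ t, ∑ t', (Real.sqrt (S.K.τ t * S.B.τ t') * ∑ q : S.K.C × S.B.C,
        ‖((cpQrt (S.K.p q.1 * S.B.p q.2) : ℝ) : ℂ) *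
          cpIp (S.B.a q.2 t' *ᵥ ψ) (E *ᵥ (S.K.a q.1 t *ᵥ ψ))‖ ^ 2) := by
        simp only [Finset.mul_sum]
    _ ≤ S.V * 1 := mul_le_mul_of_nonneg_left (cpc_affected_hs hs h.K h.B cE) h.V_nonneg
    _ = S.V := mul_one _

theorem cp_core_avg (hs : CpSides AA XX ψ) {S : CpRB n (∀ i, W i)} {J : Set ι}
    (h : S.Valid AA XX J) {E : Matrix n n ℂ} (cE : CpContr E) :
    cpAvg (fun ω => Real.sqrt (S.Ysq ψ E ω)) ≤ Real.sqrt S.V := by
  refine (cpAvg_sqrt_le _ fun ω => ?_).trans (Real.sqrt_le_sqrt (cp_core_second_moment hs h cE))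
  unfold CpRB.Ysq
  exact Finset.sum_nonneg fun t _ => Finset.sum_nonneg fun t' _ =>
    mul_nonneg (Real.sqrt_nonneg _) (by positivity)

end Claimed.Agent.R296
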