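import Claimed.Agent.R296.P2.CompSplit

/-!
# Row 296, P2 Section 4, package COUNT: counting (eq. compression-choice-cost)

PROOFS.  `aff_card_le`: `Finset.card_biUnion_le`, each corrected step contributes at most two parties.
`sum_wt_le`: `∑_o ∏_t = ∏_t ∑_{o_t}` (`Finset.prod_univ_sum`), the factor is `1` (untouched) or
`(∑‖c‖)² ≤ cost²` (touched); `∏_{t touched} cost² ≤ ∏_{P ∈ aff} (pcost P)²` since every touched gate contains an
affected party and all costs are `≥ 1`.  `sum_chi_pow`: `q^{chiCard} = ∏_t ∏_i (if χ then q else 1)`,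
`Finset.prod_univ_sum` twice, `∑ b : Bool`.
`card_cfgOn_le`: `Fintype.card_pi`, `Finset.prod_le_pow_card`-type estimate (`Finset.prod_coe_sort`/`attach`).
-/

set_option autoImplicit false
set_option linter.unusedSectionVars false

namespace Claimed.Agent.R296

open Matrix

variable {PP : Type} [DecidableEq PP] [Fintype PP] {Mem : PP → Type}
  [∀ P, Fintype (Mem P)] [∀ P, DecidableEq (Mem P)]
  {Phys : PP → Type} [∀ P, Fintype (Phys P)] [∀ P, DecidableEq (Phys P)]

namespace CpCircuit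

variable (C : CpCircuit Mem) (k : ℕ)

/-! ### LEAF BOUND-2: counting -/

theorem aff_card_le (χ : C.Chi) : (C.aff χ).card ≤ 2 * C.chiCard χ := by
  unfold aff chiCard
  refine le_trans Finset.card_biUnion_le ?_
  rw [Finset.mul_sum]
  refine Finset.sum_le_sum fun t _ => ?_
  refine le_trans Finset.card_biUnion_le ?_
  rw [Finset.mul_sum]
  refine Finset.sum_le_sum fun i _ => ?_
  split_ifs
  · exact le_trans (Finset.card_insert_le _ _) (by simp)
  · simp

theorem one_le_cost (g : CpGate Mem) : 1 ≤ g.cost := le_max_left _ _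

theorem sum_wt_le (χ : C.Chi) (Wc : ℝ) (hW : ∀ P, C.pcost P ≤ Wc) :
    ∑ o : C.Lab, ∏ t, ‖C.wt χ t (o t)‖ ≤ Wc ^ (2 * (C.aff χ).card) := by
  classical
  have hcost1 : ∀ t, 1 ≤ (C.gate t).cost := fun t => one_le_cost _
  -- step 1: the sum factorises
  have h1 : ∑ o : C.Lab, ∏ t, ‖C.wt χ t (o t)‖ =
      ∏ t, ∑ x : Option ((C.gate t).Ξ × (C.gate t).Ξ), ‖C.wt χ t x‖ := by
    rw [Finset.prod_univ_sum, Fintype.piFinset_univ]
  -- step 2: each factor
  have h2 : ∀ t, ∑ x : Option ((C.gate t).Ξ × (C.gate t).Ξ), ‖C.wt χ t x‖ ≤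
      (if C.Touched χ t then (C.gate t).cost else 1) ^ 2 := by
    intro t
    rw [Fintype.sum_option]
    by_cases ht : C.Touched χ t
    · simp only [wt, ht, if_true, norm_zero, zero_add, norm_mul, norm_star]
      rw [Fintype.sum_prod_type]
      have : ∑ x, ∑ y, ‖(C.gate t).c x‖ * ‖(C.gate t).c y‖ = (∑ ξ, ‖(C.gate t).c ξ‖) ^ 2 := by
        rw [sq, Finset.sum_mul_sum]
      rw [this]
      have h0 : 0 ≤ ∑ ξ, ‖(C.gate t).c ξ‖ := Finset.sum_nonneg fun _ _ => norm_nonneg _
      exact pow_le_pow_left₀ h0 (le_max_right _ _) 2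
    · simp [wt, ht]
  have h2' : ∀ t, 0 ≤ ∑ x : Option ((C.gate t).Ξ × (C.gate t).Ξ), ‖C.wt χ t x‖ :=
    fun t => Finset.sum_nonneg fun _ _ => norm_nonneg _
  -- step 3: touched gates are paid by the affected parties
  have h3 : ∀ t, (if C.Touched χ t then (C.gate t).cost else 1) ≤
      ∏ P ∈ C.aff χ, (if P ∈ (C.gate t).part then (C.gate t).cost else 1) := by
    intro t
    have hone : ∀ P, (1 : ℝ) ≤ (if P ∈ (C.gate t).part then (C.gate t).cost else 1) := by
      intro P; split_ifs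
      · exact hcost1 t
      · exact le_refl _
    by_cases ht : C.Touched χ t
    · rw [if_pos ht]
      obtain ⟨P0, hP0, hP0'⟩ := Finset.not_disjoint_iff.mp ht
      rw [← Finset.mul_prod_erase _ _ hP0', if_pos hP0]
      have : (1 : ℝ) ≤ ∏ P ∈ (C.aff χ).erase P0,
          (if P ∈ (C.gate t).part then (C.gate t).cost else 1) := by
        calc (1 : ℝ) = ∏ _P ∈ (C.aff χ).erase P0, (1 : ℝ) := by simp
          _ ≤ _ := Finset.prod_le_prod (fun _ _ => zero_le_one) (fun P _ => hone P)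
      nlinarith [hcost1 t]
    · rw [if_neg ht]
      calc (1 : ℝ) = ∏ _P ∈ C.aff χ, (1 : ℝ) := by simp
        _ ≤ _ := Finset.prod_le_prod (fun _ _ => zero_le_one) (fun P _ => hone P)
  have h4 : ∏ t, ∏ P ∈ C.aff χ, (if P ∈ (C.gate t).part then (C.gate t).cost else 1) =
      ∏ P ∈ C.aff χ, C.pcost P := by
    rw [Finset.prod_comm]
    refine Finset.prod_congr rfl fun P _ => ?_
    rw [pcost, Finset.prod_filter]
  have hp1 : ∀ P, 1 ≤ C.pcost P := by
    intro P
    rw [pcost]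
    calc (1 : ℝ) = ∏ _t ∈ Finset.univ.filter (fun t => P ∈ (C.gate t).part), (1 : ℝ) := by simp
      _ ≤ _ := Finset.prod_le_prod (fun _ _ => zero_le_one) (fun t _ => hcost1 t)
  have hite0 : ∀ t, (0 : ℝ) ≤ (if C.Touched χ t then (C.gate t).cost else 1) := by
    intro t; split_ifs
    · exact zero_le_one.trans (hcost1 t)
    · exact zero_le_one
  calc ∑ o : C.Lab, ∏ t, ‖C.wt χ t (o t)‖
      = ∏ t, ∑ x : Option ((C.gate t).Ξ × (C.gate t).Ξ), ‖C.wt χ t x‖ := h1
    _ ≤ ∏ t, (if C.Touched χ t then (C.gate t).cost else 1) ^ 2 :=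
        Finset.prod_le_prod (fun t _ => h2' t) (fun t _ => h2 t)
    _ = (∏ t, (if C.Touched χ t then (C.gate t).cost else 1)) ^ 2 := by
        rw [Finset.prod_pow]
    _ ≤ (∏ t, ∏ P ∈ C.aff χ, (if P ∈ (C.gate t).part then (C.gate t).cost else 1)) ^ 2 := by
        refine pow_le_pow_left₀ (Finset.prod_nonneg fun t _ => hite0 t) ?_ 2
        exact Finset.prod_le_prod (fun t _ => hite0 t) (fun t _ => h3 t)
    _ = (∏ P ∈ C.aff χ, C.pcost P) ^ 2 := by rw [h4]
    _ ≤ (∏ _P ∈ C.aff χ, Wc) ^ 2 := by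
        refine pow_le_pow_left₀ (Finset.prod_nonneg fun P _ => zero_le_one.trans (hp1 P)) ?_ 2
        exact Finset.prod_le_prod (fun P _ => zero_le_one.trans (hp1 P)) (fun P _ => hW P)
    _ = Wc ^ (2 * (C.aff χ).card) := by
        rw [Finset.prod_const, ← pow_mul, mul_comm]

theorem card_cfgOn_le (A : Finset PP) (d0 : ℝ) (hd : ∀ P, (Fintype.card (Phys P) : ℝ) ≤ d0) :
    (Fintype.card (CfgOn Phys A) : ℝ) ≤ d0 ^ A.card := by
  classical
  rw [Fintype.card_pi, Nat.cast_prod]
  calc ∏ x : {x // x ∈ A}, (Fintype.card (Phys x) : ℝ) ≤ ∏ _x : {x // x ∈ A}, d0 :=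
        Finset.prod_le_prod (fun _ _ => Nat.cast_nonneg _) (fun x _ => hd x)
    _ = d0 ^ A.card := by
        rw [Finset.prod_const, Finset.card_univ, Fintype.card_coe]

theorem sum_chi_pow (q : ℝ) : ∑ χ : C.Chi, q ^ C.chiCard χ = (1 + q) ^ C.nsteps := by
  classical
  have h1 : ∀ χ : C.Chi, q ^ C.chiCard χ = ∏ t, ∏ i, (if χ t i = true then q else 1) := by
    intro χ
    rw [chiCard, ← Finset.prod_pow_eq_pow_sum]
    refine Finset.prod_congr rfl fun t _ => ?_
    rw [← Finset.prod_pow_eq_pow_sum]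
    refine Finset.prod_congr rfl fun i _ => ?_
    split_ifs <;> simp
  have h2 : ∀ t : Fin C.M, ∑ f : Fin (C.gate t).r → Bool, ∏ i, (if f i = true then q else 1) =
      (1 + q) ^ (C.gate t).r := by
    intro t
    have := Finset.prod_univ_sum (fun _ : Fin (C.gate t).r => (Finset.univ : Finset Bool))
      (fun _ b => if b = true then q else 1)
    rw [Fintype.piFinset_univ] at this
    rw [← this]
    simp [add_comm]
  calc ∑ χ : C.Chi, q ^ C.chiCard χ
      = ∑ χ : C.Chi, ∏ t, ∏ i, (if χ t i = true then q else 1) :=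
        Finset.sum_congr rfl fun χ _ => h1 χ
    _ = ∏ t : Fin C.M, ∑ f : Fin (C.gate t).r → Bool, ∏ i, (if f i = true then q else 1) := by
        rw [Finset.prod_univ_sum, Fintype.piFinset_univ]
    _ = ∏ t : Fin C.M, (1 + q) ^ (C.gate t).r := Finset.prod_congr rfl fun t _ => h2 t
    _ = (1 + q) ^ C.nsteps := by rw [nsteps, Finset.prod_pow_eq_pow_sum]

end CpCircuit

end Claimed.Agent.R296
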