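import Claimed.Agent.R296.P2.CompLocB

/-!
# Row 296, P2 Section 4, package LOC-C: observables

PROOFS.  `cp_trace_out`: both sides are `∑ σ τ, [gb σ = gb τ] W (ph τ) (ph σ) R σ τ` (sum over `x y` collapses).
`cp_pull_decomp`: in `(obsA y x * obsX W y x) τ σ = ∑ υ ..` only `υ = (σ on A, τ off A)` survives; the sum over
`y, x` picks `y = ph τ|A`, `x = ph σ|A`, and `cglue A (ph τ|A) (ph τ|Aᶜ) = ph τ`.
`cp_obsA_contr`: by `rd.inj`, for every `σ` there is at most one `τ` with a nonzero entry and conversely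
(partial permutation matrix).  `cp_obsX_contr`: for fixed `σ|A` and fixed garbage `f` off `A` put
`ṽ z = [z|A = x] v(σ|A, the unique memory with (ph,gb) = (z,f))`; then `obsX v` restricted to that fibre is
the `y`-block of `W ṽ`; sum the inequalities `cpNsq (W ṽ) ≤ cpNsq ṽ` over the fibres.
Membership: `suppIn_iff` of `LocEmb` (entrywise characterisation).
-/

set_option autoImplicit false
set_option linter.unusedSectionVars false

namespace Claimed.Agent.R296

open Matrix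

variable {PP : Type} [DecidableEq PP] [Fintype PP] {Mem : PP → Type}
  [∀ P, Fintype (Mem P)] [∀ P, DecidableEq (Mem P)]

variable {Phys : PP → Type} [∀ P, Fintype (Phys P)] [∀ P, DecidableEq (Phys P)]

/-! ### LEAF LOCAL-4: observables -/

/-- the observable `W ⊗ 1_garbage` on the global memory -/
def CpRead.pull (rd : CpRead Mem Phys) (W : Matrix (Cfg Phys) (Cfg Phys) ℂ) :
    Matrix (Cfg Mem) (Cfg Mem) ℂ :=
  Matrix.of fun τ σ => if ∀ P, rd.gb P (τ P) = rd.gb P (σ P) then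
    W (fun P => rd.ph P (τ P)) (fun P => rd.ph P (σ P)) else 0

/-- matrix unit `|y⟩⟨x| ⊗ 1_garbage` at the parties in `A` -/
def CpRead.obsA (rd : CpRead Mem Phys) (A : Finset PP) (y x : CfgOn Phys A) :
    Matrix (Cfg Mem) (Cfg Mem) ℂ :=
  Matrix.of fun τ σ =>
    if (∀ P, P ∉ A → τ P = σ P) ∧ ∀ P : {P // P ∈ A}, rd.ph P (τ P) = y P ∧ rd.ph P (σ P) = x P ∧
      rd.gb P (τ P) = rd.gb P (σ P) then 1 else 0

/-- the block `⟨y| W |x⟩ ⊗ 1_garbage` at the parties off `A` -/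
def CpRead.obsX (rd : CpRead Mem Phys) (A : Finset PP) (W : Matrix (Cfg Phys) (Cfg Phys) ℂ)
    (y x : CfgOn Phys A) : Matrix (Cfg Mem) (Cfg Mem) ℂ :=
  Matrix.of fun τ σ =>
    if (∀ P, P ∈ A → τ P = σ P) ∧ ∀ P, P ∉ A → rd.gb P (τ P) = rd.gb P (σ P) then
      W (cglue A y fun P => rd.ph P (τ P)) (cglue A x fun P => rd.ph P (σ P)) else 0

theorem cp_sum_comm4 {α β γ δ : Type} [Fintype α] [Fintype β] [Fintype γ] [Fintype δ]
    (F : α → β → γ → δ → ℂ) :
    ∑ a, ∑ b, ∑ c, ∑ d, F a b c d = ∑ d, ∑ c, ∑ a, ∑ b, F a b c d := by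
  calc ∑ a, ∑ b, ∑ c, ∑ d, F a b c d
      = ∑ a, ∑ c, ∑ b, ∑ d, F a b c d := Finset.sum_congr rfl fun a _ => Finset.sum_comm
    _ = ∑ c, ∑ a, ∑ b, ∑ d, F a b c d := Finset.sum_comm
    _ = ∑ c, ∑ a, ∑ d, ∑ b, F a b c d :=
        Finset.sum_congr rfl fun c _ => Finset.sum_congr rfl fun a _ => Finset.sum_comm
    _ = ∑ c, ∑ d, ∑ a, ∑ b, F a b c d := Finset.sum_congr rfl fun c _ => Finset.sum_comm
    _ = ∑ d, ∑ c, ∑ a, ∑ b, F a b c d := Finset.sum_comm

theorem cp_trace_out (rd : CpRead Mem Phys) (W : Matrix (Cfg Phys) (Cfg Phys) ℂ)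
    (R : Matrix (Cfg Mem) (Cfg Mem) ℂ) :
    Matrix.trace (W * rd.out R) = Matrix.trace (rd.pull W * R) := by
  simp only [Matrix.trace, Matrix.diag_apply, Matrix.mul_apply, CpRead.out, CpRead.pull,
    Matrix.of_apply, Finset.mul_sum]
  rw [cp_sum_comm4]
  refine Finset.sum_congr rfl fun τ _ => Finset.sum_congr rfl fun σ _ => ?_
  rw [Finset.sum_eq_single (fun P => rd.ph P (τ P)),
    Finset.sum_eq_single (fun P => rd.ph P (σ P))]
  · by_cases hg : ∀ P, rd.gb P (τ P) = rd.gb P (σ P)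
    · rw [if_pos hg, if_pos ⟨fun _ => rfl, fun _ => rfl, fun P => (hg P).symm⟩]
    · rw [if_neg hg, if_neg (fun h => hg fun P => (h.2.2 P).symm)]
      simp
  · intro x _ hx
    rw [if_neg (fun h => hx (funext fun P => (h.1 P).symm)), mul_zero]
  · simp
  · intro y _ hy
    refine Finset.sum_eq_zero fun x _ => ?_
    rw [if_neg (fun h => hy (funext fun P => (h.2.1 P).symm)), mul_zero]
  · simp

theorem cp_pull_decomp (rd : CpRead Mem Phys) (A : Finset PP)
    (W : Matrix (Cfg Phys) (Cfg Phys) ℂ) :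
    rd.pull W = ∑ y, ∑ x, rd.obsA A y x * rd.obsX A W y x := by
  ext τ σ
  simp only [Matrix.sum_apply, Matrix.mul_apply]
  rw [Finset.sum_eq_single (fun P : {P // P ∈ A} => rd.ph P (τ P)),
    Finset.sum_eq_single (fun P : {P // P ∈ A} => rd.ph P (σ P)),
    Finset.sum_eq_single (cmix A σ τ)]
  · have hin : ∀ P, P ∈ A → cmix A σ τ P = σ P := fun P hP => by simp [cmix, hP]
    have hout : ∀ P, P ∉ A → cmix A σ τ P = τ P := fun P hP => by simp [cmix, hP]
    have e1 : (cglue A (fun P : {P // P ∈ A} => rd.ph P (τ P))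
        fun P : {P // P ∉ A} => rd.ph P (cmix A σ τ P)) = fun P => rd.ph P (τ P) := by
      funext P
      by_cases hP : P ∈ A
      · simp [cglue, hP]
      · simp [cglue, hP, hout P hP]
    have e2 : (cglue A (fun P : {P // P ∈ A} => rd.ph P (σ P))
        fun P : {P // P ∉ A} => rd.ph P (σ P)) = fun P => rd.ph P (σ P) := by
      funext P
      by_cases hP : P ∈ A <;> simp [cglue, hP]
    simp only [CpRead.pull, CpRead.obsA, CpRead.obsX, Matrix.of_apply, e1, e2]
    by_cases hg : ∀ P, rd.gb P (τ P) = rd.gb P (σ P)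
    · rw [if_pos hg, if_pos, if_pos, one_mul]
      · exact ⟨hin, fun P hP => by rw [hout P hP]; exact hg P⟩
      · exact ⟨fun P hP => (hout P hP).symm, fun P =>
          ⟨trivial, by rw [hin P P.2], by rw [hin P P.2]; exact hg P⟩⟩
    · rw [if_neg hg]
      by_contra hcon
      obtain ⟨ha, hb⟩ := mul_ne_zero_iff.mp (Ne.symm hcon)
      have h1 := (ite_ne_right_iff.mp ha).1
      have h2 := (ite_ne_right_iff.mp hb).1
      apply hg
      intro P
      by_cases hP : P ∈ A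
      · have := (h1.2 ⟨P, hP⟩).2.2
        rwa [hin P hP] at this
      · have := h2.2 P hP
        rwa [hout P hP] at this
  · intro υ _ hυ
    simp only [CpRead.obsA, CpRead.obsX, Matrix.of_apply]
    by_cases h1 : (∀ P, P ∉ A → τ P = υ P)
    · rw [if_neg (c := (∀ P, P ∈ A → υ P = σ P) ∧ _), mul_zero]
      intro h2
      apply hυ
      funext P
      by_cases hP : P ∈ A
      · simp [cmix, hP, h2.1 P hP]
      · simp [cmix, hP, h1 P hP]
    · rw [if_neg (fun h => h1 h.1), zero_mul]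
  · simp
  · intro x _ hx
    refine Finset.sum_eq_zero fun υ _ => ?_
    simp only [CpRead.obsA, CpRead.obsX, Matrix.of_apply]
    by_cases h2 : (∀ P, P ∈ A → υ P = σ P)
    · rw [if_neg (c := (∀ P, P ∉ A → τ P = υ P) ∧ _), zero_mul]
      intro h1
      apply hx
      funext P
      have := (h1.2 P).2.1
      rw [h2 P P.2] at this
      exact this.symm
    · rw [if_neg (c := (∀ P, P ∈ A → υ P = σ P) ∧ _) (fun h => h2 h.1), mul_zero]
  · simp
  · intro y _ hy
    refine Finset.sum_eq_zero fun x _ => Finset.sum_eq_zero fun υ _ => ?_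
    simp only [CpRead.obsA, Matrix.of_apply]
    rw [if_neg, zero_mul]
    intro h1
    apply hy
    funext P
    exact ((h1.2 P).1).symm
  · simp

theorem cp_obsA_mem (rd : CpRead Mem Phys) (A : Finset PP) (y x : CfgOn Phys A) :
    rd.obsA A y x ∈ cpAA (Mem := Mem) A := by
  show SuppIn A (rd.obsA A y x)
  rw [suppIn_iff]
  refine ⟨fun τ σ h => ?_, fun τ σ ρ h => ?_⟩
  · obtain ⟨P, hP, hne⟩ := h
    simp only [CpRead.obsA, Matrix.of_apply]
    rw [if_neg (fun h => hne (h.1 P hP))]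
  · simp only [CpRead.obsA, Matrix.of_apply]
    have hin : ∀ (υ : Cfg Mem) (P : {P // P ∈ A}), cmix A υ ρ P = υ P :=
      fun υ P => by simp [cmix, P.2]
    have hout : ∀ P, P ∉ A → cmix A τ ρ P = cmix A σ ρ P := fun P hP => by simp [cmix, hP]
    simp only [hin]
    refine if_congr ?_ rfl rfl
    exact ⟨fun h' => ⟨h, h'.2⟩, fun h' => ⟨hout, h'.2⟩⟩

/-- a sum with at most one nonzero term -/
theorem cp_nsq_sum_unique {α : Type} (S : Finset α) (p : α → Prop) [DecidablePred p]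
    (hp : ∀ a ∈ S, ∀ b ∈ S, p a → p b → a = b) (v : α → ℂ) :
    ‖∑ a ∈ S, if p a then v a else 0‖ ^ 2 = ∑ a ∈ S, if p a then ‖v a‖ ^ 2 else 0 := by
  classical
  by_cases h : ∃ a ∈ S, p a
  · obtain ⟨a0, ha0, hpa0⟩ := h
    rw [Finset.sum_eq_single a0, Finset.sum_eq_single a0, if_pos hpa0, if_pos hpa0]
    · intro b hb hne
      rw [if_neg (fun hpb => hne (hp b hb a0 ha0 hpb hpa0))]
    · intro h; exact absurd ha0 h
    · intro b hb hne
      rw [if_neg (fun hpb => hne (hp b hb a0 ha0 hpb hpa0))]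
    · intro h; exact absurd ha0 h
  · push Not at h
    rw [Finset.sum_eq_zero, Finset.sum_eq_zero]
    · simp
    · intro a ha; rw [if_neg (h a ha)]
    · intro a ha; rw [if_neg (h a ha)]

theorem cp_sum_unique_le {α : Type} (S : Finset α) (p : α → Prop) [DecidablePred p]
    (hp : ∀ a ∈ S, ∀ b ∈ S, p a → p b → a = b) {c : ℝ} (hc : 0 ≤ c) :
    ∑ a ∈ S, (if p a then c else 0) ≤ c := by
  classical
  by_cases h : ∃ a ∈ S, p a
  · obtain ⟨a0, ha0, hpa0⟩ := h
    rw [Finset.sum_eq_single a0, if_pos hpa0]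
    · intro b hb hne
      rw [if_neg (fun hpb => hne (hp b hb a0 ha0 hpb hpa0))]
    · intro h; exact absurd ha0 h
  · push Not at h
    rw [Finset.sum_eq_zero]
    · exact hc
    · intro a ha; rw [if_neg (h a ha)]

theorem cp_obsA_contr (rd : CpRead Mem Phys) (A : Finset PP) (y x : CfgOn Phys A) :
    CpContr (rd.obsA A y x) := by
  classical
  intro v
  simp only [cpNsq]
  let R : Cfg Mem → Cfg Mem → Prop := fun τ σ => (∀ P, P ∉ A → τ P = σ P) ∧
    ∀ P : {P // P ∈ A}, rd.ph P (τ P) = y P ∧ rd.ph P (σ P) = x P ∧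
      rd.gb P (τ P) = rd.gb P (σ P)
  have hrow : ∀ τ σ σ', R τ σ → R τ σ' → σ = σ' := by
    intro τ σ σ' h h'
    funext P
    by_cases hP : P ∈ A
    · apply rd.inj P
      have a := h.2 ⟨P, hP⟩
      have b := h'.2 ⟨P, hP⟩
      exact Prod.ext (a.2.1.trans b.2.1.symm) (a.2.2.symm.trans b.2.2)
    · exact (h.1 P hP).symm.trans (h'.1 P hP)
  have hcol : ∀ σ τ τ', R τ σ → R τ' σ → τ = τ' := by
    intro σ τ τ' h h'
    funext P
    by_cases hP : P ∈ A
    · apply rd.inj P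
      have a := h.2 ⟨P, hP⟩
      have b := h'.2 ⟨P, hP⟩
      exact Prod.ext (a.1.trans b.1.symm) (a.2.2.trans b.2.2.symm)
    · exact (h.1 P hP).trans (h'.1 P hP).symm
  have h1 : ∀ τ, ‖(rd.obsA A y x *ᵥ v) τ‖ ^ 2 = ∑ σ, if R τ σ then ‖v σ‖ ^ 2 else 0 := by
    intro τ
    rw [← cp_nsq_sum_unique Finset.univ (R τ) (fun a _ b _ => hrow τ a b) v]
    congr 2
    simp only [Matrix.mulVec, dotProduct, CpRead.obsA, Matrix.of_apply, ite_mul, one_mul, zero_mul]
    exact Finset.sum_congr rfl fun σ _ => if_congr Iff.rfl rfl rfl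
  simp only [h1]
  rw [Finset.sum_comm]
  exact Finset.sum_le_sum fun σ _ => cp_sum_unique_le Finset.univ (fun τ => R τ σ)
    (fun a _ b _ => hcol σ a b) (by positivity)

theorem cp_obsX_mem (rd : CpRead Mem Phys) (A : Finset PP) (W : Matrix (Cfg Phys) (Cfg Phys) ℂ)
    (y x : CfgOn Phys A) : rd.obsX A W y x ∈ cpXX (Mem := Mem) A := by
  show SuppIn Aᶜ (rd.obsX A W y x)
  rw [suppIn_iff]
  refine ⟨fun τ σ h => ?_, fun τ σ ρ h => ?_⟩
  · obtain ⟨P, hP, hne⟩ := h
    simp only [CpRead.obsX, Matrix.of_apply]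
    rw [if_neg (fun h => hne (h.1 P (by simpa using hP)))]
  · simp only [CpRead.obsX, Matrix.of_apply]
    have hout : ∀ (υ : Cfg Mem) P, P ∉ A → cmix Aᶜ υ ρ P = υ P :=
      fun υ P hP => by simp [cmix, hP]
    have hout' : ∀ (υ : Cfg Mem) (P : {P // P ∉ A}), cmix Aᶜ υ ρ P = υ P :=
      fun υ P => hout υ P P.2
    have hin : ∀ P, P ∈ A → cmix Aᶜ τ ρ P = cmix Aᶜ σ ρ P := fun P hP => by simp [cmix, hP]
    simp only [hout']
    refine if_congr ?_ rfl rfl
    constructor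
    · intro h'
      refine ⟨fun P hP => h P (by simpa using hP), fun P hP => ?_⟩
      have := h'.2 P hP
      rwa [hout τ P hP, hout σ P hP] at this
    · intro h'
      refine ⟨hin, fun P hP => ?_⟩
      rw [hout τ P hP, hout σ P hP]
      exact h'.2 P hP

theorem cp_obsX_contr (rd : CpRead Mem Phys) (A : Finset PP) {W : Matrix (Cfg Phys) (Cfg Phys) ℂ}
    (hW : CpContr W) (y x : CfgOn Phys A) : CpContr (rd.obsX A W y x) := by
  classical
  intro v
  let key : Cfg Mem → (CfgOn Mem A × ∀ P : {P // P ∉ A}, rd.Garb P) :=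
    fun τ => (crOn A τ, fun P => rd.gb P (τ P))
  let φ : CfgOn Phys A → Cfg Mem → Cfg Phys := fun w σ => cglue A w fun P => rd.ph P (σ P)
  have hφ : ∀ w σ σ', key σ = key σ' → φ w σ = φ w σ' → σ = σ' := by
    intro w σ σ' hk he
    funext P
    by_cases hP : P ∈ A
    · exact congrFun (congrArg Prod.fst hk) ⟨P, hP⟩
    · apply rd.inj P
      have e1 := congrFun he P
      simp only [φ, cglue, hP, dif_neg, not_false_eq_true] at e1
      exact Prod.ext e1 (congrFun (congrArg Prod.snd hk) ⟨P, hP⟩)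
  have hentry : ∀ τ σ, rd.obsX A W y x τ σ =
      if key σ = key τ then W (φ y τ) (φ x σ) else 0 := by
    intro τ σ
    simp only [CpRead.obsX, Matrix.of_apply]
    refine if_congr ?_ rfl rfl
    constructor
    · intro h
      exact Prod.ext (funext fun P => (h.1 P P.2).symm) (funext fun P => (h.2 P P.2).symm)
    · intro h
      exact ⟨fun P hP => (congrFun (congrArg Prod.fst h) ⟨P, hP⟩).symm,
        fun P hP => (congrFun (congrArg Prod.snd h) ⟨P, hP⟩).symm⟩
  simp only [cpNsq]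
  rw [← Finset.sum_fiberwise_of_maps_to (s := Finset.univ) (t := Finset.univ.image key) (g := key)
      (fun τ _ => Finset.mem_image_of_mem key (Finset.mem_univ τ))
      (f := fun τ => ‖(rd.obsX A W y x *ᵥ v) τ‖ ^ 2),
    ← Finset.sum_fiberwise_of_maps_to (s := Finset.univ) (t := Finset.univ.image key) (g := key)
      (fun τ _ => Finset.mem_image_of_mem key (Finset.mem_univ τ)) (f := fun τ => ‖v τ‖ ^ 2)]
  refine Finset.sum_le_sum fun k _ => ?_
  set S := Finset.univ.filter (fun σ => key σ = k) with hS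
  have hSk : ∀ σ ∈ S, key σ = k := fun σ hσ => (Finset.mem_filter.mp hσ).2
  let vt : Cfg Phys → ℂ := fun z => ∑ σ ∈ S, if φ x σ = z then v σ else 0
  have hWvt : ∀ z', (W *ᵥ vt) z' = ∑ σ ∈ S, W z' (φ x σ) * v σ := by
    intro z'
    simp only [Matrix.mulVec, dotProduct, vt, Finset.mul_sum]
    rw [Finset.sum_comm]
    refine Finset.sum_congr rfl fun σ _ => ?_
    simp only [mul_ite, mul_zero]
    rw [Finset.sum_ite_eq]
    simp
  have h1 : ∀ τ ∈ S, (rd.obsX A W y x *ᵥ v) τ = (W *ᵥ vt) (φ y τ) := by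
    intro τ hτ
    rw [hWvt]
    simp only [Matrix.mulVec, dotProduct, hentry, hSk τ hτ, ite_mul, zero_mul]
    rw [hS, Finset.sum_filter]
  have h2 : ∑ τ ∈ S, ‖(W *ᵥ vt) (φ y τ)‖ ^ 2 ≤ cpNsq (W *ᵥ vt) := by
    rw [cpNsq, ← Finset.sum_image (f := fun z => ‖(W *ᵥ vt) z‖ ^ 2) (g := φ y) (s := S)
      (fun a ha b hb hab => hφ y a b ((hSk a ha).trans (hSk b hb).symm) hab)]
    exact Finset.sum_le_univ_sum_of_nonneg fun z => by positivity
  have h3 : cpNsq vt ≤ ∑ σ ∈ S, ‖v σ‖ ^ 2 := by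
    apply le_of_eq
    simp only [cpNsq, vt]
    have : ∀ z, ‖∑ σ ∈ S, if φ x σ = z then v σ else 0‖ ^ 2 =
        ∑ σ ∈ S, if φ x σ = z then ‖v σ‖ ^ 2 else 0 := fun z =>
      cp_nsq_sum_unique S (fun σ => φ x σ = z)
        (fun a ha b hb h h' => hφ x a b ((hSk a ha).trans (hSk b hb).symm) (h.trans h'.symm)) v
    simp only [this]
    rw [Finset.sum_comm]
    refine Finset.sum_congr rfl fun σ _ => ?_
    rw [Finset.sum_ite_eq]
    simp
  calc ∑ τ ∈ S, ‖(rd.obsX A W y x *ᵥ v) τ‖ ^ 2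
      = ∑ τ ∈ S, ‖(W *ᵥ vt) (φ y τ)‖ ^ 2 := Finset.sum_congr rfl fun τ hτ => by rw [h1 τ hτ]
    _ ≤ cpNsq (W *ᵥ vt) := h2
    _ ≤ cpNsq vt := hW vt
    _ ≤ ∑ σ ∈ S, ‖v σ‖ ^ 2 := h3

end Claimed.Agent.R296
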