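import Claimed.Agent.R296.P2.CompCoreA

/-!
# Row 296, P2 Section 4, package CORE-B: the double layer map of a composite

PROOFS.  `sup_comp`: expand both sides; the sums over the product index types split
(`Fintype.sum_prod_type`); `op` of the composite is `a₂ a₁ x₂ x₁ = (a₂ x₂)(a₁ x₁)` because `a₁ ∈ AA`
commutes with `x₂ ∈ XX` (`hs.comm`); `amp` is multiplicative: `cpQrt (x y) = cpQrt x * cpQrt y`,
`√(x y) = √x √y` for nonnegative weights (validity).  Apply both sides to an arbitrary `R`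
(`LinearMap.ext`).  `sup_fold`: induction on `m` with `sup_comp`, `CpRB.Valid.fold` is NOT needed if you
carry validity of the partial folds along (prove a conjunction, or import CompCoreA).
-/

set_option autoImplicit false
set_option linter.unusedSectionVars false

namespace Claimed.Agent.R296

open Matrix

variable {n : Type} [Fintype n] [DecidableEq n] {ι : Type} [Fintype ι] [DecidableEq ι]
  {W : ι → Type} [∀ i, Fintype (W i)] [∀ i, Nonempty (W i)]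
  {AA XX : Set (Matrix n n ℂ)} {ψ : n → ℂ}

theorem cpb_qrt_mul {x : ℝ} (hx : 0 ≤ x) (y : ℝ) : cpQrt (x * y) = cpQrt x * cpQrt y := by
  unfold cpQrt
  rw [Real.sqrt_mul hx, Real.sqrt_mul (Real.sqrt_nonneg x)]

theorem cpb_qrt_one : cpQrt 1 = 1 := by
  unfold cpQrt
  rw [Real.sqrt_one, Real.sqrt_one]

theorem CpH.comp_p (H₂ H₁ : CpH n) (c : (H₂.comp H₁).C) :
    (H₂.comp H₁).p c = H₁.p (CpH.fst2 c) * H₂.p (CpH.snd2 c) := by
  show H₁.pI c.1.1 * H₂.pI c.1.2 * (H₁.pO c.2.1 * H₂.pO c.2.2) =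
    H₁.pI c.1.1 * H₁.pO c.2.1 * (H₂.pI c.1.2 * H₂.pO c.2.2)
  ring

theorem CpH.comp_τ (H₂ H₁ : CpH n) (t : (H₂.comp H₁).T) :
    (H₂.comp H₁).τ t = H₁.τ (CpH.fst2 t) * H₂.τ (CpH.snd2 t) := by
  show H₁.tI t.1.1 * H₂.tI t.1.2 * (H₁.tO t.2.1 * H₂.tO t.2.2) =
    H₁.tI t.1.1 * H₁.tO t.2.1 * (H₂.tI t.1.2 * H₂.tO t.2.2)
  ring

theorem CpH.Valid.p_nonneg {H : CpH n} (h : H.Valid AA XX) (c : H.C) : 0 ≤ H.p c :=
  mul_nonneg (h.pI_nonneg _) (h.pO_nonneg _)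

theorem CpH.Valid.τ_nonneg {H : CpH n} (h : H.Valid AA XX) (t : H.T) : 0 ≤ H.τ t :=
  mul_nonneg (h.tI_nonneg _) (h.tO_nonneg _)

theorem CpH.comp_op (hs : CpSides AA XX ψ) {H₂ H₁ : CpH n} (h₂ : H₂.Valid AA XX)
    (h₁ : H₁.Valid AA XX) (c : (H₂.comp H₁).C) (t : (H₂.comp H₁).T) :
    (H₂.comp H₁).op c t = H₂.op (CpH.snd2 c) (CpH.snd2 t) * H₁.op (CpH.fst2 c) (CpH.fst2 t) := by
  show H₂.a (CpH.snd2 c) (CpH.snd2 t) * H₁.a (CpH.fst2 c) (CpH.fst2 t) *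
      (H₂.x (CpH.snd2 t) * H₁.x (CpH.fst2 t)) =
    H₂.a (CpH.snd2 c) (CpH.snd2 t) * H₂.x (CpH.snd2 t) *
      (H₁.a (CpH.fst2 c) (CpH.fst2 t) * H₁.x (CpH.fst2 t))
  rw [Matrix.mul_assoc, ← Matrix.mul_assoc (H₁.a _ _) (H₂.x _) (H₁.x _),
    hs.comm _ (h₁.a_mem _ _) _ (h₂.x_mem _)]
  simp only [Matrix.mul_assoc]

theorem CpRB.amp_comp {Ω : Type} {S₂ S₁ : CpRB n Ω} (hK₁ : S₁.K.Valid AA XX)
    (hB₁ : S₁.B.Valid AA XX) (c : (S₂.comp S₁).K.C) (t : (S₂.comp S₁).K.T)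
    (c' : (S₂.comp S₁).B.C) (t' : (S₂.comp S₁).B.T) :
    (S₂.comp S₁).amp c t c' t' =
      S₁.amp (CpH.fst2 c) (CpH.fst2 t) (CpH.fst2 c') (CpH.fst2 t') *
        S₂.amp (CpH.snd2 c) (CpH.snd2 t) (CpH.snd2 c') (CpH.snd2 t') := by
  unfold CpRB.amp
  have e1 : (S₂.comp S₁).K.p c * (S₂.comp S₁).B.p c' =
      (S₁.K.p (CpH.fst2 c) * S₁.B.p (CpH.fst2 c')) * (S₂.K.p (CpH.snd2 c) * S₂.B.p (CpH.snd2 c')) := by
    have h1 := CpH.comp_p S₂.K S₁.K c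
    have h2 := CpH.comp_p S₂.B S₁.B c'
    calc _ = (S₁.K.p (CpH.fst2 c) * S₂.K.p (CpH.snd2 c)) *
          (S₁.B.p (CpH.fst2 c') * S₂.B.p (CpH.snd2 c')) := congrArg₂ (· * ·) h1 h2
      _ = _ := by ring
  have e2 : (S₂.comp S₁).K.τ t * (S₂.comp S₁).B.τ t' =
      (S₁.K.τ (CpH.fst2 t) * S₁.B.τ (CpH.fst2 t')) * (S₂.K.τ (CpH.snd2 t) * S₂.B.τ (CpH.snd2 t')) := by
    have h1 := CpH.comp_τ S₂.K S₁.K t
    have h2 := CpH.comp_τ S₂.B S₁.B t'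
    calc _ = (S₁.K.τ (CpH.fst2 t) * S₂.K.τ (CpH.snd2 t)) *
          (S₁.B.τ (CpH.fst2 t') * S₂.B.τ (CpH.snd2 t')) := congrArg₂ (· * ·) h1 h2
      _ = _ := by ring
  rw [e1, e2, cpb_qrt_mul (mul_nonneg (hK₁.p_nonneg _) (hB₁.p_nonneg _)),
    Real.sqrt_mul (mul_nonneg (hK₁.τ_nonneg _) (hB₁.τ_nonneg _))]
  ring

/-- all indices of a double layer step -/
abbrev CpRB.Idx {Ω : Type} (S : CpRB n Ω) : Type := (S.K.C × S.K.T) × (S.B.C × S.B.T)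

/-- one term of the double layer map -/
noncomputable def CpRB.term {Ω : Type} (S : CpRB n Ω) (ω : Ω) (q : S.Idx) :
    Module.End ℂ (Matrix n n ℂ) :=
  (S.z ω q.1.1 q.2.1 * ((S.amp q.1.1 q.1.2 q.2.1 q.2.2 : ℝ) : ℂ)) •
    (LinearMap.mulLeft ℂ (S.K.op q.1.1 q.1.2)).comp (LinearMap.mulRight ℂ (S.B.op q.2.1 q.2.2)ᴴ)

theorem CpRB.sup_eq_sum {Ω : Type} (S : CpRB n Ω) (ω : Ω) : S.sup ω = ∑ q, S.term ω q := by
  rw [Fintype.sum_prod_type (f := S.term ω),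
    Fintype.sum_prod_type (f := fun x : S.K.C × S.K.T => ∑ y, S.term ω (x, y))]
  refine Finset.sum_congr rfl fun c _ => Finset.sum_congr rfl fun t _ => ?_
  rw [Fintype.sum_prod_type (f := fun y : S.B.C × S.B.T => S.term ω ((c, t), y))]
  rfl

theorem cpb_sandwich_mul (A₂ A₁ B₂ B₁ : Matrix n n ℂ) :
    ((LinearMap.mulLeft ℂ A₂).comp (LinearMap.mulRight ℂ B₂ᴴ) : Module.End ℂ (Matrix n n ℂ)) *
      (LinearMap.mulLeft ℂ A₁).comp (LinearMap.mulRight ℂ B₁ᴴ) =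
      (LinearMap.mulLeft ℂ (A₂ * A₁)).comp (LinearMap.mulRight ℂ (B₂ * B₁)ᴴ) := by
  refine LinearMap.ext fun R => ?_
  simp only [Module.End.mul_apply, LinearMap.comp_apply, LinearMap.mulLeft_apply,
    LinearMap.mulRight_apply, Matrix.conjTranspose_mul, Matrix.mul_assoc]

/-- the double layer map of a composite, from the validity of the layers only -/
theorem CpRB.sup_comp_aux {Ω : Type} (hs : CpSides AA XX ψ) {S₂ S₁ : CpRB n Ω}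
    (hK₂ : S₂.K.Valid AA XX) (hB₂ : S₂.B.Valid AA XX) (hK₁ : S₁.K.Valid AA XX)
    (hB₁ : S₁.B.Valid AA XX) (ω : Ω) :
    (S₂.comp S₁).sup ω = S₂.sup ω * S₁.sup ω := by
  rw [CpRB.sup_eq_sum, CpRB.sup_eq_sum, CpRB.sup_eq_sum, Finset.sum_mul_sum,
    ← Fintype.sum_prod_type' (f := fun q₂ q₁ => S₂.term ω q₂ * S₁.term ω q₁)]
  let e : (S₂.comp S₁).Idx ≃ S₂.Idx × S₁.Idx :=
    { toFun := fun q => (((CpH.snd2 q.1.1, CpH.snd2 q.1.2), (CpH.snd2 q.2.1, CpH.snd2 q.2.2)),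
        ((CpH.fst2 q.1.1, CpH.fst2 q.1.2), (CpH.fst2 q.2.1, CpH.fst2 q.2.2)))
      invFun := fun r =>
        ((((r.2.1.1.1, r.1.1.1.1), (r.2.1.1.2, r.1.1.1.2)),
          ((r.2.1.2.1, r.1.1.2.1), (r.2.1.2.2, r.1.1.2.2))),
         (((r.2.2.1.1, r.1.2.1.1), (r.2.2.1.2, r.1.2.1.2)),
          ((r.2.2.2.1, r.1.2.2.1), (r.2.2.2.2, r.1.2.2.2))))
      left_inv := fun _ => rfl
      right_inv := fun _ => rfl }
  refine Fintype.sum_equiv e _ _ fun q => ?_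
  show (S₂.comp S₁).term ω q =
    S₂.term ω ((CpH.snd2 q.1.1, CpH.snd2 q.1.2), (CpH.snd2 q.2.1, CpH.snd2 q.2.2)) *
      S₁.term ω ((CpH.fst2 q.1.1, CpH.fst2 q.1.2), (CpH.fst2 q.2.1, CpH.fst2 q.2.2))
  unfold CpRB.term
  dsimp only
  rw [smul_mul_smul_comm, cpb_sandwich_mul, CpRB.amp_comp hK₁ hB₁]
  have o1 := CpH.comp_op hs hK₂ hK₁ q.1.1 q.1.2
  have o2 := CpH.comp_op hs hB₂ hB₁ q.2.1 q.2.2
  have o1' : (S₂.comp S₁).K.op q.1.1 q.1.2 =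
    S₂.K.op (CpH.snd2 q.1.1) (CpH.snd2 q.1.2) * S₁.K.op (CpH.fst2 q.1.1) (CpH.fst2 q.1.2) := o1
  have o2' : (S₂.comp S₁).B.op q.2.1 q.2.2 =
    S₂.B.op (CpH.snd2 q.2.1) (CpH.snd2 q.2.2) * S₁.B.op (CpH.fst2 q.2.1) (CpH.fst2 q.2.2) := o2
  rw [o1', o2']
  congr 1
  show S₁.z ω _ _ * S₂.z ω _ _ * _ = _
  push_cast
  ring

/-- LEAF CORE-3: the double layer map of a composite -/
theorem CpRB.sup_comp (hs : CpSides AA XX ψ) {S₂ S₁ : CpRB n (∀ i, W i)} {J₂ J₁ : Set ι}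
    (h₂ : S₂.Valid AA XX J₂) (h₁ : S₁.Valid AA XX J₁) (ω : ∀ i, W i) :
    (S₂.comp S₁).sup ω = S₂.sup ω * S₁.sup ω :=
  CpRB.sup_comp_aux hs h₂.K h₂.B h₁.K h₁.B ω

/-- LEAF CORE-3 -/
theorem CpRB.sup_closed (a x a' x' : Matrix n n ℂ) (ω : ∀ i, W i) (R : Matrix n n ℂ) :
    (CpRB.closed a x a' x' : CpRB n (∀ i, W i)).sup ω R = (a * x) * R * (a' * x')ᴴ := by
  show (∑ _c : Unit × Unit, ∑ _t : Unit × Unit, ∑ _c' : Unit × Unit, ∑ _t' : Unit × Unit,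
    ((1 : ℂ) * ((cpQrt (1 * 1 * (1 * 1)) * Real.sqrt (1 * 1 * (1 * 1)) : ℝ) : ℂ)) •
      (LinearMap.mulLeft ℂ (a * x)).comp (LinearMap.mulRight ℂ (a' * x')ᴴ)) R = _
  simp only [mul_one, cpb_qrt_one, Real.sqrt_one, Complex.ofReal_one, one_smul,
    Finset.sum_const, Finset.card_univ, Fintype.card_prod, Fintype.card_unit,
    LinearMap.comp_apply, LinearMap.mulLeft_apply, LinearMap.mulRight_apply, Matrix.mul_assoc]

theorem CpRB.fold_layers (hs : CpSides AA XX ψ) {Ω : Type} (m : ℕ) (f : Fin m → CpRB n Ω)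
    (hK : ∀ i, (f i).K.Valid AA XX) (hB : ∀ i, (f i).B.Valid AA XX) :
    (CpRB.fold m f).K.Valid AA XX ∧ (CpRB.fold m f).B.Valid AA XX := by
  induction m with
  | zero =>
    exact ⟨CpH.Valid.closed hs.one_A hs.one_X CpContr.one CpContr.one,
      CpH.Valid.closed hs.one_A hs.one_X CpContr.one CpContr.one⟩
  | succ m ih =>
    obtain ⟨h1, h2⟩ := ih (fun i => f i.castSucc) (fun i => hK _) (fun i => hB _)
    exact ⟨CpH.Valid.comp hs (hK _) h1, CpH.Valid.comp hs (hB _) h2⟩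

/-- LEAF CORE-3 -/
theorem CpRB.sup_fold (hs : CpSides AA XX ψ) (m : ℕ) (f : Fin m → CpRB n (∀ i, W i))
    (J : Fin m → Set ι) (h : ∀ i, (f i).Valid AA XX (J i)) (ω : ∀ i, W i) :
    (CpRB.fold m f).sup ω = cpTprod m fun i => (f i).sup ω := by
  induction m with
  | zero =>
    refine LinearMap.ext fun R => ?_
    show (CpRB.closed 1 1 1 1 : CpRB n (∀ i, W i)).sup ω R = _
    rw [CpRB.sup_closed]
    simp [cpTprod]
  | succ m ih =>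
    obtain ⟨h1, h2⟩ := CpRB.fold_layers hs m (fun i => f i.castSucc) (fun i => (h _).K)
      (fun i => (h _).B)
    show ((f (Fin.last m)).comp (CpRB.fold m fun i => f i.castSucc)).sup ω = _
    rw [CpRB.sup_comp_aux hs (h _).K (h _).B h1 h2, ih (fun i => f i.castSucc)
      (fun i => J i.castSucc) (fun i => h _)]
    rfl

end Claimed.Agent.R296
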