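import Claimed.Agent.R296.P2.CompBaseB
import Claimed.Agent.R296.LocEmb

/-!
# Row 296, P2 Section 4, package LOC-A: the one-party operators `cpLoc`

PROOFS.  Everything follows from `cpLoc_mulVec` / the entry formula: a configuration `τ` with
`τ Q = σ Q` for `Q ≠ P` is `Function.update σ P (τ P)`; sum over `τ` = sum over `m : Mem P`
(`Fintype.sum` along `m ↦ Function.update σ P m`, the other terms vanish).  `cpLoc_mul`: entrywise.
`cpLoc_commute`: entrywise, both products are `A (σ P) (τ P) * B (σ Q) (τ Q)` if `σ, τ` agree off `{P,Q}`.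
`cpLoc_suppIn`: `K a a' := A (a ⟨P,_⟩) (a' ⟨P,_⟩)` (see `Defs.emb`; `br_crOff_eq_iff` in Bridge/Supp).
`CpBC.loc`: split `cpNsq` on `Cfg Mem` as a sum over the coordinates off `P` (fix `σ`, vary `σ P`):
`cpNsq v = ∑_{σ} ...`; cleanest: `∑ σ, F σ = (card (Mem P))⁻¹ ...` is NOT needed; use the equivalence
`Equiv.piSplitAt P Mem : Cfg Mem ≃ Mem P × ∀ Q : {Q // Q ≠ P}, Mem Q` and apply `h` for every fixed rest.
`CpContr.loc` is the case `I = O = Unit`.
-/

set_option autoImplicit false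
set_option linter.unusedSectionVars false

namespace Claimed.Agent.R296

open Matrix

variable {PP : Type} [DecidableEq PP] [Fintype PP] {Mem : PP → Type}
  [∀ P, Fintype (Mem P)] [∀ P, DecidableEq (Mem P)]

/-! ### LEAF LOCAL-1: algebra of `cpLoc` -/

theorem cpLoc_apply (P : PP) (A : Matrix (Mem P) (Mem P) ℂ) (σ τ : Cfg Mem) :
    cpLoc P A σ τ = if ∀ Q, Q ≠ P → σ Q = τ Q then A (σ P) (τ P) else 0 := rfl

theorem cpLoc_cond_iff (P : PP) (σ τ : Cfg Mem) :
    (∀ Q, Q ≠ P → σ Q = τ Q) ↔ τ = Function.update σ P (τ P) := by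
  constructor
  · intro h
    funext Q
    by_cases hQ : Q = P
    · subst hQ; simp
    · rw [Function.update_of_ne hQ]; exact (h Q hQ).symm
  · intro h Q hQ
    rw [h, Function.update_of_ne hQ]

theorem cpLoc_cond_update (P : PP) (σ τ : Cfg Mem) (m : Mem P) :
    (∀ Q, Q ≠ P → Function.update σ P m Q = τ Q) ↔ (∀ Q, Q ≠ P → σ Q = τ Q) := by
  constructor
  · intro h Q hQ
    have := h Q hQ
    rwa [Function.update_of_ne hQ] at this
  · intro h Q hQ
    rw [Function.update_of_ne hQ]; exact h Q hQ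

/-- a sum over the configurations which agree with `σ` off `P` is a sum over `Mem P` -/
theorem cpLoc_sum_cond (P : PP) (σ : Cfg Mem) (F : Cfg Mem → ℂ) :
    ∑ τ, (if ∀ Q, Q ≠ P → σ Q = τ Q then F τ else 0) = ∑ m, F (Function.update σ P m) := by
  classical
  rw [← Finset.sum_filter]
  have hf : Finset.univ.filter (fun τ : Cfg Mem => ∀ Q, Q ≠ P → σ Q = τ Q) =
      Finset.univ.image (Function.update σ P) := by
    ext τ
    simp only [Finset.mem_filter, Finset.mem_univ, true_and, Finset.mem_image]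
    constructor
    · intro h
      exact ⟨τ P, ((cpLoc_cond_iff P σ τ).mp h).symm⟩
    · rintro ⟨m, rfl⟩ Q hQ
      rw [Function.update_of_ne hQ]
  rw [hf, Finset.sum_image (fun a _ b _ h => Function.update_injective σ P h)]

theorem cpLoc_mulVec (P : PP) (A : Matrix (Mem P) (Mem P) ℂ) (v : Cfg Mem → ℂ) (σ : Cfg Mem) :
    (cpLoc P A *ᵥ v) σ = ∑ m, A (σ P) m * v (Function.update σ P m) := by
  have h := cpLoc_sum_cond P σ (fun τ => A (σ P) (τ P) * v τ)
  simp only [Function.update_self] at h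
  rw [← h]
  simp only [Matrix.mulVec, dotProduct, cpLoc_apply, ite_mul, zero_mul]

theorem cpLoc_one (P : PP) : cpLoc P (1 : Matrix (Mem P) (Mem P) ℂ) = 1 := by
  ext σ τ
  rw [cpLoc_apply]
  by_cases h : σ = τ
  · subst h; simp
  · rw [Matrix.one_apply_ne h]
    split_ifs with h'
    · apply Matrix.one_apply_ne
      intro hP
      apply h
      funext Q
      by_cases hQ : Q = P
      · subst hQ; exact hP
      · exact h' Q hQ
    · rfl

theorem cpLoc_zero (P : PP) : cpLoc P (0 : Matrix (Mem P) (Mem P) ℂ) = 0 := by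
  ext σ τ
  simp [cpLoc_apply]

theorem cpLoc_add (P : PP) (A B : Matrix (Mem P) (Mem P) ℂ) :
    cpLoc P (A + B) = cpLoc P A + cpLoc P B := by
  ext σ τ
  simp only [cpLoc_apply, Matrix.add_apply]
  split_ifs <;> simp

theorem cpLoc_smul (P : PP) (c : ℂ) (A : Matrix (Mem P) (Mem P) ℂ) :
    cpLoc P (c • A) = c • cpLoc P A := by
  ext σ τ
  simp only [cpLoc_apply, Matrix.smul_apply]
  split_ifs <;> simp

theorem cpLoc_sum {ι : Type} (P : PP) (s : Finset ι) (A : ι → Matrix (Mem P) (Mem P) ℂ) :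
    cpLoc P (∑ i ∈ s, A i) = ∑ i ∈ s, cpLoc P (A i) := by
  classical
  induction s using Finset.induction_on with
  | empty => simp [cpLoc_zero]
  | insert a s ha ih => rw [Finset.sum_insert ha, Finset.sum_insert ha, cpLoc_add, ih]

theorem cpLoc_mul (P : PP) (A B : Matrix (Mem P) (Mem P) ℂ) :
    cpLoc P (A * B) = cpLoc P A * cpLoc P B := by
  ext σ τ
  rw [Matrix.mul_apply]
  have h := cpLoc_sum_cond P σ (fun ρ => A (σ P) (ρ P) * cpLoc P B ρ τ)
  simp only [Function.update_self] at h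
  have h' : ∑ ρ, cpLoc P A σ ρ * cpLoc P B ρ τ =
      ∑ ρ, (if ∀ Q, Q ≠ P → σ Q = ρ Q then A (σ P) (ρ P) * cpLoc P B ρ τ else 0) := by
    refine Finset.sum_congr rfl fun ρ _ => ?_
    rw [cpLoc_apply P A]
    split_ifs <;> simp
  rw [h', h, cpLoc_apply]
  simp only [cpLoc_apply, cpLoc_cond_update, Function.update_self]
  split_ifs with hc
  · rw [Matrix.mul_apply]
  · simp

theorem cpLoc_conjTranspose (P : PP) (A : Matrix (Mem P) (Mem P) ℂ) :
    cpLoc P Aᴴ = (cpLoc P A)ᴴ := by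
  ext σ τ
  rw [Matrix.conjTranspose_apply, cpLoc_apply, cpLoc_apply]
  have hc : (∀ Q, Q ≠ P → σ Q = τ Q) ↔ (∀ Q, Q ≠ P → τ Q = σ Q) :=
    ⟨fun h Q hQ => (h Q hQ).symm, fun h Q hQ => (h Q hQ).symm⟩
  by_cases h : ∀ Q, Q ≠ P → σ Q = τ Q
  · rw [if_pos h, if_pos (hc.mp h), Matrix.conjTranspose_apply]
  · rw [if_neg h, if_neg (fun h' => h (hc.mpr h')), star_zero]

theorem cpLoc_suppIn (P : PP) (A : Matrix (Mem P) (Mem P) ℂ) : SuppIn {P} (cpLoc P A) := by
  refine ⟨Matrix.of fun a a' => A (a ⟨P, Finset.mem_singleton_self P⟩)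
    (a' ⟨P, Finset.mem_singleton_self P⟩), ?_⟩
  ext σ τ
  rw [cpLoc_apply]
  simp only [emb, Matrix.of_apply, crOn]
  have hc : (∀ Q, Q ≠ P → σ Q = τ Q) ↔ crOff {P} σ = crOff {P} τ := by
    constructor
    · intro h
      funext x
      exact h x.1 (by simpa using x.2)
    · intro h Q hQ
      exact congrFun h ⟨Q, by simpa using hQ⟩
  by_cases h : ∀ Q, Q ≠ P → σ Q = τ Q
  · rw [if_pos h, if_pos (hc.mp h)]
  · rw [if_neg h, if_neg (fun h' => h (hc.mpr h'))]

theorem cpLoc_commute {P Q : PP} (h : P ≠ Q) (A : Matrix (Mem P) (Mem P) ℂ)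
    (B : Matrix (Mem Q) (Mem Q) ℂ) : Commute (cpLoc P A) (cpLoc Q B) :=
  SuppIn.commute (by simpa using h) (cpLoc_suppIn P A) (cpLoc_suppIn Q B)

/-! ### LEAF LOCAL-2: contractions -/

theorem cpLoc_sum_split (P : PP) (G : Cfg Mem → ℝ) :
    ∑ σ, G σ = ∑ r : (∀ j : {j // j ≠ P}, Mem j), ∑ m : Mem P,
      G ((Equiv.piSplitAt P Mem).symm (m, r)) := by
  rw [← (Equiv.piSplitAt P Mem).symm.sum_comp, Fintype.sum_prod_type_right]

theorem cpLoc_split_self (P : PP) (m : Mem P) (r : ∀ j : {j // j ≠ P}, Mem j) :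
    (Equiv.piSplitAt P Mem).symm (m, r) P = m := by
  simp [Equiv.piSplitAt]

theorem cpLoc_split_update (P : PP) (m m' : Mem P) (r : ∀ j : {j // j ≠ P}, Mem j) :
    Function.update ((Equiv.piSplitAt P Mem).symm (m, r)) P m' =
      (Equiv.piSplitAt P Mem).symm (m', r) := by
  funext j
  by_cases hj : j = P
  · subst hj
    simp [Equiv.piSplitAt]
  · rw [Function.update_of_ne hj]
    simp [Equiv.piSplitAt, hj]

theorem CpBC.loc {P : PP} {I O : Type} [Fintype I] [Fintype O]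
    {f : I → O → Matrix (Mem P) (Mem P) ℂ} (h : CpBC f) : CpBC fun i o => cpLoc P (f i o) := by
  intro v
  simp only [cpNsq]
  have hL : ∀ o, ∑ σ, ‖(∑ i, cpLoc P (f i o) *ᵥ v i) σ‖ ^ 2 =
      ∑ r : (∀ j : {j // j ≠ P}, Mem j),
        cpNsq (∑ i, f i o *ᵥ fun m => v i ((Equiv.piSplitAt P Mem).symm (m, r))) := by
    intro o
    rw [cpLoc_sum_split P]
    refine Finset.sum_congr rfl fun r _ => ?_
    rw [cpNsq]
    refine Finset.sum_congr rfl fun m _ => ?_
    congr 2
    rw [Finset.sum_apply, Finset.sum_apply]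
    refine Finset.sum_congr rfl fun i _ => ?_
    rw [cpLoc_mulVec]
    simp only [cpLoc_split_self, cpLoc_split_update, Matrix.mulVec, dotProduct]
  have hR : ∀ i, ∑ σ, ‖v i σ‖ ^ 2 =
      ∑ r : (∀ j : {j // j ≠ P}, Mem j),
        cpNsq (fun m => v i ((Equiv.piSplitAt P Mem).symm (m, r))) := by
    intro i
    rw [cpLoc_sum_split P]
    rfl
  simp only [hL, hR]
  rw [Finset.sum_comm, Finset.sum_comm (s := (Finset.univ : Finset I))]
  exact Finset.sum_le_sum fun r _ => h _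

theorem CpContr.loc {P : PP} {A : Matrix (Mem P) (Mem P) ℂ} (h : CpContr A) :
    CpContr (cpLoc P A) := by
  have hbc : CpBC (fun (_ : Unit) (_ : Unit) => A) := by
    intro v
    simpa using h (v ())
  intro v
  simpa using hbc.loc (fun _ => v)

end Claimed.Agent.R296
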