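import Claimed.Agent.R296.P2.CompSup
import Claimed.Agent.R296.P2.CompLocA
import Claimed.Agent.R296.P2.CompCoreB

/-!
# Row 296, P2 Section 4, package NET: realisation of the sampled operator as a party network
(the owner of this package also owns `netState_local` in `CompNetDef.lean`)

PROOFS.  `cpLoc_mul_prod_mul`: entrywise with `cpLoc_apply`; in `∑ υ υ'` only `υ = update σ P m`,
`υ' = update τ P m'` survive; `Finset.prod_update_of_mem`-type bookkeeping (split off the factor `Q = P`).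
`sup_kHat_prod`: `(p_a q_b) R (p'_c q'_d)ᴴ = p_a (q_b R q'_dᴴ) p'_cᴴ`, `kW = cpQrt(λ_a μ_c) cpQrt(λ_b μ_d)`,
a product operator is linear in each factor.  `fin_kHat_net`: `cpTprod_sum` over labels `(ξ,ζ)` of each gate
and sample indices of each step; reindex `(∀ t, Ξ×Ξ) × (∀ p, Fin k) ≃ ∀ v, NetD v` (`Equiv.sumPiEquivProdPi`,
`Equiv.piCurry` for `Pos = Σ t, Fin r`).  By induction over steps/gates the state stays a product operator.
`cp_out_prod`: `Finset.prod_univ_sum` (twice) and `∏ (if ..) = if ∀ ..`.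
`netState_local`: induction over gates and steps: a step changes only the factors at its end points, using only
its own virtual indices, which are used by these end points (state the invariant for all prefixes).
-/

set_option autoImplicit false
set_option linter.unusedSectionVars false

namespace Claimed.Agent.R296

open Matrix

variable {PP : Type} [DecidableEq PP] [Fintype PP] {Mem : PP → Type}
  [∀ P, Fintype (Mem P)] [∀ P, DecidableEq (Mem P)]

/-- the product operator of a family of one-party operators -/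
def cpnPr (R : CpSt Mem) : CpOp Mem := Matrix.of fun σ τ : Cfg Mem => ∏ Q, R Q (σ Q) (τ Q)

theorem cpnPr_apply (R : CpSt Mem) (σ τ : Cfg Mem) : cpnPr R σ τ = ∏ Q, R Q (σ Q) (τ Q) := rfl

/-- entries of a product operator with one factor replaced -/
theorem cpnPr_update_apply (R : CpSt Mem) (P : PP) (N : Matrix (Mem P) (Mem P) ℂ) (σ τ : Cfg Mem) :
    cpnPr (Function.update R P N) σ τ =
      N (σ P) (τ P) * ∏ Q ∈ Finset.univ.erase P, R Q (σ Q) (τ Q) := by
  rw [cpnPr_apply, ← Finset.mul_prod_erase Finset.univ _ (Finset.mem_univ P), Function.update_self]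
  congr 1
  refine Finset.prod_congr rfl fun Q hQ => ?_
  rw [Function.update_of_ne (Finset.ne_of_mem_erase hQ)]

/-- entries of a product operator at updated configurations -/
theorem cpnPr_apply_update (R : CpSt Mem) (P : PP) (σ τ : Cfg Mem) (m m' : Mem P) :
    cpnPr R (Function.update σ P m) (Function.update τ P m') =
      R P m m' * ∏ Q ∈ Finset.univ.erase P, R Q (σ Q) (τ Q) := by
  rw [cpnPr_apply, ← Finset.mul_prod_erase Finset.univ _ (Finset.mem_univ P), Function.update_self,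
    Function.update_self]
  congr 1
  refine Finset.prod_congr rfl fun Q hQ => ?_
  rw [Function.update_of_ne (Finset.ne_of_mem_erase hQ),
    Function.update_of_ne (Finset.ne_of_mem_erase hQ)]

/-- a product operator is linear in each factor -/
theorem cpnPr_update_sum {ι : Type} (s : Finset ι) (R : CpSt Mem) (P : PP) (c : ι → ℂ)
    (M : ι → Matrix (Mem P) (Mem P) ℂ) :
    cpnPr (Function.update R P (∑ i ∈ s, c i • M i)) =
      ∑ i ∈ s, c i • cpnPr (Function.update R P (M i)) := by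
  ext σ τ
  rw [cpnPr_update_apply, Matrix.sum_apply, Matrix.sum_apply, Finset.sum_mul]
  refine Finset.sum_congr rfl fun i _ => ?_
  rw [Matrix.smul_apply, Matrix.smul_apply, cpnPr_update_apply, smul_eq_mul, smul_eq_mul, mul_assoc]

theorem cpnPr_update_smul (R : CpSt Mem) (P : PP) (c : ℂ) (M : Matrix (Mem P) (Mem P) ℂ) :
    cpnPr (Function.update R P (c • M)) = c • cpnPr (Function.update R P M) := by
  ext σ τ
  rw [cpnPr_update_apply, Matrix.smul_apply, Matrix.smul_apply, cpnPr_update_apply, smul_eq_mul,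
    smul_eq_mul, mul_assoc]

theorem cpn_sandwich (P : PP) (A B : Matrix (Mem P) (Mem P) ℂ) (R : CpSt Mem) :
    cpLoc P A * cpnPr R * (cpLoc P B)ᴴ = cpnPr (Function.update R P (A * R P * Bᴴ)) := by
  ext σ τ
  rw [cpnPr_update_apply, Matrix.mul_apply]
  have h1 : ∀ υ', (cpLoc P A * cpnPr R) σ υ' = ∑ m, A (σ P) m * cpnPr R (Function.update σ P m) υ' := by
    intro υ'
    have h := cpLoc_sum_cond P σ (fun υ => A (σ P) (υ P) * cpnPr R υ υ')
    simp only [Function.update_self] at h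
    rw [← h, Matrix.mul_apply]
    simp only [cpLoc_apply, ite_mul, zero_mul]
  have h2 := cpLoc_sum_cond P τ (fun υ' => (cpLoc P A * cpnPr R) σ υ' * star (B (τ P) (υ' P)))
  simp only [Function.update_self] at h2
  have h3 : ∑ υ', (cpLoc P A * cpnPr R) σ υ' * (cpLoc P B)ᴴ υ' τ =
      ∑ υ', (if ∀ Q, Q ≠ P → τ Q = υ' Q then
        (cpLoc P A * cpnPr R) σ υ' * star (B (τ P) (υ' P)) else 0) := by
    refine Finset.sum_congr rfl fun υ' _ => ?_
    rw [Matrix.conjTranspose_apply, cpLoc_apply]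
    split_ifs <;> simp
  rw [h3, h2, Matrix.mul_apply, Finset.sum_mul]
  refine Finset.sum_congr rfl fun m' _ => ?_
  rw [h1, Matrix.mul_apply, Matrix.conjTranspose_apply, Finset.sum_mul, Finset.sum_mul,
    Finset.sum_mul]
  refine Finset.sum_congr rfl fun m _ => ?_
  rw [cpnPr_apply_update]
  ring

/-- product operators act on product operators factor by factor -/
theorem cpLoc_mul_prod_mul (P : PP) (A B : Matrix (Mem P) (Mem P) ℂ)
    (R : ∀ Q, Matrix (Mem Q) (Mem Q) ℂ) :
    cpLoc P A * (Matrix.of fun σ τ : Cfg Mem => ∏ Q, R Q (σ Q) (τ Q)) * (cpLoc P B)ᴴ =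
      Matrix.of fun σ τ : Cfg Mem => ∏ Q, (Function.update R P (A * R P * Bᴴ)) Q (σ Q) (τ Q) :=
  cpn_sandwich P A B R

/-- a linear combination of sandwiches at one party -/
theorem cpn_half {ι : Type} (s : Finset ι) (P : PP) (c : ι → ℂ)
    (A B : ι → Matrix (Mem P) (Mem P) ℂ) (R : CpSt Mem) :
    cpnPr (Function.update R P (∑ i ∈ s, c i • (A i * R P * (B i)ᴴ))) =
      ∑ i ∈ s, c i • (cpLoc P (A i) * cpnPr R * (cpLoc P (B i))ᴴ) := by
  rw [cpnPr_update_sum]
  refine Finset.sum_congr rfl fun i _ => ?_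
  rw [cpn_sandwich]

variable {Phys : PP → Type} [∀ P, Fintype (Phys P)] [∀ P, DecidableEq (Phys P)]

/-- read-out of a product operator -/
theorem cp_out_prod (rd : CpRead Mem Phys) (R : ∀ Q, Matrix (Mem Q) (Mem Q) ℂ) (x y : Cfg Phys) :
    rd.out (Matrix.of fun σ τ : Cfg Mem => ∏ Q, R Q (σ Q) (τ Q)) x y =
      ∏ Q, rd.out1 Q (R Q) (x Q) (y Q) := by
  simp only [CpRead.out, CpRead.out1, Matrix.of_apply]
  rw [Finset.prod_univ_sum, Fintype.piFinset_univ]
  refine Finset.sum_congr rfl fun σ _ => ?_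
  rw [Finset.prod_univ_sum, Fintype.piFinset_univ]
  refine Finset.sum_congr rfl fun τ _ => ?_
  rw [Finset.prod_ite_zero]
  by_cases h : (∀ P, rd.ph P (σ P) = x P) ∧ (∀ P, rd.ph P (τ P) = y P) ∧
      (∀ P, rd.gb P (σ P) = rd.gb P (τ P))
  · rw [if_pos h, if_pos (fun Q _ => ⟨h.1 Q, h.2.1 Q, h.2.2 Q⟩)]
  · rw [if_neg h, if_neg (fun h' => h ⟨fun Q => (h' Q (Finset.mem_univ Q)).1,
      fun Q => (h' Q (Finset.mem_univ Q)).2.1, fun Q => (h' Q (Finset.mem_univ Q)).2.2⟩)]

theorem cpn_out_sum {ι : Type} (rd : CpRead Mem Phys) (s : Finset ι) (X : ι → CpOp Mem) :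
    rd.out (∑ i ∈ s, X i) = ∑ i ∈ s, rd.out (X i) := by
  ext x y
  rw [Matrix.sum_apply]
  simp only [CpRead.out, Matrix.of_apply, Matrix.sum_apply]
  conv_rhs => rw [Finset.sum_comm]
  refine Finset.sum_congr rfl fun σ _ => ?_
  conv_rhs => rw [Finset.sum_comm]
  refine Finset.sum_congr rfl fun τ _ => ?_
  split_ifs
  · rfl
  · simp

/-! ### LEAF NET -/

/-- a double linear combination of sandwiches at one party -/
theorem cpn_half2 {ι κ : Type} [Fintype ι] [Fintype κ] (P : PP) (c : ι → κ → ℂ)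
    (A : ι → Matrix (Mem P) (Mem P) ℂ) (B : κ → Matrix (Mem P) (Mem P) ℂ) (R : CpSt Mem) :
    cpnPr (Function.update R P (∑ i, ∑ j, c i j • (A i * R P * (B j)ᴴ))) =
      ∑ i, ∑ j, c i j • (cpLoc P (A i) * cpnPr R * (cpLoc P (B j))ᴴ) := by
  rw [← Finset.sum_product', ← Finset.sum_product']
  exact cpn_half (Finset.univ ×ˢ Finset.univ) P (fun i => c i.1 i.2) (fun i => A i.1)
    (fun i => B i.2) R

/-- one sampled step on a product operator, general phases -/
theorem CpStep.cpn_upd {Ξ : Type} (s : CpStep Mem Ξ) (ξ ζ : Ξ) (G : s.α → s.α → ℂ) (w : ℂ)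
    (R : CpSt Mem) :
    cpnPr (s.upd ξ ζ G w R) = ∑ a, ∑ b, ∑ c, ∑ d,
      (w * (((cpQrt (s.lam ξ a * s.lam ζ c) : ℝ) : ℂ) * G a c) *
        (((cpQrt (s.lam ξ b * s.lam ζ d) : ℝ) : ℂ) * star (G b d))) •
      (s.opened ξ a b * (cpnPr R * (s.opened ζ c d)ᴴ)) := by
  show cpnPr (Function.update (Function.update R s.Q (s.halfQ ξ ζ G (R s.Q))) s.P
    (w • s.halfP ξ ζ G ((Function.update R s.Q (s.halfQ ξ ζ G (R s.Q))) s.P))) = _
  set R' := Function.update R s.Q (s.halfQ ξ ζ G (R s.Q)) with hR'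
  have e1 : cpnPr R' = ∑ b, ∑ d, (((cpQrt (s.lam ξ b * s.lam ζ d) : ℝ) : ℂ) * star (G b d)) •
      (cpLoc s.Q (s.oQ ξ b) * cpnPr R * (cpLoc s.Q (s.oQ ζ d))ᴴ) :=
    cpn_half2 s.Q _ _ _ R
  have e2 : cpnPr (Function.update R' s.P (s.halfP ξ ζ G (R' s.P))) =
      ∑ a, ∑ c, (((cpQrt (s.lam ξ a * s.lam ζ c) : ℝ) : ℂ) * G a c) •
      (cpLoc s.P (s.oP ξ a) * cpnPr R' * (cpLoc s.P (s.oP ζ c))ᴴ) :=
    cpn_half2 s.P _ _ _ R'
  rw [cpnPr_update_smul, e2, e1]
  simp only [Matrix.mul_sum, Matrix.sum_mul, Matrix.mul_smul, Matrix.smul_mul, Finset.smul_sum,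
    smul_smul]
  refine Finset.sum_congr rfl fun a _ => ?_
  rw [Finset.sum_comm]
  refine Finset.sum_congr rfl fun b _ => Finset.sum_congr rfl fun c _ =>
    Finset.sum_congr rfl fun d _ => ?_
  congr 1
  · ring
  · unfold CpStep.opened
    rw [Matrix.conjTranspose_mul]
    simp only [Matrix.mul_assoc]

theorem CpStep.lam_nonneg {Ξ : Type} (s : CpStep Mem Ξ) (hs : s.Valid) (ξ : Ξ) (a : s.α) :
    0 ≤ s.lam ξ a := mul_nonneg (hs.lamI_nonneg _ _) (hs.lamO_nonneg _ _)

/-- the sampled double layer step maps product operators to averages of product operators -/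
theorem CpStep.sup_kHat_prod {Ξ : Type} (s : CpStep Mem Ξ) (hs : s.Valid) (ξ ζ : Ξ) (k : ℕ)
    (g : Fin k → s.α → s.α → Fin 4) (R : CpSt Mem) :
    s.sup ξ ζ (s.kHat ξ ζ k g) (Matrix.of fun σ τ : Cfg Mem => ∏ Q, R Q (σ Q) (τ Q)) =
      ∑ j : Fin k, Matrix.of fun σ τ : Cfg Mem =>
        ∏ Q, (s.upd ξ ζ (fun a c => cpPh (g j a c)) ((k : ℂ)⁻¹) R) Q (σ Q) (τ Q) := by
  show s.sup ξ ζ (s.kHat ξ ζ k g) (cpnPr R) =
    ∑ j : Fin k, cpnPr (s.upd ξ ζ (fun a c => cpPh (g j a c)) ((k : ℂ)⁻¹) R)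
  simp only [CpStep.cpn_upd]
  unfold CpStep.sup
  simp only [LinearMap.sum_apply, LinearMap.smul_apply, LinearMap.comp_apply,
    LinearMap.mulLeft_apply, LinearMap.mulRight_apply]
  conv_rhs => rw [Finset.sum_comm]
  refine Finset.sum_congr rfl fun a _ => ?_
  conv_rhs => rw [Finset.sum_comm]
  refine Finset.sum_congr rfl fun b _ => ?_
  conv_rhs => rw [Finset.sum_comm]
  refine Finset.sum_congr rfl fun c _ => ?_
  conv_rhs => rw [Finset.sum_comm]
  refine Finset.sum_congr rfl fun d _ => ?_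
  rw [← Finset.sum_smul]
  congr 1
  unfold CpStep.kHat CpStep.kW CpStep.emp
  have e : s.lam ξ a * s.lam ξ b * (s.lam ζ c * s.lam ζ d) =
      (s.lam ξ a * s.lam ζ c) * (s.lam ξ b * s.lam ζ d) := by ring
  rw [e, cpb_qrt_mul (mul_nonneg (s.lam_nonneg hs _ _) (s.lam_nonneg hs _ _)), Finset.mul_sum,
    Finset.mul_sum]
  refine Finset.sum_congr rfl fun j _ => ?_
  push_cast
  ring

/-- expansion of a time ordered product of maps which send "product states" to sums of such -/
theorem cpn_tprod_expand {E St : Type} [AddCommMonoid E] [Module ℂ E] (pr : St → E) (n : ℕ)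
    (L : Fin n → Module.End ℂ E) (κ : Fin n → Type) [∀ i, Fintype (κ i)]
    (u : ∀ i, κ i → Function.End St) (h : ∀ i R, L i (pr R) = ∑ j, pr (u i j R)) (R : St) :
    cpTprod n L (pr R) = ∑ j : ∀ i, κ i, pr (cpTprod n (fun i => u i (j i)) R) := by
  induction n with
  | zero =>
    rw [Fintype.sum_unique]
    rfl
  | succ n ih =>
    rw [cpTprod_succ, Module.End.mul_apply, ih (fun i => L i.castSucc) (fun i => κ i.castSucc)
      (fun i => u i.castSucc) (fun i => h _), map_sum]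
    simp only [h]
    rw [← Equiv.sum_comp (Fin.snocEquiv κ), Fintype.sum_prod_type, Finset.sum_comm]
    refine Finset.sum_congr rfl fun j _ => Finset.sum_congr rfl fun p _ => ?_
    rw [cpTprod_succ]
    simp only [Fin.snocEquiv, Equiv.coe_fn_mk, Fin.snoc_last, Fin.snoc_castSucc]
    rfl

namespace CpCircuit

variable (C : CpCircuit Mem) (k : ℕ)

/-- virtual indices of one gate -/
abbrev cpnGI (t : Fin C.M) : Type :=
  ((C.gate t).Ξ × (C.gate t).Ξ) × (Fin (C.gate t).r → Fin k)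

/-- the sampled double layer gate on product states, for fixed virtual indices of this gate -/
noncomputable def cpnGU (ω : C.Smp k) (t : Fin C.M) (q : C.cpnGI k t) :
    Function.End (CpSt Mem) := fun R =>
  let R' := (cpTprod (C.gate t).r fun i =>
    ((C.gate t).step i).upd q.1.1 q.1.2
      (fun a c => cpPh (ω ⟨t, i⟩ (q.2 i) a c)) ((k : ℂ)⁻¹)) R
  Function.update R' (C.gate t).lead
    (((C.gate t).c q.1.1 * star ((C.gate t).c q.1.2)) • R' (C.gate t).lead)

theorem cpn_gate (hC : C.Valid) (ω : C.Smp k) (t : Fin C.M) (R : CpSt Mem) :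
    (C.gate t).sup (C.tHat k ω t) (cpnPr R) = ∑ q : C.cpnGI k t, cpnPr (C.cpnGU k ω t q R) := by
  unfold CpGate.sup
  simp only [LinearMap.sum_apply, LinearMap.smul_apply]
  rw [Fintype.sum_prod_type (f := fun q : C.cpnGI k t => cpnPr (C.cpnGU k ω t q R)),
    Fintype.sum_prod_type
      (f := fun p : (C.gate t).Ξ × (C.gate t).Ξ => ∑ j, cpnPr (C.cpnGU k ω t (p, j) R))]
  refine Finset.sum_congr rfl fun ξ _ => Finset.sum_congr rfl fun ζ _ => ?_
  have h := cpn_tprod_expand cpnPr (C.gate t).r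
    (fun i => ((C.gate t).step i).sup ξ ζ (C.tHat k ω t i ξ ζ)) (fun _ => Fin k)
    (fun i j => ((C.gate t).step i).upd ξ ζ (fun a c => cpPh (ω ⟨t, i⟩ j a c)) ((k : ℂ)⁻¹))
    (fun i R => ((C.gate t).step i).sup_kHat_prod ((hC.gate t).step i) ξ ζ k (ω ⟨t, i⟩) R) R
  unfold CpGate.supMono
  rw [h, Finset.smul_sum]
  refine Finset.sum_congr rfl fun j _ => ?_
  unfold cpnGU
  simp only
  rw [cpnPr_update_smul, Function.update_eq_self]

/-- regrouping of the virtual indices gate by gate -/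
def cpnEquiv : (∀ v, C.NetD k v) ≃ ∀ t, C.cpnGI k t where
  toFun := fun β t => (β (.inl t), fun i => β (.inr ⟨t, i⟩))
  invFun := fun Q v => match v with
    | .inl t => (Q t).1
    | .inr p => (Q p.1).2 p.2
  left_inv := fun β => by
    funext v
    rcases v with t | ⟨t, i⟩ <;> rfl
  right_inv := fun Q => rfl

theorem cpn_ini : vecMulVec C.ini (star C.ini) =
    cpnPr fun P => vecMulVec (C.ψ P) (star (C.ψ P)) := by
  ext σ τ
  simp only [cpnPr_apply, vecMulVec_apply, CpCircuit.ini, Pi.star_apply, star_prod,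
    Finset.prod_mul_distrib]

end CpCircuit

/-- the final sampled double layer operator is the sum over the virtual indices of product operators -/
theorem CpCircuit.fin_kHat_net (C : CpCircuit Mem) (hC : C.Valid) (k : ℕ) (ω : C.Smp k) :
    C.fin (C.tHat k ω) = ∑ β : ∀ v, C.NetD k v,
      Matrix.of fun σ τ : Cfg Mem => ∏ Q, C.netState k ω β Q (σ Q) (τ Q) := by
  unfold CpCircuit.fin
  rw [C.cpn_ini, cpn_tprod_expand cpnPr C.M (fun t => (C.gate t).sup (C.tHat k ω t))
    (fun t => C.cpnGI k t) (fun t q => C.cpnGU k ω t q) (fun t R => C.cpn_gate k hC ω t R),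
    ← Equiv.sum_comp (C.cpnEquiv k)]
  rfl

theorem CpCircuit.out_fin_kHat (C : CpCircuit Mem) (hC : C.Valid) (rd : CpRead Mem Phys) (k : ℕ)
    (ω : C.Smp k) : rd.out (C.fin (C.tHat k ω)) = C.sigma k rd ω := by
  rw [C.fin_kHat_net hC, cpn_out_sum]
  ext x y
  rw [Matrix.sum_apply]
  simp only [cp_out_prod]
  rfl

end Claimed.Agent.R296
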