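import Claimed.Agent.R296.P2.CompSplitB
import Claimed.Agent.R296.P2.CompLocC
import Claimed.Agent.R296.P2.CompCoreC
import Claimed.Agent.R296.P2.CompNet
import Claimed.Agent.R296.P2.CompCount

/-!
# Row 296, P2 Section 4: summation over corrected positions, labels and physical entries

`domY ω` dominates `|Tr (W (σ_ω - ρ))|` for EVERY contraction `W` simultaneously; its average is at most
`(1 + Wc^4 d0^4 / √k)^N - 1` (eqs. compression-choice-cost, compression-total-error).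

PROOFS.  `trace_fin_tChi_le`: `fin_tChi`, `cp_pull_decomp` for `A = aff χ`, triangle inequality, `cp_core_bound`
(terms with zero weight vanish; otherwise `circRB_valid`, `cp_sides`).  `dom_bound`: `cp_trace_out`,
`out_fin_kHat`, `fin_kHat_sum`, `fin_kEx` (the term `χ = false` is `ρ`).
`avg_domChi_le`: `cpAvg_sum`, `cp_core_avg`, `circRB_V`,
`√(k⁻¹ ^ s) = (1/√k)^s`, `aff_card_le`, `Wc, d0 ≥ 1`.
-/

set_option autoImplicit false
set_option linter.unusedSectionVars false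

namespace Claimed.Agent.R296

open Matrix

variable {PP : Type} [DecidableEq PP] [Fintype PP] {Mem : PP → Type}
  [∀ P, Fintype (Mem P)] [∀ P, DecidableEq (Mem P)]
  {Phys : PP → Type} [∀ P, Fintype (Phys P)] [∀ P, DecidableEq (Phys P)]

namespace CpCircuit

variable (C : CpCircuit Mem) (k : ℕ)

/-- contribution of one set of corrected positions to the dominating random variable -/
noncomputable def domChi (rd : CpRead Mem Phys) (χ : C.Chi) (ω : C.Smp k) : ℝ :=
  ∑ o : C.Lab, (∏ t, ‖C.wt χ t (o t)‖) * ∑ y : CfgOn Phys (C.aff χ), ∑ x : CfgOn Phys (C.aff χ),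
    Real.sqrt ((C.circRB k χ o).Ysq C.ini (rd.obsA (C.aff χ) y x) ω)

/-- the dominating random variable -/
noncomputable def domY (rd : CpRead Mem Phys) (ω : C.Smp k) : ℝ :=
  ∑ χ : C.Chi, if C.chiCard χ = 0 then 0 else C.domChi k rd χ ω

/-! ### LEAF BOUND-1: pointwise domination -/

theorem chiCard_eq_zero (χ : C.Chi) : C.chiCard χ = 0 ↔ χ = fun _ _ => false := by
  constructor
  · intro h
    rw [chiCard, Finset.sum_eq_zero_iff] at h
    funext t i
    have h1 := h t (Finset.mem_univ t)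
    rw [Finset.sum_eq_zero_iff] at h1
    have h2 := h1 i (Finset.mem_univ i)
    by_contra hne
    have htrue : χ t i = true := by simpa using hne
    rw [if_pos htrue] at h2
    exact one_ne_zero h2
  · rintro rfl
    simp [chiCard]

/-- one set of corrected positions -/
theorem trace_fin_tChi_le (hC : C.Valid) (hk : 0 < k) (rd : CpRead Mem Phys) (χ : C.Chi)
    (ω : C.Smp k) (W : Matrix (Cfg Phys) (Cfg Phys) ℂ) (hW : CpContr W) :
    ‖Matrix.trace (rd.pull W * C.fin (C.tChi k ω χ))‖ ≤ C.domChi k rd χ ω := by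
  have hs : CpSides (cpAA (C.aff χ)) (cpXX (C.aff χ)) C.ini := cp_sides (C.aff χ) C.ψ hC.ini
  have e1 : Matrix.trace (rd.pull W * C.fin (C.tChi k ω χ)) =
      ∑ o : C.Lab, (∏ t, C.wt χ t (o t)) * ∑ y : CfgOn Phys (C.aff χ),
        ∑ x : CfgOn Phys (C.aff χ), Matrix.trace (rd.obsA (C.aff χ) y x * rd.obsX (C.aff χ) W y x *
          (C.circRB k χ o).sup ω (vecMulVec C.ini (star C.ini))) := by
    rw [C.fin_tChi k hC hk χ ω, Matrix.mul_sum, Matrix.trace_sum]
    refine Finset.sum_congr rfl fun o _ => ?_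
    rw [Matrix.mul_smul, Matrix.trace_smul, smul_eq_mul, cp_pull_decomp rd (C.aff χ) W,
      Matrix.sum_mul, Matrix.trace_sum]
    congr 1
    refine Finset.sum_congr rfl fun y _ => ?_
    rw [Matrix.sum_mul, Matrix.trace_sum]
  rw [e1, domChi]
  refine (norm_sum_le _ _).trans (Finset.sum_le_sum fun o _ => ?_)
  rw [norm_mul, norm_prod]
  by_cases ho : ∀ t, C.wt χ t (o t) ≠ 0
  · refine mul_le_mul_of_nonneg_left ?_ (Finset.prod_nonneg fun t _ => norm_nonneg _)
    refine (norm_sum_le _ _).trans (Finset.sum_le_sum fun y _ => ?_)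
    refine (norm_sum_le _ _).trans (Finset.sum_le_sum fun x _ => ?_)
    exact cp_core_bound hs (C.circRB_valid k hC hk χ o ho) (cp_obsA_mem rd _ y x)
      (cp_obsX_mem rd _ W y x) (cp_obsX_contr rd _ hW y x) ω
  · push Not at ho
    obtain ⟨t, ht⟩ := ho
    rw [Finset.prod_eq_zero (Finset.mem_univ t) (by rw [ht, norm_zero]), zero_mul, zero_mul]

theorem dom_bound (hC : C.Valid) (hk : 0 < k) (rd : CpRead Mem Phys) (ω : C.Smp k)
    (W : Matrix (Cfg Phys) (Cfg Phys) ℂ) (hW : CpContr W) :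
    ‖Matrix.trace (W * (C.sigma k rd ω - C.rho rd))‖ ≤ C.domY k rd ω := by
  classical
  set f : C.Chi → ℂ := fun χ => Matrix.trace (rd.pull W * C.fin (C.tChi k ω χ)) with hf
  have e1 : Matrix.trace (W * C.sigma k rd ω) = ∑ χ, f χ := by
    rw [← C.out_fin_kHat hC rd k ω, cp_trace_out, C.fin_kHat_sum hC k ω, Matrix.mul_sum,
      Matrix.trace_sum]
  have e2 : Matrix.trace (W * C.rho rd) = f (fun _ _ => false) := by
    show _ = Matrix.trace (rd.pull W * C.fin (C.tChi k ω fun _ _ => false))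
    rw [CpCircuit.rho, cp_trace_out, C.tChi_false k ω, C.fin_kEx]
  have e3 : ∑ χ, f χ = f (fun _ _ => false) + ∑ χ, if C.chiCard χ = 0 then 0 else f χ := by
    have : ∀ χ, f χ = (if χ = (fun _ _ => false) then f (fun _ _ => false) else 0) +
        (if C.chiCard χ = 0 then 0 else f χ) := by
      intro χ
      by_cases h : χ = fun _ _ => false
      · rw [if_pos h, if_pos ((C.chiCard_eq_zero χ).mpr h), h, add_zero]
      · rw [if_neg h, if_neg (fun h' => h ((C.chiCard_eq_zero χ).mp h')), zero_add]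
    rw [Finset.sum_congr rfl fun χ _ => this χ, Finset.sum_add_distrib, Finset.sum_ite_eq']
    simp
  rw [Matrix.mul_sub, Matrix.trace_sub, e1, e2, e3, add_sub_cancel_left, domY]
  refine (norm_sum_le _ _).trans (Finset.sum_le_sum fun χ _ => ?_)
  split_ifs
  · simp
  · exact C.trace_fin_tChi_le k hC hk rd χ ω W hW

/-! ### LEAF BOUND-3: averages -/

theorem avg_domChi_le (hC : C.Valid) (hk : 0 < k) (rd : CpRead Mem Phys) (χ : C.Chi)
    (Wc d0 : ℝ) (hWc : 1 ≤ Wc) (hd0 : 1 ≤ d0) (hW : ∀ P, C.pcost P ≤ Wc)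
    (hd : ∀ P, (Fintype.card (Phys P) : ℝ) ≤ d0) :
    cpAvg (fun ω => C.domChi k rd χ ω) ≤ (Wc ^ 4 * d0 ^ 4 / Real.sqrt k) ^ C.chiCard χ := by
  have hs : CpSides (cpAA (C.aff χ)) (cpXX (C.aff χ)) C.ini := cp_sides (C.aff χ) C.ψ hC.ini
  set a := (C.aff χ).card with ha
  set sc := C.chiCard χ with hsc
  set q : ℝ := (Real.sqrt k)⁻¹ with hq
  have hq0 : 0 ≤ q := inv_nonneg.mpr (Real.sqrt_nonneg _)
  have hcard : (Fintype.card (CfgOn Phys (C.aff χ)) : ℝ) ≤ d0 ^ a :=
    card_cfgOn_le (C.aff χ) d0 hd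
  -- one label choice
  have h1 : ∀ o : C.Lab, cpAvg (fun ω => (∏ t, ‖C.wt χ t (o t)‖) *
      ∑ y : CfgOn Phys (C.aff χ), ∑ x : CfgOn Phys (C.aff χ),
        Real.sqrt ((C.circRB k χ o).Ysq C.ini (rd.obsA (C.aff χ) y x) ω)) ≤
      (∏ t, ‖C.wt χ t (o t)‖) * ((d0 ^ a) ^ 2 * q ^ sc) := by
    intro o
    rw [cpAvg_mul_left]
    by_cases ho : ∀ t, C.wt χ t (o t) ≠ 0
    · refine mul_le_mul_of_nonneg_left ?_ (Finset.prod_nonneg fun t _ => norm_nonneg _)
      rw [cpAvg_sum]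
      have hV : Real.sqrt (C.circRB k χ o).V = q ^ sc := by
        rw [C.circRB_V k χ o ho, hq, ← Real.sqrt_inv, Real.sqrt_eq_iff_mul_self_eq
          (by positivity) (by positivity), ← mul_pow, Real.mul_self_sqrt (by positivity)]
      have h2 : ∀ y : CfgOn Phys (C.aff χ), cpAvg (fun ω => ∑ x : CfgOn Phys (C.aff χ),
          Real.sqrt ((C.circRB k χ o).Ysq C.ini (rd.obsA (C.aff χ) y x) ω)) ≤
          (Fintype.card (CfgOn Phys (C.aff χ)) : ℝ) * q ^ sc := by
        intro y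
        rw [cpAvg_sum]
        calc ∑ x : CfgOn Phys (C.aff χ), cpAvg (fun ω =>
              Real.sqrt ((C.circRB k χ o).Ysq C.ini (rd.obsA (C.aff χ) y x) ω))
            ≤ ∑ _x : CfgOn Phys (C.aff χ), q ^ sc := by
              refine Finset.sum_le_sum fun x _ => ?_
              rw [← hV]
              exact cp_core_avg hs (C.circRB_valid k hC hk χ o ho) (cp_obsA_contr rd _ y x)
          _ = (Fintype.card (CfgOn Phys (C.aff χ)) : ℝ) * q ^ sc := by
              rw [Finset.sum_const, Finset.card_univ, nsmul_eq_mul]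
      calc ∑ y : CfgOn Phys (C.aff χ), cpAvg (fun ω => ∑ x : CfgOn Phys (C.aff χ),
            Real.sqrt ((C.circRB k χ o).Ysq C.ini (rd.obsA (C.aff χ) y x) ω))
          ≤ ∑ _y : CfgOn Phys (C.aff χ), (Fintype.card (CfgOn Phys (C.aff χ)) : ℝ) * q ^ sc :=
            Finset.sum_le_sum fun y _ => h2 y
        _ = (Fintype.card (CfgOn Phys (C.aff χ)) : ℝ) ^ 2 * q ^ sc := by
            rw [Finset.sum_const, Finset.card_univ, nsmul_eq_mul]; ring
        _ ≤ (d0 ^ a) ^ 2 * q ^ sc := by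
            refine mul_le_mul_of_nonneg_right ?_ (pow_nonneg hq0 _)
            exact pow_le_pow_left₀ (Nat.cast_nonneg _) hcard 2
    · push Not at ho
      obtain ⟨t, ht⟩ := ho
      rw [Finset.prod_eq_zero (Finset.mem_univ t) (by rw [ht, norm_zero]), zero_mul, zero_mul]
  have ha2 : a ≤ 2 * sc := C.aff_card_le χ
  have hd0' : (0 : ℝ) ≤ d0 := zero_le_one.trans hd0
  unfold domChi
  rw [cpAvg_sum]
  calc ∑ o : C.Lab, cpAvg (fun ω => (∏ t, ‖C.wt χ t (o t)‖) *
      ∑ y : CfgOn Phys (C.aff χ), ∑ x : CfgOn Phys (C.aff χ),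
        Real.sqrt ((C.circRB k χ o).Ysq C.ini (rd.obsA (C.aff χ) y x) ω))
      ≤ ∑ o : C.Lab, (∏ t, ‖C.wt χ t (o t)‖) * ((d0 ^ a) ^ 2 * q ^ sc) :=
        Finset.sum_le_sum fun o _ => h1 o
    _ = (∑ o : C.Lab, ∏ t, ‖C.wt χ t (o t)‖) * ((d0 ^ a) ^ 2 * q ^ sc) := by
        rw [Finset.sum_mul]
    _ ≤ Wc ^ (2 * a) * ((d0 ^ a) ^ 2 * q ^ sc) :=
        mul_le_mul_of_nonneg_right (C.sum_wt_le χ Wc hW) (by positivity)
    _ ≤ Wc ^ (4 * sc) * (d0 ^ (4 * sc) * q ^ sc) := by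
        have e1 : Wc ^ (2 * a) ≤ Wc ^ (4 * sc) := pow_le_pow_right₀ hWc (by omega)
        have e2 : (d0 ^ a) ^ 2 ≤ d0 ^ (4 * sc) := by
          rw [← pow_mul]
          exact pow_le_pow_right₀ hd0 (by omega)
        have e3 : 0 ≤ q ^ sc := pow_nonneg hq0 _
        have e4 : 0 ≤ Wc ^ (4 * sc) := by positivity
        exact mul_le_mul e1 (mul_le_mul_of_nonneg_right e2 e3) (by positivity) e4
    _ = (Wc ^ 4 * d0 ^ 4 / Real.sqrt k) ^ sc := by
        rw [div_eq_mul_inv, mul_pow, mul_pow, ← pow_mul, ← pow_mul, mul_assoc]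

theorem avg_domY_le (hC : C.Valid) (hk : 0 < k) (rd : CpRead Mem Phys)
    (Wc d0 : ℝ) (hWc : 1 ≤ Wc) (hd0 : 1 ≤ d0) (hW : ∀ P, C.pcost P ≤ Wc)
    (hd : ∀ P, (Fintype.card (Phys P) : ℝ) ≤ d0) :
    cpAvg (fun ω => C.domY k rd ω) ≤ (1 + Wc ^ 4 * d0 ^ 4 / Real.sqrt k) ^ C.nsteps - 1 := by
  classical
  set q : ℝ := Wc ^ 4 * d0 ^ 4 / Real.sqrt k with hq
  unfold domY
  rw [cpAvg_sum, ← C.sum_chi_pow q]
  have h1 : ∀ χ : C.Chi, cpAvg (fun ω => if C.chiCard χ = 0 then 0 else C.domChi k rd χ ω) ≤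
      q ^ C.chiCard χ - (if χ = (fun _ _ => false) then 1 else 0) := by
    intro χ
    by_cases h : χ = fun _ _ => false
    · have h0 := (C.chiCard_eq_zero χ).mpr h
      simp only [h0, if_true, if_pos h, pow_zero, sub_self]
      rw [cpAvg_const]
    · have h0 : C.chiCard χ ≠ 0 := fun h' => h ((C.chiCard_eq_zero χ).mp h')
      simp only [h0, if_false, if_neg h, sub_zero]
      exact C.avg_domChi_le k hC hk rd χ Wc d0 hWc hd0 hW hd
  refine (Finset.sum_le_sum fun χ _ => h1 χ).trans (le_of_eq ?_)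
  rw [Finset.sum_sub_distrib, Finset.sum_ite_eq']
  simp

end CpCircuit

end Claimed.Agent.R296
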