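import Claimed.Agent.R296.P2.CompLocA

/-!
# Row 296, P2 Section 4, package CONS: constructors for the users of the model (Sections 5-7)

* `CpStep.source / effect / priv` : pure source, pure effect, private step;
* `CpStep.sourceVec / effectVec` : the pair resource is given as an arbitrary unit vector `η x y`
  (not in Schmidt form) together with insertion families; the Schmidt decomposition is done here;
* `CpStep.link_contr`, `CpGate.mono_contr`; single label gates, private gates;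
* `CpCircuit.op_contr`, norm of the final vector.

PROOFS.  `link_contr`: `u_{a a'} = √λI_a δ_{aa'} v` is fed into the block contraction
`(a,a'),(w,w') ↦ p_{a w} q_{a' w'}` (`CpBC.loc`, `CpBC.comp`), then `‖∑_w √λO_w y_{ww}‖² ≤ (∑ λO)(∑ ‖y_ww‖²)`.
`cp_schmidt`: `G = η ηᴴ` is positive semidefinite; `G = U diag(d) Uᴴ` (`Matrix.IsHermitian.spectral_theorem`),
`lam a = d a ≥ 0`, `∑ d = Tr G = ∑‖η‖²`; `V a y = (√d_a)⁻¹ ∑ x, conj (U x a) η x y` (`0` if `d_a = 0`); the rows of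
`V` with `d_a > 0` are orthonormal, and `Uᴴ η` has zero row `a` if `d_a = 0` (its norm squared is `d_a`);
hence `η = U diag(√d) V`.  Matrices with orthonormal (or zero) rows are contractions, as are their transposes.
`sourceVec_valid`: `∑_a (∑_x U x a • i_x) v_a = ∑_x i_x (∑_a U x a • v_a)`, `CpRow i`, and `U` is a contraction
coordinatewise.
-/

set_option autoImplicit false
set_option linter.unusedSectionVars false

namespace Claimed.Agent.R296

open Matrix
open scoped ComplexOrder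

variable {PP : Type} [DecidableEq PP] [Fintype PP] {Mem : PP → Type}
  [∀ P, Fintype (Mem P)] [∀ P, DecidableEq (Mem P)]

/-! ### abstract lemmas -/

/-- Cauchy-Schwarz for linear combinations of vectors -/
theorem cpk_nsq_sum_smul_le {α n : Type} [Fintype α] [Fintype n] (c : α → ℂ) (y : α → n → ℂ) :
    cpNsq (∑ w, c w • y w) ≤ (∑ w, ‖c w‖ ^ 2) * ∑ w, cpNsq (y w) := by
  unfold cpNsq
  rw [Finset.sum_comm, Finset.mul_sum]
  refine Finset.sum_le_sum fun i _ => ?_
  rw [Finset.sum_apply]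
  simp only [Pi.smul_apply, smul_eq_mul]
  calc ‖∑ w, c w * y w i‖ ^ 2 ≤ (∑ w, ‖c w‖ * ‖y w i‖) ^ 2 := by
        refine pow_le_pow_left₀ (norm_nonneg _) ?_ 2
        exact (norm_sum_le _ _).trans (Finset.sum_le_sum fun j _ => (norm_mul _ _).le)
    _ ≤ _ := Finset.sum_mul_sq_le_sq_mul_sq _ _ _

/-- the blocks with a fixed input index form a column contraction -/
theorem CpBC.colAt {I O n : Type} [Fintype I] [Fintype O] [Fintype n]
    {f : I → O → Matrix n n ℂ} (hf : CpBC f) (i : I) : CpCol (f i) := by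
  classical
  intro v
  have h := hf (Pi.single i v)
  have h1 : ∀ o, ∑ j, f j o *ᵥ (Pi.single i v : I → n → ℂ) j = f i o *ᵥ v := by
    intro o
    rw [Finset.sum_eq_single i]
    · simp
    · intro j _ hj; simp [Pi.single_eq_of_ne hj]
    · intro h; exact absurd (Finset.mem_univ i) h
  have h2 : ∑ j, cpNsq ((Pi.single i v : I → n → ℂ) j) = cpNsq v := by
    rw [Finset.sum_eq_single i]
    · simp
    · intro j _ hj; simp [Pi.single_eq_of_ne hj, cpNsq_zero]
    · intro h; exact absurd (Finset.mem_univ i) h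
  simp only [h1, h2] at h
  exact h

theorem cpk_norm_sqrt_sq {x : ℝ} (hx : 0 ≤ x) : ‖((Real.sqrt x : ℝ) : ℂ)‖ ^ 2 = x := by
  rw [Complex.norm_real, Real.norm_of_nonneg (Real.sqrt_nonneg _), Real.sq_sqrt hx]

/-- a general link is a contraction (no commutation needed) -/
theorem cpk_link_contr {I O n : Type} [Fintype I] [Fintype O] [Fintype n] [DecidableEq n]
    {p q : I → O → Matrix n n ℂ} (hp : CpBC p) (hq : CpBC q) (lI : I → ℝ) (lO : O → ℝ)
    (hI : ∀ a, 0 ≤ lI a) (hO : ∀ w, 0 ≤ lO w) (sI : ∑ a, lI a ≤ 1) (sO : ∑ w, lO w ≤ 1) :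
    CpContr (∑ a : I × O, ((Real.sqrt (lI a.1 * lO a.2) : ℝ) : ℂ) • (p a.1 a.2 * q a.1 a.2)) := by
  intro v
  set u : I → O → n → ℂ := fun a w => ((Real.sqrt (lI a) : ℝ) : ℂ) • (q a w *ᵥ v) with hu
  set y : O → n → ℂ := fun w => ∑ a, p a w *ᵥ u a w with hy
  have e : (∑ a : I × O, ((Real.sqrt (lI a.1 * lO a.2) : ℝ) : ℂ) • (p a.1 a.2 * q a.1 a.2)) *ᵥ v
      = ∑ w, ((Real.sqrt (lO w) : ℝ) : ℂ) • y w := by
    rw [Matrix.sum_mulVec, Fintype.sum_prod_type_right]
    refine Finset.sum_congr rfl fun w _ => ?_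
    simp only [hy, hu]
    rw [Finset.smul_sum]
    refine Finset.sum_congr rfl fun a _ => ?_
    rw [smul_mulVec, ← mulVec_mulVec, mulVec_smul, smul_smul, Real.sqrt_mul (hI a),
      Complex.ofReal_mul, mul_comm]
  rw [e]
  have h1 : ∑ w, cpNsq (y w) ≤ cpNsq v :=
    calc ∑ w, cpNsq (y w) ≤ ∑ w, ∑ w', cpNsq (∑ a, p a w' *ᵥ u a w) :=
          Finset.sum_le_sum fun w _ =>
            Finset.single_le_sum (f := fun w' => cpNsq (∑ a, p a w' *ᵥ u a w))
              (fun _ _ => cpNsq_nonneg _) (Finset.mem_univ w)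
      _ ≤ ∑ w, ∑ a, cpNsq (u a w) := Finset.sum_le_sum fun w _ => hp (fun a => u a w)
      _ = ∑ a, lI a * ∑ w, cpNsq (q a w *ᵥ v) := by
          rw [Finset.sum_comm]
          refine Finset.sum_congr rfl fun a _ => ?_
          rw [Finset.mul_sum]
          refine Finset.sum_congr rfl fun w _ => ?_
          simp only [hu]
          rw [cpNsq_smul, cpk_norm_sqrt_sq (hI a)]
      _ ≤ ∑ a, lI a * cpNsq v :=
          Finset.sum_le_sum fun a _ => mul_le_mul_of_nonneg_left (hq.colAt a v) (hI a)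
      _ = (∑ a, lI a) * cpNsq v := by rw [Finset.sum_mul]
      _ ≤ 1 * cpNsq v := mul_le_mul_of_nonneg_right sI (cpNsq_nonneg v)
      _ = cpNsq v := one_mul _
  calc cpNsq (∑ w, ((Real.sqrt (lO w) : ℝ) : ℂ) • y w)
      ≤ (∑ w, ‖((Real.sqrt (lO w) : ℝ) : ℂ)‖ ^ 2) * ∑ w, cpNsq (y w) := cpk_nsq_sum_smul_le _ _
    _ = (∑ w, lO w) * ∑ w, cpNsq (y w) := by
        congr 1
        exact Finset.sum_congr rfl fun w _ => cpk_norm_sqrt_sq (hO w)
    _ ≤ 1 * cpNsq v :=
        mul_le_mul sO h1 (Finset.sum_nonneg fun w _ => cpNsq_nonneg _) zero_le_one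
    _ = cpNsq v := one_mul _

/-- adjoint of a rectangular contraction -/
theorem cpk_contr_conjTranspose {m n : Type} [Fintype m] [Fintype n] {A : Matrix m n ℂ}
    (hA : CpContr A) : CpContr Aᴴ := by
  intro u
  have h1 : cpIp u (A *ᵥ (Aᴴ *ᵥ u)) = ((cpNsq (Aᴴ *ᵥ u) : ℝ) : ℂ) := by
    rw [cpIp_mulVec, cpIp_self]
  have h2 := cpIp_norm_sq_le u (A *ᵥ (Aᴴ *ᵥ u))
  rw [h1, Complex.norm_real, Real.norm_eq_abs, sq_abs] at h2
  exact cp_le_of_sq_le_mul (cpNsq_nonneg _) (cpNsq_nonneg _)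
    (h2.trans (mul_le_mul_of_nonneg_left (hA _) (cpNsq_nonneg _)))

theorem cpk_nsq_star {n : Type} [Fintype n] (v : n → ℂ) : cpNsq (star v) = cpNsq v := by
  unfold cpNsq
  simp only [Pi.star_apply, norm_star]

/-- entrywise conjugate of a contraction -/
theorem cpk_contr_map_star {m n : Type} [Fintype m] [Fintype n] {A : Matrix m n ℂ}
    (hA : CpContr A) : CpContr (A.map star) := by
  intro v
  have h : A.map star *ᵥ v = star (A *ᵥ star v) := by
    funext i
    simp only [Matrix.mulVec, dotProduct, Matrix.map_apply, Pi.star_apply, star_sum, star_mul',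
      star_star]
  rw [h, cpk_nsq_star]
  exact (hA _).trans (cpk_nsq_star v).le

theorem cpk_contr_transpose {m n : Type} [Fintype m] [Fintype n] {A : Matrix m n ℂ}
    (hA : CpContr A) : CpContr Aᵀ := by
  have h := cpk_contr_map_star (cpk_contr_conjTranspose hA)
  have e : (Aᴴ).map star = Aᵀ := by
    ext i j
    simp [Matrix.conjTranspose_apply]
  rwa [e] at h

/-- a matrix with `Aᴴ A = 1` is a contraction -/
theorem cpk_contr_of_isometry {m n : Type} [Fintype m] [Fintype n] [DecidableEq n]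
    {A : Matrix m n ℂ} (hA : Aᴴ * A = 1) : CpContr A := by
  intro v
  have h1 : ((cpNsq (A *ᵥ v) : ℝ) : ℂ) = ((cpNsq v : ℝ) : ℂ) := by
    rw [← cpIp_self, cpIp_mulVec, Matrix.mulVec_mulVec, hA, Matrix.one_mulVec, cpIp_self]
  exact (Complex.ofReal_injective h1).le

/-- a matrix with `A Aᴴ` diagonal with entries in `[0,1]` is a contraction -/
theorem cpk_contr_of_diag {m n : Type} [Fintype m] [Fintype n] [DecidableEq m]
    {A : Matrix m n ℂ} (e : m → ℝ) (he : ∀ a, e a ≤ 1)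
    (hA : A * Aᴴ = diagonal fun a => ((e a : ℝ) : ℂ)) : CpContr A := by
  have h : CpContr Aᴴ := by
    intro u
    have h1 : ((cpNsq (Aᴴ *ᵥ u) : ℝ) : ℂ) = ((∑ a, e a * ‖u a‖ ^ 2 : ℝ) : ℂ) := by
      rw [← cpIp_self, ← cpIp_mulVec, Matrix.mulVec_mulVec, hA]
      unfold cpIp
      push_cast
      refine Finset.sum_congr rfl fun a _ => ?_
      rw [Matrix.mulVec_diagonal, ← Complex.conj_mul', Complex.star_def]
      ring
    rw [Complex.ofReal_injective h1]
    unfold cpNsq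
    exact Finset.sum_le_sum fun a _ => by
      have := mul_le_mul_of_nonneg_right (he a) (by positivity : (0:ℝ) ≤ ‖u a‖ ^ 2)
      simpa using this
  have h2 := cpk_contr_conjTranspose h
  rwa [Matrix.conjTranspose_conjTranspose] at h2

/-- coordinatewise action of a contraction on families of vectors -/
theorem cpk_mix_le {A X n : Type} [Fintype A] [Fintype X] [Fintype n] {M : Matrix A X ℂ}
    (hM : CpContr M) (v : X → n → ℂ) :
    ∑ a, cpNsq (∑ x, M a x • v x) ≤ ∑ x, cpNsq (v x) := by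
  have h : ∀ j, ∑ a, ‖(∑ x, M a x • v x) j‖ ^ 2 ≤ ∑ x, ‖v x j‖ ^ 2 := by
    intro j
    have := hM (fun x => v x j)
    unfold cpNsq at this
    refine le_trans (le_of_eq ?_) this
    refine Finset.sum_congr rfl fun a _ => ?_
    rw [Finset.sum_apply]
    rfl
  unfold cpNsq
  rw [Finset.sum_comm, Finset.sum_comm (f := fun x j => ‖v x j‖ ^ 2)]
  exact Finset.sum_le_sum fun j _ => h j

/-- mixing a row contraction with a contraction -/
theorem cpk_row_mix {A X n : Type} [Fintype A] [Fintype X] [Fintype n] {M : Matrix X A ℂ}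
    (hM : CpContr M) {i : X → Matrix n n ℂ} (hi : CpRow i) :
    CpRow (fun a => ∑ x, M x a • i x) := by
  intro v
  have e : ∑ a, (∑ x, M x a • i x) *ᵥ v a = ∑ x, i x *ᵥ (∑ a, M x a • v a) := by
    simp only [Matrix.sum_mulVec, Matrix.mulVec_sum, Matrix.smul_mulVec, Matrix.mulVec_smul]
    exact Finset.sum_comm
  rw [e]
  exact (hi _).trans (cpk_mix_le hM v)

/-- mixing a column contraction with a contraction -/
theorem cpk_col_mix {A X n : Type} [Fintype A] [Fintype X] [Fintype n] {M : Matrix A X ℂ}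
    (hM : CpContr M) {i : X → Matrix n n ℂ} (hi : CpCol i) :
    CpCol (fun a => ∑ x, M a x • i x) := by
  intro v
  have e : ∀ a, (∑ x, M a x • i x) *ᵥ v = ∑ x, M a x • (i x *ᵥ v) := by
    intro a
    simp only [Matrix.sum_mulVec, Matrix.smul_mulVec]
  simp only [e]
  exact (cpk_mix_le hM fun x => i x *ᵥ v).trans (hi v)

/-! ### steps -/

namespace CpStep

variable {Ξ : Type}

theorem link_contr (s : CpStep Mem Ξ) (hs : s.Valid) (ξ : Ξ) : CpContr (s.link ξ) :=
  cpk_link_contr (hs.bcP ξ).loc (hs.bcQ ξ).loc (s.lamI ξ) (s.lamO ξ) (hs.lamI_nonneg ξ)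
    (hs.lamO_nonneg ξ) (hs.lamI_sum ξ).le (hs.lamO_sum ξ).le

/-- pure source step -/
def source (P Q : PP) (α : Type) [Fintype α] [DecidableEq α] (lam : Ξ → α → ℝ)
    (sP : Ξ → α → Matrix (Mem P) (Mem P) ℂ) (sQ : Ξ → α → Matrix (Mem Q) (Mem Q) ℂ) :
    CpStep Mem Ξ where
  P := P
  Q := Q
  αI := α
  αO := Unit
  lamI := lam
  lamO := fun _ _ => 1
  sP := fun ξ a _ => sP ξ a
  sQ := fun ξ a _ => sQ ξ a

/-- pure effect step -/
def effect (P Q : PP) (α : Type) [Fintype α] [DecidableEq α] (lam : Ξ → α → ℝ)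
    (sP : Ξ → α → Matrix (Mem P) (Mem P) ℂ) (sQ : Ξ → α → Matrix (Mem Q) (Mem Q) ℂ) :
    CpStep Mem Ξ where
  P := P
  Q := Q
  αI := Unit
  αO := α
  lamI := fun _ _ => 1
  lamO := lam
  sP := fun ξ _ a => sP ξ a
  sQ := fun ξ _ a => sQ ξ a

/-- private step -/
def priv (P : PP) (A : Ξ → Matrix (Mem P) (Mem P) ℂ) : CpStep Mem Ξ where
  P := P
  Q := P
  αI := Unit
  αO := Unit
  lamI := fun _ _ => 1
  lamO := fun _ _ => 1
  sP := fun ξ _ _ => A ξ
  sQ := fun _ _ _ => 1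

section

variable (P Q : PP) (α : Type) [Fintype α] [DecidableEq α] (lam : Ξ → α → ℝ)
    (sP : Ξ → α → Matrix (Mem P) (Mem P) ℂ) (sQ : Ξ → α → Matrix (Mem Q) (Mem Q) ℂ)

theorem source_valid (h0 : ∀ ξ a, 0 ≤ lam ξ a) (h1 : ∀ ξ, ∑ a, lam ξ a = 1)
    (hP : ∀ ξ, CpRow (sP ξ)) (hQ : ∀ ξ, CpRow (sQ ξ)) : (source P Q α lam sP sQ).Valid where
  lamI_nonneg := h0
  lamO_nonneg := fun _ _ => zero_le_one
  lamI_sum := h1
  lamO_sum := fun _ => by
    show ∑ _w : Unit, (1 : ℝ) = 1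
    simp
  bcP := fun ξ => cpBC_of_row (hP ξ)
  bcQ := fun ξ => cpBC_of_row (hQ ξ)

theorem source_link (ξ : Ξ) : (source P Q α lam sP sQ).link ξ =
    ∑ a, ((Real.sqrt (lam ξ a) : ℝ) : ℂ) • (cpLoc P (sP ξ a) * cpLoc Q (sQ ξ a)) := by
  show ∑ a : α × Unit, ((Real.sqrt (lam ξ a.1 * 1) : ℝ) : ℂ) •
    (cpLoc P (sP ξ a.1) * cpLoc Q (sQ ξ a.1)) = _
  rw [Fintype.sum_prod_type]
  simp

theorem effect_valid (h0 : ∀ ξ a, 0 ≤ lam ξ a) (h1 : ∀ ξ, ∑ a, lam ξ a = 1)
    (hP : ∀ ξ, CpCol (sP ξ)) (hQ : ∀ ξ, CpCol (sQ ξ)) : (effect P Q α lam sP sQ).Valid where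
  lamI_nonneg := fun _ _ => zero_le_one
  lamO_nonneg := h0
  lamI_sum := fun _ => by
    show ∑ _w : Unit, (1 : ℝ) = 1
    simp
  lamO_sum := h1
  bcP := fun ξ => cpBC_of_col (hP ξ)
  bcQ := fun ξ => cpBC_of_col (hQ ξ)

theorem effect_link (ξ : Ξ) : (effect P Q α lam sP sQ).link ξ =
    ∑ a, ((Real.sqrt (lam ξ a) : ℝ) : ℂ) • (cpLoc P (sP ξ a) * cpLoc Q (sQ ξ a)) := by
  show ∑ a : Unit × α, ((Real.sqrt (1 * lam ξ a.2) : ℝ) : ℂ) •
    (cpLoc P (sP ξ a.2) * cpLoc Q (sQ ξ a.2)) = _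
  rw [Fintype.sum_prod_type]
  simp

theorem priv_valid (A : Ξ → Matrix (Mem P) (Mem P) ℂ) (h : ∀ ξ, CpContr (A ξ)) :
    (priv P A).Valid where
  lamI_nonneg := fun _ _ => zero_le_one
  lamO_nonneg := fun _ _ => zero_le_one
  lamI_sum := fun _ => by
    show ∑ _w : Unit, (1 : ℝ) = 1
    simp
  lamO_sum := fun _ => by
    show ∑ _w : Unit, (1 : ℝ) = 1
    simp
  bcP := fun ξ => cpBC_of_contr (h ξ)
  bcQ := fun _ => cpBC_of_contr CpContr.one

theorem priv_link (A : Ξ → Matrix (Mem P) (Mem P) ℂ) (ξ : Ξ) : (priv P A).link ξ = cpLoc P (A ξ) := by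
  show ∑ _a : Unit × Unit, ((Real.sqrt (1 * 1) : ℝ) : ℂ) •
    (cpLoc P (A ξ) * cpLoc P (1 : Matrix (Mem P) (Mem P) ℂ)) = _
  simp [cpLoc_one]

end

end CpStep

/-! ### Schmidt decomposition -/

/-- Schmidt decomposition of an arbitrary array -/
theorem cp_schmidt {X Y : Type} [Fintype X] [Fintype Y] [DecidableEq X] [DecidableEq Y]
    (η : X → Y → ℂ) :
    ∃ (lam : X → ℝ) (U : Matrix X X ℂ) (V : Matrix X Y ℂ), (∀ a, 0 ≤ lam a) ∧
      ∑ a, lam a = ∑ x, ∑ y, ‖η x y‖ ^ 2 ∧ CpContr U ∧ CpContr Uᵀ ∧ CpContr V ∧ CpContr Vᵀ ∧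
      ∀ x y, η x y = ∑ a, ((Real.sqrt (lam a) : ℝ) : ℂ) * U x a * V a y := by
  set E : Matrix X Y ℂ := Matrix.of η with hE
  have hps : (E * Eᴴ).PosSemidef := Matrix.posSemidef_self_mul_conjTranspose E
  have hG : (E * Eᴴ).IsHermitian := hps.1
  set U : Matrix X X ℂ := (hG.eigenvectorUnitary : Matrix X X ℂ) with hU
  set d : X → ℝ := hG.eigenvalues with hd
  have hd0 : ∀ a, 0 ≤ d a := fun a => hps.eigenvalues_nonneg a
  have hUU : Uᴴ * U = 1 := by
    have := Unitary.coe_star_mul_self hG.eigenvectorUnitary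
    simpa [Matrix.star_eq_conjTranspose] using this
  have hUU' : U * Uᴴ = 1 := by
    have := Unitary.coe_mul_star_self hG.eigenvectorUnitary
    simpa [Matrix.star_eq_conjTranspose] using this
  have hdiag : Uᴴ * (E * Eᴴ) * U = diagonal fun a => ((d a : ℝ) : ℂ) := by
    have := hG.conjStarAlgAut_star_eigenvectorUnitary
    rw [Unitary.conjStarAlgAut_apply] at this
    simpa [Matrix.star_eq_conjTranspose, Function.comp_def] using this
  set F : Matrix X Y ℂ := Uᴴ * E with hF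
  have hFF : F * Fᴴ = diagonal fun a => ((d a : ℝ) : ℂ) := by
    rw [hF, Matrix.conjTranspose_mul, Matrix.conjTranspose_conjTranspose, ← hdiag]
    simp only [Matrix.mul_assoc]
  have hrow : ∀ a, ∑ y, ‖F a y‖ ^ 2 = d a := by
    intro a
    have := congrFun (congrFun hFF a) a
    rw [Matrix.diagonal_apply_eq, Matrix.mul_apply] at this
    apply Complex.ofReal_injective
    rw [← this]
    push_cast
    refine Finset.sum_congr rfl fun y _ => ?_
    rw [Matrix.conjTranspose_apply, Complex.star_def, Complex.mul_conj']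
  have hzero : ∀ a, d a = 0 → ∀ y, F a y = 0 := by
    intro a ha y
    have h1 := hrow a
    rw [ha] at h1
    have h2 := (Finset.sum_eq_zero_iff_of_nonneg (fun y _ => by positivity)).mp h1 y
      (Finset.mem_univ y)
    simpa using h2
  set V : Matrix X Y ℂ := Matrix.of fun a y => (((Real.sqrt (d a))⁻¹ : ℝ) : ℂ) * F a y with hV
  have hsV : ∀ a y, ((Real.sqrt (d a) : ℝ) : ℂ) * V a y = F a y := by
    intro a y
    rcases (hd0 a).eq_or_lt with h0 | hpos
    · rw [hzero a h0.symm y, hV, Matrix.of_apply, hzero a h0.symm y]; simp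
    · have : ((Real.sqrt (d a) : ℝ) : ℂ) ≠ 0 := by
        exact_mod_cast (Real.sqrt_pos.mpr hpos).ne'
      rw [hV, Matrix.of_apply, Complex.ofReal_inv, ← mul_assoc, mul_inv_cancel₀ this, one_mul]
  have hVV : V * Vᴴ = diagonal fun a => (((if d a = 0 then 0 else 1 : ℝ)) : ℂ) := by
    ext a b
    have hab := congrFun (congrFun hFF a) b
    rw [Matrix.mul_apply] at hab
    rw [Matrix.mul_apply]
    have e1 : ∑ y, V a y * Vᴴ y b =
        (((Real.sqrt (d a))⁻¹ : ℝ) : ℂ) * (((Real.sqrt (d b))⁻¹ : ℝ) : ℂ) * ∑ y, F a y * Fᴴ y b := by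
      rw [Finset.mul_sum]
      refine Finset.sum_congr rfl fun y _ => ?_
      simp only [hV, Matrix.of_apply, Matrix.conjTranspose_apply, star_mul', Complex.star_def,
        Complex.conj_ofReal]
      ring
    rw [e1, hab]
    by_cases h : a = b
    · subst h
      rw [Matrix.diagonal_apply_eq, Matrix.diagonal_apply_eq]
      by_cases h0 : d a = 0
      · simp [h0]
      · rw [if_neg h0, ← Complex.ofReal_mul, ← Complex.ofReal_mul]
        congr 1
        have hpos : 0 < d a := lt_of_le_of_ne (hd0 a) (Ne.symm h0)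
        have hs := Real.sqrt_pos.mpr hpos
        have := Real.mul_self_sqrt (hd0 a)
        field_simp
        nlinarith
    · rw [Matrix.diagonal_apply_ne _ h, Matrix.diagonal_apply_ne _ h, mul_zero]
  have cU : CpContr U := cpk_contr_of_isometry hUU
  have cV : CpContr V := cpk_contr_of_diag _ (fun a => by split_ifs <;> norm_num) hVV
  refine ⟨d, U, V, hd0, ?_, cU, cpk_contr_transpose cU, cV, cpk_contr_transpose cV, ?_⟩
  · apply Complex.ofReal_injective
    have h1 := hG.trace_eq_sum_eigenvalues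
    push_cast
    have h2 : (∑ a, ((d a : ℝ) : ℂ)) = (E * Eᴴ).trace := by rw [h1]; rfl
    rw [h2]
    simp only [Matrix.trace, Matrix.diag, Matrix.mul_apply, Matrix.conjTranspose_apply]
    refine Finset.sum_congr rfl fun x _ => Finset.sum_congr rfl fun y _ => ?_
    rw [Complex.star_def, Complex.mul_conj']
    rfl
  · intro x y
    have h1 : E = U * F := by rw [hF, ← Matrix.mul_assoc, hUU', Matrix.one_mul]
    have h2 : η x y = (U * F) x y := by rw [← h1]; rfl
    rw [h2, Matrix.mul_apply]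
    refine Finset.sum_congr rfl fun a _ => ?_
    rw [← hsV a y]
    ring

section Sch

variable {X Y : Type} [Fintype X] [Fintype Y] [DecidableEq X] [DecidableEq Y] (η : X → Y → ℂ)

/-- Schmidt probabilities -/
noncomputable def cpSchLam : X → ℝ := (cp_schmidt η).choose

/-- left Schmidt vectors (columns) -/
noncomputable def cpSchU : Matrix X X ℂ := (cp_schmidt η).choose_spec.choose

/-- right Schmidt vectors (rows) -/
noncomputable def cpSchV : Matrix X Y ℂ := (cp_schmidt η).choose_spec.choose_spec.choose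

theorem cpSch_spec : (∀ a, 0 ≤ cpSchLam η a) ∧
      ∑ a, cpSchLam η a = ∑ x, ∑ y, ‖η x y‖ ^ 2 ∧ CpContr (cpSchU η) ∧ CpContr (cpSchU η)ᵀ ∧
      CpContr (cpSchV η) ∧ CpContr (cpSchV η)ᵀ ∧
      ∀ x y, η x y = ∑ a, ((Real.sqrt (cpSchLam η a) : ℝ) : ℂ) * cpSchU η x a * cpSchV η a y :=
  (cp_schmidt η).choose_spec.choose_spec.choose_spec

end Sch

namespace CpStep

variable {Ξ : Type} (P Q : PP) (X Y : Type) [Fintype X] [Fintype Y] [DecidableEq X] [DecidableEq Y]
  (η : Ξ → X → Y → ℂ) (iP : Ξ → X → Matrix (Mem P) (Mem P) ℂ) (iQ : Ξ → Y → Matrix (Mem Q) (Mem Q) ℂ)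

/-- source step from a general pair vector `∑ η x y |x⟩|y⟩` and insertion families -/
noncomputable def sourceVec : CpStep Mem Ξ :=
  source P Q X (fun ξ => cpSchLam (η ξ)) (fun ξ a => ∑ x, cpSchU (η ξ) x a • iP ξ x)
    (fun ξ a => ∑ y, cpSchV (η ξ) a y • iQ ξ y)

/-- effect step from a general pair covector `∑ η x y ⟨x|⟨y|` and extraction families -/
noncomputable def effectVec : CpStep Mem Ξ :=
  effect P Q X (fun ξ => cpSchLam (η ξ)) (fun ξ a => ∑ x, cpSchU (η ξ) x a • iP ξ x)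
    (fun ξ a => ∑ y, cpSchV (η ξ) a y • iQ ξ y)

theorem sourceVec_valid (h : ∀ ξ, ∑ x, ∑ y, ‖η ξ x y‖ ^ 2 = 1) (hP : ∀ ξ, CpRow (iP ξ))
    (hQ : ∀ ξ, CpRow (iQ ξ)) : (sourceVec P Q X Y η iP iQ).Valid :=
  source_valid P Q X _ _ _ (fun ξ => (cpSch_spec (η ξ)).1)
    (fun ξ => (cpSch_spec (η ξ)).2.1.trans (h ξ))
    (fun ξ => cpk_row_mix (cpSch_spec (η ξ)).2.2.1 (hP ξ))
    (fun ξ => cpk_row_mix (M := (cpSchV (η ξ))ᵀ) (cpSch_spec (η ξ)).2.2.2.2.2.1 (hQ ξ))

/-- common computation for `sourceVec_link`, `effectVec_link` -/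
theorem cpk_vec_link (ξ : Ξ) :
    ∑ a, ((Real.sqrt (cpSchLam (η ξ) a) : ℝ) : ℂ) • (cpLoc P (∑ x, cpSchU (η ξ) x a • iP ξ x) *
      cpLoc Q (∑ y, cpSchV (η ξ) a y • iQ ξ y)) =
    ∑ x, ∑ y, η ξ x y • (cpLoc P (iP ξ x) * cpLoc Q (iQ ξ y)) := by
  have e : ∀ x y, η ξ x y • (cpLoc P (iP ξ x) * cpLoc Q (iQ ξ y)) =
      ∑ a, (((Real.sqrt (cpSchLam (η ξ) a) : ℝ) : ℂ) * cpSchU (η ξ) x a * cpSchV (η ξ) a y) •
        (cpLoc P (iP ξ x) * cpLoc Q (iQ ξ y)) := by
    intro x y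
    rw [← Finset.sum_smul, ← (cpSch_spec (η ξ)).2.2.2.2.2.2 x y]
  simp only [e, cpLoc_sum, cpLoc_smul, Finset.sum_mul_sum, smul_mul_smul_comm, Finset.smul_sum,
    smul_smul, mul_assoc]
  rw [Finset.sum_comm]
  refine Finset.sum_congr rfl fun x _ => ?_
  rw [Finset.sum_comm]

theorem sourceVec_link (ξ : Ξ) : (sourceVec P Q X Y η iP iQ).link ξ =
    ∑ x, ∑ y, η ξ x y • (cpLoc P (iP ξ x) * cpLoc Q (iQ ξ y)) := by
  unfold sourceVec
  rw [source_link]
  exact cpk_vec_link P Q X Y η iP iQ ξ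

theorem effectVec_valid (h : ∀ ξ, ∑ x, ∑ y, ‖η ξ x y‖ ^ 2 = 1) (hP : ∀ ξ, CpCol (iP ξ))
    (hQ : ∀ ξ, CpCol (iQ ξ)) : (effectVec P Q X Y η iP iQ).Valid :=
  effect_valid P Q X _ _ _ (fun ξ => (cpSch_spec (η ξ)).1)
    (fun ξ => (cpSch_spec (η ξ)).2.1.trans (h ξ))
    (fun ξ => cpk_col_mix (M := (cpSchU (η ξ))ᵀ) (cpSch_spec (η ξ)).2.2.2.1 (hP ξ))
    (fun ξ => cpk_col_mix (cpSch_spec (η ξ)).2.2.2.2.1 (hQ ξ))

theorem effectVec_link (ξ : Ξ) : (effectVec P Q X Y η iP iQ).link ξ =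
    ∑ x, ∑ y, η ξ x y • (cpLoc P (iP ξ x) * cpLoc Q (iQ ξ y)) := by
  unfold effectVec
  rw [effect_link]
  exact cpk_vec_link P Q X Y η iP iQ ξ

end CpStep

/-! ### gates and constructions -/

namespace CpGate

theorem mono_contr (g : CpGate Mem) (h : ∀ i, (g.step i).Valid) (ξ : g.Ξ) : CpContr (g.mono ξ) :=
  CpContr.tprod _ _ fun i => (g.step i).link_contr (h i) ξ

/-- a gate with a single monomial -/
def single (r : ℕ) (step : Fin r → CpStep Mem Unit) (lead : PP) : CpGate Mem where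
  Ξ := Unit
  c := fun _ => 1
  r := r
  step := step
  lead := lead

theorem single_op (r : ℕ) (step : Fin r → CpStep Mem Unit) (lead : PP) :
    (single r step lead).op = cpTprod r fun i => (step i).link () := by
  show ∑ ξ : Unit, (1 : ℂ) • (cpTprod r fun i => (step i).link ξ) = _
  rw [Fintype.sum_unique, one_smul]

theorem single_valid (r : ℕ) (step : Fin r → CpStep Mem Unit) (lead : PP)
    (h : ∀ i, (step i).Valid) : (single r step lead).Valid where
  step := h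
  contr := by
    rw [single_op]
    exact CpContr.tprod _ _ fun i => (step i).link_contr (h i) ()

theorem single_cost (r : ℕ) (step : Fin r → CpStep Mem Unit) (lead : PP) :
    (single r step lead).cost = 1 := by
  show max 1 (∑ _ξ : Unit, ‖(1 : ℂ)‖) = 1
  simp

/-- a private gate -/
def priv (P : PP) (A : Matrix (Mem P) (Mem P) ℂ) : CpGate Mem :=
  single 1 (fun _ => CpStep.priv P fun _ => A) P

theorem priv_op (P : PP) (A : Matrix (Mem P) (Mem P) ℂ) : (priv P A).op = cpLoc P A := by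
  unfold priv
  rw [single_op]
  simp only [cpTprod, mul_one, CpStep.priv_link]

theorem priv_valid (P : PP) (A : Matrix (Mem P) (Mem P) ℂ) (h : CpContr A) : (priv P A).Valid :=
  single_valid _ _ _ fun _ => CpStep.priv_valid P _ fun _ => h

theorem priv_part (P : PP) (A : Matrix (Mem P) (Mem P) ℂ) : (priv P A).part = {P} := by
  show insert P ((Finset.univ : Finset (Fin 1)).biUnion fun _ => ({P, P} : Finset PP)) = {P}
  ext Q
  simp

end CpGate

namespace CpCircuit

theorem op_contr (C : CpCircuit Mem) (hC : C.Valid) : CpContr C.op :=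
  CpContr.tprod _ _ fun t => (hC.gate t).contr

theorem ini_nsq (C : CpCircuit Mem) (hC : C.Valid) : cpNsq C.ini = 1 := by
  have h : cpNsq C.ini = ∏ P, cpNsq (C.ψ P) := by
    unfold cpNsq CpCircuit.ini
    rw [Finset.prod_univ_sum, Fintype.piFinset_univ]
    refine Finset.sum_congr rfl fun σ _ => ?_
    rw [norm_prod, Finset.prod_pow]
  rw [h]
  exact Finset.prod_eq_one fun P _ => hC.ini P

theorem vec_nsq_le (C : CpCircuit Mem) (hC : C.Valid) : cpNsq C.vec ≤ 1 :=
  (C.op_contr hC C.ini).trans (C.ini_nsq hC).le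

end CpCircuit

end Claimed.Agent.R296
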