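import Claimed.Agent.R296.P2.CompBaseB

/-!
# Row 296, P2 Section 4: the abstract bipartite core (DEFINITIONS; sorry-free)

One Hilbert space `ℂ^n`, two commuting multiplicatively closed sets of operators `AA` (affected side)
and `XX` (exterior), a unit vector `ψ` which is a product state for the pair.

* `CpH n` : a single layer *open step*: operators `a c t * x t`; `c = (c_in, c_out)` are the corrected
  (free) indices, seen by the affected side only, `t = (t_in, t_out)` the indices of the exact crossing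
  resources; weights `pI pO tI tO`.
* `CpRB n Ω` : ket layer, bra layer, random coefficients `z ω c c'` of the corrected indices.
* `CpRB.comp` : composition in time; all index types multiply.  A whole circuit (with the labels of all
  gates touching the affected side fixed) is ONE `CpRB`.
* `cp_core_bound`, `cp_core_second_moment` : the two estimates of the paper
  (eqs. compression-exterior-contraction ... compression-one-choice), by weighted Cauchy-Schwarz.
-/

set_option autoImplicit false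

namespace Claimed.Agent.R296

open Matrix

/-- a single layer open step -/
structure CpH (n : Type) where
  /-- corrected input indices -/
  CI : Type
  /-- corrected output indices -/
  CO : Type
  /-- crossing input indices -/
  TI : Type
  /-- crossing output indices -/
  TO : Type
  [fCI : Fintype CI]
  [fCO : Fintype CO]
  [fTI : Fintype TI]
  [fTO : Fintype TO]
  [dCI : DecidableEq CI]
  [dCO : DecidableEq CO]
  /-- affected side -/
  a : CI × CO → TI × TO → Matrix n n ℂ
  /-- exterior side -/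
  x : TI × TO → Matrix n n ℂ
  /-- weights -/
  pI : CI → ℝ
  pO : CO → ℝ
  tI : TI → ℝ
  tO : TO → ℝ

attribute [instance] CpH.fCI CpH.fCO CpH.fTI CpH.fTO CpH.dCI CpH.dCO

namespace CpH

variable {n : Type} (H : CpH n)

/-- corrected indices -/
abbrev C : Type := H.CI × H.CO

/-- crossing indices -/
abbrev T : Type := H.TI × H.TO

/-- weight of a corrected index -/
def p (c : H.C) : ℝ := H.pI c.1 * H.pO c.2

/-- weight of a crossing index -/
def τ (t : H.T) : ℝ := H.tI t.1 * H.tO t.2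

variable [Fintype n] [DecidableEq n]

/-- the operator of the step for fixed indices -/
def op (c : H.C) (t : H.T) : Matrix n n ℂ := H.a c t * H.x t

/-- admissibility -/
structure Valid (AA XX : Set (Matrix n n ℂ)) : Prop where
  a_mem : ∀ c t, H.a c t ∈ AA
  x_mem : ∀ t, H.x t ∈ XX
  a_bc : CpBC (fun (i : H.CI × H.TI) (o : H.CO × H.TO) => H.a (i.1, o.1) (i.2, o.2))
  x_bc : CpBC (fun (i : H.TI) (o : H.TO) => H.x (i, o))
  pI_nonneg : ∀ i, 0 ≤ H.pI i
  pO_nonneg : ∀ i, 0 ≤ H.pO i
  tI_nonneg : ∀ i, 0 ≤ H.tI i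
  tO_nonneg : ∀ i, 0 ≤ H.tO i
  pI_sum : ∑ i, H.pI i ≤ 1
  pO_sum : ∑ i, H.pO i ≤ 1
  tI_sum : ∑ i, H.tI i ≤ 1
  tO_sum : ∑ i, H.tO i ≤ 1

/-- first components of the indices of a composite -/
abbrev fst2 {A B A' B' : Type} (c : (A × A') × (B × B')) : A × B := (c.1.1, c.2.1)

/-- second components of the indices of a composite -/
abbrev snd2 {A B A' B' : Type} (c : (A × A') × (B × B')) : A' × B' := (c.1.2, c.2.2)

/-- composition in time: `H₂` acts after `H₁` -/
def comp (H₂ H₁ : CpH n) : CpH n where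
  CI := H₁.CI × H₂.CI
  CO := H₁.CO × H₂.CO
  TI := H₁.TI × H₂.TI
  TO := H₁.TO × H₂.TO
  a := fun c t => H₂.a (snd2 c) (snd2 t) * H₁.a (fst2 c) (fst2 t)
  x := fun t => H₂.x (snd2 t) * H₁.x (fst2 t)
  pI := fun i => H₁.pI i.1 * H₂.pI i.2
  pO := fun i => H₁.pO i.1 * H₂.pO i.2
  tI := fun i => H₁.tI i.1 * H₂.tI i.2
  tO := fun i => H₁.tO i.1 * H₂.tO i.2

/-- a closed step `a * x` -/
def closed (a x : Matrix n n ℂ) : CpH n where
  CI := Unit
  CO := Unit
  TI := Unit
  TO := Unit
  a := fun _ _ => a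
  x := fun _ => x
  pI := fun _ => 1
  pO := fun _ => 1
  tI := fun _ => 1
  tO := fun _ => 1

end CpH

/-- the standing assumptions on the two sides -/
structure CpSides {n : Type} [Fintype n] [DecidableEq n] (AA XX : Set (Matrix n n ℂ))
    (ψ : n → ℂ) : Prop where
  one_A : (1 : Matrix n n ℂ) ∈ AA
  one_X : (1 : Matrix n n ℂ) ∈ XX
  mul_A : ∀ a ∈ AA, ∀ a' ∈ AA, a * a' ∈ AA
  mul_X : ∀ x ∈ XX, ∀ x' ∈ XX, x * x' ∈ XX
  comm : ∀ a ∈ AA, ∀ x ∈ XX, a * x = x * a
  nrm : cpNsq ψ = 1
  fac : ∀ a ∈ AA, ∀ a' ∈ AA, ∀ x ∈ XX, ∀ x' ∈ XX,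
    cpIp ((a' * x') *ᵥ ψ) ((a * x) *ᵥ ψ) = cpIp (a' *ᵥ ψ) (a *ᵥ ψ) * cpIp (x' *ᵥ ψ) (x *ᵥ ψ)

/-- a double layer open step with random coefficients -/
structure CpRB (n Ω : Type) where
  /-- ket layer -/
  K : CpH n
  /-- bra layer -/
  B : CpH n
  /-- coefficients of the corrected indices -/
  z : Ω → K.C → B.C → ℂ
  /-- bound for the variances -/
  V : ℝ

namespace CpRB

variable {n Ω : Type} [Fintype n] [DecidableEq n] (S : CpRB n Ω)

/-- scalar amplitude of a choice of indices -/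
noncomputable def amp (c : S.K.C) (t : S.K.T) (c' : S.B.C) (t' : S.B.T) : ℝ :=
  cpQrt (S.K.p c * S.B.p c') * Real.sqrt (S.K.τ t * S.B.τ t')

/-- the double layer map of the step -/
noncomputable def sup (ω : Ω) : Module.End ℂ (Matrix n n ℂ) :=
  ∑ c, ∑ t, ∑ c', ∑ t', (S.z ω c c' * ((S.amp c t c' t' : ℝ) : ℂ)) •
    (LinearMap.mulLeft ℂ (S.K.op c t)).comp (LinearMap.mulRight ℂ (S.B.op c' t')ᴴ)

/-- composition in time: `S₂` after `S₁` -/
def comp (S₂ S₁ : CpRB n Ω) : CpRB n Ω where
  K := S₂.K.comp S₁.K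
  B := S₂.B.comp S₁.B
  z := fun ω c c' => S₁.z ω (CpH.fst2 c) (CpH.fst2 c') * S₂.z ω (CpH.snd2 c) (CpH.snd2 c')
  V := S₁.V * S₂.V

/-- a closed deterministic step: ket `a * x`, bra `a' * x'` -/
def closed (a x a' x' : Matrix n n ℂ) : CpRB n Ω where
  K := CpH.closed a x
  B := CpH.closed a' x'
  z := fun _ _ _ => 1
  V := 1

/-- iterated composition, in time order -/
def fold : (m : ℕ) → (Fin m → CpRB n Ω) → CpRB n Ω
  | 0, _ => closed 1 1 1 1
  | m + 1, f => (f (Fin.last m)).comp (fold m fun i => f i.castSucc)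

/-- the random variable that dominates the pairing with every exterior observable -/
noncomputable def Ysq (ψ : n → ℂ) (E : Matrix n n ℂ) (ω : Ω) : ℝ :=
  ∑ t, ∑ t', Real.sqrt (S.K.τ t * S.B.τ t') *
    ‖∑ c, ∑ c', S.z ω c c' * ((cpQrt (S.K.p c * S.B.p c') : ℝ) : ℂ) *
      cpIp (S.B.a c' t' *ᵥ ψ) (E *ᵥ (S.K.a c t *ᵥ ψ))‖ ^ 2

end CpRB

section Random

variable {n : Type} [Fintype n] [DecidableEq n] {ι : Type} [Fintype ι] [DecidableEq ι]
  {W : ι → Type} [∀ i, Fintype (W i)] [∀ i, Nonempty (W i)]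

/-- admissibility of a random double layer step; `J` = blocks of the sample it depends on -/
structure CpRB.Valid (S : CpRB n (∀ i, W i)) (AA XX : Set (Matrix n n ℂ)) (J : Set ι) : Prop where
  K : S.K.Valid AA XX
  B : S.B.Valid AA XX
  dep : ∀ c c', DependsOn (fun ω => S.z ω c c') J
  orth : ∀ c c' d d', (c, c') ≠ (d, d') → cpAvg (fun ω => S.z ω c c' * star (S.z ω d d')) = 0
  var : ∀ c c', cpAvg (fun ω => ‖S.z ω c c'‖ ^ 2) ≤ S.V
  V_nonneg : 0 ≤ S.V

end Random

end Claimed.Agent.R296
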