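import Claimed.Agent.R296.P2.CompCore

/-!
# Row 296, P2 Section 4, package CORE-A: validity is preserved by composition

PROOFS.  `CpH.Valid.comp`: membership by `hs.mul_A/mul_X`; `a_bc`, `x_bc` by `CpBC.comp` + `CpBC.reindex`
(regroup `((ci₁,ci₂),(ti₁,ti₂)) ↔ ((ci₁,ti₁),(ci₂,ti₂))`); weights: `∑ (i₁,i₂), p₁ i₁ * p₂ i₂ =
(∑ p₁)(∑ p₂) ≤ 1` (`Fintype.sum_prod_type`, `Finset.sum_mul_sum`).
`CpRB.Valid.comp`: `dep`: product of functions depending on `J₁`, `J₂` (`DependsOn.mono`);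
`orth`: `(c,c') ≠ (d,d')` means the first or the second components differ; write the integrand as
`(z₁ z̄₁')(z₂ z̄₂')`, use `cpAvg_mul_of_dependsOn` and the `orth` of the factor that differs;
`var`: `‖z₁ z₂‖² = ‖z₁‖² ‖z₂‖²`, independence (cast to `ℂ` with `cpAvg_ofReal`), then
`V`-bounds (`mul_le_mul`).  `fold`: induction on `m` (`Fin.last`/`castSucc`; `⋃` over `Fin (m+1)`).
-/

set_option autoImplicit false
set_option linter.unusedSectionVars false

namespace Claimed.Agent.R296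

open Matrix

variable {n : Type} [Fintype n] [DecidableEq n] {ι : Type} [Fintype ι] [DecidableEq ι]
  {W : ι → Type} [∀ i, Fintype (W i)] [∀ i, Nonempty (W i)]
  {AA XX : Set (Matrix n n ℂ)} {ψ : n → ℂ}

/-- sum of a product weight -/
theorem cpa_sum_prod_le {X Y : Type} [Fintype X] [Fintype Y] (p : X → ℝ) (q : Y → ℝ)
    (hq : ∀ y, 0 ≤ q y) (sp : ∑ x, p x ≤ 1) (sq : ∑ y, q y ≤ 1) :
    ∑ i : X × Y, p i.1 * q i.2 ≤ 1 := by
  rw [Fintype.sum_prod_type, ← Finset.sum_mul_sum]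
  exact mul_le_one₀ sp (Finset.sum_nonneg fun i _ => hq i) sq

/-- LEAF CORE-1 -/
theorem CpH.Valid.comp (hs : CpSides AA XX ψ) {H₂ H₁ : CpH n} (h₂ : H₂.Valid AA XX)
    (h₁ : H₁.Valid AA XX) : (H₂.comp H₁).Valid AA XX where
  a_mem := fun c t => hs.mul_A _ (h₂.a_mem _ _) _ (h₁.a_mem _ _)
  x_mem := fun t => hs.mul_X _ (h₂.x_mem _) _ (h₁.x_mem _)
  a_bc := by
    have h := (CpBC.comp h₁.a_bc h₂.a_bc).reindex
      (Equiv.prodProdProdComm H₁.CI H₂.CI H₁.TI H₂.TI)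
      (Equiv.prodProdProdComm H₁.CO H₂.CO H₁.TO H₂.TO)
    exact h
  x_bc := by
    have h := CpBC.comp h₁.x_bc h₂.x_bc
    exact h
  pI_nonneg := fun i => mul_nonneg (h₁.pI_nonneg _) (h₂.pI_nonneg _)
  pO_nonneg := fun i => mul_nonneg (h₁.pO_nonneg _) (h₂.pO_nonneg _)
  tI_nonneg := fun i => mul_nonneg (h₁.tI_nonneg _) (h₂.tI_nonneg _)
  tO_nonneg := fun i => mul_nonneg (h₁.tO_nonneg _) (h₂.tO_nonneg _)
  pI_sum := cpa_sum_prod_le H₁.pI H₂.pI h₂.pI_nonneg h₁.pI_sum h₂.pI_sum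
  pO_sum := cpa_sum_prod_le H₁.pO H₂.pO h₂.pO_nonneg h₁.pO_sum h₂.pO_sum
  tI_sum := cpa_sum_prod_le H₁.tI H₂.tI h₂.tI_nonneg h₁.tI_sum h₂.tI_sum
  tO_sum := cpa_sum_prod_le H₁.tO H₂.tO h₂.tO_nonneg h₁.tO_sum h₂.tO_sum

/-- LEAF CORE-1 -/
theorem CpH.Valid.closed {a x : Matrix n n ℂ} (ha : a ∈ AA) (hx : x ∈ XX) (ca : CpContr a)
    (cx : CpContr x) : (CpH.closed a x).Valid AA XX where
  a_mem := fun _ _ => ha
  x_mem := fun _ => hx
  a_bc := (cpBC_of_contr ca).reindex (Equiv.prodUnique Unit Unit) (Equiv.prodUnique Unit Unit)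
  x_bc := cpBC_of_contr cx
  pI_nonneg := fun _ => zero_le_one
  pO_nonneg := fun _ => zero_le_one
  tI_nonneg := fun _ => zero_le_one
  tO_nonneg := fun _ => zero_le_one
  pI_sum := by
    show ∑ _i : Unit, (1 : ℝ) ≤ 1
    simp
  pO_sum := by
    show ∑ _i : Unit, (1 : ℝ) ≤ 1
    simp
  tI_sum := by
    show ∑ _i : Unit, (1 : ℝ) ≤ 1
    simp
  tO_sum := by
    show ∑ _i : Unit, (1 : ℝ) ≤ 1
    simp

/-- independence for real functions -/
theorem cpa_avg_mul_real (f g : (∀ i, W i) → ℝ) (J J' : Set ι) (hJ : Disjoint J J')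
    (hf : DependsOn f J) (hg : DependsOn g J') :
    cpAvg (fun ω => f ω * g ω) = cpAvg f * cpAvg g := by
  apply Complex.ofReal_injective
  rw [Complex.ofReal_mul, ← cpAvg_ofReal, ← cpAvg_ofReal, ← cpAvg_ofReal]
  simp only [Complex.ofReal_mul]
  exact cpAvg_mul_of_dependsOn (fun ω => ((f ω : ℝ) : ℂ)) (fun ω => ((g ω : ℝ) : ℂ)) J J' hJ
    (fun x y h => congrArg _ (hf h)) (fun x y h => congrArg _ (hg h))

theorem cpa_avg_nonneg {Ω : Type} [Fintype Ω] (f : Ω → ℝ) (h : ∀ ω, 0 ≤ f ω) : 0 ≤ cpAvg f := by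
  unfold cpAvg
  exact smul_nonneg (by positivity) (Finset.sum_nonneg fun ω _ => h ω)

/-- LEAF CORE-2 -/
theorem CpRB.Valid.comp (hs : CpSides AA XX ψ) {S₂ S₁ : CpRB n (∀ i, W i)} {J₂ J₁ : Set ι}
    (h₂ : S₂.Valid AA XX J₂) (h₁ : S₁.Valid AA XX J₁) (hJ : Disjoint J₂ J₁) :
    (S₂.comp S₁).Valid AA XX (J₂ ∪ J₁) where
  K := CpH.Valid.comp hs h₂.K h₁.K
  B := CpH.Valid.comp hs h₂.B h₁.B
  dep := by
    intro c c' x y h
    have e1 := h₁.dep (CpH.fst2 c) (CpH.fst2 c') (fun i hi => h i (Or.inr hi))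
    have e2 := h₂.dep (CpH.snd2 c) (CpH.snd2 c') (fun i hi => h i (Or.inl hi))
    simp only at e1 e2
    show S₁.z x _ _ * S₂.z x _ _ = S₁.z y _ _ * S₂.z y _ _
    rw [e1, e2]
  orth := by
    intro c c' d d' hne
    have e : (fun ω => (S₂.comp S₁).z ω c c' * star ((S₂.comp S₁).z ω d d')) = fun ω =>
        (S₁.z ω (CpH.fst2 c) (CpH.fst2 c') * star (S₁.z ω (CpH.fst2 d) (CpH.fst2 d'))) *
        (S₂.z ω (CpH.snd2 c) (CpH.snd2 c') * star (S₂.z ω (CpH.snd2 d) (CpH.snd2 d'))) := by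
      funext ω
      show S₁.z ω _ _ * S₂.z ω _ _ * star (S₁.z ω _ _ * S₂.z ω _ _) = _
      rw [star_mul']
      ring
    rw [e, cpAvg_mul_of_dependsOn _ _ J₁ J₂ hJ.symm
      (fun x y h => by
        have e1 := h₁.dep (CpH.fst2 c) (CpH.fst2 c') h
        have e2 := h₁.dep (CpH.fst2 d) (CpH.fst2 d') h
        simp only at e1 e2 ⊢
        rw [e1, e2])
      (fun x y h => by
        have e1 := h₂.dep (CpH.snd2 c) (CpH.snd2 c') h
        have e2 := h₂.dep (CpH.snd2 d) (CpH.snd2 d') h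
        simp only at e1 e2 ⊢
        rw [e1, e2])]
    by_cases h1 : (CpH.fst2 c, CpH.fst2 c') = (CpH.fst2 d, CpH.fst2 d')
    · have h2 : (CpH.snd2 c, CpH.snd2 c') ≠ (CpH.snd2 d, CpH.snd2 d') := by
        intro h2
        apply hne
        simp only [Prod.mk.injEq] at h1 h2
        obtain ⟨⟨a1, a2⟩, a3, a4⟩ := h1
        obtain ⟨⟨b1, b2⟩, b3, b4⟩ := h2
        refine Prod.ext (Prod.ext (Prod.ext a1 b1) (Prod.ext a2 b2))
          (Prod.ext (Prod.ext a3 b3) (Prod.ext a4 b4))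
      rw [h₂.orth _ _ _ _ h2, mul_zero]
    · rw [h₁.orth _ _ _ _ h1, zero_mul]
  var := by
    intro c c'
    have e : (fun ω => ‖(S₂.comp S₁).z ω c c'‖ ^ 2) = fun ω =>
        ‖S₁.z ω (CpH.fst2 c) (CpH.fst2 c')‖ ^ 2 * ‖S₂.z ω (CpH.snd2 c) (CpH.snd2 c')‖ ^ 2 := by
      funext ω
      show ‖S₁.z ω _ _ * S₂.z ω _ _‖ ^ 2 = _
      rw [norm_mul, mul_pow]
    rw [e, cpa_avg_mul_real _ _ J₁ J₂ hJ.symm
      (fun x y h => by
        have e1 := h₁.dep (CpH.fst2 c) (CpH.fst2 c') h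
        simp only at e1 ⊢
        rw [e1])
      (fun x y h => by
        have e1 := h₂.dep (CpH.snd2 c) (CpH.snd2 c') h
        simp only at e1 ⊢
        rw [e1])]
    exact mul_le_mul (h₁.var _ _) (h₂.var _ _) (cpa_avg_nonneg _ fun ω => by positivity) h₁.V_nonneg
  V_nonneg := mul_nonneg h₁.V_nonneg h₂.V_nonneg

/-- LEAF CORE-2 -/
theorem CpRB.Valid.closed {a x a' x' : Matrix n n ℂ} (ha : a ∈ AA) (hx : x ∈ XX) (ha' : a' ∈ AA)
    (hx' : x' ∈ XX) (ca : CpContr a) (cx : CpContr x) (ca' : CpContr a') (cx' : CpContr x') :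
    (CpRB.closed a x a' x' : CpRB n (∀ i, W i)).Valid AA XX ∅ where
  K := CpH.Valid.closed ha hx ca cx
  B := CpH.Valid.closed ha' hx' ca' cx'
  dep := fun _ _ _ _ _ => rfl
  orth := fun c c' d d' hne =>
    absurd (Subsingleton.elim (α := (Unit × Unit) × (Unit × Unit)) (c, c') (d, d')) hne
  var := fun c c' => by
    show cpAvg (fun _ : (∀ i, W i) => ‖(1 : ℂ)‖ ^ 2) ≤ 1
    rw [cpAvg_const]
    simp
  V_nonneg := zero_le_one

/-- the set of blocks may be enlarged -/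
theorem CpRB.Valid.mono {S : CpRB n (∀ i, W i)} {J J' : Set ι} (h : S.Valid AA XX J)
    (hJ : J ⊆ J') : S.Valid AA XX J' where
  K := h.K
  B := h.B
  dep := fun c c' => (h.dep c c').mono hJ
  orth := h.orth
  var := h.var
  V_nonneg := h.V_nonneg

/-- LEAF CORE-2 -/
theorem CpRB.Valid.fold (hs : CpSides AA XX ψ) (m : ℕ) (f : Fin m → CpRB n (∀ i, W i))
    (J : Fin m → Set ι) (h : ∀ i, (f i).Valid AA XX (J i))
    (hJ : ∀ i j, i ≠ j → Disjoint (J i) (J j)) :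
    (CpRB.fold m f).Valid AA XX (⋃ i, J i) := by
  induction m with
  | zero =>
    exact (CpRB.Valid.closed hs.one_A hs.one_X hs.one_A hs.one_X CpContr.one CpContr.one
      CpContr.one CpContr.one).mono (Set.empty_subset _)
  | succ m ih =>
    have h1 := ih (fun i => f i.castSucc) (fun i => J i.castSucc) (fun i => h _)
      (fun i j hij => hJ _ _ fun e => hij (Fin.castSucc_injective _ e))
    have h2 : Disjoint (J (Fin.last m)) (⋃ i : Fin m, J i.castSucc) := by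
      rw [Set.disjoint_iUnion_right]
      exact fun i => hJ _ _ (Fin.castSucc_lt_last i).ne'
    refine (CpRB.Valid.comp hs (h (Fin.last m)) h1 h2).mono ?_
    refine Set.union_subset (Set.subset_iUnion J _) (Set.iUnion_subset fun i => ?_)
    exact Set.subset_iUnion J _

/-- LEAF CORE-2 -/
theorem CpRB.fold_V (m : ℕ) (f : Fin m → CpRB n (∀ i, W i)) :
    (CpRB.fold m f).V = ∏ i, (f i).V := by
  induction m with
  | zero => simp [CpRB.fold, CpRB.closed]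
  | succ m ih =>
    rw [Fin.prod_univ_castSucc, ← ih]
    rfl

end Claimed.Agent.R296
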