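import Claimed.Agent.R296.P2.CompLocA
import Claimed.Agent.R296.P2.CompCore

/-!
# Row 296, P2 Section 4, package LOC-B: the two sides `cpAA A`, `cpXX A` satisfy `CpSides`

PROOFS.  Closure and commutation: `SuppIn.one/mul/commute` of `LocEmb` (`disjoint_compl_right`).
`nrm`: `cpNsq (∏ ψ) = ∏ cpNsq (ψ P) = 1` (`Finset.prod_univ_sum`, `norm_prod`).
`fac`: write `a = emb A K`, `a' = emb A K'`, `x = embOff`-form (`SuppIn.sp_off` in `Supp.lean`, with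
`Aᶜ` disjoint from `A`), the product vector is `pvec A u v` with `u = ∏_{P ∈ A} ψ`, `v = ∏_{P ∉ A} ψ`;
`sp_emb_mulVec`, `sp_embOff_mulVec`, `sp_sum_cfg` give
`(a x ψ)(cglue a₀ b₀) = (K u) a₀ * (K'' v) b₀`; all four inner products factorise and
`cpNsq u = cpNsq v = 1`.
-/

set_option autoImplicit false
set_option linter.unusedSectionVars false

namespace Claimed.Agent.R296

open Matrix

variable {PP : Type} [DecidableEq PP] [Fintype PP] {Mem : PP → Type}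
  [∀ P, Fintype (Mem P)] [∀ P, DecidableEq (Mem P)]

/-! ### LEAF LOCAL-3: the two sides -/

/-- operators supported in `A` -/
def cpAA (A : Finset PP) : Set (Matrix (Cfg Mem) (Cfg Mem) ℂ) := {T | SuppIn A T}

/-- operators supported off `A` -/
def cpXX (A : Finset PP) : Set (Matrix (Cfg Mem) (Cfg Mem) ℂ) := {T | SuppIn Aᶜ T}

theorem cpLoc_mem_AA {A : Finset PP} {P : PP} (h : P ∈ A) (T : Matrix (Mem P) (Mem P) ℂ) :
    cpLoc P T ∈ cpAA (Mem := Mem) A :=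
  (cpLoc_suppIn P T).mono (by simpa using h)

theorem cpLoc_mem_XX {A : Finset PP} {P : PP} (h : P ∉ A) (T : Matrix (Mem P) (Mem P) ℂ) :
    cpLoc P T ∈ cpXX (Mem := Mem) A :=
  (cpLoc_suppIn P T).mono (by simpa using h)

theorem cpAA_add {A : Finset PP} {S T : Matrix (Cfg Mem) (Cfg Mem) ℂ} (hS : S ∈ cpAA A)
    (hT : T ∈ cpAA A) : S + T ∈ cpAA A := hS.add hT

theorem cpXX_sum {ι : Type} {A : Finset PP} (s : Finset ι) (T : ι → Matrix (Cfg Mem) (Cfg Mem) ℂ)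
    (h : ∀ i ∈ s, T i ∈ cpXX A) : ∑ i ∈ s, T i ∈ cpXX A := SuppIn.sum s h

theorem cpAA_sum {ι : Type} {A : Finset PP} (s : Finset ι) (T : ι → Matrix (Cfg Mem) (Cfg Mem) ℂ)
    (h : ∀ i ∈ s, T i ∈ cpAA A) : ∑ i ∈ s, T i ∈ cpAA A := SuppIn.sum s h

theorem cpXX_smul {A : Finset PP} (c : ℂ) {T : Matrix (Cfg Mem) (Cfg Mem) ℂ} (h : T ∈ cpXX A) :
    c • T ∈ cpXX A := SuppIn.smul c h

theorem cpAA_smul {A : Finset PP} (c : ℂ) {T : Matrix (Cfg Mem) (Cfg Mem) ℂ} (h : T ∈ cpAA A) :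
    c • T ∈ cpAA A := SuppIn.smul c h

theorem cp_emb_mulVec_pvec (A : Finset PP) (K : Matrix (CfgOn Mem A) (CfgOn Mem A) ℂ)
    (u : CfgOn Mem A → ℂ) (v : CfgOff Mem A → ℂ) :
    emb A K *ᵥ pvec A u v = pvec A (K *ᵥ u) v := by
  funext σ
  rw [sp_emb_mulVec]
  simp only [pvec, sp_crOn_cglue, sp_crOff_cglue, Matrix.mulVec, dotProduct, Finset.sum_mul,
    mul_assoc]

theorem cp_embOff_mulVec_pvec (A : Finset PP) (K : Matrix (CfgOff Mem A) (CfgOff Mem A) ℂ)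
    (u : CfgOn Mem A → ℂ) (v : CfgOff Mem A → ℂ) :
    embOff A K *ᵥ pvec A u v = pvec A u (K *ᵥ v) := by
  funext σ
  rw [sp_embOff_mulVec]
  simp only [pvec, sp_crOn_cglue, sp_crOff_cglue, Matrix.mulVec, dotProduct, Finset.mul_sum]
  refine Finset.sum_congr rfl fun b _ => ?_
  ring

theorem cpIp_pvec (A : Finset PP) (u u' : CfgOn Mem A → ℂ) (v v' : CfgOff Mem A → ℂ) :
    cpIp (pvec A u v) (pvec A u' v') = cpIp u u' * cpIp v v' := by
  simp only [cpIp]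
  rw [sp_sum_cfg A, Finset.sum_mul_sum]
  refine Finset.sum_congr rfl fun a _ => Finset.sum_congr rfl fun b _ => ?_
  simp only [pvec, sp_crOn_cglue, sp_crOff_cglue, star_mul']
  ring

theorem cp_prod_eq_pvec (A : Finset PP) (ψ : ∀ P, Mem P → ℂ) :
    (fun σ : Cfg Mem => ∏ P, ψ P (σ P)) =
      pvec A (fun a => ∏ P : {P // P ∈ A}, ψ P (a P)) (fun b => ∏ P : {P // P ∉ A}, ψ P (b P)) := by
  funext σ
  simp only [pvec, crOn, crOff]
  have := (Fintype.prod_subtype_mul_prod_subtype (fun P => P ∈ A) (fun P => ψ P (σ P))).symm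
  convert this

theorem cp_prod_nsq (ψ : ∀ P, Mem P → ℂ) (h : ∀ P, cpNsq (ψ P) = 1) :
    cpNsq (fun σ : Cfg Mem => ∏ P, ψ P (σ P)) = 1 := by
  have h1 : ∏ P, ∑ m, ‖ψ P m‖ ^ 2 = 1 := Finset.prod_eq_one fun P _ => h P
  rw [Finset.prod_univ_sum, Fintype.piFinset_univ] at h1
  rw [← h1, cpNsq]
  refine Finset.sum_congr rfl fun σ _ => ?_
  rw [norm_prod, Finset.prod_pow]

/-- the two sides satisfy the standing assumptions of the abstract core -/
theorem cp_sides (A : Finset PP) (ψ : ∀ P, Mem P → ℂ) (h : ∀ P, cpNsq (ψ P) = 1) :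
    CpSides (cpAA A) (cpXX A) (fun σ : Cfg Mem => ∏ P, ψ P (σ P)) where
  one_A := SuppIn.one A
  one_X := SuppIn.one Aᶜ
  mul_A := fun a ha a' ha' => SuppIn.mul ha ha'
  mul_X := fun x hx x' hx' => SuppIn.mul hx hx'
  comm := fun a ha x hx => SuppIn.commute disjoint_compl_right ha hx
  nrm := cp_prod_nsq ψ h
  fac := by
    intro a ha a' ha' x hx x' hx'
    obtain ⟨K, rfl⟩ := ha
    obtain ⟨K', rfl⟩ := ha'
    obtain ⟨L, rfl⟩ := SuppIn.sp_off hx (disjoint_compl_left (a := A))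
    obtain ⟨L', rfl⟩ := SuppIn.sp_off hx' (disjoint_compl_left (a := A))
    have hn : cpIp (fun σ : Cfg Mem => ∏ P, ψ P (σ P)) (fun σ : Cfg Mem => ∏ P, ψ P (σ P)) = 1 := by
      rw [cpIp_self, cp_prod_nsq ψ h]; simp
    rw [cp_prod_eq_pvec A ψ] at hn ⊢
    rw [cpIp_pvec] at hn
    simp only [← Matrix.mulVec_mulVec, cp_emb_mulVec_pvec, cp_embOff_mulVec_pvec, cpIp_pvec]
    linear_combination (-(cpIp (K' *ᵥ fun a => ∏ P : {P // P ∈ A}, ψ P (a P))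
      (K *ᵥ fun a => ∏ P : {P // P ∈ A}, ψ P (a P))) *
      cpIp (L' *ᵥ fun b => ∏ P : {P // P ∉ A}, ψ P (b P))
      (L *ᵥ fun b => ∏ P : {P // P ∉ A}, ψ P (b P))) * hn

end Claimed.Agent.R296
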