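import Claimed.Agent.R296.Defs

/-!
# Row 296, paper 2, Section 4 (distributed density compression): the MODEL (prefix `cp`/`Cp`)

Interface file between Section 4 (compression) and Sections 5-7 (frames, protocol, assembly).
Design notes and the proof blueprint: `Notes/P2S04.lean`.

* parties `PP`, ONE fixed memory type `Mem P` per party; global space `Cfg Mem`;
* `cpLoc P A` : the one-party operator `A` on the global space;
* a `CpStep` is a *link step*
    `link ξ = ∑ a w, √(lamI ξ a * lamO ξ w) • cpLoc P (sP ξ a w) * cpLoc Q (sQ ξ a w)`: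
  a pair source `∑ a, √(lamI a) |a a⟩` (Schmidt form) is fed into the block contractions `sP ξ`, `sQ ξ`
  (`CpBC`: `(v_a)_a ↦ (∑ a, s a w v_a)_w` is a contraction) and the pair effect `∑ w, √(lamO w) ⟨w w|`
  is applied to their outputs.  Pure source: `αO = Unit` (row contractions, `CpStep.source`), pure
  effect: `αI = Unit` (column contractions, `CpStep.effect`), private step: both `Unit`, `Q = P`,
  `sQ = 1` (`CpStep.priv`);
* a `CpGate` is `op = ∑ ξ, c ξ • (link_{r-1} ξ * ⋯ * link_0 ξ)`; only the aggregate `op` has to be a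
  contraction;
* a `CpCircuit` is a product unit vector and a time ordered family of gates;
* `CpNet` : tensor network on the party set with global virtual assignments.
-/

set_option autoImplicit false

namespace Claimed.Agent.R296

open Matrix

/-! ### elementary norms and contractions (no operator norm needed) -/

/-- squared euclidean norm of a vector -/
noncomputable def cpNsq {n : Type} [Fintype n] (v : n → ℂ) : ℝ := ∑ i, ‖v i‖ ^ 2

/-- contraction -/
def CpContr {m n : Type} [Fintype m] [Fintype n] (A : Matrix m n ℂ) : Prop :=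
  ∀ v : n → ℂ, cpNsq (A *ᵥ v) ≤ cpNsq v

/-- row contraction: `(v_a)_a ↦ ∑ a, s a v_a` is a contraction -/
def CpRow {α n : Type} [Fintype α] [Fintype n] (s : α → Matrix n n ℂ) : Prop :=
  ∀ v : α → n → ℂ, cpNsq (∑ a, s a *ᵥ v a) ≤ ∑ a, cpNsq (v a)

/-- column contraction: `v ↦ (s a v)_a` is a contraction -/
def CpCol {α n : Type} [Fintype α] [Fintype n] (s : α → Matrix n n ℂ) : Prop :=
  ∀ v : n → ℂ, ∑ a, cpNsq (s a *ᵥ v) ≤ cpNsq v

/-- block contraction: `(v_i)_i ↦ (∑ i, f i o v_i)_o` is a contraction -/
def CpBC {I O n : Type} [Fintype I] [Fintype O] [Fintype n] (f : I → O → Matrix n n ℂ) : Prop :=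
  ∀ v : I → n → ℂ, ∑ o, cpNsq (∑ i, f i o *ᵥ v i) ≤ ∑ i, cpNsq (v i)

/-- time ordered product: the factor with the largest index acts last (stands leftmost) -/
def cpTprod {R : Type*} [Monoid R] : (n : ℕ) → (Fin n → R) → R
  | 0, _ => 1
  | n + 1, f => f (Fin.last n) * cpTprod n (fun i => f i.castSucc)

/-- forces the equation lemmas of `cpTprod` to be stored in this module (one copy for all importers) -/
theorem cpTprod_forced : True := by
  have := @cpTprod.eq_1.{0}
  have := @cpTprod.eq_2.{0}
  have := @cpTprod.eq_def.{0}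
  trivial

/-- fourth root of a nonnegative real -/
noncomputable def cpQrt (x : ℝ) : ℝ := Real.sqrt (Real.sqrt x)

section Model

variable {PP : Type} [DecidableEq PP] (Mem : PP → Type)

/-- a link step with label type `Ξ` -/
structure CpStep (Ξ : Type) where
  /-- first end point -/
  P : PP
  /-- second end point (`P = Q` is allowed) -/
  Q : PP
  /-- Schmidt index of the pair source (no bound on its size is ever used) -/
  αI : Type
  /-- Schmidt index of the pair effect -/
  αO : Type
  [fI : Fintype αI]
  [dI : DecidableEq αI]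
  [fO : Fintype αO]
  [dO : DecidableEq αO]
  /-- Schmidt probabilities of the source -/
  lamI : Ξ → αI → ℝ
  /-- Schmidt probabilities of the effect -/
  lamO : Ξ → αO → ℝ
  /-- local operators at the first end point -/
  sP : Ξ → αI → αO → Matrix (Mem P) (Mem P) ℂ
  /-- local operators at the second end point -/
  sQ : Ξ → αI → αO → Matrix (Mem Q) (Mem Q) ℂ

attribute [instance] CpStep.fI CpStep.dI CpStep.fO CpStep.dO

/-- a gate: a sum over labels of time ordered products of link steps -/
structure CpGate where
  /-- monomial labels -/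
  Ξ : Type
  [fΞ : Fintype Ξ]
  [dΞ : DecidableEq Ξ]
  /-- coefficients -/
  c : Ξ → ℂ
  /-- number of steps of each monomial -/
  r : ℕ
  /-- the steps, in time order -/
  step : Fin r → CpStep Mem Ξ
  /-- the party whose tensor carries the scalar coefficient -/
  lead : PP

attribute [instance] CpGate.fΞ CpGate.dΞ

/-- a distributed construction -/
structure CpCircuit where
  /-- number of gates -/
  M : ℕ
  /-- the gates, in time order -/
  gate : Fin M → CpGate Mem
  /-- private initial vectors -/
  ψ : ∀ P, Mem P → ℂ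

variable {Mem}
variable [Fintype PP] [∀ P, Fintype (Mem P)] [∀ P, DecidableEq (Mem P)]

/-- the one-party operator `A` at `P`, on the global memory -/
def cpLoc (P : PP) (A : Matrix (Mem P) (Mem P) ℂ) : Matrix (Cfg Mem) (Cfg Mem) ℂ :=
  Matrix.of fun σ τ => if ∀ Q, Q ≠ P → σ Q = τ Q then A (σ P) (τ P) else 0

namespace CpStep

variable {Ξ : Type} (s : CpStep Mem Ξ)

/-- the combined Schmidt index of a step -/
abbrev α : Type := s.αI × s.αO

/-- the combined Schmidt weight -/
def lam (ξ : Ξ) (a : s.α) : ℝ := s.lamI ξ a.1 * s.lamO ξ a.2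

/-- local operator at the first end point, combined index -/
def oP (ξ : Ξ) (a : s.α) : Matrix (Mem s.P) (Mem s.P) ℂ :=
  s.sP ξ a.1 a.2

/-- local operator at the second end point, combined index -/
def oQ (ξ : Ξ) (a : s.α) : Matrix (Mem s.Q) (Mem s.Q) ℂ :=
  s.sQ ξ a.1 a.2

/-- the step with both Schmidt indices open -/
def opened (ξ : Ξ) (a b : s.α) : Matrix (Cfg Mem) (Cfg Mem) ℂ :=
  cpLoc s.P (s.oP ξ a) * cpLoc s.Q (s.oQ ξ b)

/-- the link step -/
noncomputable def link (ξ : Ξ) : Matrix (Cfg Mem) (Cfg Mem) ℂ :=
  ∑ a, ((Real.sqrt (s.lam ξ a) : ℝ) : ℂ) • s.opened ξ a a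

/-- admissibility of a step -/
structure Valid : Prop where
  lamI_nonneg : ∀ ξ a, 0 ≤ s.lamI ξ a
  lamO_nonneg : ∀ ξ w, 0 ≤ s.lamO ξ w
  lamI_sum : ∀ ξ, ∑ a, s.lamI ξ a = 1
  lamO_sum : ∀ ξ, ∑ w, s.lamO ξ w = 1
  bcP : ∀ ξ, CpBC (s.sP ξ)
  bcQ : ∀ ξ, CpBC (s.sQ ξ)

end CpStep

namespace CpGate

variable (g : CpGate Mem)

/-- one monomial -/
noncomputable def mono (ξ : g.Ξ) : Matrix (Cfg Mem) (Cfg Mem) ℂ :=
  cpTprod g.r fun i => (g.step i).link ξ

/-- the gate as an operator on the global memory -/
noncomputable def op : Matrix (Cfg Mem) (Cfg Mem) ℂ := ∑ ξ, g.c ξ • g.mono ξ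

/-- the participating parties -/
def part : Finset PP :=
  insert g.lead (Finset.univ.biUnion fun i => {(g.step i).P, (g.step i).Q})

/-- absolute coefficient sum, at least one -/
noncomputable def cost : ℝ := max 1 (∑ ξ, ‖g.c ξ‖)

/-- admissibility of a gate -/
structure Valid : Prop where
  step : ∀ i, (g.step i).Valid
  contr : CpContr g.op

end CpGate

namespace CpCircuit

variable (C : CpCircuit Mem)

/-- the whole construction as an operator -/
noncomputable def op : Matrix (Cfg Mem) (Cfg Mem) ℂ := cpTprod C.M fun t => (C.gate t).op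

/-- the initial product vector -/
def ini : Cfg Mem → ℂ := fun σ => ∏ P, C.ψ P (σ P)

/-- the final vector -/
noncomputable def vec : Cfg Mem → ℂ := C.op *ᵥ C.ini

/-- positions of the steps -/
abbrev Pos : Type := Σ t : Fin C.M, Fin (C.gate t).r

/-- the step at a position -/
def stepAt (p : C.Pos) : CpStep Mem (C.gate p.1).Ξ := (C.gate p.1).step p.2

/-- total number of steps -/
def nsteps : ℕ := ∑ t, (C.gate t).r

/-- lifetime cost of a party: product of the costs of the gates it participates in -/
noncomputable def pcost (P : PP) : ℝ :=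
  ∏ t ∈ Finset.univ.filter (fun t => P ∈ (C.gate t).part), (C.gate t).cost

/-- admissibility of a construction -/
structure Valid : Prop where
  gate : ∀ t, (C.gate t).Valid
  ini : ∀ P, cpNsq (C.ψ P) = 1

end CpCircuit

/-! ### physical read-out -/

/-- splitting of the final memories into physical output and garbage -/
structure CpRead (Mem Phys : PP → Type) where
  /-- garbage types -/
  Garb : PP → Type
  [dG : ∀ P, DecidableEq (Garb P)]
  /-- physical part -/
  ph : ∀ P, Mem P → Phys P
  /-- garbage part -/
  gb : ∀ P, Mem P → Garb P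
  inj : ∀ P, Function.Injective fun m => (ph P m, gb P m)

attribute [instance] CpRead.dG

variable {Phys : PP → Type} [∀ P, Fintype (Phys P)] [∀ P, DecidableEq (Phys P)]

/-- read-out at one party: trace out the garbage -/
def CpRead.out1 (rd : CpRead Mem Phys) (P : PP) (R : Matrix (Mem P) (Mem P) ℂ) :
    Matrix (Phys P) (Phys P) ℂ :=
  Matrix.of fun x y => ∑ m, ∑ m', if rd.ph P m = x ∧ rd.ph P m' = y ∧ rd.gb P m = rd.gb P m'
    then R m m' else 0

/-- global read-out: trace out all garbage, party by party -/
def CpRead.out (rd : CpRead Mem Phys) (R : Matrix (Cfg Mem) (Cfg Mem) ℂ) :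
    Matrix (Cfg Phys) (Cfg Phys) ℂ :=
  Matrix.of fun x y => ∑ σ, ∑ τ,
    if (∀ P, rd.ph P (σ P) = x P) ∧ (∀ P, rd.ph P (τ P) = y P) ∧ (∀ P, rd.gb P (σ P) = rd.gb P (τ P))
    then R σ τ else 0

/-- the physical output density of a construction -/
noncomputable def CpCircuit.rho (C : CpCircuit Mem) (rd : CpRead Mem Phys) :
    Matrix (Cfg Phys) (Cfg Phys) ℂ :=
  rd.out (vecMulVec C.vec (star C.vec))

end Model

/-! ### tensor networks on the party set -/

/-- a tensor network with one node per party; virtual indices are named by `V`, the index `v` is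
used by the parties in `use v` only -/
structure CpNet (PP : Type) (X : PP → Type) where
  /-- names of the virtual indices -/
  V : Type
  [fV : Fintype V]
  [dV : DecidableEq V]
  /-- range of a virtual index -/
  D : V → Type
  [fD : ∀ v, Fintype (D v)]
  /-- the parties that see a virtual index -/
  use : V → Finset PP
  /-- the tensors -/
  T : ∀ P, X P → (∀ v, D v) → ℂ
  /-- locality -/
  loc : ∀ P x (β β' : ∀ v, D v), (∀ v, P ∈ use v → β v = β' v) → T P x β = T P x β'

attribute [instance] CpNet.fV CpNet.dV CpNet.fD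

/-- value of a network -/
def CpNet.val {PP : Type} [Fintype PP] {X : PP → Type} (N : CpNet PP X) (x : ∀ P, X P) : ℂ :=
  ∑ β : ∀ v, N.D v, ∏ P, N.T P (x P) β

end Claimed.Agent.R296
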