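import Claimed.Agent.R296.P2.CompModel

/-!
# Row 296, paper 2, Section 4: the sampled network (definitions) and the statement of the theorem

For a sample `ω` (fourth roots of unity `g^{(p,j)}_{ac}`, one array per position `p` and sample index
`j < k`) the double layer pair resource `√(λ_a μ_c) δ_ab δ_cd` of the step at `p` is replaced by
`(1/k) ∑_j (λ_a μ_c)^{1/4} g^{(p,j)}_{ac} · (λ_b μ_d)^{1/4} conj g^{(p,j)}_{bd}`.
For fixed virtual indices (label pairs `(ξ_t, ζ_t)` of the gates, sample indices `j_p` of the steps) the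
double layer state is a product over the parties; `cpNetState` computes its factors step by step.
-/

set_option autoImplicit false
set_option linter.unusedSectionVars false

namespace Claimed.Agent.R296

open Matrix

variable {PP : Type} [DecidableEq PP] {Mem : PP → Type}

/-- fourth root of unity -/
noncomputable def cpPh (e : Fin 4) : ℂ := Complex.I ^ (e : ℕ)

/-- double layer product states: one matrix per party -/
abbrev CpSt (Mem : PP → Type) : Type := ∀ P, Matrix (Mem P) (Mem P) ℂ

/-- samples: one array of fourth roots of unity per position and sample index -/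
abbrev CpCircuit.Smp (C : CpCircuit Mem) (k : ℕ) : Type :=
  ∀ p : C.Pos, Fin k → (C.stepAt p).α → (C.stepAt p).α → Fin 4

variable [Fintype PP] [∀ P, Fintype (Mem P)] [∀ P, DecidableEq (Mem P)]

namespace CpStep

variable {Ξ : Type} (s : CpStep Mem Ξ)

/-- double layer half step at the first end point -/
noncomputable def halfP (ξ ζ : Ξ) (g : s.α → s.α → ℂ) (R : Matrix (Mem s.P) (Mem s.P) ℂ) :
    Matrix (Mem s.P) (Mem s.P) ℂ :=
  ∑ a, ∑ c, (((cpQrt (s.lam ξ a * s.lam ζ c) : ℝ) : ℂ) * g a c) • (s.oP ξ a * R * (s.oP ζ c)ᴴ)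

/-- double layer half step at the second end point -/
noncomputable def halfQ (ξ ζ : Ξ) (g : s.α → s.α → ℂ) (R : Matrix (Mem s.Q) (Mem s.Q) ℂ) :
    Matrix (Mem s.Q) (Mem s.Q) ℂ :=
  ∑ b, ∑ d, (((cpQrt (s.lam ξ b * s.lam ζ d) : ℝ) : ℂ) * star (g b d)) •
    (s.oQ ξ b * R * (s.oQ ζ d)ᴴ)

/-- the sampled double layer step on product states (weight `w = 1/k` at the first end point) -/
noncomputable def upd (ξ ζ : Ξ) (g : s.α → s.α → ℂ) (w : ℂ) : Function.End (CpSt Mem) := fun R =>
  let R' := Function.update R s.Q (s.halfQ ξ ζ g (R s.Q))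
  Function.update R' s.P (w • s.halfP ξ ζ g (R' s.P))

/-- updating the factor at `Y₀` by a function of that factor is local -/
theorem cpn_update_local {Y₀ : PP} (F F' : Matrix (Mem Y₀) (Mem Y₀) ℂ → Matrix (Mem Y₀) (Mem Y₀) ℂ)
    (R R' : CpSt Mem) (Y : PP) (hR : R Y = R' Y) (hF : Y = Y₀ → F = F') :
    Function.update R Y₀ (F (R Y₀)) Y = Function.update R' Y₀ (F' (R' Y₀)) Y := by
  rcases eq_or_ne Y Y₀ with rfl | h
  · rw [Function.update_self, Function.update_self, hR, hF rfl]
  · rw [Function.update_of_ne h, Function.update_of_ne h, hR]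

/-- a sampled step is local: the new factor at `Y` depends on the old factor at `Y` only, and on the
parameters only if `Y` is an end point -/
theorem upd_local (ξ ζ ξ' ζ' : Ξ) (g g' : s.α → s.α → ℂ) (w : ℂ) (R R' : CpSt Mem) (Y : PP)
    (hR : R Y = R' Y) (hp : Y = s.P ∨ Y = s.Q → ξ = ξ' ∧ ζ = ζ' ∧ g = g') :
    s.upd ξ ζ g w R Y = s.upd ξ' ζ' g' w R' Y := by
  unfold upd
  refine cpn_update_local (fun X => w • s.halfP ξ ζ g X) (fun X => w • s.halfP ξ' ζ' g' X) _ _ Y
    (cpn_update_local (s.halfQ ξ ζ g) (s.halfQ ξ' ζ' g') R R' Y hR ?_) ?_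
  · intro h
    obtain ⟨rfl, rfl, rfl⟩ := hp (Or.inr h)
    rfl
  · intro h
    obtain ⟨rfl, rfl, rfl⟩ := hp (Or.inl h)
    rfl

end CpStep

/-- locality passes to time ordered products -/
theorem cpn_tprod_local (Y : PP) (n : ℕ) (f f' : Fin n → Function.End (CpSt Mem))
    (h : ∀ i (R R' : CpSt Mem), R Y = R' Y → f i R Y = f' i R' Y) (R R' : CpSt Mem)
    (hR : R Y = R' Y) : cpTprod n f R Y = cpTprod n f' R' Y := by
  induction n with
  | zero => exact hR
  | succ n ih =>
    exact h _ _ _ (ih (fun i => f i.castSucc) (fun i => f' i.castSucc) fun i => h _)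

namespace CpCircuit

variable (C : CpCircuit Mem) (k : ℕ)

/-- names of the virtual indices: gates (label pairs) and positions (sample indices) -/
abbrev NetV : Type := Fin C.M ⊕ C.Pos

/-- ranges of the virtual indices -/
def NetD : C.NetV → Type
  | .inl t => (C.gate t).Ξ × (C.gate t).Ξ
  | .inr _ => Fin k

instance (v : C.NetV) : Fintype (C.NetD k v) := by
  cases v <;> (unfold NetD; infer_instance)

/-- users of the virtual indices -/
def netUse : C.NetV → Finset PP
  | .inl t => (C.gate t).part
  | .inr p => {(C.stepAt p).P, (C.stepAt p).Q}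

/-- ket label of gate `t` -/
def netKet {C : CpCircuit Mem} {k : ℕ} (β : ∀ v, C.NetD k v) (t : Fin C.M) : (C.gate t).Ξ :=
  (show (C.gate t).Ξ × (C.gate t).Ξ from β (.inl t)).1

/-- bra label of gate `t` -/
def netBra {C : CpCircuit Mem} {k : ℕ} (β : ∀ v, C.NetD k v) (t : Fin C.M) : (C.gate t).Ξ :=
  (show (C.gate t).Ξ × (C.gate t).Ξ from β (.inl t)).2

/-- sample index of the position `p` -/
def netSmp {C : CpCircuit Mem} {k : ℕ} (β : ∀ v, C.NetD k v) (p : C.Pos) : Fin k :=
  (show Fin k from β (.inr p))

/-- the sampled double layer gate on product states, for fixed virtual indices -/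
noncomputable def gateUpd (ω : C.Smp k) (β : ∀ v, C.NetD k v) (t : Fin C.M) :
    Function.End (CpSt Mem) := fun R =>
  let R' := (cpTprod (C.gate t).r fun i =>
    ((C.gate t).step i).upd (netKet β t) (netBra β t)
      (fun a c => cpPh (ω ⟨t, i⟩ (netSmp β ⟨t, i⟩) a c)) ((k : ℂ)⁻¹)) R
  Function.update R' (C.gate t).lead
    (((C.gate t).c (netKet β t) * star ((C.gate t).c (netBra β t))) • R' (C.gate t).lead)

/-- the factors of the final double layer state, for fixed virtual indices -/
noncomputable def netState (ω : C.Smp k) (β : ∀ v, C.NetD k v) : CpSt Mem :=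
  (cpTprod C.M fun t => C.gateUpd k ω β t) fun P => vecMulVec (C.ψ P) (star (C.ψ P))

variable {Phys : PP → Type} [∀ P, Fintype (Phys P)] [∀ P, DecidableEq (Phys P)]

/-- LEAF (CompNet): the factor at `P` depends only on the virtual indices used by `P` -/
theorem netState_local (ω : C.Smp k) (P : PP) (β β' : ∀ v, C.NetD k v)
    (h : ∀ v, P ∈ C.netUse v → β v = β' v) : C.netState k ω β P = C.netState k ω β' P := by
  unfold netState
  refine cpn_tprod_local P C.M _ _ (fun t R R' hR => ?_) _ _ rfl
  -- one gate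
  have hlab : P ∈ (C.gate t).part → netKet β t = netKet β' t ∧ netBra β t = netBra β' t := by
    intro hP
    have := h (.inl t) hP
    unfold netKet netBra
    rw [this]
    exact ⟨rfl, rfl⟩
  unfold gateUpd
  refine CpStep.cpn_update_local
    (fun X => ((C.gate t).c (netKet β t) * star ((C.gate t).c (netBra β t))) • X)
    (fun X => ((C.gate t).c (netKet β' t) * star ((C.gate t).c (netBra β' t))) • X) _ _ P ?_ ?_
  · refine cpn_tprod_local P (C.gate t).r _ _ (fun i S S' hS => ?_) _ _ hR
    refine CpStep.upd_local _ _ _ _ _ _ _ _ _ _ P hS ?_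
    intro hP
    have hmem : P ∈ ({((C.gate t).step i).P, ((C.gate t).step i).Q} : Finset PP) := by
      rcases hP with rfl | rfl <;> simp
    have hpart : P ∈ (C.gate t).part := by
      unfold CpGate.part
      exact Finset.mem_insert_of_mem (Finset.mem_biUnion.mpr ⟨i, Finset.mem_univ i, hmem⟩)
    have hsm : netSmp β ⟨t, i⟩ = netSmp β' ⟨t, i⟩ := by
      have := h (.inr ⟨t, i⟩) hmem
      unfold netSmp
      rw [this]
    refine ⟨(hlab hpart).1, (hlab hpart).2, ?_⟩
    rw [hsm]
  · intro hP
    have hpart : P ∈ (C.gate t).part := by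
      unfold CpGate.part
      rw [hP]
      exact Finset.mem_insert_self _ _
    rw [(hlab hpart).1, (hlab hpart).2]

/-- the sampled network -/
noncomputable def net (rd : CpRead Mem Phys) (ω : C.Smp k) :
    CpNet PP (fun P => Phys P × Phys P) where
  V := C.NetV
  D := C.NetD k
  use := C.netUse
  T := fun P x β => rd.out1 P (C.netState k ω β P) x.1 x.2
  loc := fun P x β β' h => by rw [C.netState_local k ω P β β' h]

/-- the operator represented by the sampled network -/
noncomputable def sigma (rd : CpRead Mem Phys) (ω : C.Smp k) : Matrix (Cfg Phys) (Cfg Phys) ℂ :=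
  Matrix.of fun x y => (C.net k rd ω).val fun P => (x P, y P)

end CpCircuit

end Claimed.Agent.R296
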