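import Claimed.Agent.R296.P2.CompSup
import Claimed.Agent.R296.P2.CompBaseB

/-!
# Row 296, P2 Section 4, package RAND: moments of the centred coefficients  (proofs helper74)

PROOF of `zeta_cov`.  Put `α = (a,c)`, `β = (b,d)`, `X_j(α,β) = g_j α * conj (g_j β) - δ_{αβ}`;
`zeta = k⁻¹ ∑_j X_j(α,β)` (needs `0 < k`).  `X_j(α,α) = 0` since `|g| = 1`.
For `α ≠ β`, `α' ≠ β'` the mixed moment `E[g_j α conj g_j β conj (g_j' α' conj g_j' β')]` is computed by
SHIFT INVARIANCE of the uniform measure on the group `Fin k → s.α → s.α → Fin 4`: adding `1` at one coordinate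
multiplies the monomial by a constant `χ ∈ {i, -1, -i}`, hence the average vanishes, unless
`(j,α,β) = (j',α',β')`, when the monomial is `1`.
-/

set_option autoImplicit false
set_option linter.unusedSectionVars false

namespace Claimed.Agent.R296

open Matrix

variable {PP : Type} [DecidableEq PP] [Fintype PP] {Mem : PP → Type}
  [∀ P, Fintype (Mem P)] [∀ P, DecidableEq (Mem P)]

/-! ### LEAF RAND: moments of the centred coefficients -/

theorem cpPh_norm (e : Fin 4) : ‖cpPh e‖ = 1 := by
  unfold cpPh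
  rw [norm_pow, Complex.norm_I, one_pow]

theorem cpAvg_cpPh : cpAvg (fun e : Fin 4 => cpPh e) = 0 := by
  unfold cpAvg cpPh
  simp [Fin.sum_univ_four, pow_succ]

theorem cpAvg_cpPh_sq : cpAvg (fun e : Fin 4 => cpPh e ^ 2) = 0 := by
  unfold cpAvg cpPh
  simp [Fin.sum_univ_four, pow_succ]

theorem cpPh_mul_star (e : Fin 4) : cpPh e * star (cpPh e) = 1 := by
  rw [Complex.star_def, Complex.mul_conj, Complex.normSq_eq_norm_sq, cpPh_norm]
  simp

theorem cpPh_add_one (e : Fin 4) : cpPh (e + 1) = Complex.I * cpPh e := by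
  unfold cpPh
  fin_cases e <;> simp [pow_succ, Fin.add_def]

theorem cpPh_add_ite (e : Fin 4) (c : Prop) [Decidable c] :
    cpPh (e + if c then 1 else 0) = (if c then Complex.I else 1) * cpPh e := by
  split_ifs
  · exact cpPh_add_one e
  · simp

section Shift

variable {k : ℕ} {A : Type} [Fintype A] [DecidableEq A]

/-- shift invariance of the average -/
theorem cprnd_avg_shift (F : (Fin k → A → A → Fin 4) → ℂ) (t : Fin k → A → A → Fin 4) :
    cpAvg (fun g => F (g + t)) = cpAvg F := by
  unfold cpAvg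
  congr 1
  exact Equiv.sum_comp (Equiv.addRight t) F

/-- a function which is multiplied by `χ ≠ 1` under a shift has average zero -/
theorem cprnd_avg_eq_zero (F : (Fin k → A → A → Fin 4) → ℂ) (t : Fin k → A → A → Fin 4) (χ : ℂ)
    (hχ : χ ≠ 1) (h : ∀ g, F (g + t) = χ * F g) : cpAvg F = 0 := by
  have h1 := cprnd_avg_shift F t
  simp only [h] at h1
  rw [cpAvg_mul_leftC] at h1
  have h2 : (χ - 1) * cpAvg F = 0 := by rw [sub_mul, h1, one_mul, sub_self]
  rcases mul_eq_zero.1 h2 with h3 | h3
  · exact absurd (sub_eq_zero.1 h3) hχ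
  · exact h3

/-- the unit shift at one coordinate -/
def cprndT (j0 : Fin k) (x0 y0 : A) : Fin k → A → A → Fin 4 :=
  fun J x y => if J = j0 ∧ x = x0 ∧ y = y0 then 1 else 0

theorem cprnd_ph_shift (g : Fin k → A → A → Fin 4) (j0 : Fin k) (x0 y0 : A) (J : Fin k) (x y : A) :
    cpPh ((g + cprndT j0 x0 y0) J x y) =
      (if J = j0 ∧ x = x0 ∧ y = y0 then Complex.I else 1) * cpPh (g J x y) := by
  simp only [Pi.add_apply, cprndT]
  exact cpPh_add_ite _ _

theorem cprnd_I_ne_one : Complex.I ≠ 1 := by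
  intro h
  have := congrArg Complex.im h
  simp at this

theorem cprnd_negI_ne_one : -Complex.I ≠ 1 := by
  intro h
  have := congrArg Complex.im h
  simp at this

theorem cprnd_neg_one_ne_one : (-1 : ℂ) ≠ 1 := by
  intro h
  have := congrArg Complex.re h
  norm_num at this

/-- the mixed fourth moment -/
theorem cprnd_moment (j j' : Fin k) (a b c d a' b' c' d' : A) (h1 : ¬ (a = b ∧ c = d))
    (h2 : ¬ (a' = b' ∧ c' = d')) :
    cpAvg (fun g : Fin k → A → A → Fin 4 => (cpPh (g j a c) * star (cpPh (g j b d))) *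
        star (cpPh (g j' a' c') * star (cpPh (g j' b' d'))))
      = if j = j' ∧ a = a' ∧ b = b' ∧ c = c' ∧ d = d' then 1 else 0 := by
  by_cases hA : j' = j ∧ a' = a ∧ c' = c
  · obtain ⟨rfl, rfl, rfl⟩ := hA
    by_cases hB : b' = b ∧ d' = d
    · obtain ⟨rfl, rfl⟩ := hB
      have : (fun g : Fin k → A → A → Fin 4 => (cpPh (g j' a' c') * star (cpPh (g j' b' d'))) *
          star (cpPh (g j' a' c') * star (cpPh (g j' b' d')))) = fun _ => 1 := by
        funext g
        rw [star_mul, star_star]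
        calc cpPh (g j' a' c') * star (cpPh (g j' b' d')) *
              (cpPh (g j' b' d') * star (cpPh (g j' a' c')))
            = (cpPh (g j' a' c') * star (cpPh (g j' a' c'))) *
              (cpPh (g j' b' d') * star (cpPh (g j' b' d'))) := by ring
          _ = 1 := by rw [cpPh_mul_star, cpPh_mul_star, one_mul]
      rw [this, cpAvg_const]
      simp
    · rw [if_neg (by
        rintro ⟨-, -, rfl, -, rfl⟩
        exact hB ⟨rfl, rfl⟩)]
      apply cprnd_avg_eq_zero _ (cprndT j' b d) (-Complex.I) cprnd_negI_ne_one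
      intro g
      simp only [cprnd_ph_shift, true_and, and_self, if_true, if_neg h1, if_neg hB]
      simp only [one_mul, star_mul, Complex.star_def, Complex.conj_I]
      ring
  · rw [if_neg (by
      rintro ⟨rfl, rfl, -, rfl, -⟩
      exact hA ⟨rfl, rfl, rfl⟩)]
    have e2 : ¬ (b = a ∧ d = c) := fun h => h1 ⟨h.1.symm, h.2.symm⟩
    by_cases hC : j' = j ∧ b' = a ∧ d' = c
    · apply cprnd_avg_eq_zero _ (cprndT j a c) (-1) cprnd_neg_one_ne_one
      intro g
      simp only [cprnd_ph_shift, true_and, and_self, if_true, if_neg e2, if_neg hA, if_pos hC]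
      simp only [one_mul, star_mul, Complex.star_def, Complex.conj_I, map_neg, Complex.conj_conj,
        neg_neg]
      linear_combination (cpPh (g j a c) * (starRingEnd ℂ) (cpPh (g j b d)) * cpPh (g j' b' d') *
        (starRingEnd ℂ) (cpPh (g j' a' c'))) * Complex.I_mul_I
    · apply cprnd_avg_eq_zero _ (cprndT j a c) Complex.I cprnd_I_ne_one
      intro g
      simp only [cprnd_ph_shift, true_and, and_self, if_true, if_neg e2, if_neg hA, if_neg hC]
      simp only [one_mul]
      ring

end Shift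

theorem CpStep.zeta_diag {Ξ : Type} (s : CpStep Mem Ξ) (k : ℕ) (hk : 0 < k)
    (g : Fin k → s.α → s.α → Fin 4) (a c : s.α) : s.zeta k g a a c c = 0 := by
  unfold CpStep.zeta CpStep.emp
  simp only [cpPh_mul_star, Finset.sum_const, Finset.card_univ, Fintype.card_fin, nsmul_eq_mul,
    mul_one, and_self, if_true]
  have : (k : ℂ) ≠ 0 := by exact_mod_cast hk.ne'
  rw [inv_mul_cancel₀ this, sub_self]

/-- covariance of the centred coefficients (eqs. compression-gaussian-covariance, slot-variance, with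
fourth roots of unity instead of Gaussians: diagonal, entries `0` or `1/k`) -/
theorem CpStep.zeta_cov {Ξ : Type} (s : CpStep Mem Ξ) (k : ℕ) (hk : 0 < k)
    (a b c d a' b' c' d' : s.α) :
    cpAvg (fun g : Fin k → s.α → s.α → Fin 4 => s.zeta k g a b c d * star (s.zeta k g a' b' c' d'))
      = if (a = a' ∧ b = b' ∧ c = c' ∧ d = d') ∧ ¬ (a = b ∧ c = d) then (k : ℂ)⁻¹ else 0 := by
  have hk0 : (k : ℂ) ≠ 0 := by exact_mod_cast hk.ne'
  by_cases h1 : a = b ∧ c = d
  · obtain ⟨rfl, rfl⟩ := h1
    simp only [s.zeta_diag k hk, zero_mul]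
    rw [cpAvg_const]
    simp
  by_cases h2 : a' = b' ∧ c' = d'
  · obtain ⟨rfl, rfl⟩ := h2
    simp only [s.zeta_diag k hk, star_zero, mul_zero]
    rw [cpAvg_const, if_neg]
    rintro ⟨⟨rfl, rfl, rfl, rfl⟩, h⟩
    exact h ⟨rfl, rfl⟩
  have hz : ∀ g : Fin k → s.α → s.α → Fin 4,
      s.zeta k g a b c d * star (s.zeta k g a' b' c' d') =
        ((k : ℂ)⁻¹ * (k : ℂ)⁻¹) * ∑ j, ∑ j', (cpPh (g j a c) * star (cpPh (g j b d))) *
          star (cpPh (g j' a' c') * star (cpPh (g j' b' d'))) := by
    intro g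
    unfold CpStep.zeta CpStep.emp
    rw [if_neg h1, if_neg h2, sub_zero, sub_zero, star_mul', star_inv₀, star_sum,
      Complex.star_def, Complex.conj_natCast, ← Finset.sum_mul_sum]
    ring
  simp only [hz]
  rw [cpAvg_mul_leftC, cpAvg_sum]
  simp only [cpAvg_sum, cprnd_moment _ _ a b c d a' b' c' d' h1 h2]
  by_cases h3 : a = a' ∧ b = b' ∧ c = c' ∧ d = d'
  · rw [if_pos ⟨h3, h1⟩]
    simp only [h3, and_true, Finset.sum_ite_eq, Finset.mem_univ, if_true, Finset.sum_const,
      Finset.card_univ, Fintype.card_fin, nsmul_eq_mul, mul_one]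
    field_simp
  · rw [if_neg (fun h => h3 h.1)]
    simp [h3]

end Claimed.Agent.R296
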