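import Claimed.Agent.R296.P2.CompSup
import Claimed.Agent.R296.P2.CompCore

/-!
# Row 296, P2 Section 4: splitting a construction into affected side and exterior (DEFINITIONS; sorry-free)

Fix the set `χ` of corrected positions.  `aff χ` = end points of the corrected steps.  A gate is
*touched* if one of its participants is affected.  Untouched gates stay aggregate contractions of the
exterior; at touched gates the ket and bra labels are expanded (`Lab`, with the `Option` trick: `none` =
not expanded).  For fixed labels every step becomes an abstract double layer step `CpStep.rb`: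
corrected / closed on one side / crossing.  The whole construction is the `CpRB.fold` of these.
-/

set_option autoImplicit false

namespace Claimed.Agent.R296

open Matrix

variable {PP : Type} [DecidableEq PP] [Fintype PP] {Mem : PP → Type}
  [∀ P, Fintype (Mem P)] [∀ P, DecidableEq (Mem P)]

namespace CpStep

variable {Ξ : Type} (s : CpStep Mem Ξ)

/-- single layer, corrected step: both end points affected, both Schmidt indices free -/
noncomputable def hCorr (ξ : Ξ) : CpH (Cfg Mem) where
  CI := s.αI × s.αI
  CO := s.αO × s.αO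
  TI := Unit
  TO := Unit
  a := fun c _ => s.opened ξ (c.1.1, c.2.1) (c.1.2, c.2.2)
  x := fun _ => 1
  pI := fun i => s.lamI ξ i.1 * s.lamI ξ i.2
  pO := fun o => s.lamO ξ o.1 * s.lamO ξ o.2
  tI := fun _ => 1
  tO := fun _ => 1

/-- single layer, crossing step, first end point affected -/
noncomputable def hPQ (ξ : Ξ) : CpH (Cfg Mem) where
  CI := Unit
  CO := Unit
  TI := s.αI
  TO := s.αO
  a := fun _ t => cpLoc s.P (s.oP ξ t)
  x := fun t => cpLoc s.Q (s.oQ ξ t)
  pI := fun _ => 1
  pO := fun _ => 1
  tI := s.lamI ξ
  tO := s.lamO ξ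

/-- single layer, crossing step, second end point affected -/
noncomputable def hQP (ξ : Ξ) : CpH (Cfg Mem) where
  CI := Unit
  CO := Unit
  TI := s.αI
  TO := s.αO
  a := fun _ t => cpLoc s.Q (s.oQ ξ t)
  x := fun t => cpLoc s.P (s.oP ξ t)
  pI := fun _ => 1
  pO := fun _ => 1
  tI := s.lamI ξ
  tO := s.lamO ξ

/-- the abstract double layer step of `s` for the affected set `A`, ket label `ξ`, bra label `ζ` -/
noncomputable def rb (A : Finset PP) (cor : Bool) (ξ ζ : Ξ) (k : ℕ) {Ω : Type}
    (g : Ω → Fin k → s.α → s.α → Fin 4) : CpRB (Cfg Mem) Ω :=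
  if cor = true then
    { K := s.hCorr ξ
      B := s.hCorr ζ
      z := fun ω c c' => s.zeta k (g ω) (c.1.1, c.2.1) (c.1.2, c.2.2) (c'.1.1, c'.2.1) (c'.1.2, c'.2.2)
      V := (k : ℝ)⁻¹ }
  else if s.P ∈ A then
    (if s.Q ∈ A then CpRB.closed (s.link ξ) 1 (s.link ζ) 1
     else { K := s.hPQ ξ, B := s.hPQ ζ, z := fun _ _ _ => 1, V := 1 })
  else
    (if s.Q ∈ A then { K := s.hQP ξ, B := s.hQP ζ, z := fun _ _ _ => 1, V := 1 }
     else CpRB.closed 1 (s.link ξ) 1 (s.link ζ))

end CpStep

namespace CpCircuit

variable (C : CpCircuit Mem) (k : ℕ)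

/-- the affected parties: end points of the corrected steps -/
def aff (χ : C.Chi) : Finset PP :=
  Finset.univ.biUnion fun t => Finset.univ.biUnion fun i =>
    if χ t i = true then {((C.gate t).step i).P, ((C.gate t).step i).Q} else ∅

/-- a gate is touched if one of its participants is affected -/
def Touched (χ : C.Chi) (t : Fin C.M) : Prop := ¬ Disjoint (C.gate t).part (C.aff χ)

instance (χ : C.Chi) (t : Fin C.M) : Decidable (C.Touched χ t) := by
  unfold Touched; infer_instance

/-- label choices: `none` = the gate is not expanded -/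
abbrev Lab : Type := ∀ t : Fin C.M, Option ((C.gate t).Ξ × (C.gate t).Ξ)

/-- weight of a label choice at one gate -/
noncomputable def wt (χ : C.Chi) (t : Fin C.M) : Option ((C.gate t).Ξ × (C.gate t).Ξ) → ℂ
  | none => if C.Touched χ t then 0 else 1
  | some p => if C.Touched χ t then (C.gate t).c p.1 * star ((C.gate t).c p.2) else 0

/-- the abstract double layer step of a gate -/
noncomputable def gateRB (χ : C.Chi) (t : Fin C.M) :
    Option ((C.gate t).Ξ × (C.gate t).Ξ) → CpRB (Cfg Mem) (C.Smp k)
  | none => CpRB.closed 1 (C.gate t).op 1 (C.gate t).op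
  | some p => CpRB.fold (C.gate t).r fun i =>
      ((C.gate t).step i).rb (C.aff χ) (χ t i) p.1 p.2 k (fun ω : C.Smp k => ω ⟨t, i⟩)

/-- the abstract double layer step of the whole construction -/
noncomputable def circRB (χ : C.Chi) (o : C.Lab) : CpRB (Cfg Mem) (C.Smp k) :=
  CpRB.fold C.M fun t => C.gateRB k χ t (o t)

end CpCircuit

end Claimed.Agent.R296
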