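import Claimed.Agent.R296.P2.CompSup
import Claimed.Agent.R296.P2.CompBaseB

/-!
# Row 296, P2 Section 4, package SUP: exact resources and the subset expansion

PROOFS.  `kHat_eq`: on the diagonal `a = b, c = d`: `kW = cpQrt (λ_a² μ_c²) = √λ_a √μ_c` (nonnegativity);
off the diagonal `kEx = 0` and `zeta = emp`.  `sup_kEx`: the fourfold sum collapses to `∑ a c`, which is
`link ξ * R * (link ζ)ᴴ` expanded (`Matrix.sum_mul`, `Matrix.mul_sum`, `conjTranspose_sum/smul`, the
coefficients are real).  `CpGate.sup_kEx`: `cpTprod_sandwich`, then bilinearity in `(ξ, ζ)`.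
`fin_kEx`: `cpTprod_sandwich` again and `A * vecMulVec u (star u) * Aᴴ = vecMulVec (A u) (star (A u))`.
`sup_add_sum`: `CpStep.sup_add`, write `sup κ + sup κ' = ∑ b : Bool, ..`, `cpTprod_sum` with `κ i = Bool`,
exchange the sums.  `fin_kHat_sum`: `kHat_eq`, `sup_add_sum` in each gate, `cpTprod_sum` over the gates.
-/

set_option autoImplicit false
set_option linter.unusedSectionVars false

namespace Claimed.Agent.R296

open Matrix

variable {PP : Type} [DecidableEq PP] [Fintype PP] {Mem : PP → Type}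
  [∀ P, Fintype (Mem P)] [∀ P, DecidableEq (Mem P)]

/-! ### LEAF SUP-1 -/

theorem CpStep.kHat_eq {Ξ : Type} (s : CpStep Mem Ξ) (hs : s.Valid) (ξ ζ : Ξ) (k : ℕ)
    (g : Fin k → s.α → s.α → Fin 4) : s.kHat ξ ζ k g = s.kEx ξ ζ + s.kDel ξ ζ k g := by
  funext a b c d
  have hl : ∀ (η : Ξ) (e : s.α), 0 ≤ s.lam η e := fun η e =>
    mul_nonneg (hs.lamI_nonneg η e.1) (hs.lamO_nonneg η e.2)
  simp only [Pi.add_apply, CpStep.kHat, CpStep.kEx, CpStep.kDel, CpStep.zeta]
  by_cases h : a = b ∧ c = d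
  · obtain ⟨rfl, rfl⟩ := h
    have hw : s.kW ξ ζ a a c c = Real.sqrt (s.lam ξ a) * Real.sqrt (s.lam ζ c) := by
      rw [CpStep.kW, cpQrt, Real.sqrt_mul (mul_self_nonneg _), Real.sqrt_mul_self (hl ξ a),
        Real.sqrt_mul_self (hl ζ c), Real.sqrt_mul (hl ξ a)]
    simp only [and_self, if_true, hw]
    ring
  · simp only [h, if_false]
    ring

theorem CpStep.sup_add {Ξ : Type} (s : CpStep Mem Ξ) (ξ ζ : Ξ) (κ κ' : s.Ten) :
    s.sup ξ ζ (κ + κ') = s.sup ξ ζ κ + s.sup ξ ζ κ' := by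
  simp only [CpStep.sup, Pi.add_apply, add_smul, Finset.sum_add_distrib]

theorem CpStep.sup_kEx {Ξ : Type} (s : CpStep Mem Ξ) (ξ ζ : Ξ) (R : CpOp Mem) :
    s.sup ξ ζ (s.kEx ξ ζ) R = s.link ξ * R * (s.link ζ)ᴴ := by
  have hL : s.sup ξ ζ (s.kEx ξ ζ) R = ∑ a, ∑ c,
      ((Real.sqrt (s.lam ξ a) * Real.sqrt (s.lam ζ c) : ℝ) : ℂ) •
        (s.opened ξ a a * (R * (s.opened ζ c c)ᴴ)) := by
    simp only [CpStep.sup, LinearMap.sum_apply, LinearMap.smul_apply,
      LinearMap.comp_apply, LinearMap.mulLeft_apply, LinearMap.mulRight_apply]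
    refine Finset.sum_congr rfl fun a _ => ?_
    rw [Finset.sum_eq_single a]
    · refine Finset.sum_congr rfl fun c _ => ?_
      rw [Finset.sum_eq_single c]
      · simp only [CpStep.kEx, and_self, if_true]
      · intro d _ hd
        simp [CpStep.kEx, Ne.symm hd]
      · simp
    · intro b _ hb
      refine Finset.sum_eq_zero fun c _ => Finset.sum_eq_zero fun d _ => ?_
      simp [CpStep.kEx, Ne.symm hb]
    · simp
  rw [hL]
  simp only [CpStep.link, Matrix.conjTranspose_sum, Matrix.conjTranspose_smul, Matrix.sum_mul,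
    Matrix.mul_sum]
  rw [Finset.sum_comm]
  refine Finset.sum_congr rfl fun c _ => Finset.sum_congr rfl fun a _ => ?_
  simp only [Matrix.smul_mul, Matrix.mul_smul, smul_smul,
    Complex.star_def, Complex.conj_ofReal, Complex.ofReal_mul, Matrix.mul_assoc]
  rw [mul_comm]

theorem CpGate.sup_kEx (g : CpGate Mem) (R : CpOp Mem) :
    g.sup (fun i ξ ζ => (g.step i).kEx ξ ζ) R = g.op * R * g.opᴴ := by
  have hm : ∀ ξ ζ, g.supMono (fun i ξ ζ => (g.step i).kEx ξ ζ) ξ ζ R =
      g.mono ξ * R * (g.mono ζ)ᴴ := by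
    intro ξ ζ
    rw [CpGate.supMono, CpGate.mono, CpGate.mono, ← cpTprod_sandwich]
    congr 1
    refine cpTprod_congr _ fun i => ?_
    refine LinearMap.ext fun R' => ?_
    rw [CpStep.sup_kEx]
    simp only [LinearMap.comp_apply, LinearMap.mulLeft_apply, LinearMap.mulRight_apply,
      Matrix.mul_assoc]
  simp only [CpGate.sup, CpGate.op, LinearMap.sum_apply, LinearMap.smul_apply, hm,
    Matrix.conjTranspose_sum, Matrix.conjTranspose_smul, Matrix.sum_mul, Matrix.mul_sum]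
  rw [Finset.sum_comm]
  refine Finset.sum_congr rfl fun ζ _ => Finset.sum_congr rfl fun ξ _ => ?_
  simp only [Matrix.smul_mul, Matrix.mul_smul, smul_smul]
  rw [mul_comm]

theorem CpCircuit.fin_kEx (C : CpCircuit Mem) : C.fin C.tEx = vecMulVec C.vec (star C.vec) := by
  have h : C.fin C.tEx = C.op * vecMulVec C.ini (star C.ini) * C.opᴴ := by
    rw [CpCircuit.fin, CpCircuit.op, ← cpTprod_sandwich]
    congr 1
    refine cpTprod_congr _ fun t => ?_
    refine LinearMap.ext fun R' => ?_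
    have := (C.gate t).sup_kEx R'
    simp only [LinearMap.comp_apply, LinearMap.mulLeft_apply, LinearMap.mulRight_apply]
    rw [← Matrix.mul_assoc, ← this]
    rfl
  rw [h, CpCircuit.vec, Matrix.mul_vecMulVec, Matrix.vecMulVec_mul, Matrix.star_mulVec]

/-! ### LEAF SUP-2 -/

/-- subset expansion inside one gate -/
theorem CpGate.sup_add_sum (g : CpGate Mem) (κ κ' : g.Ten) :
    g.sup (fun i ξ ζ => κ i ξ ζ + κ' i ξ ζ) = ∑ χ : Fin g.r → Bool, g.sup (fun i => if χ i = true then κ' i else κ i) := by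
  have hm : ∀ ξ ζ, g.supMono (fun i ξ ζ => κ i ξ ζ + κ' i ξ ζ) ξ ζ =
      ∑ χ : Fin g.r → Bool, g.supMono (fun i => if χ i = true then κ' i else κ i) ξ ζ := by
    intro ξ ζ
    simp only [CpGate.supMono]
    rw [← cpTprod_sum g.r (fun _ => Bool)
      (fun i b => (g.step i).sup ξ ζ ((if b = true then κ' i else κ i) ξ ζ))]
    refine cpTprod_congr _ fun i => ?_
    rw [CpStep.sup_add, Fintype.sum_bool]
    simp [add_comm]
  simp only [CpGate.sup, hm, Finset.smul_sum]
  symm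
  rw [Finset.sum_comm]
  refine Finset.sum_congr rfl fun ξ _ => ?_
  exact Finset.sum_comm

/-- subset expansion (eq. compression-subset-expansion) -/
theorem CpCircuit.fin_kHat_sum (C : CpCircuit Mem) (hC : C.Valid) (k : ℕ) (ω : C.Smp k) :
    C.fin (C.tHat k ω) = ∑ χ : C.Chi, C.fin (C.tChi k ω χ) := by
  have hg : ∀ t, (C.gate t).sup (C.tHat k ω t) = ∑ χt : Fin (C.gate t).r → Bool,
      (C.gate t).sup (fun i ξ ζ => if χt i = true then
        ((C.gate t).step i).kDel ξ ζ k (ω ⟨t, i⟩) else ((C.gate t).step i).kEx ξ ζ) := by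
    intro t
    have h1 : C.tHat k ω t = fun i ξ ζ => ((C.gate t).step i).kEx ξ ζ +
        ((C.gate t).step i).kDel ξ ζ k (ω ⟨t, i⟩) := by
      funext i ξ ζ
      exact CpStep.kHat_eq _ ((hC.gate t).step i) ξ ζ k _
    rw [h1, CpGate.sup_add_sum]
    refine Finset.sum_congr rfl fun χt _ => ?_
    congr 1
    funext i ξ ζ
    split_ifs <;> rfl
  simp only [CpCircuit.fin]
  rw [cpTprod_congr _ hg, cpTprod_sum C.M (fun t => Fin (C.gate t).r → Bool),
    LinearMap.sum_apply]
  rfl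

theorem CpCircuit.tChi_false (C : CpCircuit Mem) (k : ℕ) (ω : C.Smp k) :
    C.tChi k ω (fun _ _ => false) = C.tEx := by
  funext t i ξ ζ
  simp [CpCircuit.tChi, CpCircuit.tEx]

end Claimed.Agent.R296
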