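import Claimed.Agent.R296.P2.CompSplit
import Claimed.Agent.R296.P2.CompRand
import Claimed.Agent.R296.P2.CompLocB
import Claimed.Agent.R296.P2.CompCoreB
import Claimed.Agent.R296.P2.CompSupA
import Claimed.Agent.R296.P2.CompCons

/-!
# Row 296, P2 Section 4, package SPLIT-A: one step

PROOFS.  `rb_valid`, `rb_sup`, `rb_V`: `unfold CpStep.rb; split_ifs` and treat the five cases:
corrected (`hCorr`; `zeta_cov` through `cpAvg_eval`/`e`; `amp = kW` up to `ring_nf` inside `cpQrt`),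
closed on the affected side, crossing `hPQ`, crossing `hQP` (there `P ≠ Q`, use `cpLoc_commute`), closed in the
exterior.  For `rb_sup` in the crossing cases: `√(τ τ') = √(lam ξ t) √(lam ζ t')` and the fourfold sum of
`sup .. kEx` collapses to the diagonal.
-/

set_option autoImplicit false
set_option linter.unusedSectionVars false

namespace Claimed.Agent.R296

open Matrix

variable {PP : Type} [DecidableEq PP] [Fintype PP] {Mem : PP → Type}
  [∀ P, Fintype (Mem P)] [∀ P, DecidableEq (Mem P)]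

/-! ### auxiliary lemmas -/

/-- average along an equivalence -/
theorem cps_avg_equiv {Ω Ω' : Type} [Fintype Ω] [Fintype Ω'] (e : Ω ≃ Ω') (F : Ω' → ℂ) :
    cpAvg (fun w => F (e w)) = cpAvg F := by
  unfold cpAvg
  rw [Fintype.card_congr e, Equiv.sum_comp e F]

/-- closed steps, arbitrary sample space -/
theorem cps_sup_closed {n Ω : Type} [Fintype n] [DecidableEq n] (a x a' x' : Matrix n n ℂ) (ω : Ω) :
    (CpRB.closed a x a' x' : CpRB n Ω).sup ω =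
      (LinearMap.mulLeft ℂ (a * x)).comp (LinearMap.mulRight ℂ (a' * x')ᴴ) := by
  show (∑ _c : Unit × Unit, ∑ _t : Unit × Unit, ∑ _c' : Unit × Unit, ∑ _t' : Unit × Unit,
    ((1 : ℂ) * ((cpQrt (1 * 1 * (1 * 1)) * Real.sqrt (1 * 1 * (1 * 1)) : ℝ) : ℂ)) •
      (LinearMap.mulLeft ℂ (a * x)).comp (LinearMap.mulRight ℂ (a' * x')ᴴ)) = _
  simp only [mul_one, cpb_qrt_one, Real.sqrt_one, Complex.ofReal_one, one_smul,
    Finset.sum_const, Finset.card_univ, Fintype.card_prod, Fintype.card_unit]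

/-- regrouping of a sum over pairs of pairs -/
theorem cps_sum_regroup {A B M : Type} [Fintype A] [Fintype B] [AddCommMonoid M]
    (F : A × B → A × B → M) :
    ∑ c : (A × A) × (B × B), F (c.1.1, c.2.1) (c.1.2, c.2.2) = ∑ a, ∑ b, F a b := by
  rw [← Fintype.sum_prod_type']
  exact Fintype.sum_equiv (Equiv.prodProdProdComm A A B B) _ _ (fun _ => rfl)

section Det

variable {n : Type} [Fintype n] [DecidableEq n] {ι : Type} [Fintype ι] [DecidableEq ι]
  {W : ι → Type} [∀ i, Fintype (W i)] [∀ i, Nonempty (W i)] {AA XX : Set (Matrix n n ℂ)}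

/-- deterministic double layer steps without corrected indices -/
theorem cps_det_valid {K B : CpH n} (hK : K.Valid AA XX) (hB : B.Valid AA XX)
    (hKC : ∀ c d : K.C, c = d) (hBC : ∀ c d : B.C, c = d) (J : Set ι) :
    ({ K := K, B := B, z := fun _ _ _ => 1, V := 1 } : CpRB n (∀ i, W i)).Valid AA XX J where
  K := hK
  B := hB
  dep := fun _ _ _ _ _ => rfl
  orth := fun c c' d d' hne => absurd (Prod.ext (hKC c d) (hBC c' d')) hne
  var := fun c c' => by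
    show cpAvg (fun _ : (∀ i, W i) => ‖(1 : ℂ)‖ ^ 2) ≤ 1
    rw [cpAvg_const]
    simp
  V_nonneg := zero_le_one

end Det

namespace CpStep

variable {Ξ : Type} (s : CpStep Mem Ξ)

theorem opened_mem_AA {A : Finset PP} (hP : s.P ∈ A) (hQ : s.Q ∈ A) (ξ : Ξ) (a b : s.α) :
    s.opened ξ a b ∈ cpAA (Mem := Mem) A :=
  SuppIn.mul (cpLoc_mem_AA hP _) (cpLoc_mem_AA hQ _)

theorem opened_mem_XX {A : Finset PP} (hP : s.P ∉ A) (hQ : s.Q ∉ A) (ξ : Ξ) (a b : s.α) :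
    s.opened ξ a b ∈ cpXX (Mem := Mem) A :=
  SuppIn.mul (cpLoc_mem_XX hP _) (cpLoc_mem_XX hQ _)

theorem link_mem_AA {A : Finset PP} (hP : s.P ∈ A) (hQ : s.Q ∈ A) (ξ : Ξ) :
    s.link ξ ∈ cpAA (Mem := Mem) A :=
  cpAA_sum _ _ fun a _ => cpAA_smul _ (s.opened_mem_AA hP hQ ξ a a)

theorem link_mem_XX {A : Finset PP} (hP : s.P ∉ A) (hQ : s.Q ∉ A) (ξ : Ξ) :
    s.link ξ ∈ cpXX (Mem := Mem) A :=
  cpXX_sum _ _ fun a _ => cpXX_smul _ (s.opened_mem_XX hP hQ ξ a a)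

theorem cps_sum_unit_le : ∑ _i : Unit, (1 : ℝ) ≤ 1 := by simp

theorem hCorr_valid (hs : s.Valid) {A : Finset PP} (hP : s.P ∈ A) (hQ : s.Q ∈ A) (ξ : Ξ) :
    (s.hCorr ξ).Valid (cpAA A) (cpXX A) where
  a_mem := fun c t => s.opened_mem_AA hP hQ ξ _ _
  x_mem := fun _ => SuppIn.one _
  a_bc := by
    have h := (CpBC.comp (hs.bcQ ξ).loc (hs.bcP ξ).loc).reindex
      ((Equiv.prodPUnit (s.αI × s.αI)).trans (Equiv.prodComm s.αI s.αI))
      ((Equiv.prodPUnit (s.αO × s.αO)).trans (Equiv.prodComm s.αO s.αO))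
    exact h
  x_bc := cpBC_of_contr CpContr.one
  pI_nonneg := fun i => mul_nonneg (hs.lamI_nonneg _ _) (hs.lamI_nonneg _ _)
  pO_nonneg := fun i => mul_nonneg (hs.lamO_nonneg _ _) (hs.lamO_nonneg _ _)
  tI_nonneg := fun _ => zero_le_one
  tO_nonneg := fun _ => zero_le_one
  pI_sum := cpa_sum_prod_le (s.lamI ξ) (s.lamI ξ) (hs.lamI_nonneg ξ) (hs.lamI_sum ξ).le
    (hs.lamI_sum ξ).le
  pO_sum := cpa_sum_prod_le (s.lamO ξ) (s.lamO ξ) (hs.lamO_nonneg ξ) (hs.lamO_sum ξ).le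
    (hs.lamO_sum ξ).le
  tI_sum := cps_sum_unit_le
  tO_sum := cps_sum_unit_le

theorem hPQ_valid (hs : s.Valid) {A : Finset PP} (hP : s.P ∈ A) (hQ : s.Q ∉ A) (ξ : Ξ) :
    (s.hPQ ξ).Valid (cpAA A) (cpXX A) where
  a_mem := fun _ _ => cpLoc_mem_AA hP _
  x_mem := fun _ => cpLoc_mem_XX hQ _
  a_bc := by
    have h := ((hs.bcP ξ).loc).reindex (Equiv.punitProd s.αI) (Equiv.punitProd s.αO)
    exact h
  x_bc := (hs.bcQ ξ).loc
  pI_nonneg := fun _ => zero_le_one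
  pO_nonneg := fun _ => zero_le_one
  tI_nonneg := hs.lamI_nonneg ξ
  tO_nonneg := hs.lamO_nonneg ξ
  pI_sum := cps_sum_unit_le
  pO_sum := cps_sum_unit_le
  tI_sum := (hs.lamI_sum ξ).le
  tO_sum := (hs.lamO_sum ξ).le

theorem hQP_valid (hs : s.Valid) {A : Finset PP} (hP : s.P ∉ A) (hQ : s.Q ∈ A) (ξ : Ξ) :
    (s.hQP ξ).Valid (cpAA A) (cpXX A) where
  a_mem := fun _ _ => cpLoc_mem_AA hQ _
  x_mem := fun _ => cpLoc_mem_XX hP _
  a_bc := by
    have h := ((hs.bcQ ξ).loc).reindex (Equiv.punitProd s.αI) (Equiv.punitProd s.αO)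
    exact h
  x_bc := (hs.bcP ξ).loc
  pI_nonneg := fun _ => zero_le_one
  pO_nonneg := fun _ => zero_le_one
  tI_nonneg := hs.lamI_nonneg ξ
  tO_nonneg := hs.lamO_nonneg ξ
  pI_sum := cps_sum_unit_le
  pO_sum := cps_sum_unit_le
  tI_sum := (hs.lamI_sum ξ).le
  tO_sum := (hs.lamO_sum ξ).le

/-- the exact resource: only the diagonal terms survive -/
theorem sup_kEx_diag (ξ ζ : Ξ) : s.sup ξ ζ (s.kEx ξ ζ) =
    ∑ a, ∑ c, ((Real.sqrt (s.lam ξ a) * Real.sqrt (s.lam ζ c) : ℝ) : ℂ) •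
      (LinearMap.mulLeft ℂ (s.opened ξ a a)).comp (LinearMap.mulRight ℂ (s.opened ζ c c)ᴴ) := by
  unfold CpStep.sup
  refine Finset.sum_congr rfl fun a _ => ?_
  rw [Finset.sum_eq_single a]
  · refine Finset.sum_congr rfl fun c _ => ?_
    rw [Finset.sum_eq_single c]
    · simp [CpStep.kEx]
    · intro d _ hd
      simp [CpStep.kEx, Ne.symm hd]
    · intro h; exact absurd (Finset.mem_univ c) h
  · intro b _ hb
    simp [CpStep.kEx, Ne.symm hb]
  · intro h; exact absurd (Finset.mem_univ a) h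

end CpStep

/-! ### LEAF SPLIT-1: one step -/

section OneStep

variable {Ξ : Type} (s : CpStep Mem Ξ) {ι : Type} [Fintype ι] [DecidableEq ι] {W : ι → Type}
  [∀ i, Fintype (W i)] [∀ i, Nonempty (W i)]

/-- covariance of the coefficients of a corrected step, as functions of the whole sample -/
theorem CpStep.cps_cov (k : ℕ) (hk : 0 < k) (p : ι) (e : W p ≃ (Fin k → s.α → s.α → Fin 4))
    (a b c d a' b' c' d' : s.α) :
    cpAvg (fun ω : ∀ i, W i => s.zeta k (e (ω p)) a b c d * star (s.zeta k (e (ω p)) a' b' c' d'))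
      = if (a = a' ∧ b = b' ∧ c = c' ∧ d = d') ∧ ¬ (a = b ∧ c = d) then (k : ℂ)⁻¹ else 0 := by
  rw [cpAvg_eval p (fun w => s.zeta k (e w) a b c d * star (s.zeta k (e w) a' b' c' d')),
    cps_avg_equiv e (fun g => s.zeta k g a b c d * star (s.zeta k g a' b' c' d')),
    s.zeta_cov k hk]

/-- validity; the sample enters through the coordinate `p` (via `e`, an identification of `W p`) -/
theorem CpStep.rb_valid (hs : s.Valid) (A : Finset PP) (cor : Bool)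
    (hcor : cor = true → s.P ∈ A ∧ s.Q ∈ A) (ξ ζ : Ξ) (k : ℕ) (hk : 0 < k) (p : ι)
    (e : W p ≃ (Fin k → s.α → s.α → Fin 4)) :
    (s.rb A cor ξ ζ k (fun ω : ∀ i, W i => e (ω p))).Valid (cpAA A) (cpXX A) {p} := by
  unfold CpStep.rb
  split_ifs with h1 h2 h3 h4
  · obtain ⟨hP, hQ⟩ := hcor h1
    refine ⟨s.hCorr_valid hs hP hQ ξ, s.hCorr_valid hs hP hQ ζ, ?_, ?_, ?_, by positivity⟩
    · intro c c' x y h
      have := h p (Set.mem_singleton p)
      simp only [this]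
    · intro c c' d d' hne
      refine (s.cps_cov k hk p e _ _ _ _ _ _ _ _).trans (if_neg ?_)
      rintro ⟨⟨e1, e2, e3, e4⟩, -⟩
      apply hne
      simp only [Prod.mk.injEq] at e1 e2 e3 e4
      exact Prod.ext (Prod.ext (Prod.ext e1.1 e2.1) (Prod.ext e1.2 e2.2))
        (Prod.ext (Prod.ext e3.1 e4.1) (Prod.ext e3.2 e4.2))
    · intro c c'
      have h := s.cps_cov k hk p e (c.1.1, c.2.1) (c.1.2, c.2.2) (c'.1.1, c'.2.1) (c'.1.2, c'.2.2)
        (c.1.1, c.2.1) (c.1.2, c.2.2) (c'.1.1, c'.2.1) (c'.1.2, c'.2.2)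
      have h' : (((cpAvg (fun ω : ∀ i, W i => ‖s.zeta k (e (ω p)) (c.1.1, c.2.1) (c.1.2, c.2.2)
          (c'.1.1, c'.2.1) (c'.1.2, c'.2.2)‖ ^ 2) : ℝ)) : ℂ) =
          (((if ¬ ((c.1.1, c.2.1) = (c.1.2, c.2.2) ∧ (c'.1.1, c'.2.1) = (c'.1.2, c'.2.2)) then
            (k : ℝ)⁻¹ else 0 : ℝ)) : ℂ) := by
        rw [← cpAvg_ofReal]
        simp only [Complex.ofReal_pow, ← Complex.mul_conj', ← Complex.star_def]
        rw [h]
        split_ifs <;> simp_all
      have h'' := Complex.ofReal_injective h'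
      refine (le_of_eq h'').trans ?_
      show (if ¬ ((c.1.1, c.2.1) = (c.1.2, c.2.2) ∧ (c'.1.1, c'.2.1) = (c'.1.2, c'.2.2)) then
            (k : ℝ)⁻¹ else 0 : ℝ) ≤ (k : ℝ)⁻¹
      split_ifs <;> first | exact le_rfl | positivity
  · exact (CpRB.Valid.closed (s.link_mem_AA h2 h3 ξ) (SuppIn.one _) (s.link_mem_AA h2 h3 ζ)
      (SuppIn.one _) (s.link_contr hs ξ) CpContr.one (s.link_contr hs ζ) CpContr.one).mono
      (Set.empty_subset _)
  · exact cps_det_valid (s.hPQ_valid hs h2 h3 ξ) (s.hPQ_valid hs h2 h3 ζ)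
      (fun _ _ => Subsingleton.elim (α := Unit × Unit) _ _)
      (fun _ _ => Subsingleton.elim (α := Unit × Unit) _ _) _
  · exact cps_det_valid (s.hQP_valid hs h2 h4 ξ) (s.hQP_valid hs h2 h4 ζ)
      (fun _ _ => Subsingleton.elim (α := Unit × Unit) _ _)
      (fun _ _ => Subsingleton.elim (α := Unit × Unit) _ _) _
  · exact (CpRB.Valid.closed (SuppIn.one _) (s.link_mem_XX h2 h4 ξ) (SuppIn.one _)
      (s.link_mem_XX h2 h4 ζ) CpContr.one (s.link_contr hs ξ) CpContr.one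
      (s.link_contr hs ζ)).mono (Set.empty_subset _)

theorem CpStep.rb_V (A : Finset PP) (cor : Bool) (ξ ζ : Ξ) (k : ℕ) {Ω : Type}
    (g : Ω → Fin k → s.α → s.α → Fin 4) :
    (s.rb A cor ξ ζ k g).V = if cor = true then (k : ℝ)⁻¹ else 1 := by
  unfold CpStep.rb
  split_ifs <;> rfl

/-- a crossing step (either orientation) reproduces the exact resource -/
theorem CpStep.cps_cross_sup (hs : s.Valid) (ξ ζ : Ξ)
    (aK xK aB xB : s.α → CpOp Mem) (hK : ∀ t, aK t * xK t = s.opened ξ t t)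
    (hB : ∀ t, aB t * xB t = s.opened ζ t t) :
    (∑ _c : Unit × Unit, ∑ t : s.αI × s.αO, ∑ _c' : Unit × Unit, ∑ t' : s.αI × s.αO,
      ((1 : ℂ) * ((cpQrt (1 * 1 * (1 * 1)) * Real.sqrt (s.lamI ξ t.1 * s.lamO ξ t.2 *
        (s.lamI ζ t'.1 * s.lamO ζ t'.2)) : ℝ) : ℂ)) •
      (LinearMap.mulLeft ℂ (aK t * xK t)).comp (LinearMap.mulRight ℂ (aB t' * xB t')ᴴ)) =
      s.sup ξ ζ (s.kEx ξ ζ) := by
  rw [s.sup_kEx_diag]
  simp only [mul_one, one_mul, cpb_qrt_one, Finset.sum_const, Finset.card_univ, Fintype.card_prod,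
    Fintype.card_unit, one_smul, hK, hB]
  refine Finset.sum_congr rfl fun t _ => Finset.sum_congr rfl fun t' _ => ?_
  rw [Real.sqrt_mul (mul_nonneg (hs.lamI_nonneg _ _) (hs.lamO_nonneg _ _))]
  rfl

theorem CpStep.rb_sup (hs : s.Valid) (A : Finset PP) (cor : Bool) (ξ ζ : Ξ) (k : ℕ) {Ω : Type}
    (g : Ω → Fin k → s.α → s.α → Fin 4) (ω : Ω) :
    (s.rb A cor ξ ζ k g).sup ω =
      s.sup ξ ζ (if cor = true then s.kDel ξ ζ k (g ω) else s.kEx ξ ζ) := by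
  have hclosed : s.sup ξ ζ (s.kEx ξ ζ) =
      (LinearMap.mulLeft ℂ (s.link ξ)).comp (LinearMap.mulRight ℂ (s.link ζ)ᴴ) := by
    refine LinearMap.ext fun R => ?_
    rw [s.sup_kEx]
    simp only [LinearMap.comp_apply, LinearMap.mulLeft_apply, LinearMap.mulRight_apply,
      Matrix.mul_assoc]
  unfold CpStep.rb
  split_ifs with h1 h2 h3 h4
  · -- corrected
    show (∑ c : (s.αI × s.αI) × (s.αO × s.αO), ∑ _t : Unit × Unit,
      ∑ c' : (s.αI × s.αI) × (s.αO × s.αO), ∑ _t' : Unit × Unit,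
      (s.zeta k (g ω) (c.1.1, c.2.1) (c.1.2, c.2.2) (c'.1.1, c'.2.1) (c'.1.2, c'.2.2) *
        ((cpQrt (s.lamI ξ c.1.1 * s.lamI ξ c.1.2 * (s.lamO ξ c.2.1 * s.lamO ξ c.2.2) *
          (s.lamI ζ c'.1.1 * s.lamI ζ c'.1.2 * (s.lamO ζ c'.2.1 * s.lamO ζ c'.2.2))) *
          Real.sqrt (1 * 1 * (1 * 1)) : ℝ) : ℂ)) •
      (LinearMap.mulLeft ℂ (s.opened ξ (c.1.1, c.2.1) (c.1.2, c.2.2) * 1)).comp
        (LinearMap.mulRight ℂ (s.opened ζ (c'.1.1, c'.2.1) (c'.1.2, c'.2.2) * 1)ᴴ)) = _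
    simp only [mul_one, Real.sqrt_one, Finset.sum_const, Finset.card_univ, Fintype.card_prod,
      Fintype.card_unit, one_smul]
    unfold CpStep.sup
    rw [← cps_sum_regroup (fun a b => ∑ c, ∑ d, s.kDel ξ ζ k (g ω) a b c d •
      (LinearMap.mulLeft ℂ (s.opened ξ a b)).comp (LinearMap.mulRight ℂ (s.opened ζ c d)ᴴ))]
    refine Finset.sum_congr rfl fun c _ => ?_
    rw [← cps_sum_regroup (fun c₁ d₁ => s.kDel ξ ζ k (g ω) (c.1.1, c.2.1) (c.1.2, c.2.2) c₁ d₁ •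
      (LinearMap.mulLeft ℂ (s.opened ξ (c.1.1, c.2.1) (c.1.2, c.2.2))).comp
        (LinearMap.mulRight ℂ (s.opened ζ c₁ d₁)ᴴ))]
    refine Finset.sum_congr rfl fun c' _ => ?_
    congr 1
    unfold CpStep.kDel CpStep.kW CpStep.lam
    rw [mul_comm]
    congr 3
    ring
  · rw [cps_sup_closed, hclosed, mul_one, mul_one]
  · exact s.cps_cross_sup hs ξ ζ (fun t => cpLoc s.P (s.oP ξ t)) (fun t => cpLoc s.Q (s.oQ ξ t))
      (fun t => cpLoc s.P (s.oP ζ t)) (fun t => cpLoc s.Q (s.oQ ζ t)) (fun _ => rfl) (fun _ => rfl)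
  · have hne : s.Q ≠ s.P := fun h => h2 (h ▸ h4)
    exact s.cps_cross_sup hs ξ ζ (fun t => cpLoc s.Q (s.oQ ξ t)) (fun t => cpLoc s.P (s.oP ξ t))
      (fun t => cpLoc s.Q (s.oQ ζ t)) (fun t => cpLoc s.P (s.oP ζ t))
      (fun t => (cpLoc_commute hne _ _).eq) (fun t => (cpLoc_commute hne _ _).eq)
  · rw [cps_sup_closed, hclosed, one_mul, one_mul]

end OneStep

end Claimed.Agent.R296
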