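import Claimed.Agent.R296.P2.CompSplitA
import Claimed.Agent.R296.P2.CompCoreB
import Claimed.Agent.R296.P2.CompSupA

/-!
# Row 296, P2 Section 4, package SPLIT-B: gates and the whole construction

PROOFS.  `not_touched_chi`: if `χ t i = true` the end points of the step are in `part` and in `aff`.
`gate_op_mem_XX`: no participant is affected, so every `cpLoc` is in `cpXX`; closure under `*`, `∑`, `•`
(`cpTprod_mem`).  `gateRB_valid`: `none` (then untouched): `CpRB.Valid.closed` + monotonicity of `J`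
(prove `CpRB.Valid.mono : J ⊆ J' → ..`); `some`: `CpRB.Valid.fold` with `J i = {⟨t,i⟩}`, `rb_valid` with
`e = Equiv.refl _`.  `gate_sup_tChi`: `Fintype.sum_option`; touched: `sup_fold` + `rb_sup`; untouched:
`tChi = kEx` and `CpGate.sup_kEx`, `CpRB.sup_closed`.  `fin_tChi`: `cpTprod_sum`, `cpTprod_smul`,
`sup_fold` (only for the terms with nonzero weight).
-/

set_option autoImplicit false
set_option linter.unusedSectionVars false

namespace Claimed.Agent.R296

open Matrix

variable {PP : Type} [DecidableEq PP] [Fintype PP] {Mem : PP → Type}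
  [∀ P, Fintype (Mem P)] [∀ P, DecidableEq (Mem P)]

namespace CpCircuit

variable (C : CpCircuit Mem) (k : ℕ)

/-! ### LEAF SPLIT-2: gates -/

theorem not_touched_chi (χ : C.Chi) (t : Fin C.M) (h : ¬ C.Touched χ t) (i : Fin (C.gate t).r) :
    χ t i = false := by
  by_contra hne
  have htrue : χ t i = true := by simpa using hne
  apply h
  rw [Touched, Finset.not_disjoint_iff]
  refine ⟨((C.gate t).step i).P, ?_, ?_⟩
  · rw [CpGate.part]
    refine Finset.mem_insert_of_mem (Finset.mem_biUnion.mpr ⟨i, Finset.mem_univ _, ?_⟩)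
    simp
  · rw [aff]
    refine Finset.mem_biUnion.mpr ⟨t, Finset.mem_univ _, Finset.mem_biUnion.mpr
      ⟨i, Finset.mem_univ _, ?_⟩⟩
    rw [if_pos htrue]
    simp

theorem chi_mem_aff (χ : C.Chi) (t : Fin C.M) (i : Fin (C.gate t).r) (h : χ t i = true) :
    ((C.gate t).step i).P ∈ C.aff χ ∧ ((C.gate t).step i).Q ∈ C.aff χ := by
  constructor
  · rw [aff]
    refine Finset.mem_biUnion.mpr ⟨t, Finset.mem_univ _, Finset.mem_biUnion.mpr
      ⟨i, Finset.mem_univ _, ?_⟩⟩
    rw [if_pos h]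
    simp
  · rw [aff]
    refine Finset.mem_biUnion.mpr ⟨t, Finset.mem_univ _, Finset.mem_biUnion.mpr
      ⟨i, Finset.mem_univ _, ?_⟩⟩
    rw [if_pos h]
    simp

theorem gate_op_mem_XX (χ : C.Chi) (t : Fin C.M) (h : ¬ C.Touched χ t) :
    (C.gate t).op ∈ cpXX (Mem := Mem) (C.aff χ) := by
  have hd : Disjoint (C.gate t).part (C.aff χ) := by
    by_contra hcon
    exact h hcon
  have hP : ∀ i, ((C.gate t).step i).P ∉ C.aff χ := by
    intro i
    refine Finset.disjoint_left.mp hd ?_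
    rw [CpGate.part]
    refine Finset.mem_insert_of_mem (Finset.mem_biUnion.mpr ⟨i, Finset.mem_univ _, ?_⟩)
    simp
  have hQ : ∀ i, ((C.gate t).step i).Q ∉ C.aff χ := by
    intro i
    refine Finset.disjoint_left.mp hd ?_
    rw [CpGate.part]
    refine Finset.mem_insert_of_mem (Finset.mem_biUnion.mpr ⟨i, Finset.mem_univ _, ?_⟩)
    simp
  rw [CpGate.op]
  refine cpXX_sum _ _ fun ξ _ => cpXX_smul _ ?_
  rw [CpGate.mono]
  refine cpTprod_mem (fun T => T ∈ cpXX (Mem := Mem) (C.aff χ)) (SuppIn.one _)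
    (fun a b ha hb => SuppIn.mul ha hb) _ _ fun i => ?_
  rw [CpStep.link]
  refine cpXX_sum _ _ fun a _ => cpXX_smul _ ?_
  rw [CpStep.opened]
  exact SuppIn.mul (cpLoc_mem_XX (hP i) _) (cpLoc_mem_XX (hQ i) _)

theorem stepRB_valid (hC : C.Valid) (hk : 0 < k) (χ : C.Chi) (t : Fin C.M)
    (p : (C.gate t).Ξ × (C.gate t).Ξ) (i : Fin (C.gate t).r) :
    (((C.gate t).step i).rb (C.aff χ) (χ t i) p.1 p.2 k
      (fun ω : C.Smp k => ω ⟨t, i⟩)).Valid (cpAA (C.aff χ)) (cpXX (C.aff χ))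
      {(⟨t, i⟩ : C.Pos)} :=
  CpStep.rb_valid (W := fun q : C.Pos => Fin k → (C.stepAt q).α → (C.stepAt q).α → Fin 4)
    ((C.gate t).step i) ((hC.gate t).step i) (C.aff χ) (χ t i) (C.chi_mem_aff χ t i) p.1 p.2 k hk
    (⟨t, i⟩ : C.Pos) (Equiv.refl _)

theorem gateRB_valid (hC : C.Valid) (hk : 0 < k) (χ : C.Chi) (t : Fin C.M)
    (o : Option ((C.gate t).Ξ × (C.gate t).Ξ)) (ho : C.wt χ t o ≠ 0) :
    (C.gateRB k χ t o).Valid (cpAA (C.aff χ)) (cpXX (C.aff χ)) {p : C.Pos | p.1 = t} := by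
  have hs := cp_sides (C.aff χ) C.ψ hC.ini
  cases o with
  | none =>
    have hT : ¬ C.Touched χ t := by
      intro hT
      exact ho (by simp [wt, hT])
    exact (CpRB.Valid.closed hs.one_A (C.gate_op_mem_XX χ t hT) hs.one_A
      (C.gate_op_mem_XX χ t hT) CpContr.one (hC.gate t).contr CpContr.one
      (hC.gate t).contr).mono (Set.empty_subset _)
  | some p =>
    refine (CpRB.Valid.fold hs (C.gate t).r _ (fun i => {(⟨t, i⟩ : C.Pos)})
      (C.stepRB_valid k hC hk χ t p) ?_).mono ?_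
    · intro i j hij
      rw [Set.disjoint_singleton]
      intro he
      apply hij
      simpa using he
    · refine Set.iUnion_subset fun i => ?_
      rintro q rfl
      rfl

theorem gateRB_V (χ : C.Chi) (t : Fin C.M) (o : Option ((C.gate t).Ξ × (C.gate t).Ξ))
    (ho : C.wt χ t o ≠ 0) :
    (C.gateRB k χ t o).V = ∏ i, if χ t i = true then (k : ℝ)⁻¹ else 1 := by
  cases o with
  | none =>
    have hT : ¬ C.Touched χ t := by
      intro hT
      exact ho (by simp [wt, hT])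
    rw [Finset.prod_eq_one]
    · rfl
    · intro i _
      rw [C.not_touched_chi χ t hT i]
      simp
  | some p =>
    rw [gateRB, CpRB.fold_V]
    exact Finset.prod_congr rfl fun i _ => CpStep.rb_V _ _ _ _ _ _ _

theorem gate_sup_tChi (hC : C.Valid) (hk : 0 < k) (χ : C.Chi) (ω : C.Smp k) (t : Fin C.M) :
    (C.gate t).sup (C.tChi k ω χ t) = ∑ o, C.wt χ t o • (C.gateRB k χ t o).sup ω := by
  have hs := cp_sides (C.aff χ) C.ψ hC.ini
  rw [Fintype.sum_option]
  by_cases hT : C.Touched χ t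
  · have h0 : C.wt χ t none = 0 := by simp [wt, hT]
    rw [h0, zero_smul, zero_add, CpGate.sup, Fintype.sum_prod_type]
    refine Finset.sum_congr rfl fun ξ _ => Finset.sum_congr rfl fun ζ _ => ?_
    have hw : C.wt χ t (some (ξ, ζ)) = (C.gate t).c ξ * star ((C.gate t).c ζ) := by
      simp [wt, hT]
    rw [hw]
    congr 1
    rw [gateRB, CpRB.sup_fold hs (C.gate t).r _ (fun i => {(⟨t, i⟩ : C.Pos)})
      (C.stepRB_valid k hC hk χ t (ξ, ζ)) ω, CpGate.supMono]
    refine cpTprod_congr _ fun i => ?_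
    exact (CpStep.rb_sup ((C.gate t).step i) ((hC.gate t).step i) (C.aff χ) (χ t i) ξ ζ k
      (fun ω : C.Smp k => ω ⟨t, i⟩) ω).symm
  · have h1 : C.wt χ t none = 1 := by simp [wt, hT]
    have h0 : ∀ p, C.wt χ t (some p) = 0 := fun p => by simp [wt, hT]
    simp only [h1, h0, one_smul, zero_smul, Finset.sum_const_zero, add_zero]
    have hχ : C.tChi k ω χ t = fun i ξ ζ => ((C.gate t).step i).kEx ξ ζ := by
      funext i ξ ζ
      simp [tChi, C.not_touched_chi χ t hT i]
    rw [hχ]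
    refine LinearMap.ext fun R => ?_
    rw [CpGate.sup_kEx, gateRB, CpRB.sup_closed, one_mul]

/-! ### LEAF SPLIT-3: the whole construction -/

theorem circRB_valid (hC : C.Valid) (hk : 0 < k) (χ : C.Chi) (o : C.Lab)
    (ho : ∀ t, C.wt χ t (o t) ≠ 0) :
    (C.circRB k χ o).Valid (cpAA (C.aff χ)) (cpXX (C.aff χ)) Set.univ := by
  have hs := cp_sides (C.aff χ) C.ψ hC.ini
  refine (CpRB.Valid.fold hs C.M _ (fun t => {p : C.Pos | p.1 = t})
    (fun t => C.gateRB_valid k hC hk χ t (o t) (ho t)) ?_).mono (Set.subset_univ _)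
  intro i j hij
  rw [Set.disjoint_left]
  intro p hp hp'
  exact hij (hp.symm.trans hp')

theorem circRB_V (χ : C.Chi) (o : C.Lab) (ho : ∀ t, C.wt χ t (o t) ≠ 0) :
    (C.circRB k χ o).V = ((k : ℝ)⁻¹) ^ C.chiCard χ := by
  rw [circRB, CpRB.fold_V, chiCard, ← Finset.prod_pow_eq_pow_sum]
  refine Finset.prod_congr rfl fun t _ => ?_
  rw [C.gateRB_V k χ t (o t) (ho t), ← Finset.prod_pow_eq_pow_sum]
  refine Finset.prod_congr rfl fun i _ => ?_
  split_ifs <;> simp

theorem fin_tChi (hC : C.Valid) (hk : 0 < k) (χ : C.Chi) (ω : C.Smp k) :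
    C.fin (C.tChi k ω χ) = ∑ o : C.Lab, (∏ t, C.wt χ t (o t)) •
      (C.circRB k χ o).sup ω (vecMulVec C.ini (star C.ini)) := by
  have hs := cp_sides (C.aff χ) C.ψ hC.ini
  rw [fin, cpTprod_congr _ (fun t => C.gate_sup_tChi k hC hk χ ω t),
    cpTprod_sum C.M (fun t => Option ((C.gate t).Ξ × (C.gate t).Ξ)), LinearMap.sum_apply]
  refine Finset.sum_congr rfl fun o _ => ?_
  rw [cpTprod_smul, LinearMap.smul_apply]
  by_cases ho : ∀ t, C.wt χ t (o t) ≠ 0
  · rw [circRB, CpRB.sup_fold hs C.M _ (fun t => {p : C.Pos | p.1 = t})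
      (fun t => C.gateRB_valid k hC hk χ t (o t) (ho t)) ω]
  · push Not at ho
    obtain ⟨t, ht⟩ := ho
    rw [Finset.prod_eq_zero (Finset.mem_univ t) ht, zero_smul, zero_smul]

end CpCircuit

end Claimed.Agent.R296
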