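import Claimed.Agent.R296.P2.CompNetDef

/-!
# Row 296, P2 Section 4: double layer maps with general coefficient tensors (DEFINITIONS; sorry-free)

`CpStep.sup ξ ζ κ R = ∑ a b c d, κ a b c d • opened ξ a b * R * (opened ζ c d)ᴴ`.
* `kEx` : the exact pair resource; `kHat` : its sampled replacement; `kDel = kHat - kEx`;
* `CpCircuit.fin κ` : the final double layer operator;
* SUP-1 `fin_kEx`     : with `kEx` everywhere one gets `|Ψ⟩⟨Ψ|`;
* SUP-2 `fin_kHat_sum`: subset expansion (eq. compression-subset-expansion), `χ` = corrected positions;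
* NET   `out_fin_kHat`: with `kHat` everywhere the read-out is the network `sigma`.
-/

set_option autoImplicit false

namespace Claimed.Agent.R296

open Matrix

variable {PP : Type} [DecidableEq PP] [Fintype PP] {Mem : PP → Type}
  [∀ P, Fintype (Mem P)] [∀ P, DecidableEq (Mem P)]

/-- operators on the global memory -/
abbrev CpOp (Mem : PP → Type) : Type := Matrix (Cfg Mem) (Cfg Mem) ℂ

namespace CpStep

variable {Ξ : Type} (s : CpStep Mem Ξ)

/-- coefficient tensors: ket indices `a b` (first, second end point), bra indices `c d` -/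
abbrev Ten : Type := s.α → s.α → s.α → s.α → ℂ

/-- double layer step with a general coefficient tensor -/
noncomputable def sup (ξ ζ : Ξ) (κ : s.Ten) : Module.End ℂ (CpOp Mem) :=
  ∑ a, ∑ b, ∑ c, ∑ d, κ a b c d •
    (LinearMap.mulLeft ℂ (s.opened ξ a b)).comp (LinearMap.mulRight ℂ (s.opened ζ c d)ᴴ)

/-- the exact resource -/
noncomputable def kEx (ξ ζ : Ξ) : s.Ten := fun a b c d =>
  if a = b ∧ c = d then ((Real.sqrt (s.lam ξ a) * Real.sqrt (s.lam ζ c) : ℝ) : ℂ) else 0

/-- the common weight `(λ_a λ_b μ_c μ_d)^{1/4}` -/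
noncomputable def kW (ξ ζ : Ξ) (a b c d : s.α) : ℝ :=
  cpQrt (s.lam ξ a * s.lam ξ b * (s.lam ζ c * s.lam ζ d))

/-- empirical mean of the products of phases -/
noncomputable def emp (k : ℕ) (g : Fin k → s.α → s.α → Fin 4) (a b c d : s.α) : ℂ :=
  (k : ℂ)⁻¹ * ∑ j, cpPh (g j a c) * star (cpPh (g j b d))

/-- the centred random coefficient -/
noncomputable def zeta (k : ℕ) (g : Fin k → s.α → s.α → Fin 4) (a b c d : s.α) : ℂ :=
  s.emp k g a b c d - if a = b ∧ c = d then 1 else 0

/-- the sampled resource -/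
noncomputable def kHat (ξ ζ : Ξ) (k : ℕ) (g : Fin k → s.α → s.α → Fin 4) : s.Ten :=
  fun a b c d => ((s.kW ξ ζ a b c d : ℝ) : ℂ) * s.emp k g a b c d

/-- the centred correction -/
noncomputable def kDel (ξ ζ : Ξ) (k : ℕ) (g : Fin k → s.α → s.α → Fin 4) : s.Ten :=
  fun a b c d => ((s.kW ξ ζ a b c d : ℝ) : ℂ) * s.zeta k g a b c d

end CpStep

namespace CpGate

variable (g : CpGate Mem)

/-- a family of coefficient tensors for a gate -/
abbrev Ten : Type := ∀ i : Fin g.r, g.Ξ → g.Ξ → (g.step i).Ten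

/-- double layer monomial -/
noncomputable def supMono (κ : g.Ten) (ξ ζ : g.Ξ) : Module.End ℂ (CpOp Mem) :=
  cpTprod g.r fun i => (g.step i).sup ξ ζ (κ i ξ ζ)

/-- double layer gate -/
noncomputable def sup (κ : g.Ten) : Module.End ℂ (CpOp Mem) :=
  ∑ ξ, ∑ ζ, (g.c ξ * star (g.c ζ)) • g.supMono κ ξ ζ

end CpGate

namespace CpCircuit

variable (C : CpCircuit Mem)

/-- a family of coefficient tensors for a construction -/
abbrev Ten : Type := ∀ t : Fin C.M, (C.gate t).Ten

/-- the final double layer operator -/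
noncomputable def fin (κ : C.Ten) : CpOp Mem :=
  (cpTprod C.M fun t => (C.gate t).sup (κ t)) (vecMulVec C.ini (star C.ini))

/-- choice of the corrected positions -/
abbrev Chi : Type := ∀ t : Fin C.M, Fin (C.gate t).r → Bool

/-- exact resources everywhere -/
noncomputable def tEx : C.Ten := fun t i ξ ζ => ((C.gate t).step i).kEx ξ ζ

/-- sampled resources everywhere -/
noncomputable def tHat (k : ℕ) (ω : C.Smp k) : C.Ten :=
  fun t i ξ ζ => ((C.gate t).step i).kHat ξ ζ k (ω ⟨t, i⟩)

/-- corrections at the positions selected by `χ`, exact resources elsewhere -/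
noncomputable def tChi (k : ℕ) (ω : C.Smp k) (χ : C.Chi) : C.Ten :=
  fun t i ξ ζ => if χ t i = true then ((C.gate t).step i).kDel ξ ζ k (ω ⟨t, i⟩)
    else ((C.gate t).step i).kEx ξ ζ

/-- number of corrected positions -/
def chiCard (χ : C.Chi) : ℕ := ∑ t, ∑ i, if χ t i = true then 1 else 0

end CpCircuit

end Claimed.Agent.R296
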