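import Claimed.Agent.R296.P2.Model

/-!
# Row 296, paper 2: entropy inequalities for a set function

Everything that Sections 2 of paper 2 needs from the entropy of a pure state is a consequence of
four properties of the set function `S : Finset s → ℝ` (`PureEnt S`).
-/

set_option autoImplicit false
set_option linter.unusedSectionVars false

namespace Claimed.Agent.R296

variable {s : Type} [Fintype s] [DecidableEq s]

/-- the entropy function of a pure state: normalised, nonnegative, symmetric, submodular -/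
structure PureEnt (S : Finset s → ℝ) : Prop where
  empty : S ∅ = 0
  nonneg : ∀ X, 0 ≤ S X
  compl : ∀ X, S Xᶜ = S X
  submod : ∀ X Y, S (X ∪ Y) + S (X ∩ Y) ≤ S X + S Y

/-- mutual information of a set function -/
def sfI (S : Finset s → ℝ) (A C : Finset s) : ℝ := S A + S C - S (A ∪ C)

/-- conditional mutual information `I(A:C|B)` of a set function -/
def sfCI (S : Finset s → ℝ) (A C B : Finset s) : ℝ :=
  S (A ∪ B) + S (B ∪ C) - S B - S (A ∪ B ∪ C)

namespace PureEnt

variable {S : Finset s → ℝ} (h : PureEnt S)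
include h

theorem subadd (X Y : Finset s) : S (X ∪ Y) ≤ S X + S Y := by
  have h1 := h.submod X Y
  have h2 := h.nonneg (X ∩ Y)
  linarith

/-- Araki-Lieb -/
theorem araki {X Y : Finset s} (hXY : Disjoint X Y) : S X ≤ S (X ∪ Y) + S Y := by
  have h1 : Xᶜ = (X ∪ Y)ᶜ ∪ Y := by
    ext x
    have := fun (hx : x ∈ _) => (Finset.disjoint_left.mp hXY) hx
    simp only [Finset.mem_compl, Finset.mem_union]
    tauto
  have h2 := h.subadd (X ∪ Y)ᶜ Y
  rw [← h1, h.compl, h.compl] at h2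
  exact h2

theorem sfI_nonneg (A C : Finset s) : 0 ≤ sfI S A C := by
  have := h.subadd A C
  unfold sfI
  linarith

theorem sfI_comm (A C : Finset s) : sfI S A C = sfI S C A := by
  unfold sfI
  rw [Finset.union_comm]
  ring

theorem sfI_mono_left {A A' C : Finset s} (hA : A' ⊆ A) (hAC : Disjoint A C) :
    sfI S A' C ≤ sfI S A C := by
  have h1 := h.submod A (A' ∪ C)
  have e1 : A ∪ (A' ∪ C) = A ∪ C := by
    ext x
    have := @hA x
    simp only [Finset.mem_union]
    tauto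
  have e2 : A ∩ (A' ∪ C) = A' := by
    ext x
    have := @hA x
    have := fun (hx : x ∈ _) => (Finset.disjoint_left.mp hAC) hx
    simp only [Finset.mem_union, Finset.mem_inter]
    tauto
  rw [e1, e2] at h1
  unfold sfI
  linarith

theorem sfI_mono {A A' C C' : Finset s} (hA : A' ⊆ A) (hC : C' ⊆ C) (hAC : Disjoint A C) :
    sfI S A' C' ≤ sfI S A C := by
  calc sfI S A' C' = sfI S C' A' := h.sfI_comm _ _
    _ ≤ sfI S C A' := h.sfI_mono_left hC (Finset.disjoint_of_subset_right hA hAC.symm)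
    _ = sfI S A' C := h.sfI_comm _ _
    _ ≤ sfI S A C := h.sfI_mono_left hA hAC

/-- `I(A:C|B) ≤ I(A:C ∪ B)` -/
theorem sfCI_le_sfI (A C B : Finset s) : sfCI S A C B ≤ sfI S A (C ∪ B) := by
  have h1 := h.subadd A B
  have e1 : A ∪ (C ∪ B) = A ∪ B ∪ C := by
    ext x; simp only [Finset.mem_union]; tauto
  unfold sfCI sfI
  rw [e1, Finset.union_comm C B]
  linarith

/-- `I(A:C|B) ≤ 2 S(A)` -/
theorem sfCI_le_two_mul {A C B : Finset s} (hA : Disjoint A (B ∪ C)) :
    sfCI S A C B ≤ 2 * S A := by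
  have h1 := h.subadd A B
  have h2 := h.araki hA.symm
  have e1 : B ∪ C ∪ A = A ∪ B ∪ C := by
    ext x; simp only [Finset.mem_union]; tauto
  rw [e1] at h2
  unfold sfCI
  linarith

omit h in
/-- chain rule (an identity) -/
theorem _root_.Claimed.Agent.R296.sfCI_chain (S : Finset s → ℝ) (A₁ A₂ C B : Finset s) :
    sfCI S (A₁ ∪ A₂) C B = sfCI S A₁ C B + sfCI S A₂ C (B ∪ A₁) := by
  have e1 : A₁ ∪ A₂ ∪ B = A₂ ∪ (B ∪ A₁) := by
    ext x; simp only [Finset.mem_union]; tauto
  have e2 : A₁ ∪ B = B ∪ A₁ := Finset.union_comm _ _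
  have e3 : B ∪ A₁ ∪ C = A₁ ∪ B ∪ C := by rw [e2]
  unfold sfCI
  rw [e1, e2, e3]
  ring

omit h in
/-- chain rule for the mutual information -/
theorem _root_.Claimed.Agent.R296.sfI_chain (S : Finset s → ℝ) (A₁ A₂ C : Finset s) :
    sfI S (A₁ ∪ A₂) C = sfI S A₁ C + sfCI S A₂ C A₁ := by
  have e1 : A₁ ∪ A₂ = A₂ ∪ A₁ := Finset.union_comm _ _
  unfold sfCI sfI
  rw [e1]
  ring

/-- purity duality `I(A:C|B) = I(A:C|D)` for a partition `A,B,C,D` of all sites -/
theorem sfCI_dual {A C B D : Finset s} (hAB : Disjoint A B) (hAC : Disjoint A C)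
    (hAD : Disjoint A D) (hBC : Disjoint B C) (hBD : Disjoint B D) (hCD : Disjoint C D)
    (hall : A ∪ B ∪ C ∪ D = Finset.univ) : sfCI S A C B = sfCI S A C D := by
  have mem : ∀ x, x ∈ A ∨ x ∈ B ∨ x ∈ C ∨ x ∈ D := by
    intro x
    have : x ∈ A ∪ B ∪ C ∪ D := by rw [hall]; exact Finset.mem_univ x
    simp only [Finset.mem_union] at this
    tauto
  have e1 : (A ∪ B)ᶜ = D ∪ C := by
    ext x
    have := mem x
    have := fun (hx : x ∈ _) => (Finset.disjoint_left.mp hAC) hx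
    have := fun (hx : x ∈ _) => (Finset.disjoint_left.mp hAD) hx
    have := fun (hx : x ∈ _) => (Finset.disjoint_left.mp hBC) hx
    have := fun (hx : x ∈ _) => (Finset.disjoint_left.mp hBD) hx
    simp only [Finset.mem_compl, Finset.mem_union]
    tauto
  have e2 : (B ∪ C)ᶜ = A ∪ D := by
    ext x
    have := mem x
    have := fun (hx : x ∈ _) => (Finset.disjoint_left.mp hAB) hx
    have := fun (hx : x ∈ _) => (Finset.disjoint_left.mp hAC) hx
    have := fun (hx : x ∈ _) => (Finset.disjoint_left.mp hBD) hx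
    have := fun (hx : x ∈ _) => (Finset.disjoint_left.mp hCD) hx
    simp only [Finset.mem_compl, Finset.mem_union]
    tauto
  have e3 : Bᶜ = A ∪ D ∪ C := by
    ext x
    have := mem x
    have := fun (hx : x ∈ _) => (Finset.disjoint_left.mp hAB) hx
    have := fun (hx : x ∈ _) => (Finset.disjoint_left.mp hBC) hx
    have := fun (hx : x ∈ _) => (Finset.disjoint_left.mp hBD) hx
    simp only [Finset.mem_compl, Finset.mem_union]
    tauto
  have e4 : (A ∪ B ∪ C)ᶜ = D := by
    ext x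
    have := mem x
    have := fun (hx : x ∈ _) => (Finset.disjoint_left.mp hAD) hx
    have := fun (hx : x ∈ _) => (Finset.disjoint_left.mp hBD) hx
    have := fun (hx : x ∈ _) => (Finset.disjoint_left.mp hCD) hx
    simp only [Finset.mem_compl, Finset.mem_union]
    tauto
  unfold sfCI
  rw [← h.compl (A ∪ B), ← h.compl (B ∪ C), ← h.compl B, ← h.compl (A ∪ B ∪ C), e1, e2, e3, e4]
  ring

/-- the entropy part of the one-generation cell lemma:
`G = U₀ ⊔ Hh ⊔ U₁`, all sites `= G ⊔ B ⊔ C ⊔ W`. -/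
theorem cell_entropy {U₀ Hh U₁ B C W : Finset s}
    (hd : ∀ x, (x ∈ U₀ → x ∉ Hh ∧ x ∉ U₁ ∧ x ∉ B ∧ x ∉ C ∧ x ∉ W) ∧
      (x ∈ Hh → x ∉ U₁ ∧ x ∉ B ∧ x ∉ C ∧ x ∉ W) ∧ (x ∈ U₁ → x ∉ B ∧ x ∉ C ∧ x ∉ W) ∧
      (x ∈ B → x ∉ C ∧ x ∉ W) ∧ (x ∈ C → x ∉ W))
    (hall : ∀ x, x ∈ U₀ ∨ x ∈ Hh ∨ x ∈ U₁ ∨ x ∈ B ∨ x ∈ C ∨ x ∈ W) :
    sfCI S (U₀ ∪ Hh ∪ U₁) C B ≤ sfI S U₀ (C ∪ B) + 2 * S Hh + sfI S U₁ (C ∪ W) := by
  rw [sfCI_chain, sfCI_chain]
  have t1 := h.sfCI_le_sfI U₀ C B
  have t2 : sfCI S Hh C (B ∪ U₀) ≤ 2 * S Hh := by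
    apply h.sfCI_le_two_mul
    rw [Finset.disjoint_left]
    intro x hx
    have := hd x
    simp only [Finset.mem_union]
    tauto
  have t3 : sfCI S U₁ C (B ∪ (U₀ ∪ Hh)) = sfCI S U₁ C W := by
    apply h.sfCI_dual
    all_goals first
      | (rw [Finset.disjoint_left]
         intro x hx
         have := hd x
         simp only [Finset.mem_union] at hx ⊢
         tauto)
      | (rw [Finset.disjoint_left]
         intro x hx
         have := hd x
         tauto)
      | (ext x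
         have := hall x
         simp only [Finset.mem_union, Finset.mem_univ, iff_true]
         tauto)
  have t4 := h.sfCI_le_sfI U₁ C W
  rw [t3]
  linarith

end PureEnt

end Claimed.Agent.R296

namespace Claimed.Agent.R296

/-- the entropy of the ground state of a grid model is a `PureEnt` set function -/
theorem GModel.pureEnt (hE : EntApiStmt) {q : ℕ} [NeZero q] {J Δ : ℝ} {L : ℕ}
    (M : GModel q J Δ L) : PureEnt M.S := by
  obtain ⟨h0, h1, _, h3, h4⟩ := hE (GSite L) q M.Ω M.nrm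
  exact ⟨h0, h1, h3, h4⟩

theorem GModel.S_le_card (hE : EntApiStmt) {q : ℕ} [NeZero q] {J Δ : ℝ} {L : ℕ}
    (M : GModel q J Δ L) (X : Finset (GSite L)) : M.S X ≤ X.card * Real.log q := by
  obtain ⟨_, _, h2, _, _⟩ := hE (GSite L) q M.Ω M.nrm
  exact h2 X

theorem GModel.I_eq_sfI {q : ℕ} [NeZero q] {J Δ : ℝ} {L : ℕ} (M : GModel q J Δ L)
    (A C : Finset (GSite L)) : M.I A C = sfI M.S A C := rfl

theorem GModel.CI_eq_sfCI {q : ℕ} [NeZero q] {J Δ : ℝ} {L : ℕ} (M : GModel q J Δ L)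
    (A C B : Finset (GSite L)) : M.CI A C B = sfCI M.S A C B := rfl

end Claimed.Agent.R296
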