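import Claimed.Agent.R296.P2.GeoFinal
import Claimed.Agent.R296.Chain
import Claimed.Agent.R296.AmpMain
import Claimed.Agent.R296.GeoTwoFam
import Claimed.Agent.R296.EntSite
import Claimed.Agent.R296.Scan.ConclPf

/-!
# Row 296: both frozen statements from the two remaining interfaces (prefix `fin_`; helper189)

* `Scan.ReplicaStmt` (paper 1, Sections 5-7) and * `GeMainStmt` (paper 2, Section 6).
`fin_info`, `fin_area` : the two imports of paper 2;  `fin_s0546` : the frozen statement `S0546`.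
-/

set_option autoImplicit false

namespace Claimed.Agent.R296

open Matrix

theorem fin_info (hRep : Scan.ReplicaStmt) (q R : ℕ) [NeZero q] (hq : 2 ≤ q) (J Δ : ℝ) (hJ : 0 < J)
    (hΔ : 0 < Δ) : InfoDecayStmt q R J Δ 12 (R + 2) :=
  ch_infoDecay entApiStmt_holds q R J Δ hJ hΔ (Scan.scanConcl hRep q R hq J Δ hJ hΔ)
    (amp_amplStmt q R J Δ hJ hΔ)

theorem fin_area (hRep : Scan.ReplicaStmt) (q R : ℕ) [NeZero q] (hq : 2 ≤ q) (J Δ : ℝ) (hJ : 0 < J)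
    (hΔ : 0 < Δ) : AreaStmt q R J Δ :=
  top_area_core entApiStmt_holds q R J Δ hΔ 12 (R + 2) (fin_info hRep q R hq J Δ hJ hΔ)
    (fun nstar => geo_twoFamStmt 12 (R + 2) nstar)

open Claims.C0474 in
/-- **`S0546`** -/
theorem fin_s0546 (hRep : Scan.ReplicaStmt) (hmain : GeMainStmt) (q : ℕ) [NeZero q] (hq : 2 ≤ q)
    (J Δ : ℝ) (hJ : 0 < J) (hΔ : 0 < Δ) :
    ∃ C c : ℝ, 0 < C ∧ 0 < c ∧ ∀ L : ℕ, 2 ≤ L →
      ∀ (hv : Fin L × Fin L → Matrix (Fin L × Fin L → Fin q) (Fin L × Fin L → Fin q) ℂ)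
        (he : GridEdge L → Matrix (Fin L × Fin L → Fin q) (Fin L × Fin L → Fin q) ℂ),
        (∀ v, HermNormLE (embedAt {v} (hv v)) J) →
        (∀ e, HermNormLE (embedAt e.support (he e)) J) →
        ∀ (E₀ : ℝ) (Ω : (Fin L × Fin L → Fin q) → ℂ),
          star Ω ⬝ᵥ Ω = 1 →
          gridHamiltonian L q hv he *ᵥ Ω = (E₀ : ℂ) • Ω →
          IsPSD (gridHamiltonian L q hv he - (E₀ : ℂ) • 1 -
              (Δ : ℂ) • (1 - vecMulVec Ω (star Ω))) →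
          ∃ D : ℕ, (D : ℝ) ≤ C * (L : ℝ) ^ c ∧
            ∃ A : ∀ v : Fin L × Fin L, Fin q → (IncidentEdge v → Fin D) → ℂ,
              pepsVector A ≠ 0 ∧
              ∃ θ : ℝ,
                ∑ σ, ‖pepsVector A σ / (Real.sqrt (∑ τ, ‖pepsVector A τ‖ ^ 2) : ℂ) -
                    Complex.exp ((θ : ℂ) * Complex.I) * Ω σ‖ ^ 2 ≤ (1 / (L : ℝ)) ^ 2 :=
  gef_p2 entApiStmt_holds gb_geoBaseStmt
    (fun q R _ J Δ hq _ hJ hΔ => Scan.scanConcl hRep q R hq J Δ hJ hΔ)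
    (fun q R _ J Δ _ _ hJ hΔ => amp_amplStmt q R J Δ hJ hΔ) hmain q hq J Δ hJ hΔ

end Claimed.Agent.R296
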