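import Claimed.Agent.R296.P2.CompCons
import Claimed.Agent.R296.EntPtrE

/-!
# Row 296, paper 2, Lemmas 5.5-5.7: the abstract algebra of the splitting isometry (prefix `fba_`)

Owner: helper46 (part of the leaf `P2-FR-BIRTH`; also meant for `P2-FR-EXCH`).

Abstract finite index types: `a` (= configurations on `T`), `u` (= configurations on the buffer `U`), `c = 𝓑_T`,
`d = 𝓑_E`; the spectator `E` only enters through `embE`.
* `fbaW V = 1_a ⊗ V`, `fbaS s = s ⊗ 1_d`, `fbaI τ β = |τ β⟩ ⊗ 1_d` (rectangular matrices);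
* `fbaA z τ = |τ⟩⟨z| ⊗ 1_u`, `fbaY z V s β = Wᴴ I(z,β) Sᴴ W`, `fbaB V s = Wᴴ S Sᴴ W` (eq. (birth-map));
* `fba_B_eq`   : `B = ∑ τ β, s(τ,β) • A τ * Y β`;
* `fba_row_A`, `fba_row_Y` : row contractions;  `fba_dist` : `‖(B - 1) φ‖ ≤ ‖W φ - S t‖`;
* `fba_col_lift`, `fba_row_lift` : star homomorphisms which preserve contractions preserve column / row contractions;
* fibre calculus of `embE`.
-/

set_option autoImplicit false
set_option linter.unusedSectionVars false
set_option linter.unusedDecidableInType false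

namespace Claimed.Agent.R296

open Matrix

/-! ### generalities on contractions -/

section Gen

variable {n m : Type} [Fintype n] [Fintype m]

theorem fba_nsq_sub_le_of_proj [DecidableEq n] {Pr : Matrix n n ℂ} (h1 : Pr * Pr = Pr) (h2 : Prᴴ = Pr) :
    CpContr Pr := by
  intro v
  have e : ((cpNsq (Pr *ᵥ v) : ℝ) : ℂ) = cpIp v (Pr *ᵥ v) := by
    rw [← cpIp_self]
    conv_rhs => rw [← h1, ← mulVec_mulVec, cpIp_mulVec, h2]
  have h := cpIp_norm_sq_le v (Pr *ᵥ v)
  rw [← e, Complex.norm_real, Real.norm_of_nonneg (cpNsq_nonneg _)] at h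
  exact cp_le_of_sq_le_mul (cpNsq_nonneg _) (cpNsq_nonneg _) h

theorem fba_contr_mul {k : Type} [Fintype k] {A : Matrix n m ℂ} {B : Matrix m k ℂ} (hA : CpContr A)
    (hB : CpContr B) : CpContr (A * B) := by
  intro v
  rw [← mulVec_mulVec]
  exact (hA _).trans (hB v)

/-- a star homomorphism which preserves contractions preserves column contractions -/
theorem fba_col_lift [DecidableEq n] [DecidableEq m] (φ : Matrix n n ℂ → Matrix m m ℂ)
    (h0 : φ 0 = 0) (hadd : ∀ X Y, φ (X + Y) = φ X + φ Y) (hmul : ∀ X Y, φ (X * Y) = φ X * φ Y)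
    (hstar : ∀ X, φ Xᴴ = (φ X)ᴴ) (hc : ∀ X, CpContr X → CpContr (φ X))
    {α : Type} [Fintype α] {t : α → Matrix n n ℂ} (h : CpCol t) : CpCol fun i => φ (t i) := by
  classical
  intro v
  set G : Matrix n n ℂ := ∑ i, (t i)ᴴ * t i with hG
  have hGc : CpContr G := by
    intro x
    have e : G *ᵥ x = ∑ i, (t i)ᴴ *ᵥ (t i *ᵥ x) := by
      rw [hG, sum_mulVec]
      exact Finset.sum_congr rfl fun i _ => (mulVec_mulVec _ _ _).symm
    rw [e]
    exact (h.conjTranspose _).trans (h x)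
  have hsum : ∀ S : Finset α, φ (∑ i ∈ S, (t i)ᴴ * t i) = ∑ i ∈ S, (φ (t i))ᴴ * φ (t i) := by
    intro S
    induction S using Finset.induction_on with
    | empty => simpa using h0
    | insert i S hi ih => rw [Finset.sum_insert hi, Finset.sum_insert hi, hadd, ih, hmul, hstar]
  set N : ℝ := ∑ i, cpNsq (φ (t i) *ᵥ v) with hN
  have hN0 : 0 ≤ N := Finset.sum_nonneg fun i _ => cpNsq_nonneg _
  have e : ((N : ℝ) : ℂ) = cpIp v (φ G *ᵥ v) := by
    rw [hG, hsum, sum_mulVec, cpIp_sum_right, hN, Complex.ofReal_sum]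
    refine Finset.sum_congr rfl fun i _ => ?_
    rw [← mulVec_mulVec, cpIp_mulVec, conjTranspose_conjTranspose, cpIp_self]
  have h1 := cpIp_norm_sq_le v (φ G *ᵥ v)
  rw [← e, Complex.norm_real, Real.norm_of_nonneg hN0] at h1
  have h2 : N ^ 2 ≤ cpNsq v ^ 2 := by
    refine h1.trans ?_
    rw [sq]
    exact mul_le_mul_of_nonneg_left (hc G hGc v) (cpNsq_nonneg v)
  exact (pow_le_pow_iff_left₀ hN0 (cpNsq_nonneg v) two_ne_zero).1 h2

/-- the same for row contractions -/
theorem fba_row_lift [DecidableEq n] [DecidableEq m] (φ : Matrix n n ℂ → Matrix m m ℂ)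
    (h0 : φ 0 = 0) (hadd : ∀ X Y, φ (X + Y) = φ X + φ Y) (hmul : ∀ X Y, φ (X * Y) = φ X * φ Y)
    (hstar : ∀ X, φ Xᴴ = (φ X)ᴴ) (hc : ∀ X, CpContr X → CpContr (φ X))
    {α : Type} [Fintype α] {t : α → Matrix n n ℂ} (h : CpRow t) : CpRow fun i => φ (t i) := by
  have h1 := (fba_col_lift φ h0 hadd hmul hstar hc h.conjTranspose).conjTranspose
  simpa only [hstar, conjTranspose_conjTranspose] using h1

end Gen

/-! ### fibre calculus of `embE` -/

section Fib

variable {n m r : Type} [Fintype n] [DecidableEq n] [Fintype m] [DecidableEq m]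
  [Fintype r] [DecidableEq r]

/-- the fibre of a vector over `k` -/
def fbaFib (e : n ≃ m × r) (v : n → ℂ) (k : r) : m → ℂ := fun x => v (e.symm (x, k))

theorem fba_nsq_fib (e : n ≃ m × r) (v : n → ℂ) : cpNsq v = ∑ k, cpNsq (fbaFib e v k) := by
  unfold cpNsq fbaFib
  rw [Finset.sum_comm, ← Fintype.sum_prod_type']
  exact (Equiv.sum_comp e.symm fun i => ‖v i‖ ^ 2).symm

theorem fba_fib_embE (e : n ≃ m × r) (K : Matrix m m ℂ) (v : n → ℂ) (k : r) :
    fbaFib e (embE e K *ᵥ v) k = K *ᵥ fbaFib e v k := by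
  funext x
  simp only [fbaFib, mulVec, dotProduct, embE_apply, Equiv.apply_symm_apply]
  rw [← Equiv.sum_comp e.symm, Fintype.sum_prod_type]
  simp only [Equiv.apply_symm_apply]
  refine Finset.sum_congr rfl fun x' _ => ?_
  rw [Finset.sum_eq_single k]
  · simp
  · intro k' _ hk
    rw [if_neg (Ne.symm hk), zero_mul]
  · intro h
    exact absurd (Finset.mem_univ _) h

theorem fba_fib_sub (e : n ≃ m × r) (v w : n → ℂ) (k : r) :
    fbaFib e (v - w) k = fbaFib e v k - fbaFib e w k := rfl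

theorem fba_embE_contr (e : n ≃ m × r) {K : Matrix m m ℂ} (h : CpContr K) : CpContr (embE e K) := by
  intro v
  rw [fba_nsq_fib e, fba_nsq_fib e v]
  refine Finset.sum_le_sum fun k _ => ?_
  rw [fba_fib_embE]
  exact h _

end Fib

/-! ### the birth map -/

section Birth

variable {a u c d : Type} [Fintype a] [DecidableEq a] [Fintype u] [DecidableEq u]
  [Fintype c] [DecidableEq c] [Fintype d] [DecidableEq d]

/-- `1_a ⊗ V` -/
def fbaW (a : Type) [DecidableEq a] (V : Matrix (c × d) u ℂ) : Matrix (a × c × d) (a × u) ℂ :=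
  Matrix.of fun y x => if y.1 = x.1 then V y.2 x.2 else 0

/-- `s ⊗ 1_d` -/
def fbaS (d : Type) [DecidableEq d] (s : a × c → ℂ) : Matrix (a × c × d) d ℂ :=
  Matrix.of fun y γ => if y.2.2 = γ then s (y.1, y.2.1) else 0

/-- `|τ β⟩ ⊗ 1_d` -/
def fbaI (d : Type) [DecidableEq d] (τ : a) (β : c) : Matrix (a × c × d) d ℂ :=
  Matrix.of fun y γ => if y = (τ, β, γ) then 1 else 0

/-- `|τ⟩⟨z| ⊗ 1_u` -/
def fbaA (u : Type) [DecidableEq u] (z τ : a) : Matrix (a × u) (a × u) ℂ :=
  Matrix.of fun x' x => if x'.1 = τ ∧ x.1 = z ∧ x'.2 = x.2 then 1 else 0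

/-- `Wᴴ I(z,β) Sᴴ W` -/
def fbaY (z : a) (V : Matrix (c × d) u ℂ) (s : a × c → ℂ) (β : c) : Matrix (a × u) (a × u) ℂ :=
  (fbaW a V)ᴴ * fbaI d z β * (fbaS d s)ᴴ * fbaW a V

/-- the birth map `Wᴴ S Sᴴ W` -/
def fbaB (V : Matrix (c × d) u ℂ) (s : a × c → ℂ) : Matrix (a × u) (a × u) ℂ :=
  (fbaW a V)ᴴ * fbaS d s * (fbaS d s)ᴴ * fbaW a V

theorem fba_W_isometry {V : Matrix (c × d) u ℂ} (hV : Vᴴ * V = 1) :
    (fbaW a V)ᴴ * fbaW a V = 1 := by
  ext x' x
  simp only [Matrix.mul_apply, conjTranspose_apply, fbaW, Matrix.of_apply, Fintype.sum_prod_type]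
  rw [Finset.sum_eq_single x.1]
  · have h := congrFun (congrFun hV x'.2) x.2
    simp only [Matrix.mul_apply, conjTranspose_apply, Fintype.sum_prod_type] at h
    by_cases h1 : x.1 = x'.1
    · simp only [h1, if_true]
      rw [h, Matrix.one_apply, Matrix.one_apply]
      congr 1
      apply propext
      constructor
      · intro h2
        exact Prod.ext h1.symm h2
      · intro h2
        rw [h2]
    · have h2 : x' ≠ x := fun h2 => h1 (by rw [h2])
      simp [h1, h2]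
  · intro τ _ hτ
    simp [hτ]
  · intro h
    exact absurd (Finset.mem_univ _) h

theorem fba_S_isometry {s : a × c → ℂ} (hs : cpNsq s = 1) :
    (fbaS d s)ᴴ * fbaS d s = 1 := by
  ext γ' γ
  simp only [Matrix.mul_apply, conjTranspose_apply, fbaS, Matrix.of_apply, Fintype.sum_prod_type]
  have hs' : ∑ τ : a, ∑ β : c, star (s (τ, β)) * s (τ, β) = 1 := by
    have : ((cpNsq s : ℝ) : ℂ) = 1 := by rw [hs]; simp
    rw [← cpIp_self, cpIp, Fintype.sum_prod_type] at this
    exact this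
  by_cases h : γ' = γ
  · subst h
    rw [Matrix.one_apply_eq, ← hs']
    refine Finset.sum_congr rfl fun τ _ => Finset.sum_congr rfl fun β _ => ?_
    rw [Finset.sum_eq_single γ']
    · simp
    · intro g _ hg
      simp [hg]
    · intro h
      exact absurd (Finset.mem_univ _) h
  · rw [Matrix.one_apply_ne h]
    refine Finset.sum_eq_zero fun τ _ => Finset.sum_eq_zero fun β _ => Finset.sum_eq_zero fun g _ => ?_
    by_cases h1 : g = γ'
    · have h2 : ¬ g = γ := fun h2 => h (h1.symm.trans h2)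
      simp [h2]
    · simp [h1]

theorem fba_S_eq_sum (s : a × c → ℂ) :
    fbaS d s = ∑ τ, ∑ β, s (τ, β) • fbaI d τ β := by
  ext ⟨τ', β', γ'⟩ γ
  simp only [fbaS, fbaI, Matrix.of_apply, Matrix.sum_apply, Matrix.smul_apply, smul_eq_mul,
    Prod.mk.injEq, mul_ite, mul_one, mul_zero]
  rw [Finset.sum_eq_single τ']
  · rw [Finset.sum_eq_single β']
    · simp
    · intro β _ hβ
      simp [Ne.symm hβ]
    · intro h
      exact absurd (Finset.mem_univ _) h
  · intro τ _ hτ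
    simp [Ne.symm hτ]
  · intro h
    exact absurd (Finset.mem_univ _) h

theorem fba_WI_apply (V : Matrix (c × d) u ℂ) (τ : a) (β : c) (x' : a × u) (γ : d) :
    ((fbaW a V)ᴴ * fbaI d τ β) x' γ = if τ = x'.1 then star (V (β, γ) x'.2) else 0 := by
  simp only [Matrix.mul_apply, conjTranspose_apply, fbaW, fbaI, Matrix.of_apply]
  rw [Finset.sum_eq_single (τ, β, γ)]
  · by_cases h : τ = x'.1 <;> simp [h]
  · intro y _ hy
    simp [hy]
  · intro h
    exact absurd (Finset.mem_univ _) h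

theorem fba_A_mul_apply {k : Type} (z τ : a) (M : Matrix (a × u) k ℂ) (x' : a × u) (j : k) :
    (fbaA u z τ * M) x' j = if x'.1 = τ then M (z, x'.2) j else 0 := by
  simp only [Matrix.mul_apply, fbaA, Matrix.of_apply]
  rw [Finset.sum_eq_single (z, x'.2)]
  · by_cases h : x'.1 = τ <;> simp [h]
  · intro x _ hx
    rw [if_neg, zero_mul]
    rintro ⟨-, h2, h3⟩
    exact hx (Prod.ext h2 h3.symm)
  · intro h
    exact absurd (Finset.mem_univ _) h

theorem fba_A_WI (z : a) (V : Matrix (c × d) u ℂ) (τ : a) (β : c) :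
    fbaA u z τ * ((fbaW a V)ᴴ * fbaI d z β) = (fbaW a V)ᴴ * fbaI d τ β := by
  ext x' γ
  rw [fba_A_mul_apply, fba_WI_apply, fba_WI_apply]
  simp [eq_comm]

/-- the birth map is a combination of `(write τ) ∘ Y β` -/
theorem fba_B_eq (z : a) (V : Matrix (c × d) u ℂ) (s : a × c → ℂ) :
    fbaB V s = ∑ τ, ∑ β, s (τ, β) • (fbaA u z τ * fbaY z V s β) := by
  have e : ∀ τ β, fbaA u z τ * fbaY z V s β = (fbaW a V)ᴴ * fbaI d τ β * (fbaS d s)ᴴ * fbaW a V := by
    intro τ β
    rw [fbaY, ← fba_A_WI z V τ β]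
    simp only [Matrix.mul_assoc]
  simp only [e]
  conv_lhs => rw [fbaB, fba_S_eq_sum s]
  simp only [Matrix.mul_sum, Matrix.sum_mul, Matrix.mul_smul, Matrix.smul_mul]
  rw [← fba_S_eq_sum s]

theorem fba_B_herm (V : Matrix (c × d) u ℂ) (s : a × c → ℂ) : (fbaB (a := a) V s)ᴴ = fbaB V s := by
  simp only [fbaB, conjTranspose_mul, conjTranspose_conjTranspose, Matrix.mul_assoc]

theorem fba_Y_zero (z : a) (V : Matrix (c × d) u ℂ) (s : a × c → ℂ) (β : c) (x' x : a × u)
    (h : x'.1 ≠ z) : fbaY z V s β x' x = 0 := by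
  rw [fbaY, Matrix.mul_assoc, Matrix.mul_apply]
  refine Finset.sum_eq_zero fun γ _ => ?_
  rw [fba_WI_apply, if_neg (Ne.symm h), zero_mul]

theorem fba_A_adj_zero (z τ : a) (x' x : a × u) (h : x'.1 ≠ z) : (fbaA u z τ)ᴴ x' x = 0 := by
  rw [conjTranspose_apply, fbaA, Matrix.of_apply, if_neg, star_zero]
  rintro ⟨-, h2, -⟩
  exact h h2

theorem fba_row_A (z : a) : CpRow (fbaA u z) := by
  intro v
  have e : ∀ x' : a × u, (∑ τ, fbaA u z τ *ᵥ v τ) x' = v x'.1 (z, x'.2) := by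
    intro x'
    rw [Finset.sum_apply, Finset.sum_eq_single x'.1]
    · simp only [mulVec, dotProduct, fbaA, Matrix.of_apply]
      rw [Finset.sum_eq_single (z, x'.2)]
      · simp
      · intro x _ hx
        rw [if_neg, zero_mul]
        rintro ⟨-, h2, h3⟩
        exact hx (Prod.ext h2 h3.symm)
      · intro h
        exact absurd (Finset.mem_univ _) h
    · intro τ _ hτ
      simp only [mulVec, dotProduct, fbaA, Matrix.of_apply]
      refine Finset.sum_eq_zero fun x _ => ?_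
      rw [if_neg, zero_mul]
      rintro ⟨h1, -, -⟩
      exact hτ h1.symm
    · intro h
      exact absurd (Finset.mem_univ _) h
  unfold cpNsq
  simp only [e, Fintype.sum_prod_type]
  refine Finset.sum_le_sum fun τ _ => ?_
  exact Finset.single_le_sum (f := fun τ' => ∑ y : u, ‖v τ (τ', y)‖ ^ 2)
    (fun τ' _ => Finset.sum_nonneg fun _ _ => sq_nonneg _) (Finset.mem_univ z)

theorem fba_nsq_sum_I (z : a) (w : c → d → ℂ) :
    cpNsq (∑ β, fbaI d z β *ᵥ w β) = ∑ β, cpNsq (w β) := by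
  have e : ∀ y : a × c × d, (∑ β, fbaI d z β *ᵥ w β) y = if y.1 = z then w y.2.1 y.2.2 else 0 := by
    rintro ⟨τ, β', γ⟩
    rw [Finset.sum_apply]
    simp only [mulVec, dotProduct, fbaI, Matrix.of_apply, Prod.mk.injEq, ite_mul, one_mul, zero_mul]
    rw [Finset.sum_eq_single β']
    · rw [Finset.sum_eq_single γ]
      · simp
      · intro g _ hg
        simp [Ne.symm hg]
      · intro h
        exact absurd (Finset.mem_univ _) h
    · intro β _ hβ
      refine Finset.sum_eq_zero fun g _ => ?_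
      simp [Ne.symm hβ]
    · intro h
      exact absurd (Finset.mem_univ _) h
  unfold cpNsq
  simp only [e, Fintype.sum_prod_type]
  rw [Finset.sum_eq_single z]
  · simp
  · intro τ _ hτ
    simp [hτ]
  · intro h
    exact absurd (Finset.mem_univ _) h

theorem fba_row_Y (z : a) {V : Matrix (c × d) u ℂ} (hV : Vᴴ * V = 1) {s : a × c → ℂ}
    (hs : cpNsq s = 1) : CpRow (fbaY z V s) := by
  intro v
  have hW : CpContr (fbaW a V) := cpk_contr_of_isometry (fba_W_isometry hV)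
  have hS : CpContr (fbaS d s) := cpk_contr_of_isometry (fba_S_isometry hs)
  have e : ∑ β, fbaY z V s β *ᵥ v β
      = (fbaW a V)ᴴ *ᵥ ∑ β, fbaI d z β *ᵥ (((fbaS d s)ᴴ * fbaW a V) *ᵥ v β) := by
    rw [mulVec_sum]
    refine Finset.sum_congr rfl fun β _ => ?_
    rw [fbaY, mulVec_mulVec, mulVec_mulVec]
    simp only [Matrix.mul_assoc]
  rw [e]
  refine (cpk_contr_conjTranspose hW _).trans ?_
  rw [fba_nsq_sum_I]
  exact Finset.sum_le_sum fun β _ => fba_contr_mul (cpk_contr_conjTranspose hS) hW _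

/-- `‖(B - 1) φ‖ ≤ ‖W φ - S t‖` -/
theorem fba_dist {V : Matrix (c × d) u ℂ} (hV : Vᴴ * V = 1) {s : a × c → ℂ} (hs : cpNsq s = 1)
    (φ : a × u → ℂ) (t : d → ℂ) :
    cpNsq (fbaB V s *ᵥ φ - φ) ≤ cpNsq (fbaW a V *ᵥ φ - fbaS d s *ᵥ t) := by
  have hW := fba_W_isometry (a := a) hV
  have hS := fba_S_isometry (d := d) hs
  set Pr : Matrix (a × c × d) (a × c × d) ℂ := 1 - fbaS d s * (fbaS d s)ᴴ with hPr
  have h1 : Pr * Pr = Pr := by
    have : fbaS d s * (fbaS d s)ᴴ * (fbaS d s * (fbaS d s)ᴴ) = fbaS d s * (fbaS d s)ᴴ := by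
      rw [Matrix.mul_assoc, ← Matrix.mul_assoc (fbaS d s)ᴴ, hS, Matrix.one_mul]
    rw [hPr, Matrix.mul_sub, Matrix.sub_mul, Matrix.sub_mul, Matrix.one_mul, Matrix.one_mul,
      Matrix.mul_one, this, sub_self, sub_zero]
  have h2 : Prᴴ = Pr := by
    rw [hPr, conjTranspose_sub, conjTranspose_one, conjTranspose_mul, conjTranspose_conjTranspose]
  have e : fbaB V s *ᵥ φ - φ = -((fbaW a V)ᴴ *ᵥ (Pr *ᵥ (fbaW a V *ᵥ φ - fbaS d s *ᵥ t))) := by
    have e1 : Pr *ᵥ (fbaS d s *ᵥ t) = 0 := by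
      rw [mulVec_mulVec, hPr, Matrix.sub_mul, Matrix.one_mul, Matrix.mul_assoc, hS, Matrix.mul_one,
        sub_self, zero_mulVec]
    rw [mulVec_sub, e1, sub_zero, hPr, sub_mulVec, one_mulVec, mulVec_sub, mulVec_mulVec, hW,
      one_mulVec, mulVec_mulVec, mulVec_mulVec, fbaB]
    simp only [Matrix.mul_assoc]
    abel
  rw [e]
  have h3 : ∀ w : a × u → ℂ, cpNsq (-w) = cpNsq w := by
    intro w
    unfold cpNsq
    simp
  rw [h3]
  exact (cpk_contr_conjTranspose (cpk_contr_of_isometry hW) _).trans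
    (fba_nsq_sub_le_of_proj h1 h2 _)

theorem fba_W_mulVec (V : Matrix (c × d) u ℂ) (φ : a × u → ℂ) (τ : a) (β : c) (γ : d) :
    (fbaW a V *ᵥ φ) (τ, β, γ) = ∑ k, V (β, γ) k * φ (τ, k) := by
  simp only [mulVec, dotProduct, fbaW, Matrix.of_apply, Fintype.sum_prod_type]
  rw [Finset.sum_eq_single τ]
  · simp
  · intro τ' _ h
    simp [Ne.symm h]
  · intro h
    exact absurd (Finset.mem_univ _) h

theorem fba_S_mulVec (s : a × c → ℂ) (t : d → ℂ) (τ : a) (β : c) (γ : d) :
    (fbaS d s *ᵥ t) (τ, β, γ) = s (τ, β) * t γ := by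
  simp only [mulVec, dotProduct, fbaS, Matrix.of_apply]
  rw [Finset.sum_eq_single γ]
  · simp
  · intro g _ h
    simp [Ne.symm h]
  · intro h
    exact absurd (Finset.mem_univ _) h

end Birth

end Claimed.Agent.R296
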