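import Claimed.Agent.R296.P2.ResetSite
import Claimed.Agent.R296.Replica.Perm
import Claimed.Agent.R296.LocEmb

/-!
# Row 296, paper 2, Lemma 2.3: algebra of the doubled system (package DS)

Uses `Replica/Perm.lean` (UQ, copyOp, tpow, copyAvg API) and `LocEmb.lean` (emb / SuppIn API).
Proved by helper291; general helper lemmas have the prefix `ds_` (`dsCopyHom`, `dsReg`).
-/

set_option autoImplicit false
set_option linter.unusedSectionVars false

namespace Claimed.Agent.R296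

open Matrix
open scoped MatrixOrder Matrix.Norms.L2Operator ComplexOrder

section General

variable {s : Type} [DecidableEq s] [Fintype s] {io : s → Type}
  [∀ x, Fintype (io x)] [∀ x, DecidableEq (io x)] {κ : Type} [Fintype κ] [DecidableEq κ]

theorem ds_copyOp_add (j : κ) (g h : Matrix (Cfg io) (Cfg io) ℂ) :
    copyOp j (g + h) = copyOp j g + copyOp j h := by
  ext c c'
  simp only [copyOp, Matrix.of_apply, Matrix.add_apply]
  split_ifs <;> simp

theorem ds_copyOp_zero (j : κ) : copyOp j (0 : Matrix (Cfg io) (Cfg io) ℂ) = 0 := by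
  ext c c'
  simp [copyOp]

theorem ds_copyOp_smul (j : κ) (a : ℂ) (h : Matrix (Cfg io) (Cfg io) ℂ) :
    copyOp j (a • h) = a • copyOp j h := by
  ext c c'
  simp only [copyOp, Matrix.of_apply, Matrix.smul_apply]
  split_ifs <;> simp

/-- `copyOp j` as a unital star-algebra homomorphism -/
noncomputable def dsCopyHom (j : κ) :
    Matrix (Cfg io) (Cfg io) ℂ →⋆ₐ[ℂ] Matrix (RCfg io κ) (RCfg io κ) ℂ where
  toFun := copyOp j
  map_one' := copyOp_one j
  map_mul' := copyOp_mul j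
  map_zero' := ds_copyOp_zero j
  map_add' := ds_copyOp_add j
  commutes' c := by
    rw [Algebra.algebraMap_eq_smul_one, Algebra.algebraMap_eq_smul_one, ds_copyOp_smul, copyOp_one]
  map_star' K := by
    rw [star_eq_conjTranspose, star_eq_conjTranspose, copyOp_conjTranspose]

theorem dsCopyHom_apply (j : κ) (h : Matrix (Cfg io) (Cfg io) ℂ) : dsCopyHom j h = copyOp j h := rfl

theorem ds_copyOp_sum {ι : Type*} (j : κ) (S : Finset ι) (h : ι → Matrix (Cfg io) (Cfg io) ℂ) :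
    copyOp j (∑ i ∈ S, h i) = ∑ i ∈ S, copyOp j (h i) := by
  simp only [← dsCopyHom_apply]
  exact map_sum (dsCopyHom j) h S

theorem ds_copyOp_sub (j : κ) (g h : Matrix (Cfg io) (Cfg io) ℂ) :
    copyOp j (g - h) = copyOp j g - copyOp j h := by
  simp only [← dsCopyHom_apply]
  exact map_sub (dsCopyHom j) g h

theorem ds_norm_copyOp_le (j : κ) (h : Matrix (Cfg io) (Cfg io) ℂ) :
    ‖(copyOp j h : Matrix (RCfg io κ) (RCfg io κ) ℂ)‖ ≤ ‖h‖ :=
  NonUnitalStarAlgHom.norm_apply_le (dsCopyHom j) h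

/-- the region of the replica system over a region -/
def dsReg (κ : Type) [Fintype κ] (A : Finset s) : Finset (κ × s) := Finset.univ ×ˢ A

/-- generates the equation lemmas of the definitions of this file here (rule 6: unique names) -/
theorem ds_defs_eqns_cite : True := by
  have := @dsCopyHom.eq_1
  have := @dsReg.eq_1
  trivial

theorem ds_mem_dsReg {A : Finset s} {p : κ × s} : p ∈ dsReg κ A ↔ p.2 ∈ A := by
  simp [dsReg]

theorem ds_rcopy_cmix (A : Finset s) (c ρ : RCfg io κ) (i : κ) :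
    rcopy (cmix (io := rio io κ) (dsReg κ A) c ρ) i = cmix A (rcopy c i) (rcopy ρ i) := by
  funext x
  simp only [rcopy, cmix, ds_mem_dsReg]

theorem ds_cmix_eq_iff (A : Finset s) {σ τ : Cfg io} (ρ : Cfg io) (h : ∀ x, x ∉ A → σ x = τ x) :
    cmix A σ ρ = cmix A τ ρ ↔ σ = τ := by
  constructor
  · intro h1
    funext x
    by_cases hx : x ∈ A
    · have := congrFun h1 x
      simpa [cmix, hx] using this
    · exact h x hx
  · rintro rfl
    rfl

theorem ds_copyOp_suppIn (j : κ) {A : Finset s} {h : Matrix (Cfg io) (Cfg io) ℂ}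
    (hh : SuppIn A h) : SuppIn (io := rio io κ) (dsReg κ A) (copyOp j h) := by
  rw [suppIn_iff] at hh ⊢
  obtain ⟨h1, h2⟩ := hh
  refine ⟨fun c c' hex => ?_, fun c c' ρ hoff => ?_⟩
  · obtain ⟨p, hp, hne⟩ := hex
    rw [ds_mem_dsReg] at hp
    simp only [copyOp, Matrix.of_apply]
    split_ifs with hc
    · by_cases hpj : p.1 = j
      · refine h1 _ _ ⟨p.2, hp, ?_⟩
        rw [← hpj]
        exact hne
      · exact absurd (congrFun (hc p.1 hpj) p.2) hne
    · rfl
  · have hoff' : ∀ i x, x ∉ A → rcopy c i x = rcopy c' i x := fun i x hx =>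
      hoff (i, x) (by rw [ds_mem_dsReg]; exact hx)
    simp only [copyOp, Matrix.of_apply, ds_rcopy_cmix]
    have e : (∀ i, i ≠ j → cmix A (rcopy c i) (rcopy ρ i) = cmix A (rcopy c' i) (rcopy ρ i))
        ↔ ∀ i, i ≠ j → rcopy c i = rcopy c' i := by
      refine forall_congr' fun i => imp_congr_right fun _ => ?_
      exact ds_cmix_eq_iff A _ (hoff' i)
    simp only [e]
    split_ifs
    · exact h2 _ _ _ (hoff' j)
    · rfl

theorem ds_UQ_suppIn {Q A : Finset s} (hQ : Q ⊆ A) (π : Equiv.Perm κ) :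
    SuppIn (io := rio io κ) (dsReg κ A) (UQ (io := io) Q π) := by
  rw [suppIn_iff]
  refine ⟨fun c c' hex => ?_, fun c c' ρ hoff => ?_⟩
  · obtain ⟨p, hp, hne⟩ := hex
    rw [ds_mem_dsReg] at hp
    simp only [UQ, Matrix.of_apply]
    rw [if_neg]
    intro hc
    apply hne
    have hpQ : p.2 ∉ Q := fun h => hp (hQ h)
    rw [hc, rperm_apply, if_neg hpQ]
  · simp only [UQ, Matrix.of_apply]
    have e : cmix (io := rio io κ) (dsReg κ A) c ρ
          = rperm Q π (cmix (io := rio io κ) (dsReg κ A) c' ρ) ↔ c = rperm Q π c' := by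
      constructor
      · intro h
        funext p
        by_cases hp : p.2 ∈ A
        · have h1 := congrFun h p
          have hp' : p ∈ dsReg κ A := ds_mem_dsReg.2 hp
          have hp'' : (π⁻¹ p.1, p.2) ∈ dsReg κ A := ds_mem_dsReg.2 hp
          simp only [rperm_apply, cmix, hp', hp'', if_true] at h1 ⊢
          exact h1
        · have hpQ : p.2 ∉ Q := fun h => hp (hQ h)
          rw [rperm_apply, if_neg hpQ]
          exact hoff p (by rw [ds_mem_dsReg]; exact hp)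
      · intro h
        funext p
        by_cases hp : p.2 ∈ A
        · have h1 := congrFun h p
          have hp' : p ∈ dsReg κ A := ds_mem_dsReg.2 hp
          have hp'' : (π⁻¹ p.1, p.2) ∈ dsReg κ A := ds_mem_dsReg.2 hp
          simp only [rperm_apply, cmix, hp', hp'', if_true] at h1 ⊢
          exact h1
        · have hpQ : p.2 ∉ Q := fun h => hp (hQ h)
          have hp' : p ∉ dsReg κ A := by rw [ds_mem_dsReg]; exact hp
          simp only [rperm_apply, cmix, hp', hpQ, if_false]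
    simp only [e]

/-- the sum over the copies is invariant under the permutations of a region containing the support
or disjoint from it -/
theorem ds_conj_sum {D E : Finset s} (h : D ⊆ E ∨ Disjoint D E)
    {g : Matrix (Cfg io) (Cfg io) ℂ} (hg : SuppIn D g) (π : Equiv.Perm κ) :
    UQ E π * (∑ j : κ, copyOp j g) * UQ E π⁻¹ = ∑ j : κ, copyOp j g := by
  obtain ⟨K, rfl⟩ := hg
  rw [Finset.mul_sum, Finset.sum_mul]
  rcases h with h | h
  · simp only [UQ_conj_copyOp_emb_subset h]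
    exact Equiv.sum_comp π (fun j => copyOp j (emb D K))
  · simp only [UQ_conj_copyOp_emb_disjoint h]

theorem ds_UQ_mem_unitary (Q : Finset s) (π : Equiv.Perm κ) :
    UQ (io := io) Q π ∈ unitary (Matrix (RCfg io κ) (RCfg io κ) ℂ) := by
  rw [Unitary.mem_iff, star_eq_conjTranspose, UQ_conjTranspose]
  exact ⟨UQ_inv_mul Q π, UQ_mul_inv Q π⟩

theorem ds_norm_UQ_conj (Q : Finset s) (π σ : Equiv.Perm κ)
    (X : Matrix (RCfg io κ) (RCfg io κ) ℂ) : ‖UQ (io := io) Q π * X * UQ Q σ‖ = ‖X‖ := by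
  have h1 := CStarRing.norm_mul_coe_unitary (UQ (io := io) Q π * X)
    ⟨UQ (io := io) Q σ, ds_UQ_mem_unitary Q σ⟩
  have h2 := CStarRing.norm_coe_unitary_mul ⟨UQ (io := io) Q π, ds_UQ_mem_unitary Q π⟩ X
  simp only at h1 h2
  rw [h1, h2]

/-- a marked copy of `h` acts on a tensor power of an eigenvector of `h` -/
theorem ds_copyOp_mulVec_tpow (j : κ) {h : Matrix (Cfg io) (Cfg io) ℂ} {θ : Cfg io → ℂ} {a : ℂ}
    (hθ : h *ᵥ θ = a • θ) : copyOp j h *ᵥ tpow κ θ = a • tpow κ θ := by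
  rw [copyOp_eq_tpo, tpow_eq_tpv, tpo_mulVec_tpv]
  funext c
  simp only [tpv, Pi.smul_apply, smul_eq_mul]
  have e : ∀ i, ((Function.update (fun _ : κ => (1 : Matrix (Cfg io) (Cfg io) ℂ)) j h i) *ᵥ θ)
      (rcopy c i) = (if i = j then a else 1) * θ (rcopy c i) := by
    intro i
    by_cases hi : i = j
    · subst hi
      simp [hθ]
    · simp [hi]
  simp only [e]
  rw [Finset.prod_mul_distrib, Finset.prod_ite_eq' Finset.univ j (fun _ => a)]
  simp

theorem ds_pureOp_tpow (θ : Cfg io → ℂ) : pureOp (tpow κ θ) = tpo (fun _ : κ => pureOp θ) := by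
  ext c c'
  simp only [pureOp, vecMulVec_apply, tpo_apply, tpow, Pi.star_apply, star_prod,
    Finset.prod_mul_distrib]

theorem ds_pureOp_mul_self {X : Type} [Fintype X] {θ : X → ℂ} (hθ : star θ ⬝ᵥ θ = 1) :
    pureOp θ * pureOp θ = pureOp θ := by
  unfold pureOp
  rw [vecMulVec_mul_vecMulVec, hθ, one_smul]

theorem ds_pureOp_herm {X : Type} (θ : X → ℂ) : (pureOp θ).IsHermitian := by
  ext c c'
  simp [pureOp, vecMulVec_apply, mul_comm]

theorem ds_one_sub_pureOp_psd {X : Type} [Fintype X] [DecidableEq X] {θ : X → ℂ}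
    (hθ : star θ ⬝ᵥ θ = 1) : (1 - pureOp θ).PosSemidef := by
  have e : (1 - pureOp θ) = (1 - pureOp θ)ᴴ * (1 - pureOp θ) := by
    rw [conjTranspose_sub, conjTranspose_one, (ds_pureOp_herm θ).eq, Matrix.mul_sub,
      Matrix.sub_mul, Matrix.sub_mul, ds_pureOp_mul_self hθ]
    simp
  rw [e]
  exact posSemidef_conjTranspose_mul_self _

theorem ds_tpo_fin2 (X : Matrix (Cfg io) (Cfg io) ℂ) :
    tpo (fun _ : Fin 2 => X) = copyOp 0 X * copyOp 1 X := by
  rw [copyOp_eq_tpo, copyOp_eq_tpo, ← tpo_mul]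
  congr 1
  funext j
  fin_cases j <;> simp

end General

variable {q : ℕ} [NeZero q] {J Δ : ℝ} {L : ℕ}

theorem ds_swap_inv : (Equiv.swap (0 : Fin 2) 1)⁻¹ = Equiv.swap (0 : Fin 2) 1 := Equiv.swap_inv _ _

theorem dswap_herm (R : Finset (GSite L)) : (dswap q R).IsHermitian := by
  unfold dswap Matrix.IsHermitian
  rw [UQ_conjTranspose, ds_swap_inv]

theorem dswap_mul_self (R : Finset (GSite L)) : dswap q R * dswap q R = 1 := by
  unfold dswap
  rw [← UQ_mul (io := gio q L), Equiv.swap_mul_self, UQ_one]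

/-- a one-copy operator supported in `A`, put on copy `j`, is supported in `dreg A` -/
theorem copyOp_suppIn (j : Fin 2) {A : Finset (GSite L)} {h : Matrix (GCfg q L) (GCfg q L) ℂ}
    (hh : SuppIn (io := gio q L) A h) :
    SuppIn (io := rio (gio q L) (Fin 2)) (dreg A) (copyOp j h) :=
  ds_copyOp_suppIn j hh

theorem norm_copyOp_le (j : Fin 2) (h : Matrix (GCfg q L) (GCfg q L) ℂ) :
    ‖(copyOp j h : Matrix (DCfg q L) (DCfg q L) ℂ)‖ ≤ ‖h‖ :=
  ds_norm_copyOp_le (io := gio q L) j h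

theorem GModel.dterm_herm (M : GModel q J Δ L) (i : GTerm L) : (M.dterm i).IsHermitian := by
  unfold GModel.dterm Matrix.IsHermitian
  rw [Matrix.conjTranspose_sum]
  refine Finset.sum_congr rfl fun j _ => ?_
  rw [copyOp_conjTranspose, (M.term_herm i).eq]

theorem GModel.dterm'_herm (M : GModel q J Δ L) (R : Finset (GSite L)) (i : GTerm L) :
    (M.dterm' R i).IsHermitian := by
  unfold GModel.dterm' Matrix.IsHermitian
  rw [Matrix.conjTranspose_mul, Matrix.conjTranspose_mul, (dswap_herm R).eq, (M.dterm_herm i).eq,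
    Matrix.mul_assoc]

theorem GModel.norm_dterm_le (hJ : 0 ≤ J) (M : GModel q J Δ L) (i : GTerm L) :
    ‖M.dterm i‖ ≤ 2 * J := by
  unfold GModel.dterm
  calc ‖∑ j : Fin 2, (copyOp j (M.term i) : Matrix (DCfg q L) (DCfg q L) ℂ)‖
      ≤ ∑ j : Fin 2, ‖(copyOp j (M.term i) : Matrix (DCfg q L) (DCfg q L) ℂ)‖ := norm_sum_le _ _
    _ ≤ ∑ _j : Fin 2, J := Finset.sum_le_sum fun j _ =>
        (norm_copyOp_le j (M.term i)).trans (M.term_norm_le hJ i)
    _ = 2 * J := by simp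

theorem GModel.norm_dterm'_le (hJ : 0 ≤ J) (M : GModel q J Δ L) (R : Finset (GSite L))
    (i : GTerm L) : ‖M.dterm' R i‖ ≤ 2 * J := by
  unfold GModel.dterm' dswap
  rw [ds_norm_UQ_conj (io := gio q L)]
  exact M.norm_dterm_le hJ i

theorem GModel.dterm_suppIn (M : GModel q J Δ L) (i : GTerm L) :
    SuppIn (io := rio (gio q L) (Fin 2)) (dreg (gsupp i)) (M.dterm i) := by
  unfold GModel.dterm
  exact SuppIn.sum _ fun j _ => copyOp_suppIn j (M.term_suppIn i)

/-- only the part of `R` inside the support matters -/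
theorem GModel.ds_dterm'_eq_inter (M : GModel q J Δ L) (R : Finset (GSite L)) (i : GTerm L) :
    M.dterm' R i = dswap q (R ∩ gsupp i) * M.dterm i * dswap q (R ∩ gsupp i) := by
  have hdis : Disjoint (R ∩ gsupp i) (R \ gsupp i) :=
    Finset.disjoint_left.2 fun x hx hx' =>
      (Finset.mem_sdiff.1 hx').2 (Finset.mem_inter.1 hx).2
  have hun : R = (R ∩ gsupp i) ∪ (R \ gsupp i) := by
    rw [Finset.union_comm, Finset.sdiff_union_inter]
  have h1 : dswap q R = dswap q (R ∩ gsupp i) * dswap q (R \ gsupp i) := by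
    unfold dswap
    rw [← UQ_union (io := gio q L) hdis, ← hun]
  have h2 : dswap q R = dswap q (R \ gsupp i) * dswap q (R ∩ gsupp i) := by
    rw [h1]
    exact (UQ_commute_disjoint hdis _ _).eq
  have h3 : dswap q (R \ gsupp i) * M.dterm i * dswap q (R \ gsupp i) = M.dterm i := by
    have := ds_conj_sum (κ := Fin 2) (E := R \ gsupp i)
      (Or.inr (Finset.disjoint_sdiff)) (M.term_suppIn i) (Equiv.swap (0 : Fin 2) 1)
    rw [ds_swap_inv] at this
    exact this
  unfold GModel.dterm'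
  calc dswap q R * M.dterm i * dswap q R
      = dswap q (R ∩ gsupp i) * dswap q (R \ gsupp i) * M.dterm i
        * (dswap q (R \ gsupp i) * dswap q (R ∩ gsupp i)) := by
        rw [← h2, ← h1]
    _ = dswap q (R ∩ gsupp i) * (dswap q (R \ gsupp i) * M.dterm i * dswap q (R \ gsupp i))
        * dswap q (R ∩ gsupp i) := by simp only [Matrix.mul_assoc]
    _ = _ := by rw [h3]

/-- `F_R = F_{R ∩ Z} F_{R \ Z}` and `F_{R \ Z}` commutes with operators on `dreg Z` -/
theorem GModel.dterm'_suppIn (M : GModel q J Δ L) (R : Finset (GSite L)) (i : GTerm L) :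
    SuppIn (io := rio (gio q L) (Fin 2)) (dreg (gsupp i)) (M.dterm' R i) := by
  rw [M.ds_dterm'_eq_inter]
  have hF : SuppIn (io := rio (gio q L) (Fin 2)) (dreg (gsupp i)) (dswap q (R ∩ gsupp i)) :=
    ds_UQ_suppIn Finset.inter_subset_right _
  exact (hF.mul (M.dterm_suppIn i)).mul hF

/-- terms which do not cross `R` are not changed by the partial swap (`copyAvg_emb_commute_UQ`) -/
theorem GModel.dterm'_eq (M : GModel q J Δ L) (R : Finset (GSite L)) (i : GTerm L)
    (h : gsupp i ⊆ R ∨ Disjoint (gsupp i) R) : M.dterm' R i = M.dterm i := by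
  have := ds_conj_sum (κ := Fin 2) h (M.term_suppIn i) (Equiv.swap (0 : Fin 2) 1)
  rw [ds_swap_inv] at this
  exact this

theorem GModel.ds_Ψ2_dot (M : GModel q J Δ L) : star M.Ψ2 ⬝ᵥ M.Ψ2 = 1 := by
  unfold GModel.Ψ2
  rw [tpow_dotProduct (io := gio q L), M.nrm, one_pow]

theorem GModel.norm_Ψ2 (M : GModel q J Δ L) : ‖colV M.Ψ2‖ = 1 :=
  (norm_colV_eq_one_iff _).mpr M.ds_Ψ2_dot

theorem GModel.ds_col_Φ2 (M : GModel q J Δ L) (R : Finset (GSite L)) :
    colV (M.Φ2 R) = dswap q R * colV M.Ψ2 := colV_mulVec _ _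

theorem GModel.norm_Φ2 (M : GModel q J Δ L) (R : Finset (GSite L)) : ‖colV (M.Φ2 R)‖ = 1 := by
  rw [norm_colV_eq_one_iff]
  unfold GModel.Φ2
  rw [star_mulVec, ← dotProduct_mulVec, mulVec_mulVec, (dswap_herm R).eq, dswap_mul_self,
    one_mulVec]
  exact M.ds_Ψ2_dot

theorem GModel.ds_sum_dterm (M : GModel q J Δ L) :
    ∑ i, M.dterm i = ∑ j : Fin 2, copyOp j M.H := by
  unfold GModel.dterm
  rw [Finset.sum_comm, M.H_eq_sum]
  refine Finset.sum_congr rfl fun j _ => ?_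
  rw [ds_copyOp_sum]

theorem GModel.dterm_eig (M : GModel q J Δ L) :
    (∑ i, M.dterm i) * colV M.Ψ2 = ((2 * M.E₀ : ℝ) : ℂ) • colV M.Ψ2 := by
  rw [M.ds_sum_dterm, ← colV_mulVec, ← colV_smul, sum_mulVec]
  congr 1
  have h : ∀ j : Fin 2, (copyOp j M.H : Matrix (DCfg q L) (DCfg q L) ℂ) *ᵥ M.Ψ2
      = (M.E₀ : ℂ) • M.Ψ2 := fun j => ds_copyOp_mulVec_tpow j M.eig
  simp only [h]
  rw [Finset.sum_const, Finset.card_univ, Fintype.card_fin, two_nsmul, ← add_smul]
  congr 1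
  push_cast
  ring

theorem GModel.ds_sum_dterm' (M : GModel q J Δ L) (R : Finset (GSite L)) :
    ∑ i, M.dterm' R i = dswap q R * (∑ i, M.dterm i) * dswap q R := by
  unfold GModel.dterm'
  rw [Finset.mul_sum, Finset.sum_mul]

theorem GModel.dterm'_eig (M : GModel q J Δ L) (R : Finset (GSite L)) :
    (∑ i, M.dterm' R i) * colV (M.Φ2 R) = ((2 * M.E₀ : ℝ) : ℂ) • colV (M.Φ2 R) := by
  rw [M.ds_sum_dterm', M.ds_col_Φ2, Matrix.mul_assoc, ← Matrix.mul_assoc (dswap q R) (dswap q R),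
    dswap_mul_self, Matrix.one_mul, Matrix.mul_assoc, M.dterm_eig, Matrix.mul_smul]

/-- gap of the doubled Hamiltonian: `1 - P ⊗ P ≤ (1-P) ⊗ 1 + 1 ⊗ (1-P)`, the difference is `(1-P) ⊗ (1-P)` -/
theorem GModel.dterm_gap (hΔ : 0 ≤ Δ) (M : GModel q J Δ L) :
    (Δ : ℂ) • (1 - colV M.Ψ2 * (colV M.Ψ2)ᴴ) ≤ (∑ i, M.dterm i) - ((2 * M.E₀ : ℝ) : ℂ) • 1 := by
  rw [Matrix.le_iff]
  have hT : (M.H - (M.E₀ : ℂ) • 1 - (Δ : ℂ) • (1 - pureOp M.Ω)).PosSemidef :=
    Matrix.le_iff.1 M.gap_le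
  have hQ : (tpo (fun _ : Fin 2 => (1 - pureOp M.Ω : Matrix (GCfg q L) (GCfg q L) ℂ))).PosSemidef :=
    tpo_posSemidef (io := gio q L) fun _ => ds_one_sub_pureOp_psd M.nrm
  have hΔ' : (0 : ℂ) ≤ (Δ : ℂ) := by exact_mod_cast hΔ
  have key : (∑ i, M.dterm i) - ((2 * M.E₀ : ℝ) : ℂ) • 1
        - (Δ : ℂ) • (1 - colV M.Ψ2 * (colV M.Ψ2)ᴴ)
      = copyOp (0 : Fin 2) (M.H - (M.E₀ : ℂ) • 1 - (Δ : ℂ) • (1 - pureOp M.Ω))
        + copyOp (1 : Fin 2) (M.H - (M.E₀ : ℂ) • 1 - (Δ : ℂ) • (1 - pureOp M.Ω))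
        + (Δ : ℂ) • tpo (fun _ : Fin 2 => (1 - pureOp M.Ω : Matrix (GCfg q L) (GCfg q L) ℂ)) := by
    have e1 : colV M.Ψ2 * (colV M.Ψ2)ᴴ
        = copyOp (0 : Fin 2) (pureOp M.Ω) * copyOp (1 : Fin 2) (pureOp M.Ω) := by
      rw [← pureOp_eq_col]
      unfold GModel.Ψ2
      rw [ds_pureOp_tpow (io := gio q L), ds_tpo_fin2 (io := gio q L)]
    rw [e1, M.ds_sum_dterm, Fin.sum_univ_two, ds_tpo_fin2 (io := gio q L)]
    simp only [ds_copyOp_sub, ds_copyOp_smul, copyOp_one]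
    rw [sub_mul, mul_sub, mul_sub, one_mul, mul_one, one_mul]
    push_cast
    module
  rw [key]
  exact ((copyOp_posSemidef (io := gio q L) 0 hT).add (copyOp_posSemidef (io := gio q L) 1 hT)).add
    (hQ.smul hΔ')

theorem GModel.dterm'_gap (hΔ : 0 ≤ Δ) (M : GModel q J Δ L) (R : Finset (GSite L)) :
    (Δ : ℂ) • (1 - colV (M.Φ2 R) * (colV (M.Φ2 R))ᴴ) ≤
      (∑ i, M.dterm' R i) - ((2 * M.E₀ : ℝ) : ℂ) • 1 := by
  rw [Matrix.le_iff]
  have h := Matrix.le_iff.1 (M.dterm_gap hΔ)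
  have h2 := h.mul_mul_conjTranspose_same (dswap q R)
  rw [(dswap_herm R).eq] at h2
  have key : (∑ i, M.dterm' R i) - ((2 * M.E₀ : ℝ) : ℂ) • 1
        - (Δ : ℂ) • (1 - colV (M.Φ2 R) * (colV (M.Φ2 R))ᴴ)
      = dswap q R * ((∑ i, M.dterm i) - ((2 * M.E₀ : ℝ) : ℂ) • 1
        - (Δ : ℂ) • (1 - colV M.Ψ2 * (colV M.Ψ2)ᴴ)) * dswap q R := by
    have e1 : colV (M.Φ2 R) * (colV (M.Φ2 R))ᴴ
        = dswap q R * (colV M.Ψ2 * (colV M.Ψ2)ᴴ) * dswap q R := by
      rw [M.ds_col_Φ2, Matrix.conjTranspose_mul, (dswap_herm R).eq]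
      simp only [Matrix.mul_assoc]
    rw [e1, M.ds_sum_dterm']
    simp only [Matrix.mul_sub, Matrix.sub_mul, Matrix.mul_smul, Matrix.smul_mul, Matrix.mul_one,
      dswap_mul_self]
  rw [key]
  exact h2

end Claimed.Agent.R296
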