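import Claimed.Agent.R296.P2.ResetSite
import Claimed.Agent.R296.P2.ResetDS
import Claimed.Agent.R296.P2.Split
import Claimed.Agent.R296.EntSite
import Claimed.Agent.R296.LocEmb
import Claimed.Agent.R296.TailSites

/-!
# Row 296, paper 2, Lemma 2.3: the overlap operator on the doubled buffer (package OV)

Transport of `swap_overlap` (`Split.lean`) to the sites:  `a = CfgOn R`, `b = CfgOn Cc`, `u = CfgOff (R ∪ Cc)` via
`cfgSplit2` of `EntSite.lean`; `miAB (margAB Ω') = M.I R Cc` by `ent_split2_*`.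
Proved by helper291 (helper prefix `ov`); depends on the statement `swap_overlap`.
-/

set_option autoImplicit false
set_option linter.unusedSectionVars false

namespace Claimed.Agent.R296

open Matrix
open scoped MatrixOrder Matrix.Norms.L2Operator ComplexOrder

section General

variable {s : Type} [DecidableEq s] [Fintype s] {io : s → Type}
  [∀ x, Fintype (io x)] [∀ x, DecidableEq (io x)]

/-- one copy in split coordinates -/
def ovSp (A B : Finset s) (hAB : Disjoint A B) :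
    Cfg io ≃ CfgOn io A × CfgOn io B × CfgOff io (A ∪ B) :=
  (cfgSplit2 A B hAB).trans (Equiv.prodAssoc _ _ _)

theorem ovSp_apply (A B : Finset s) (hAB : Disjoint A B) (σ : Cfg io) :
    ovSp A B hAB σ = (crOn A σ, crOn B σ, crOff (A ∪ B) σ) := rfl

theorem ovSp_symm_apply (A B : Finset s) (hAB : Disjoint A B)
    (p : CfgOn io A × CfgOn io B × CfgOff io (A ∪ B)) (x : s) :
    (ovSp A B hAB).symm p x =
      if hA : x ∈ A then p.1 ⟨x, hA⟩
      else if hB : x ∈ B then p.2.1 ⟨x, hB⟩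
      else p.2.2 ⟨x, by simp [hA, hB]⟩ := rfl

/-- the vector in split coordinates -/
def ovVec (A B : Finset s) (hAB : Disjoint A B) (Ω : Cfg io → ℂ) :
    CfgOn io A × CfgOn io B × CfgOff io (A ∪ B) → ℂ := fun p => Ω ((ovSp A B hAB).symm p)

theorem ovVec_dot (A B : Finset s) (hAB : Disjoint A B) (Ω : Cfg io → ℂ) :
    star (ovVec A B hAB Ω) ⬝ᵥ ovVec A B hAB Ω = star Ω ⬝ᵥ Ω := by
  simp only [dotProduct, Pi.star_apply, ovVec]
  exact Equiv.sum_comp (ovSp A B hAB).symm (fun σ => star (Ω σ) * Ω σ)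

theorem ov_margAB (A B : Finset s) (hAB : Disjoint A B) (Ω : Cfg io → ℂ) :
    margAB (ovVec A B hAB Ω) = ptrE (cfgSplit2 A B hAB) (pureOp Ω) := by
  ext x y
  simp only [margAB, Matrix.of_apply, ptrE_apply, pureOp, vecMulVec_apply, Pi.star_apply, ovVec]
  rfl

theorem ov_miAB (A B : Finset s) (hAB : Disjoint A B) (Ω : Cfg io → ℂ) :
    miAB (margAB (ovVec A B hAB Ω))
      = ent (pureOp Ω) A + ent (pureOp Ω) B - ent (pureOp Ω) (A ∪ B) := by
  rw [ov_margAB, miAB, ent_split2_1, ent_split2_2, ent_split2_all]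

theorem ov_mem (U : Finset s) (t : Fin 2) (x : {x // x ∉ U}) :
    ((t, x.1) : Fin 2 × s) ∈ dsReg (Fin 2) Uᶜ := by
  rw [ds_mem_dsReg, Finset.mem_compl]
  exact x.2

theorem ov_not_mem (U : Finset s) (y : {y // y ∈ dsReg (Fin 2) Uᶜ}) : y.1.2 ∉ U := by
  have := y.2
  rw [ds_mem_dsReg, Finset.mem_compl] at this
  exact this

/-- configurations of the doubled buffer -/
def ovEquiv (U : Finset s) :
    CfgOn (rio io (Fin 2)) (dsReg (Fin 2) Uᶜ) ≃ CfgOff io U × CfgOff io U where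
  toFun a := (fun x => a ⟨(0, x.1), ov_mem U 0 x⟩, fun x => a ⟨(1, x.1), ov_mem U 1 x⟩)
  invFun p := fun y => if y.1.1 = 0 then p.1 ⟨y.1.2, ov_not_mem U y⟩ else p.2 ⟨y.1.2, ov_not_mem U y⟩
  left_inv a := by
    funext ⟨⟨t, x⟩, h⟩
    fin_cases t <;> simp
  right_inv p := by
    refine Prod.ext ?_ ?_
    · funext x
      simp
    · funext x
      simp

/-- generates the equation lemmas of the definitions of this file here (rule 6: unique names) -/
theorem ov_defs_eqns_cite : True := by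
  have := @ovSp.eq_1
  have := @ovVec.eq_1
  have := @ovEquiv.eq_1
  trivial

theorem ov_rcopy_swap (A B : Finset s) (hAB : Disjoint A B) (c : RCfg io (Fin 2)) (t : Fin 2) :
    rcopy (rperm A (Equiv.swap (0 : Fin 2) 1)⁻¹ c) t
      = (ovSp A B hAB).symm (crOn A (rcopy c (Equiv.swap (0 : Fin 2) 1 t)), crOn B (rcopy c t),
          crOff (A ∪ B) (rcopy c t)) := by
  funext x
  rw [ovSp_symm_apply]
  simp only [rcopy, rperm_apply, crOn, crOff]
  by_cases hA : x ∈ A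
  · simp [hA]
  · by_cases hB : x ∈ B <;> simp [hA, hB]

theorem ov_swap_mulVec (A B : Finset s) (hAB : Disjoint A B) (Ω : Cfg io → ℂ)
    (c : RCfg io (Fin 2)) :
    (UQ A (Equiv.swap (0 : Fin 2) 1) *ᵥ tpow (Fin 2) Ω) c
      = ovVec A B hAB Ω (crOn A (rcopy c 1), crOn B (rcopy c 0), crOff (A ∪ B) (rcopy c 0))
        * ovVec A B hAB Ω (crOn A (rcopy c 0), crOn B (rcopy c 1), crOff (A ∪ B) (rcopy c 1)) := by
  rw [UQ_mulVec]
  simp only [tpow, Fin.prod_univ_two, ov_rcopy_swap A B hAB, ovVec]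
  simp

theorem ov_rcopy_cglue (A B : Finset s) (hAB : Disjoint A B) (c : RCfg io (Fin 2))
    (l : CfgOff io (A ∪ B) × CfgOff io (A ∪ B)) (t : Fin 2) :
    rcopy (cglue (io := rio io (Fin 2)) (dsReg (Fin 2) (A ∪ B)ᶜ) ((ovEquiv (A ∪ B)).symm l)
        (crOff (io := rio io (Fin 2)) (dsReg (Fin 2) (A ∪ B)ᶜ) c)) t
      = (ovSp A B hAB).symm (crOn A (rcopy c t), crOn B (rcopy c t),
          if t = 0 then l.1 else l.2) := by
  funext x
  rw [ovSp_symm_apply]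
  simp only [rcopy, cglue, crOn, crOff, ds_mem_dsReg, Finset.mem_compl, Finset.mem_union]
  by_cases hA : x ∈ A
  · simp [hA]
  · by_cases hB : x ∈ B
    · simp [hA, hB]
    · simp only [hA, hB, or_self, not_false_eq_true, dite_true, dite_false]
      simp only [ovEquiv, Equiv.coe_fn_symm_mk]
      by_cases ht : t = 0 <;> simp [ht]

theorem ov_emb_mulVec (A B : Finset s) (hAB : Disjoint A B) (Ω : Cfg io → ℂ)
    (W0 : Matrix (CfgOff io (A ∪ B) × CfgOff io (A ∪ B))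
      (CfgOff io (A ∪ B) × CfgOff io (A ∪ B)) ℂ) (c : RCfg io (Fin 2)) :
    (emb (io := rio io (Fin 2)) (dsReg (Fin 2) (A ∪ B)ᶜ)
        (W0.submatrix (ovEquiv (A ∪ B)) (ovEquiv (A ∪ B))) *ᵥ tpow (Fin 2) Ω) c
      = ∑ l₁, ∑ l₂, W0 (crOff (A ∪ B) (rcopy c 0), crOff (A ∪ B) (rcopy c 1)) (l₁, l₂)
          * (ovVec A B hAB Ω (crOn A (rcopy c 0), crOn B (rcopy c 0), l₁)
            * ovVec A B hAB Ω (crOn A (rcopy c 1), crOn B (rcopy c 1), l₂)) := by
  rw [sp_emb_mulVec, ← Fintype.sum_prod_type']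
  refine Fintype.sum_equiv (ovEquiv (A ∪ B)) _ _ fun a' => ?_
  have e : a' = (ovEquiv (A ∪ B)).symm (ovEquiv (A ∪ B) a') := by simp
  conv_lhs => rw [e]
  simp only [tpow, Fin.prod_univ_two, ov_rcopy_cglue A B hAB, ovVec, submatrix_apply,
    Equiv.apply_symm_apply]
  have e2 : ovEquiv (A ∪ B) (crOn (io := rio io (Fin 2)) (dsReg (Fin 2) (A ∪ B)ᶜ) c)
      = (crOff (A ∪ B) (rcopy c 0), crOff (A ∪ B) (rcopy c 1)) := rfl
  rw [e2]
  simp

/-- both copies in split coordinates -/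
def ovE (A B : Finset s) (hAB : Disjoint A B) :
    RCfg io (Fin 2) ≃ (CfgOn io A × CfgOn io B × CfgOff io (A ∪ B))
      × (CfgOn io A × CfgOn io B × CfgOff io (A ∪ B)) :=
  (rcfgEquiv.trans (finTwoArrowEquiv (Cfg io))).trans
    ((ovSp A B hAB).prodCongr (ovSp A B hAB))

theorem ov_defs_eqns_cite2 : True := by
  have := @ovE.eq_1
  trivial

theorem ovE_apply (A B : Finset s) (hAB : Disjoint A B) (c : RCfg io (Fin 2)) :
    ovE A B hAB c = ((crOn A (rcopy c 0), crOn B (rcopy c 0), crOff (A ∪ B) (rcopy c 0)),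
      (crOn A (rcopy c 1), crOn B (rcopy c 1), crOff (A ∪ B) (rcopy c 1))) := rfl

theorem ov_main (A B : Finset s) (hAB : Disjoint A B) (Ω : Cfg io → ℂ)
    (W0 : Matrix (CfgOff io (A ∪ B) × CfgOff io (A ∪ B))
      (CfgOff io (A ∪ B) × CfgOff io (A ∪ B)) ℂ) :
    star (UQ A (Equiv.swap (0 : Fin 2) 1) *ᵥ tpow (Fin 2) Ω) ⬝ᵥ
      (emb (io := rio io (Fin 2)) (dsReg (Fin 2) (A ∪ B)ᶜ)
        (W0.submatrix (ovEquiv (A ∪ B)) (ovEquiv (A ∪ B))) *ᵥ tpow (Fin 2) Ω)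
    = ∑ i₁, ∑ j₁, ∑ k₁, ∑ i₂, ∑ j₂, ∑ k₂,
        star (ovVec A B hAB Ω (i₂, j₁, k₁) * ovVec A B hAB Ω (i₁, j₂, k₂)) *
          ∑ l₁, ∑ l₂, W0 (k₁, k₂) (l₁, l₂) *
            (ovVec A B hAB Ω (i₁, j₁, l₁) * ovVec A B hAB Ω (i₂, j₂, l₂)) := by
  set G : (CfgOn io A × CfgOn io B × CfgOff io (A ∪ B))
      × (CfgOn io A × CfgOn io B × CfgOff io (A ∪ B)) → ℂ := fun p =>
    star (ovVec A B hAB Ω (p.2.1, p.1.2.1, p.1.2.2) * ovVec A B hAB Ω (p.1.1, p.2.2.1, p.2.2.2)) *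
      ∑ l₁, ∑ l₂, W0 (p.1.2.2, p.2.2.2) (l₁, l₂) *
        (ovVec A B hAB Ω (p.1.1, p.1.2.1, l₁) * ovVec A B hAB Ω (p.2.1, p.2.2.1, l₂)) with hG
  have h1 : star (UQ A (Equiv.swap (0 : Fin 2) 1) *ᵥ tpow (Fin 2) Ω) ⬝ᵥ
      (emb (io := rio io (Fin 2)) (dsReg (Fin 2) (A ∪ B)ᶜ)
        (W0.submatrix (ovEquiv (A ∪ B)) (ovEquiv (A ∪ B))) *ᵥ tpow (Fin 2) Ω)
      = ∑ c, G (ovE A B hAB c) := by
    simp only [dotProduct, Pi.star_apply]
    refine Finset.sum_congr rfl fun c _ => ?_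
    rw [ov_swap_mulVec A B hAB, ov_emb_mulVec A B hAB, ovE_apply]
  rw [h1, Equiv.sum_comp (ovE A B hAB) G]
  simp only [Fintype.sum_prod_type, hG]

end General

variable {q : ℕ} [NeZero q] {J Δ : ℝ} {L : ℕ}

theorem GModel.exists_overlap_op (M : GModel q J Δ L) (R Cc : Finset (GSite L))
    (hd : Disjoint R Cc) :
    ∃ (W : Matrix (DCfg q L) (DCfg q L) ℂ) (z : ℝ),
      SuppIn (io := rio (gio q L) (Fin 2)) (dreg (R ∪ Cc)ᶜ) W ∧ ‖W‖ ≤ 1 ∧
      Real.exp (-(2 * M.I R Cc)) ≤ z ∧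
      ipC (colV (M.Φ2 R)) (W * colV M.Ψ2) = (z : ℂ) := by
  obtain ⟨W0, z, -, hW0n, hz, hsum⟩ := swap_overlap (ovVec (io := gio q L) R Cc hd M.Ω)
    ((ovVec_dot (io := gio q L) R Cc hd M.Ω).trans M.nrm)
  refine ⟨emb (io := rio (gio q L) (Fin 2)) (dsReg (Fin 2) (R ∪ Cc)ᶜ)
    (W0.submatrix (ovEquiv (R ∪ Cc)) (ovEquiv (R ∪ Cc))), z, ⟨_, rfl⟩, ?_, ?_, ?_⟩
  · refine (norm_emb_le _ _).trans ((tl_norm_submatrix_le W0 _ _ (ovEquiv (R ∪ Cc)).injective
      (ovEquiv (R ∪ Cc)).injective).trans hW0n)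
  · rw [ov_miAB (io := gio q L) R Cc hd M.Ω] at hz
    exact hz
  · rw [← colV_mulVec, ipC_colV, ← hsum]
    exact ov_main (io := gio q L) R Cc hd M.Ω W0

end Claimed.Agent.R296
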