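import Claimed.Agent.R296.P2.FrEnc
import Claimed.Agent.R296.P2.Split
import Claimed.Agent.R296.P2.FrBirthA
import Claimed.Agent.R296.P2.ResetOv

/-!
# Row 296, paper 2, Lemmas 5.5, 5.6 (`lem:splitting`, `lem:birth`): birth and death (LEAF `P2-FR-BIRTH`, prefix `frb_`)

`frb_split_sites` = transport of `split_dist` (`SplitIso.lean`) to sites (`a = CfgOn T`, `b = CfgOn E`, `u = CfgOff (T ∪ E)`;
`miAB (margAB Ω') = minfo (pureOp Ω) T E`; see `ResetOv.lean`/`EntSite.lean` for the same transport).  It is also used by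
`FrExch.lean`.

BIRTH.  `E = {owner ≠ P} ∪ H⁺`, `U = (T ∪ E)ᶜ` is raw, outside all holes, owned by `P`.  Canonical one-sheet map
`B = 𝒱† (|s⟩⟨s|_{T bT} ⊗ 1) 𝒱`, `𝒱 = 1_{TE} ⊗ V`; `B = emb (T ∪ U) K_B`, Hermitian contraction,
`‖(B - 1)Ω‖ ≤ ‖(Π - 1)(𝒱Ω - s ⊗ s')‖ ≤ √δ`.  `frSheet s B` commutes with all encoders (`fre_enc_sheet_commute`), so
`‖frSheet s B ref - ref‖ ≤ √δ`, and `ref` does not depend on the owners.
GATE: one label, one source step between `Q` (half `CfgOn T`) and `P` (half `bT`):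
  `link = ∑_{τ,β} s(τ,β) · cpLoc Q (write τ on the slots (s,T)) · cpLoc P (Y_β)`,
  `Y_β = |0_T⟩ ⊗ V†(|β⟩ ⊗ ·) ∘ (⟨s|_{T bT} ⊗ 1_{bE}) ∘ (1_T ⊗ V)` on the slots `(s, T ∪ U)` of `P` (row contraction in `β`).
  Use helper212's constructor of a step from a pair vector and two insertion families (Schmidt decomposition inside).
  Check `link = frLift own own' (frSheet s B)` (or only the intertwining with `frGlob`), then `frs_lift_glob`.
DEATH: the adjoint picture: one effect step `⟨s|` on `T` (at `Q`) and `bT` (at `P`), the same canonical `B`.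
If `P = Q` the empty list of gates does it.

STATUS: PROVED (helper46), statements verbatim.  Abstract part (`fba_*`: `W = 1 ⊗ V`, `S = s ⊗ 1`, `B = W† S S† W`, write/read
families, `‖(B - 1)ω‖ ≤ ‖Wω - S s'‖`) in `FrBirthA.lean`.  Reusable here: `frb_onesheet` (one-sheet data `η, A, Yo` with
`B = ∑ η x y • A x * Yo y` Hermitian, supported off `E`, `‖BΩ - Ω‖² ≤ δ`), `frb_sheet_row/contr/range`, `frb_loc_eq`,
`frb_handover` (two one-party operators, the first empties the registers which change hands), `frb_link`,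
`frb_err` (one-sheet operator off the holes acts on `frRef` as on `Ω`), `frb_impl_of_step`, `frb_final`.
No case distinction `P = Q` is needed (one source/effect step between `P` and `Q` in all cases).
-/

set_option autoImplicit false
set_option linter.unusedSectionVars false

namespace Claimed.Agent.R296

open Matrix

variable {PP SH Λ HI : Type} [Fintype PP] [DecidableEq PP] [Fintype SH] [DecidableEq SH]
  [Fintype Λ] [DecidableEq Λ] [Fintype HI] [DecidableEq HI] {q : ℕ} [NeZero q]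

/-- glue configurations on `T`, on `E` and off `T ∪ E` -/
def frGlue3 (T E : Finset Λ) (τ : CfgOn (fun _ : Λ => Fin q) T) (e : CfgOn (fun _ : Λ => Fin q) E)
    (u : CfgOff (fun _ : Λ => Fin q) (T ∪ E)) : Λ → Fin q :=
  fun x => if h : x ∈ T then τ ⟨x, h⟩ else if h' : x ∈ E then e ⟨x, h'⟩ else
    u ⟨x, by simp [h, h']⟩

theorem frb_nsq_of_dot {n : Type} [Fintype n] {v : n → ℂ} (h : star v ⬝ᵥ v = 1) : cpNsq v = 1 := by
  have e : ((cpNsq v : ℝ) : ℂ) = 1 := by
    rw [← cpIp_self, ← h]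
    rfl
  exact_mod_cast e

/-- Lemma 5.5 on sites -/
theorem frb_split_sites (Ω : (Λ → Fin q) → ℂ) (hΩ : star Ω ⬝ᵥ Ω = 1) (T E : Finset Λ)
    (hTE : Disjoint T E) (δ : ℝ)
    (h : minfo (io := fun _ : Λ => Fin q) (pureOp Ω) T E ≤ δ) :
    ∃ (bT bE : Type) (_ : Fintype bT) (_ : DecidableEq bT) (_ : Fintype bE) (_ : DecidableEq bE)
      (V : Matrix (bT × bE) (CfgOff (fun _ : Λ => Fin q) (T ∪ E)) ℂ)
      (s : CfgOn (fun _ : Λ => Fin q) T × bT → ℂ) (s' : CfgOn (fun _ : Λ => Fin q) E × bE → ℂ),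
      Vᴴ * V = 1 ∧ cpNsq s = 1 ∧ cpNsq s' = 1 ∧
      ∑ τ, ∑ e, ∑ β, ∑ γ,
        ‖(∑ u, V (β, γ) u * Ω (frGlue3 T E τ e u)) - s (τ, β) * s' (e, γ)‖ ^ 2 ≤ δ := by
  obtain ⟨V, s, s', hV, hs, hs', hd⟩ := split_dist (ovVec (io := fun _ : Λ => Fin q) T E hTE Ω)
    ((ovVec_dot (io := fun _ : Λ => Fin q) T E hTE Ω).trans hΩ)
  have e := ov_miAB (io := fun _ : Λ => Fin q) T E hTE Ω
  exact ⟨_, _, inferInstance, inferInstance, inferInstance, inferInstance, V, s, s', hV,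
    frb_nsq_of_dot hs, frb_nsq_of_dot hs', hd.trans (e.le.trans h)⟩


/-! ### one sheet -/

section OneSheet

/-- one sheet in the coordinates `((T, U), E)` -/
def frbE (q : ℕ) (T E : Finset Λ) (hTE : Disjoint T E) :
    (Λ → Fin q) ≃ (CfgOn (fun _ : Λ => Fin q) T × CfgOff (fun _ : Λ => Fin q) (T ∪ E)) ×
      CfgOn (fun _ : Λ => Fin q) E :=
  (ovSp (io := fun _ : Λ => Fin q) T E hTE).trans
    { toFun := fun p => ((p.1, p.2.2), p.2.1)
      invFun := fun p => (p.1.1, p.2, p.1.2)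
      left_inv := fun _ => rfl
      right_inv := fun _ => rfl }

theorem frbE_apply (T E : Finset Λ) (hTE : Disjoint T E) (σ : Λ → Fin q) :
    frbE q T E hTE σ = ((crOn T σ, crOff (T ∪ E) σ), crOn E σ) := rfl

theorem frbE_symm_apply (T E : Finset Λ) (hTE : Disjoint T E)
    (τ : CfgOn (fun _ : Λ => Fin q) T) (u : CfgOff (fun _ : Λ => Fin q) (T ∪ E))
    (e : CfgOn (fun _ : Λ => Fin q) E) : (frbE q T E hTE).symm ((τ, u), e) = frGlue3 T E τ e u := rfl

/-- operators `K ⊗ 1_E` are supported off `E` -/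
theorem frb_suppIn_embE (T E : Finset Λ) (hTE : Disjoint T E)
    (K : Matrix (CfgOn (fun _ : Λ => Fin q) T × CfgOff (fun _ : Λ => Fin q) (T ∪ E))
      (CfgOn (fun _ : Λ => Fin q) T × CfgOff (fun _ : Λ => Fin q) (T ∪ E)) ℂ) :
    SuppIn (io := fun _ : Λ => Fin q) Eᶜ (embE (frbE q T E hTE) K) := by
  rw [suppIn_iff]
  refine ⟨fun σ τ hx => ?_, fun σ τ ρ hσ => ?_⟩
  · obtain ⟨x, hx, hne⟩ := hx
    rw [embE_apply, if_neg]
    intro h2
    rw [Finset.mem_compl, not_not] at hx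
    exact hne (congrFun h2 ⟨x, hx⟩)
  · have a1 : ∀ υ : Λ → Fin q, (frbE q T E hTE (cmix (io := fun _ : Λ => Fin q) Eᶜ υ ρ)).1
        = (frbE q T E hTE υ).1 := by
      intro υ
      refine Prod.ext ?_ ?_
      · funext x
        have hx : x.1 ∉ E := Finset.disjoint_left.1 hTE x.2
        simp [frbE_apply, crOn, cmix, hx]
      · funext x
        have hx : x.1 ∉ E := fun h => x.2 (Finset.mem_union_right _ h)
        simp [frbE_apply, crOff, cmix, hx]
    have a2 : (frbE q T E hTE (cmix (io := fun _ : Λ => Fin q) Eᶜ σ ρ)).2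
        = (frbE q T E hTE (cmix (io := fun _ : Λ => Fin q) Eᶜ τ ρ)).2 := by
      funext x
      simp [frbE_apply, crOn, cmix, x.2]
    have a3 : (frbE q T E hTE σ).2 = (frbE q T E hTE τ).2 := by
      funext x
      exact hσ x.1 (by simp [x.2])
    rw [embE_apply, embE_apply, if_pos a2, if_pos a3, a1, a1]

theorem frb_embE_apply (T E : Finset Λ) (hTE : Disjoint T E)
    (K : Matrix (CfgOn (fun _ : Λ => Fin q) T × CfgOff (fun _ : Λ => Fin q) (T ∪ E))
      (CfgOn (fun _ : Λ => Fin q) T × CfgOff (fun _ : Λ => Fin q) (T ∪ E)) ℂ) (σ' σ : Λ → Fin q) :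
    embE (frbE q T E hTE) K σ' σ = if crOn (io := fun _ : Λ => Fin q) E σ' = crOn E σ then
      K (crOn T σ', crOff (T ∪ E) σ') (crOn T σ, crOff (T ∪ E) σ) else 0 := rfl

/-- the write operators are supported in `T` -/
theorem frb_suppIn_A (T E : Finset Λ) (hTE : Disjoint T E) (z τ : CfgOn (fun _ : Λ => Fin q) T) :
    SuppIn (io := fun _ : Λ => Fin q) T (embE (frbE q T E hTE) (fbaA _ z τ)) := by
  refine ⟨Matrix.single τ z 1, ?_⟩
  ext σ' σ
  rw [frb_embE_apply]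
  simp only [fbaA, Matrix.of_apply, emb, Matrix.single_apply]
  by_cases h : crOff (io := fun _ : Λ => Fin q) T σ' = crOff T σ
  · have h1 : crOn (io := fun _ : Λ => Fin q) E σ' = crOn E σ := by
      funext x
      exact congrFun h ⟨x.1, fun hx => Finset.disjoint_left.1 hTE hx x.2⟩
    have h2 : crOff (io := fun _ : Λ => Fin q) (T ∪ E) σ' = crOff (T ∪ E) σ := by
      funext x
      exact congrFun h ⟨x.1, fun hx => x.2 (Finset.mem_union_left _ hx)⟩
    rw [if_pos h, if_pos h1]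
    simp only [h2, and_true]
    congr 1
    apply propext
    constructor
    · rintro ⟨h3, h4⟩
      exact ⟨h3.symm, h4.symm⟩
    · rintro ⟨h3, h4⟩
      exact ⟨h3.symm, h4.symm⟩
  · rw [if_neg h]
    by_cases h1 : crOn (io := fun _ : Λ => Fin q) E σ' = crOn E σ
    · rw [if_pos h1, if_neg]
      rintro ⟨-, -, h2⟩
      apply h
      funext x
      by_cases hx : x.1 ∈ E
      · exact congrFun h1 ⟨x.1, hx⟩
      · exact congrFun h2 ⟨x.1, by simp [x.2, hx]⟩
    · rw [if_neg h1]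

/-- the one-sheet data of a birth / death: `B = ∑ η x y • A x * Yo y` is the map (birth-map) -/
theorem frb_onesheet (Ω : (Λ → Fin q) → ℂ) (hΩ : star Ω ⬝ᵥ Ω = 1) (T E : Finset Λ)
    (hTE : Disjoint T E) (δ : ℝ) (h : minfo (io := fun _ : Λ => Fin q) (pureOp Ω) T E ≤ δ) :
    ∃ (X Y : Type) (_ : Fintype X) (_ : DecidableEq X) (_ : Fintype Y) (_ : DecidableEq Y)
      (η : X → Y → ℂ) (A : X → Matrix (Λ → Fin q) (Λ → Fin q) ℂ)
      (Yo : Y → Matrix (Λ → Fin q) (Λ → Fin q) ℂ),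
      (∑ x, ∑ y, ‖η x y‖ ^ 2 = 1) ∧ CpRow A ∧ CpRow Yo ∧
      (∀ x, SuppIn (io := fun _ : Λ => Fin q) T (A x)) ∧
      (∀ y, SuppIn (io := fun _ : Λ => Fin q) Eᶜ (Yo y)) ∧
      (∀ y σ' σ, (∃ t ∈ T, σ' t ≠ 0) → Yo y σ' σ = 0) ∧
      (∀ x σ' σ, (∃ t ∈ T, σ' t ≠ 0) → (A x)ᴴ σ' σ = 0) ∧
      (∑ x, ∑ y, η x y • (A x * Yo y))ᴴ = ∑ x, ∑ y, η x y • (A x * Yo y) ∧
      SuppIn (io := fun _ : Λ => Fin q) Eᶜ (∑ x, ∑ y, η x y • (A x * Yo y)) ∧
      cpNsq ((∑ x, ∑ y, η x y • (A x * Yo y)) *ᵥ Ω - Ω) ≤ δ := by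
  obtain ⟨bT, bE, i1, i2, i3, i4, V, s, s', hV, hs, hs', hd⟩ := frb_split_sites Ω hΩ T E hTE δ h
  set e := frbE q T E hTE with he
  let z : CfgOn (fun _ : Λ => Fin q) T := fun _ => 0
  have hB : embE e (fbaB V s)
      = ∑ τ, ∑ β, s (τ, β) • (embE e (fbaA _ z τ) * embE e (fbaY z V s β)) := by
    rw [fba_B_eq z, ← embEHom_apply, map_sum]
    simp only [map_sum, map_smul, map_mul, embEHom_apply]
  have hz : ∀ σ' : Λ → Fin q, (∃ t ∈ T, σ' t ≠ 0) → crOn (io := fun _ : Λ => Fin q) T σ' ≠ z := by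
    rintro σ' ⟨t, ht, h0⟩ h1
    exact h0 (congrFun h1 ⟨t, ht⟩)
  refine ⟨CfgOn (fun _ : Λ => Fin q) T, bT, inferInstance, inferInstance, i1, i2,
    fun τ β => s (τ, β), fun τ => embE e (fbaA _ z τ), fun β => embE e (fbaY z V s β),
    ?_, ?_, ?_, fun τ => frb_suppIn_A T E hTE z τ, fun β => frb_suppIn_embE T E hTE _, ?_, ?_, ?_, ?_,
    ?_⟩
  · rw [← hs, cpNsq, Fintype.sum_prod_type]
  · exact fba_row_lift (embE e) (embE_zero e) (embE_add e) (embE_mul e) (embE_conjTranspose e)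
      (fun X hX => fba_embE_contr e hX) (fba_row_A z)
  · exact fba_row_lift (embE e) (embE_zero e) (embE_add e) (embE_mul e) (embE_conjTranspose e)
      (fun X hX => fba_embE_contr e hX) (fba_row_Y z hV hs)
  · intro β σ' σ h0
    show embE (frbE q T E hTE) (fbaY z V s β) σ' σ = 0
    rw [frb_embE_apply]
    split_ifs
    · exact fba_Y_zero z V s β _ _ (hz σ' h0)
    · rfl
  · intro τ σ' σ h0
    show (embE (frbE q T E hTE) (fbaA _ z τ))ᴴ σ' σ = 0
    rw [← embE_conjTranspose, frb_embE_apply]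
    split_ifs
    · exact fba_A_adj_zero z τ _ _ (hz σ' h0)
    · rfl
  · rw [← hB, ← embE_conjTranspose, fba_B_herm]
  · rw [← hB]
    exact frb_suppIn_embE T E hTE _
  · rw [← hB, fba_nsq_fib e]
    have h1 : ∀ k, cpNsq (fbaFib e (embE e (fbaB V s) *ᵥ Ω - Ω) k)
        ≤ cpNsq (fbaW _ V *ᵥ fbaFib e Ω k - fbaS _ s *ᵥ fun γ => s' (k, γ)) := by
      intro k
      rw [fba_fib_sub, fba_fib_embE]
      exact fba_dist hV hs _ _
    refine (Finset.sum_le_sum fun k _ => h1 k).trans (le_trans (le_of_eq ?_) hd)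
    unfold cpNsq
    simp only [Fintype.sum_prod_type, Pi.sub_apply, fba_W_mulVec, fba_S_mulVec]
    rw [Finset.sum_comm]
    rfl

end OneSheet


/-! ### from one sheet to the canonical registers -/

section Sheet

variable {nb : HI → ℕ}

theorem frb_sheet_contr (s : SH) {X : Matrix (Λ → Fin q) (Λ → Fin q) ℂ} (h : CpContr X) :
    CpContr (frSheet (nb := nb) s X) := by
  have h1 : FrBd X 1 := fun v => by simpa using h v
  intro v
  simpa using fre_sheet_bd (nb := nb) s X 1 h1 v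

theorem frb_sheet_row (s : SH) {α : Type} [Fintype α] {t : α → Matrix (Λ → Fin q) (Λ → Fin q) ℂ}
    (h : CpRow t) : CpRow fun i => frSheet (nb := nb) s (t i) :=
  fba_row_lift (frSheet (nb := nb) s) (fre_sheet_zero s) (fre_sheet_add s) (fre_sheet_mul s)
    (fre_sheet_conjTranspose s) (fun _ hX => frb_sheet_contr s hX) h

/-- the range of `frSheet s X` inherits the zeros of the range of `X` -/
theorem frb_sheet_range (s : SH) (T : Finset Λ) {X : Matrix (Λ → Fin q) (Λ → Fin q) ℂ}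
    (hz : ∀ σ' σ, (∃ t ∈ T, σ' t ≠ 0) → X σ' σ = 0) (ψ : FrCfg SH Λ q nb → ℂ)
    (c : FrCfg SH Λ q nb) (x : Λ) (hx : x ∈ T) (hc : frRaw c s x ≠ 0) :
    (frSheet s X *ᵥ ψ) c = 0 := by
  refine Finset.sum_eq_zero fun c₀ _ => ?_
  have h0 : frSheet s X c c₀ = 0 := by
    unfold frSheet
    simp only [Matrix.of_apply]
    split_ifs
    · exact hz _ _ ⟨x, hx, hc⟩
    · rfl
  show frSheet s X c c₀ * ψ c₀ = 0
  rw [h0, zero_mul]

end Sheet

/-! ### the slot memory -/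

section Slot

variable {nb : HI → ℕ}

theorem frb_glob_smul (own : FrReg SH Λ HI → PP) (c : ℂ) (ψ : FrCfg SH Λ q nb → ℂ) :
    frGlob own (c • ψ) = c • frGlob own ψ := by
  funext m
  simp only [frGlob, Pi.smul_apply, smul_eq_mul]
  split_ifs
  · rfl
  · rw [mul_zero]

theorem frb_glob_sum {ι : Type} (own : FrReg SH Λ HI → PP) (S : Finset ι)
    (ψ : ι → FrCfg SH Λ q nb → ℂ) : frGlob own (∑ i ∈ S, ψ i) = ∑ i ∈ S, frGlob own (ψ i) := by
  funext m
  simp only [frGlob, Finset.sum_apply]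
  split_ifs
  · rfl
  · rw [Finset.sum_const_zero]

/-- a one-sheet operator supported on sites of one party is a one-party operator -/
theorem frb_loc_eq (own : FrReg SH Λ HI → PP) (s : SH) (P : PP) (D : Finset Λ)
    (hD : ∀ x ∈ D, own (.inl (s, x)) = P) {X : Matrix (Λ → Fin q) (Λ → Fin q) ℂ}
    (hX : SuppIn (io := fun _ : Λ => Fin q) D X) :
    cpLoc (Mem := FrMem PP SH Λ q nb) P (frSheet s X) = frLift own own (frSheet s X) := by
  obtain ⟨K, rfl⟩ := hX
  obtain ⟨K', hK'⟩ := fre_sheet_suppIn (nb := nb) s D K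
  rw [hK']
  refine (frs_lift_priv own P _ ?_ K').symm
  intro r hr
  obtain ⟨x, hx, rfl⟩ := Finset.mem_image.1 hr
  exact hD x hx

/-- **handover**: `X₁` acts at the old owner and empties the registers which change hands, `X₂` acts at a new owner -/
theorem frb_handover (own own' : FrReg SH Λ HI → PP) (s : SH) (P₁ P₂ : PP) (D₁ D₂ T : Finset Λ)
    {X₁ X₂ : Matrix (Λ → Fin q) (Λ → Fin q) ℂ}
    (h₁ : SuppIn (io := fun _ : Λ => Fin q) D₁ X₁) (h₂ : SuppIn (io := fun _ : Λ => Fin q) D₂ X₂)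
    (hD₁ : ∀ x ∈ D₁, own (.inl (s, x)) = P₁) (hD₂ : ∀ x ∈ D₂, own' (.inl (s, x)) = P₂)
    (hchg : ∀ r, own r ≠ own' r → ∃ x ∈ T, r = .inl (s, x))
    (hz : ∀ σ' σ, (∃ t ∈ T, σ' t ≠ 0) → X₁ σ' σ = 0) (ψ : FrCfg SH Λ q nb → ℂ) :
    (cpLoc (Mem := FrMem PP SH Λ q nb) P₂ (frSheet s X₂) *
        cpLoc (Mem := FrMem PP SH Λ q nb) P₁ (frSheet s X₁)) *ᵥ frGlob own ψ
      = frGlob own' (frSheet s (X₂ * X₁) *ᵥ ψ) := by
  have hc : frGlob own (frSheet s X₁ *ᵥ ψ) = frGlob own' (frSheet s X₁ *ᵥ ψ) := by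
    refine frs_glob_congr own own' _ ?_
    intro σ r hr hσ
    obtain ⟨x, hx, rfl⟩ := hchg r hr
    exact frb_sheet_range s T hz ψ σ x hx hσ
  rw [← mulVec_mulVec, frb_loc_eq own s P₁ D₁ hD₁ h₁, frs_lift_glob, hc,
    frb_loc_eq own' s P₂ D₂ hD₂ h₂, frs_lift_glob, mulVec_mulVec, ← fre_sheet_mul]

/-- the link operator of a birth / death step in the slot memory -/
theorem frb_link (own own' : FrReg SH Λ HI → PP) (s : SH) (P₁ P₂ : PP) (D₁ D₂ T : Finset Λ)
    {X Y : Type} [Fintype X] [Fintype Y] (η : X → Y → ℂ)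
    (X₂ : X → Matrix (Λ → Fin q) (Λ → Fin q) ℂ) (X₁ : Y → Matrix (Λ → Fin q) (Λ → Fin q) ℂ)
    (h₁ : ∀ y, SuppIn (io := fun _ : Λ => Fin q) D₁ (X₁ y))
    (h₂ : ∀ x, SuppIn (io := fun _ : Λ => Fin q) D₂ (X₂ x))
    (hD₁ : ∀ x ∈ D₁, own (.inl (s, x)) = P₁) (hD₂ : ∀ x ∈ D₂, own' (.inl (s, x)) = P₂)
    (hchg : ∀ r, own r ≠ own' r → ∃ x ∈ T, r = .inl (s, x))
    (hz : ∀ y σ' σ, (∃ t ∈ T, σ' t ≠ 0) → X₁ y σ' σ = 0) (ψ : FrCfg SH Λ q nb → ℂ) :
    (∑ x, ∑ y, η x y • (cpLoc (Mem := FrMem PP SH Λ q nb) P₂ (frSheet s (X₂ x)) *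
        cpLoc (Mem := FrMem PP SH Λ q nb) P₁ (frSheet s (X₁ y)))) *ᵥ frGlob own ψ
      = frGlob own' (frSheet s (∑ x, ∑ y, η x y • (X₂ x * X₁ y)) *ᵥ ψ) := by
  simp only [fre_sheet_sum, fre_sheet_smul, Matrix.sum_mulVec, Matrix.smul_mulVec, frb_glob_sum,
    frb_glob_smul]
  refine Finset.sum_congr rfl fun x _ => Finset.sum_congr rfl fun y _ => ?_
  rw [frb_handover own own' s P₁ P₂ D₁ D₂ T (h₁ y) (h₂ x) hD₁ hD₂ hchg (hz y) ψ]

end Slot

/-! ### the reference vector -/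

section Ref

variable {Ω : (Λ → Fin q) → ℂ} {ε : ℝ} (pat : HI → FrPatch Ω ε)

/-- a one-sheet operator supported off the holes acts on the reference vector as on `Ω` -/
theorem frb_err (hΩ : star Ω ⬝ᵥ Ω = 1) (st : FrState PP SH Λ HI) (s : SH) (D : Finset Λ)
    (hD : Disjoint D (frOut pat (st.hs s))) {B : Matrix (Λ → Fin q) (Λ → Fin q) ℂ}
    (hB : SuppIn (io := fun _ : Λ => Fin q) D B) :
    cpNsq (frSheet s B *ᵥ frRef pat st - frRef pat st) ≤ cpNsq (B *ᵥ Ω - Ω) := by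
  have hc : Commute (frSheet s B) (frEncs pat st.hol) := by
    refine fre_encs_commute pat _ _ fun p hp => ?_
    by_cases hs : p.1 = s
    · obtain ⟨K, rfl⟩ := hB
      have hp' : p.2 ∈ st.hs s := by
        rw [fre_mem_hs, ← hs]
        exact hp
      have h1 : Disjoint D (pat p.2).out :=
        Finset.disjoint_of_subset_right (fre_out_subset_frOut pat hp') hD
      rw [hs]
      exact (fre_enc_sheet_commute pat s p.2 D h1 K).symm
    · exact (fre_enc_sheet_commute' pat hs p.2 B).symm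
  have e : frSheet s B *ᵥ frRef pat st - frRef pat st
      = frEncs pat st.hol *ᵥ (frSheet s (B - 1) *ᵥ frBase (frNb pat) Ω) := by
    unfold frRef
    rw [mulVec_mulVec, hc.eq, fre_sheet_sub, fre_sheet_one, Matrix.sub_mulVec, Matrix.one_mulVec,
      Matrix.mulVec_sub, mulVec_mulVec]
  rw [e]
  refine (fre_encs_contr pat st.hol _).trans (le_of_eq ?_)
  rw [fre_sheet_base _ _ hΩ, Matrix.sub_mulVec, Matrix.one_mulVec]

/-- one gate with one step -/
theorem frb_impl_of_step {Mem : PP → Type} [∀ P, Fintype (Mem P)] [∀ P, DecidableEq (Mem P)]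
    (u v : Cfg Mem → ℂ) (err : ℝ) (P Q : PP) (step : CpStep Mem Unit) (hv : step.Valid)
    (hP : step.P ∈ ({P, Q} : Finset PP)) (hQ : step.Q ∈ ({P, Q} : Finset PP))
    (h : cpNsq (step.link () *ᵥ u - v) ≤ err ^ 2) : FrImpl u v err {P, Q} 1 1 3 3 := by
  refine ⟨1, fun _ => CpGate.single 1 (fun _ => step) P, by norm_num,
    fun _ => CpGate.single_valid _ _ _ fun _ => hv, fun _ => ?_, fun _ => ?_, ?_,
    Finset.univ, by simp, fun _ _ => ⟨?_, (CpGate.single_cost _ _ _).le⟩,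
    fun i hi => absurd (Finset.mem_univ i) hi⟩
  · show 1 ≤ 3
    norm_num
  · show Fintype.card Unit ≤ 1
    simp
  · simp only [cpTprod, CpGate.single_op, mul_one]
    exact h
  · show insert P ((Finset.univ : Finset (Fin 1)).biUnion fun _ => ({step.P, step.Q} : Finset PP))
      ⊆ {P, Q}
    intro R hR
    simp only [Finset.mem_insert, Finset.mem_biUnion, Finset.mem_univ, true_and,
      Finset.mem_singleton, exists_const] at hR
    rcases hR with rfl | rfl | rfl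
    · simp
    · exact hP
    · exact hQ

/-- the error of an implementation of the one-sheet map `B` -/
theorem frb_final (hΩ : star Ω ⬝ᵥ Ω = 1) (st st' : FrState PP SH Λ HI) (hh : st'.hol = st.hol)
    (s : SH) (D : Finset Λ) (hD : Disjoint D (frOut pat (st.hs s)))
    {B : Matrix (Λ → Fin q) (Λ → Fin q) ℂ} (hB : SuppIn (io := fun _ : Λ => Fin q) D B) (δ : ℝ)
    (hδ : cpNsq (B *ᵥ Ω - Ω) ≤ δ)
    (L : Matrix (Cfg (FrMem PP SH Λ q (frNb pat))) (Cfg (FrMem PP SH Λ q (frNb pat))) ℂ)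
    (hL : L *ᵥ frGlob st.own (frRef pat st) = frGlob st'.own (frSheet s B *ᵥ frRef pat st)) :
    cpNsq (L *ᵥ frVec pat st - frVec pat st') ≤ Real.sqrt δ ^ 2 := by
  have h0 : 0 ≤ δ := (cpNsq_nonneg _).trans hδ
  have e : frRef pat st' = frRef pat st := by
    unfold frRef
    rw [hh]
  unfold frVec
  rw [hL, e, ← frs_glob_sub, frs_glob_nsq, Real.sq_sqrt h0]
  exact (frb_err pat hΩ st s D hD hB).trans hδ

end Ref

variable {Ω : (Λ → Fin q) → ℂ} {ε : ℝ} (pat : HI → FrPatch Ω ε)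

theorem frb_impl_birth (hΩ : star Ω ⬝ᵥ Ω = 1) (δ : ℝ) (m0 h0 b : ℕ) (st : FrState PP SH Λ HI)
    (hst : st.WF pat) (s : SH) (T : Finset Λ) (P Q : PP)
    (ho : (FrOp.birth s T P Q).Ok pat δ m0 h0 b st) :
    FrImpl (frVec pat st) (frVec pat ((FrOp.birth s T P Q).next pat st)) (Real.sqrt δ) {P, Q} 1 1 3 3 := by
  obtain ⟨hT, hTo, hmi⟩ := ho
  set E : Finset Λ := (Finset.univ.filter fun x => st.ow s x ≠ P) ∪ frOut pat (st.hs s) with hE
  have hTE : Disjoint T E := by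
    rw [hE, Finset.disjoint_union_right]
    refine ⟨?_, hTo⟩
    rw [Finset.disjoint_left]
    intro x hx hx'
    exact (Finset.mem_filter.1 hx').2 (hT x hx)
  obtain ⟨X, Y, i1, i2, i3, i4, η, A, Yo, hη, hA, hY, hAs, hYs, hYz, -, -, hBs, hBd⟩ :=
    frb_onesheet Ω hΩ T E hTE δ hmi
  refine frb_impl_of_step _ _ _ P Q
    (CpStep.sourceVec Q P X Y (fun _ => η) (fun _ x => frSheet s (A x)) (fun _ y => frSheet s (Yo y)))
    (CpStep.sourceVec_valid _ _ _ _ _ _ _ (fun _ => hη) (fun _ => frb_sheet_row s hA)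
      (fun _ => frb_sheet_row s hY)) (by show Q ∈ _; simp) (by show P ∈ _; simp) ?_
  refine frb_final pat hΩ st ((FrOp.birth s T P Q).next pat st) rfl s Eᶜ ?_ hBs δ hBd _ ?_
  · rw [Finset.disjoint_left]
    intro x hx hx'
    exact (Finset.mem_compl.1 hx) (Finset.mem_union_right _ hx')
  · rw [CpStep.sourceVec_link]
    refine frb_link st.own ((FrOp.birth s T P Q).next pat st).own s P Q Eᶜ T T η A Yo hYs hAs ?_ ?_ ?_ hYz _
    · intro x hx
      by_contra hne
      exact (Finset.mem_compl.1 hx) (Finset.mem_union_left _ (Finset.mem_filter.2 ⟨Finset.mem_univ _, hne⟩))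
    · intro x hx
      show (if s = s ∧ x ∈ T then Q else st.own (.inl (s, x))) = Q
      rw [if_pos ⟨rfl, hx⟩]
    · intro r hr
      rcases r with ⟨s', x⟩ | p
      · by_cases hc : s' = s ∧ x ∈ T
        · exact ⟨x, hc.2, by rw [hc.1]⟩
        · exfalso
          apply hr
          show _ = (if s' = s ∧ x ∈ T then Q else st.own (.inl (s', x)))
          rw [if_neg hc]
      · exact absurd rfl hr

theorem frb_impl_death (hΩ : star Ω ⬝ᵥ Ω = 1) (δ : ℝ) (m0 h0 b : ℕ) (st : FrState PP SH Λ HI)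
    (hst : st.WF pat) (s : SH) (T : Finset Λ) (P Q : PP)
    (ho : (FrOp.death s T P Q).Ok pat δ m0 h0 b st) :
    FrImpl (frVec pat st) (frVec pat ((FrOp.death s T P Q).next pat st)) (Real.sqrt δ) {P, Q} 1 1 3 3 := by
  obtain ⟨hT, hTo, hmi⟩ := ho
  set E : Finset Λ := (Finset.univ.filter fun x => x ∉ T ∧ st.ow s x ≠ P) ∪ frOut pat (st.hs s)
    with hE
  have hTE : Disjoint T E := by
    rw [hE, Finset.disjoint_union_right]
    refine ⟨?_, hTo⟩
    rw [Finset.disjoint_left]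
    intro x hx hx'
    exact (Finset.mem_filter.1 hx').2.1 hx
  obtain ⟨X, Y, i1, i2, i3, i4, η, A, Yo, hη, hA, hY, hAs, hYs, -, hAz, hBh, hBs, hBd⟩ :=
    frb_onesheet Ω hΩ T E hTE δ hmi
  have hη' : ∑ y, ∑ x, ‖star (η x y)‖ ^ 2 = 1 := by
    rw [Finset.sum_comm, ← hη]
    simp only [norm_star]
  have hcA : CpCol fun x => frSheet (nb := frNb pat) s (A x)ᴴ := by
    simp only [fre_sheet_conjTranspose]
    exact (frb_sheet_row s hA).conjTranspose
  have hcY : CpCol fun y => frSheet (nb := frNb pat) s (Yo y)ᴴ := by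
    simp only [fre_sheet_conjTranspose]
    exact (frb_sheet_row s hY).conjTranspose
  have hB' : ∑ y, ∑ x, star (η x y) • ((Yo y)ᴴ * (A x)ᴴ) = ∑ x, ∑ y, η x y • (A x * Yo y) := by
    rw [← hBh, Finset.sum_comm]
    simp only [Matrix.conjTranspose_sum, Matrix.conjTranspose_smul, Matrix.conjTranspose_mul]
  refine frb_impl_of_step _ _ _ P Q
    (CpStep.effectVec P Q Y X (fun _ y x => star (η x y)) (fun _ y => frSheet s (Yo y)ᴴ)
      (fun _ x => frSheet s (A x)ᴴ))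
    (CpStep.effectVec_valid _ _ _ _ _ _ _ (fun _ => hη') (fun _ => hcY) (fun _ => hcA))
    (by show P ∈ _; simp) (by show Q ∈ _; simp) ?_
  refine frb_final pat hΩ st ((FrOp.death s T P Q).next pat st) rfl s Eᶜ ?_ hBs δ hBd _ ?_
  · rw [Finset.disjoint_left]
    intro x hx hx'
    exact (Finset.mem_compl.1 hx) (Finset.mem_union_right _ hx')
  · rw [CpStep.effectVec_link, ← hB']
    refine frb_link st.own ((FrOp.death s T P Q).next pat st).own s Q P T Eᶜ T (fun y x => star (η x y)) (fun y => (Yo y)ᴴ)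
      (fun x => (A x)ᴴ) (fun x => (hAs x).conjTranspose) (fun y => (hYs y).conjTranspose) hT ?_ ?_
      hAz _
    · intro x hx
      show (if s = s ∧ x ∈ T then P else st.own (.inl (s, x))) = P
      by_cases hxT : x ∈ T
      · rw [if_pos ⟨rfl, hxT⟩]
      · rw [if_neg fun h => hxT h.2]
        by_contra hne
        exact (Finset.mem_compl.1 hx)
          (Finset.mem_union_left _ (Finset.mem_filter.2 ⟨Finset.mem_univ _, hxT, hne⟩))
    · intro r hr
      rcases r with ⟨s', x⟩ | p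
      · by_cases hc : s' = s ∧ x ∈ T
        · exact ⟨x, hc.2, by rw [hc.1]⟩
        · exfalso
          apply hr
          show _ = (if s' = s ∧ x ∈ T then P else st.own (.inl (s', x)))
          rw [if_neg hc]
      · exact absurd rfl hr

end Claimed.Agent.R296
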