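import Claimed.Agent.R296.P2.FrCylC

/-!
# Row 296, paper 2, Lemma 5.3: assembly (part D of leaf `P2-FR-CYL`, prefix `frc_`; helper267)

* norm estimates for time ordered products (`frc_norm_tprod_le`, `frc_tprod_left`, `frc_tprod_right`: telescoping);
* a time ordered product of cylinders with pairwise disjoint supports is one cylinder (`frc_tprod_cyl`);
* `FrcHS2` (the class `FrcHS` for the operator and its adjoint), splitting of a time ordered product at one factor (`frc_tprod_split`);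
* the partitions of `⋃ D j` into output legs resp. input legs;
* `frc_expand_aux`: the statement of `frc_expand` for families `O`, `I` given by their membership characterisations.
-/

set_option autoImplicit false
set_option linter.unusedSectionVars false
set_option linter.unusedDecidableInType false

namespace Claimed.Agent.R296

open Matrix
open scoped Matrix.Norms.L2Operator ComplexOrder

section TprodNorm

variable {m : Type} [Fintype m] [DecidableEq m]

theorem frc_norm_tprod_le (n : ℕ) (P : Fin n → Matrix m m ℂ) (h : ∀ j, ‖P j‖ ≤ 1) :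
    ‖cpTprod n P‖ ≤ 1 := by
  induction n with
  | zero => exact frc_norm_one_le
  | succ n ih =>
    rw [cpTprod_succ]
    calc ‖P (Fin.last n) * cpTprod n fun i => P i.castSucc‖
        ≤ ‖P (Fin.last n)‖ * ‖cpTprod n fun i => P i.castSucc‖ := Matrix.l2_opNorm_mul _ _
      _ ≤ 1 * 1 := mul_le_mul (h _) (ih _ fun i => h _) (norm_nonneg _) zero_le_one
      _ = 1 := one_mul 1

/-- telescoping on the left -/
theorem frc_tprod_left (n : ℕ) (P : Fin n → Matrix m m ℂ) (h : ∀ j, ‖P j‖ ≤ 1)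
    (X : Matrix m m ℂ) {ε : ℝ} (hX : ∀ j, ‖(1 - P j) * X‖ ≤ ε) :
    ‖X - cpTprod n P * X‖ ≤ n * ε := by
  induction n with
  | zero => simp [cpTprod_zero]
  | succ n ih =>
    rw [cpTprod_succ]
    have e : X - P (Fin.last n) * (cpTprod n fun i => P i.castSucc) * X
        = (1 - P (Fin.last n)) * X
          + P (Fin.last n) * (X - (cpTprod n fun i => P i.castSucc) * X) := by
      rw [Matrix.sub_mul, Matrix.mul_sub, Matrix.one_mul, Matrix.mul_assoc]
      abel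
    rw [e]
    have h1 := ih (fun i => P i.castSucc) (fun i => h _) (fun i => hX _)
    have h0 : 0 ≤ (n : ℝ) * ε := le_trans (norm_nonneg _) h1
    calc _ ≤ ‖(1 - P (Fin.last n)) * X‖
          + ‖P (Fin.last n) * (X - (cpTprod n fun i => P i.castSucc) * X)‖ := norm_add_le _ _
      _ ≤ ε + 1 * (n * ε) := by
          refine add_le_add (hX _) ((Matrix.l2_opNorm_mul _ _).trans ?_)
          exact mul_le_mul (h _) h1 (norm_nonneg _) zero_le_one
      _ = ((n + 1 : ℕ) : ℝ) * ε := by push_cast; ring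

/-- telescoping on the right -/
theorem frc_tprod_right (n : ℕ) (P : Fin n → Matrix m m ℂ) (h : ∀ j, ‖P j‖ ≤ 1)
    (X : Matrix m m ℂ) {ε : ℝ} (hX : ∀ j, ‖X * (1 - P j)‖ ≤ ε) :
    ‖X - X * cpTprod n P‖ ≤ n * ε := by
  induction n with
  | zero => simp [cpTprod_zero]
  | succ n ih =>
    rw [cpTprod_succ]
    have e : X - X * (P (Fin.last n) * cpTprod n fun i => P i.castSucc)
        = (X - X * cpTprod n fun i => P i.castSucc)
          + X * (1 - P (Fin.last n)) * cpTprod n fun i => P i.castSucc := by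
      rw [Matrix.mul_sub, Matrix.sub_mul, Matrix.mul_one, Matrix.mul_assoc]
      abel
    rw [e]
    have h1 := ih (fun i => P i.castSucc) (fun i => h _) (fun i => hX _)
    have h2 := frc_norm_tprod_le n (fun i => P i.castSucc) (fun i => h _)
    have h0 : 0 ≤ ε := le_trans (norm_nonneg _) (hX (Fin.last n))
    calc _ ≤ ‖X - X * cpTprod n fun i => P i.castSucc‖
          + ‖X * (1 - P (Fin.last n)) * cpTprod n fun i => P i.castSucc‖ := norm_add_le _ _
      _ ≤ n * ε + ε * 1 := by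
          refine add_le_add h1 ((Matrix.l2_opNorm_mul _ _).trans ?_)
          exact mul_le_mul (hX _) h2 (norm_nonneg _) h0
      _ = ((n + 1 : ℕ) : ℝ) * ε := by push_cast; ring

/-- `‖a‖² ≤ ‖ |a⟩⟨a| ‖` -/
theorem frc_l2n_le_one_of_proj (a : m → ℂ) (h : ‖vecMulVec a (star a)‖ ≤ 1) : l2n a ≤ 1 := by
  by_contra hc'
  have hc : 1 < l2n a := not_le.1 hc'
  have h1 := l2n_mulVec_le (vecMulVec a (star a)) a
  have e : vecMulVec a (star a) *ᵥ a = (star a ⬝ᵥ a) • a := by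
    rw [vecMulVec_mulVec]
    funext i
    simp [mul_comm]
  rw [e, l2n_smul, ← l2n_sq_eq_dotProduct, Complex.norm_real, Real.norm_of_nonneg (sq_nonneg _)]
    at h1
  have hpos : 0 < l2n a := lt_trans zero_lt_one hc
  have h2 : l2n a ^ 2 ≤ ‖vecMulVec a (star a)‖ := le_of_mul_le_mul_right h1 hpos
  nlinarith

end TprodNorm

section Part

variable {s : Type} [DecidableEq s]

theorem frc_out_disj {J : ℕ} {D O : Fin J → Finset s}
    (hO : ∀ j x, x ∈ O j ↔ x ∈ D j ∧ ∀ i, j < i → x ∉ D i) (i j : Fin J) (hij : i ≠ j) :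
    Disjoint (O i) (O j) := by
  rw [Finset.disjoint_left]
  intro x hi hj
  rcases lt_or_gt_of_ne hij with h | h
  · exact ((hO i x).1 hi).2 j h ((hO j x).1 hj).1
  · exact ((hO j x).1 hj).2 i h ((hO i x).1 hi).1

theorem frc_in_disj {J : ℕ} {D I : Fin J → Finset s}
    (hI : ∀ j x, x ∈ I j ↔ x ∈ D j ∧ ∀ i, i < j → x ∉ D i) (i j : Fin J) (hij : i ≠ j) :
    Disjoint (I i) (I j) := by
  rw [Finset.disjoint_left]
  intro x hi hj
  rcases lt_or_gt_of_ne hij with h | h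
  · exact ((hI j x).1 hj).2 i h ((hI i x).1 hi).1
  · exact ((hI i x).1 hi).2 j h ((hI j x).1 hj).1

theorem frc_out_union {J : ℕ} {D O : Fin J → Finset s}
    (hO : ∀ j x, x ∈ O j ↔ x ∈ D j ∧ ∀ i, j < i → x ∉ D i) :
    Finset.univ.biUnion O = Finset.univ.biUnion D := by
  ext x
  simp only [Finset.mem_biUnion, Finset.mem_univ, true_and]
  constructor
  · rintro ⟨j, hj⟩
    exact ⟨j, ((hO j x).1 hj).1⟩
  · rintro ⟨j, hj⟩
    obtain ⟨i, hi, hmax⟩ := Finset.exists_max_image (Finset.univ.filter fun i => x ∈ D i) id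
      ⟨j, by simp [hj]⟩
    refine ⟨i, (hO i x).2 ⟨(Finset.mem_filter.1 hi).2, fun i' hlt hx => ?_⟩⟩
    have h1 := hmax i' (by simp [hx])
    exact absurd hlt (not_lt.2 h1)

theorem frc_in_union {J : ℕ} {D I : Fin J → Finset s}
    (hI : ∀ j x, x ∈ I j ↔ x ∈ D j ∧ ∀ i, i < j → x ∉ D i) :
    Finset.univ.biUnion I = Finset.univ.biUnion D := by
  ext x
  simp only [Finset.mem_biUnion, Finset.mem_univ, true_and]
  constructor
  · rintro ⟨j, hj⟩
    exact ⟨j, ((hI j x).1 hj).1⟩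
  · rintro ⟨j, hj⟩
    obtain ⟨i, hi, hmin⟩ := Finset.exists_min_image (Finset.univ.filter fun i => x ∈ D i) id
      ⟨j, by simp [hj]⟩
    refine ⟨i, (hI i x).2 ⟨(Finset.mem_filter.1 hi).2, fun i' hlt hx => ?_⟩⟩
    have h1 := hmin i' (by simp [hx])
    exact absurd hlt (not_lt.2 h1)

theorem frc_biUnion_succ {n : ℕ} (O : Fin (n + 1) → Finset s) :
    Finset.univ.biUnion O = O (Fin.last n) ∪ Finset.univ.biUnion fun i : Fin n => O i.castSucc := by
  ext x
  simp only [Finset.mem_biUnion, Finset.mem_univ, true_and, Finset.mem_union]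
  rw [Fin.exists_fin_succ', or_comm]

end Part

section CylD

variable {s : Type} [DecidableEq s] [Fintype s] {io : s → Type} [∀ x, Fintype (io x)]
  [∀ x, DecidableEq (io x)] [∀ x, Nonempty (io x)]

theorem frc_dep_prod {ι : Type} (t : Finset ι) (A : Finset s) (α : ι → Cfg io → ℂ)
    (h : ∀ i ∈ t, FrcDep A (α i)) : FrcDep A (fun σ => ∏ i ∈ t, α i σ) :=
  fun σ τ hστ => Finset.prod_congr rfl fun i hi => h i hi σ τ hστ

/-- a time ordered product of cylinders with pairwise disjoint supports is a cylinder -/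
theorem frc_tprod_cyl (n : ℕ) (O : Fin n → Finset s) (hO : ∀ i j, i ≠ j → Disjoint (O i) (O j))
    (α β : Fin n → Cfg io → ℂ) (hα : ∀ j, FrcDep (O j) (α j)) (hβ : ∀ j, FrcDep (O j) (β j)) :
    cpTprod n (fun j => frcCyl (O j) (α j) (β j))
      = frcCyl (Finset.univ.biUnion O) (fun σ => ∏ j, α j σ) (fun σ => ∏ j, β j σ) := by
  induction n with
  | zero =>
    rw [cpTprod_zero]
    exact frc_cyl_empty.symm
  | succ n ih =>
    rw [cpTprod_succ, ih (fun i => O i.castSucc)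
      (fun i j hij => hO _ _ fun h => hij (Fin.castSucc_injective n h))
      (fun i => α i.castSucc) (fun i => β i.castSucc) (fun i => hα _) (fun i => hβ _),
      frc_cyl_merge, frc_biUnion_succ]
    · congr 1
      · funext σ
        rw [Fin.prod_univ_castSucc, mul_comm]
      · funext σ
        rw [Fin.prod_univ_castSucc, mul_comm]
    · rw [Finset.disjoint_biUnion_right]
      intro i _
      exact hO _ _ (Fin.castSucc_ne_last i).symm
    · exact hβ _
    · refine frc_dep_prod _ _ _ fun i _ => ?_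
      exact (hα i.castSucc).mono (Finset.subset_biUnion_of_mem (fun i : Fin n => O i.castSucc)
        (Finset.mem_univ i))

/-! ### the class `FrcHS2` -/

/-- `FrcHS` for the operator and for its adjoint -/
def FrcHS2 (T : Finset s) (Y : Matrix (Cfg io) (Cfg io) ℂ) : Prop :=
  FrcHS T Y ∧ FrcHS T Yᴴ

theorem FrcHS2.one : FrcHS2 (∅ : Finset s) (1 : Matrix (Cfg io) (Cfg io) ℂ) :=
  ⟨FrcHS.one, by rw [conjTranspose_one]; exact FrcHS.one⟩

theorem FrcHS2.mul {T₁ T₂ : Finset s} {A B : Matrix (Cfg io) (Cfg io) ℂ} (hA : FrcHS2 T₁ A)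
    (hB : FrcHS2 T₂ B) : FrcHS2 (T₁ ∪ T₂) (A * B) :=
  ⟨hA.1.mul hB.1, by rw [conjTranspose_mul, Finset.union_comm]; exact hB.2.mul hA.2⟩

theorem FrcHS2.cyl (D : Finset s) (k r : CfgOn io D → ℂ) (hk : cpNsq k ≤ 1) (hr : cpNsq r ≤ 1) :
    FrcHS2 D (emb D (vecMulVec k (star r))) :=
  ⟨FrcHS.cyl D k r hk hr, by
    rw [← emb_conjTranspose, conjTranspose_vecMulVec, star_star]
    exact FrcHS.cyl D r k hr hk⟩

theorem frc_tprod_hs2 (n : ℕ) (D : Fin n → Finset s) (f : Fin n → Matrix (Cfg io) (Cfg io) ℂ)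
    (h : ∀ i, FrcHS2 (D i) (f i)) : FrcHS2 (Finset.univ.biUnion D) (cpTprod n f) := by
  induction n with
  | zero => exact FrcHS2.one
  | succ n ih =>
    rw [cpTprod_succ, frc_biUnion_succ]
    exact (h _).mul (ih (fun i => D i.castSucc) (fun i => f i.castSucc) fun i => h _)

/-- splitting of a time ordered product at the factor `j` -/
theorem frc_tprod_split (n : ℕ) (D : Fin n → Finset s) (f : Fin n → Matrix (Cfg io) (Cfg io) ℂ)
    (h : ∀ i, FrcHS2 (D i) (f i)) (j : Fin n) :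
    ∃ (T₁ T₂ : Finset s) (Y W : Matrix (Cfg io) (Cfg io) ℂ), cpTprod n f = Y * f j * W ∧
      FrcHS2 T₁ Y ∧ FrcHS2 T₂ W ∧ (∀ x, x ∈ T₁ ↔ ∃ i, j < i ∧ x ∈ D i) ∧
      (∀ x, x ∈ T₂ ↔ ∃ i, i < j ∧ x ∈ D i) := by
  induction n with
  | zero => exact j.elim0
  | succ n ih =>
    induction j using Fin.lastCases with
    | last =>
      refine ⟨∅, _, 1, cpTprod n (fun i => f i.castSucc), ?_, FrcHS2.one,
        frc_tprod_hs2 n (fun i => D i.castSucc) (fun i => f i.castSucc) (fun i => h _), ?_, ?_⟩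
      · rw [cpTprod_succ, Matrix.one_mul]
      · intro x
        constructor
        · intro hx
          exact absurd hx (Finset.notMem_empty x)
        · rintro ⟨i, hi, _⟩
          exact absurd hi (not_lt.2 (Fin.le_last i))
      · intro x
        rw [Fin.exists_fin_succ']
        simp [Fin.castSucc_lt_last]
    | cast j =>
      obtain ⟨T₁, T₂, Y, W, e, h1, h2, m1, m2⟩ :=
        ih (fun i => D i.castSucc) (fun i => f i.castSucc) (fun i => h _) j
      refine ⟨D (Fin.last n) ∪ T₁, T₂, f (Fin.last n) * Y, W, ?_, (h _).mul h1, h2, ?_, ?_⟩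
      · rw [cpTprod_succ, e]
        simp only [Matrix.mul_assoc]
      · intro x
        rw [Finset.mem_union, m1, Fin.exists_fin_succ']
        simp [Fin.castSucc_lt_last, or_comm]
      · intro x
        rw [m2, Fin.exists_fin_succ']
        simp [not_lt.2 (Fin.le_last _)]

/-! ### expansion of the projectors, sandwich -/

theorem frc_proj_expand {J kk : ℕ} (O : Fin J → Finset s)
    (hd : ∀ i j, i ≠ j → Disjoint (O i) (O j)) (u : ∀ j, Fin kk → CfgOn io (O j) → ℂ) :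
    cpTprod J (fun j => emb (O j) (∑ i, vecMulVec (u j i) (star (u j i))))
      = ∑ α : Fin J → Fin kk, frcCyl (Finset.univ.biUnion O)
          (fun σ => ∏ j, u j (α j) (crOn (O j) σ)) (fun σ => ∏ j, u j (α j) (crOn (O j) σ)) := by
  have h : ∀ j, emb (O j) (∑ i, vecMulVec (u j i) (star (u j i)))
      = ∑ i, frcCyl (O j) (fun σ => u j i (crOn (O j) σ)) (fun σ => u j i (crOn (O j) σ)) :=
    fun j => by
      rw [frc_emb_sum]
      rfl
  rw [cpTprod_congr J h, cpTprod_sum J (fun _ => Fin kk)]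
  refine Finset.sum_congr rfl fun α _ => ?_
  exact frc_tprod_cyl J O hd _ _ (fun j => frc_dep_comp _ _) (fun j => frc_dep_comp _ _)

theorem frc_norm_prod_cyl_le {J : ℕ} (O : Fin J → Finset s)
    (hd : ∀ i j, i ≠ j → Disjoint (O i) (O j)) (u : ∀ j, CfgOn io (O j) → ℂ)
    (hu : ∀ j, cpNsq (u j) ≤ 1) :
    ‖frcCyl (Finset.univ.biUnion O) (fun σ => ∏ j, u j (crOn (O j) σ))
      (fun σ => ∏ j, u j (crOn (O j) σ))‖ ≤ 1 := by
  rw [← frc_tprod_cyl J O hd _ _ (fun j => frc_dep_comp _ _) (fun j => frc_dep_comp _ _)]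
  refine frc_norm_tprod_le _ _ fun j => ?_
  rw [← frc_emb_eq_cyl]
  exact (norm_emb_le _ _).trans (frc_norm_vecMulVec_le _ _ (hu j) (hu j))

/-- `|α⟩⟨α| X |β⟩⟨β| = ⟨α|X|β⟩ |α⟩⟨β|` -/
theorem frc_sandwich {S : Finset s} {X : Matrix (Cfg io) (Cfg io) ℂ} (hX : SuppIn S X)
    (hX1 : ‖X‖ ≤ 1) {α β : Cfg io → ℂ} (hα : FrcDep S α) (hβ : FrcDep S β)
    (hα1 : ‖frcCyl S α α‖ ≤ 1) (hβ1 : ‖frcCyl S β β‖ ≤ 1) :
    ∃ c : ℂ, ‖c‖ ≤ 1 ∧ frcCyl S α α * X * frcCyl S β β = c • frcCyl S α β := by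
  obtain ⟨K, rfl⟩ := hX
  rw [norm_emb] at hX1
  rw [frc_cyl_eq_emb hα hα, norm_emb] at hα1
  rw [frc_cyl_eq_emb hβ hβ, norm_emb] at hβ1
  have ha := frc_l2n_le_one_of_proj _ hα1
  have hb := frc_l2n_le_one_of_proj _ hβ1
  refine ⟨star (frcLow S α) ⬝ᵥ (K *ᵥ frcLow S β), ?_, ?_⟩
  · calc _ ≤ l2n (frcLow S α) * l2n (K *ᵥ frcLow S β) := norm_dotProduct_le _ _
      _ ≤ 1 * (‖K‖ * l2n (frcLow S β)) :=
          mul_le_mul ha (l2n_mulVec_le _ _) (l2n_nonneg _) zero_le_one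
      _ ≤ 1 * (1 * 1) := by
          refine mul_le_mul_of_nonneg_left ?_ zero_le_one
          exact mul_le_mul hX1 hb (l2n_nonneg _) zero_le_one
      _ = 1 := by norm_num
  · rw [frc_cyl_eq_emb hα hα, frc_cyl_eq_emb hβ hβ, frc_cyl_eq_emb hα hβ, ← emb_mul, ← emb_mul,
      ← emb_smul]
    congr 1
    rw [Matrix.mul_assoc, mul_vecMulVec, vecMulVec_mul_vecMulVec]
    ext i j
    simp only [vecMulVec_apply, Pi.smul_apply, Matrix.smul_apply, smul_eq_mul]
    ring

/-- one term of the expansion -/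
theorem frc_term {J : ℕ} {S : Finset s} {X : Matrix (Cfg io) (Cfg io) ℂ} (hX : SuppIn S X)
    (hX1 : ‖X‖ ≤ 1) (O I : Fin J → Finset s) (hOS : ∀ j, O j ⊆ S) (hIS : ∀ j, I j ⊆ S)
    (u a : ∀ j, CfgOn io (O j) → ℂ) (u' b : ∀ j, CfgOn io (I j) → ℂ)
    (hu : ∀ j, u j = 0 ∨ u j = a j) (hu' : ∀ j, u' j = 0 ∨ u' j = b j)
    (h1 : ‖frcCyl S (fun σ => ∏ j, u j (crOn (O j) σ)) (fun σ => ∏ j, u j (crOn (O j) σ))‖ ≤ 1)
    (h2 : ‖frcCyl S (fun σ => ∏ j, u' j (crOn (I j) σ))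
      (fun σ => ∏ j, u' j (crOn (I j) σ))‖ ≤ 1) :
    ∃ c : ℂ, ‖c‖ ≤ 1 ∧
      frcCyl S (fun σ => ∏ j, u j (crOn (O j) σ)) (fun σ => ∏ j, u j (crOn (O j) σ)) * X *
        frcCyl S (fun σ => ∏ j, u' j (crOn (I j) σ)) (fun σ => ∏ j, u' j (crOn (I j) σ))
      = c • frProdOp S O I a b := by
  by_cases hz : (∀ j, u j = a j) ∧ (∀ j, u' j = b j)
  · have d1 : FrcDep S (fun σ : Cfg io => ∏ j, u j (crOn (O j) σ)) :=
      frc_dep_prod _ _ _ fun j _ => (frc_dep_comp (O j) (u j)).mono (hOS j)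
    have d2 : FrcDep S (fun σ : Cfg io => ∏ j, u' j (crOn (I j) σ)) :=
      frc_dep_prod _ _ _ fun j _ => (frc_dep_comp (I j) (u' j)).mono (hIS j)
    obtain ⟨c, hc, e⟩ := frc_sandwich hX hX1 d1 d2 h1 h2
    refine ⟨c, hc, ?_⟩
    have e1 : u = a := funext hz.1
    have e2 : u' = b := funext hz.2
    rw [e, frc_prodOp_eq_cyl, e1, e2]
  · refine ⟨0, by simp, ?_⟩
    rw [zero_smul]
    rcases not_and_or.1 hz with hz | hz
    · obtain ⟨j, hj⟩ := not_forall.1 hz
      have h0 : u j = 0 := (hu j).resolve_right hj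
      have e0 : (fun σ : Cfg io => ∏ j, u j (crOn (O j) σ)) = fun _ => 0 := by
        funext σ
        exact Finset.prod_eq_zero (Finset.mem_univ j) (by rw [h0]; rfl)
      rw [e0, frc_cyl_zero_left, Matrix.zero_mul, Matrix.zero_mul]
    · obtain ⟨j, hj⟩ := not_forall.1 hz
      have h0 : u' j = 0 := (hu' j).resolve_right hj
      have e0 : (fun σ : Cfg io => ∏ j, u' j (crOn (I j) σ)) = fun _ => 0 := by
        funext σ
        exact Finset.prod_eq_zero (Finset.mem_univ j) (by rw [h0]; rfl)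
      rw [e0, frc_cyl_zero_left, Matrix.mul_zero]

/-- truncation of the ket and of the bra of the vertex `j` -/
theorem frc_vertex {J : ℕ} (D O I : Fin J → Finset s)
    (hO : ∀ j x, x ∈ O j ↔ x ∈ D j ∧ ∀ i, j < i → x ∉ D i)
    (hI : ∀ j x, x ∈ I j ↔ x ∈ D j ∧ ∀ i, i < j → x ∉ D i)
    (k r : ∀ j, CfgOn io (D j) → ℂ) (hk : ∀ j, cpNsq (k j) = 1) (hr : ∀ j, cpNsq (r j) = 1)
    (kk : ℕ) (hkk : 1 ≤ kk) (j : Fin J) :
    ∃ (u a : Fin kk → CfgOn io (O j) → ℂ) (u' b : Fin kk → CfgOn io (I j) → ℂ),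
      (∀ i, cpNsq (a i) = 1) ∧ (∀ i, u i = 0 ∨ u i = a i) ∧
      ‖∑ i, vecMulVec (u i) (star (u i))‖ ≤ 1 ∧
      (O j = D j → ∀ i (σ : Cfg io), a i (crOn (O j) σ) = k j (crOn (D j) σ)) ∧
      ‖(1 - emb (O j) (∑ i, vecMulVec (u i) (star (u i)))) *
        cpTprod J (fun j => emb (D j) (vecMulVec (k j) (star (r j))))‖ ≤ 1 / Real.sqrt kk ∧
      (∀ i, cpNsq (b i) = 1) ∧ (∀ i, u' i = 0 ∨ u' i = b i) ∧
      ‖∑ i, vecMulVec (u' i) (star (u' i))‖ ≤ 1 ∧
      (I j = D j → ∀ i (σ : Cfg io), b i (crOn (I j) σ) = r j (crOn (D j) σ)) ∧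
      ‖cpTprod J (fun j => emb (D j) (vecMulVec (k j) (star (r j)))) *
        (1 - emb (I j) (∑ i, vecMulVec (u' i) (star (u' i))))‖ ≤ 1 / Real.sqrt kk := by
  obtain ⟨T₁, T₂, Y, W, e, hY, hW, m1, m2⟩ := frc_tprod_split J D
    (fun j => emb (D j) (vecMulVec (k j) (star (r j))))
    (fun i => FrcHS2.cyl _ _ _ (hk i).le (hr i).le) j
  have hOD : O j ⊆ D j := fun x hx => ((hO j x).1 hx).1
  have hOT : Disjoint (O j) T₁ := by
    rw [Finset.disjoint_left]
    intro x hx hT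
    obtain ⟨i, hi, hxi⟩ := (m1 x).1 hT
    exact ((hO j x).1 hx).2 i hi hxi
  have hCT : D j \ O j ⊆ T₁ := by
    intro x hx
    rw [Finset.mem_sdiff] at hx
    rw [m1]
    by_contra hc
    exact hx.2 ((hO j x).2 ⟨hx.1, fun i hi hxi => hc ⟨i, hi, hxi⟩⟩)
  have hID : I j ⊆ D j := fun x hx => ((hI j x).1 hx).1
  have hIT : Disjoint (I j) T₂ := by
    rw [Finset.disjoint_left]
    intro x hx hT
    obtain ⟨i, hi, hxi⟩ := (m2 x).1 hT
    exact ((hI j x).1 hx).2 i hi hxi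
  have hCT' : D j \ I j ⊆ T₂ := by
    intro x hx
    rw [Finset.mem_sdiff] at hx
    rw [m2]
    by_contra hc
    exact hx.2 ((hI j x).2 ⟨hx.1, fun i hi hxi => hc ⟨i, hi, hxi⟩⟩)
  obtain ⟨u, a, ha, hu, hP, hkeep, hbd⟩ := frc_ket hOD hOT hCT (k j) (hk j) kk hkk
  obtain ⟨u', b, hb, hu', hP', hkeep', hbd'⟩ := frc_ket hID hIT hCT' (r j) (hr j) kk hkk
  refine ⟨u, a, u', b, ha, hu, hP, hkeep, ?_, hb, hu', hP', hkeep', ?_⟩
  · rw [e]
    exact hbd (r j) Y W (hr j).le hY.1 hW.1.norm_le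
  · have h1 := hbd' (k j) Wᴴ Yᴴ (hk j).le hW.2 hY.2.norm_le
    rw [← l2_opNorm_conjTranspose] at h1
    have e2 : ((1 - emb (I j) (∑ i, vecMulVec (u' i) (star (u' i)))) *
        (Wᴴ * emb (D j) (vecMulVec (r j) (star (k j))) * Yᴴ))ᴴ
        = Y * emb (D j) (vecMulVec (k j) (star (r j))) * W *
          (1 - emb (I j) (∑ i, vecMulVec (u' i) (star (u' i)))) := by
      rw [conjTranspose_mul, conjTranspose_mul, conjTranspose_mul, conjTranspose_conjTranspose,
        conjTranspose_conjTranspose, ← emb_conjTranspose, conjTranspose_vecMulVec, star_star,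
        conjTranspose_sub, conjTranspose_one, ← emb_conjTranspose, conjTranspose_sum]
      simp only [conjTranspose_vecMulVec, star_star, Matrix.mul_assoc]
    rw [e2] at h1
    rw [e]
    exact h1

/-- the statement of `frc_expand`, for families `O`, `I` given by their members -/
theorem frc_expand_aux {J : ℕ} (D O I : Fin J → Finset s)
    (hO : ∀ j x, x ∈ O j ↔ x ∈ D j ∧ ∀ i, j < i → x ∉ D i)
    (hI : ∀ j x, x ∈ I j ↔ x ∈ D j ∧ ∀ i, i < j → x ∉ D i)
    (k r : ∀ j, CfgOn io (D j) → ℂ) (hk : ∀ j, cpNsq (k j) = 1) (hr : ∀ j, cpNsq (r j) = 1)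
    (kk : ℕ) (hkk : 1 ≤ kk) :
    ∃ (a : ∀ j, Fin kk → CfgOn io (O j) → ℂ) (b : ∀ j, Fin kk → CfgOn io (I j) → ℂ)
      (c : (Fin J → Fin kk) → (Fin J → Fin kk) → ℂ),
      (∀ j i, cpNsq (a j i) = 1) ∧ (∀ j i, cpNsq (b j i) = 1) ∧ (∀ α β, ‖c α β‖ ≤ 1) ∧
      (∀ j, O j = D j → ∀ i (σ : Cfg io), a j i (crOn _ σ) = k j (crOn _ σ)) ∧
      (∀ j, I j = D j → ∀ i (σ : Cfg io), b j i (crOn _ σ) = r j (crOn _ σ)) ∧
      FrBd (cpTprod J (fun j => emb (D j) (vecMulVec (k j) (star (r j)))) - ∑ α, ∑ β, c α β •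
        frProdOp (Finset.univ.biUnion D) O I (fun j => a j (α j)) (fun j => b j (β j)))
        (2 * J / Real.sqrt kk) := by
  choose u a u' b ha hu hP hkeep hbd hb hu' hP' hkeep' hbd' using
    frc_vertex D O I hO hI k r hk hr kk hkk
  obtain ⟨X, hXdef⟩ : ∃ X, X = cpTprod J (fun j => emb (D j) (vecMulVec (k j) (star (r j)))) :=
    ⟨_, rfl⟩
  rw [← hXdef] at hbd hbd' ⊢
  have hXhs : FrcHS2 (Finset.univ.biUnion D) X := by
    rw [hXdef]
    exact frc_tprod_hs2 J D _ (fun i => FrcHS2.cyl _ _ _ (hk i).le (hr i).le)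
  have hXs : SuppIn (Finset.univ.biUnion D) X := hXhs.1.1
  have hX1 : ‖X‖ ≤ 1 := hXhs.1.norm_le
  have hPl := frc_proj_expand O (frc_out_disj hO) u
  have hPr := frc_proj_expand I (frc_in_disj hI) u'
  rw [frc_out_union hO] at hPl
  rw [frc_in_union hI] at hPr
  have hu1 : ∀ j i, cpNsq (u j i) ≤ 1 := fun j i => by
    rcases hu j i with h | h
    · rw [h]
      simp [cpNsq]
    · rw [h]
      exact (ha j i).le
  have hu1' : ∀ j i, cpNsq (u' j i) ≤ 1 := fun j i => by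
    rcases hu' j i with h | h
    · rw [h]
      simp [cpNsq]
    · rw [h]
      exact (hb j i).le
  have hOS : ∀ j, O j ⊆ Finset.univ.biUnion D := fun j => by
    rw [← frc_out_union hO]
    exact Finset.subset_biUnion_of_mem O (Finset.mem_univ j)
  have hIS : ∀ j, I j ⊆ Finset.univ.biUnion D := fun j => by
    rw [← frc_in_union hI]
    exact Finset.subset_biUnion_of_mem I (Finset.mem_univ j)
  have n1 : ∀ α : Fin J → Fin kk, ‖frcCyl (Finset.univ.biUnion D)
      (fun σ => ∏ j, u j (α j) (crOn (O j) σ)) (fun σ => ∏ j, u j (α j) (crOn (O j) σ))‖ ≤ 1 :=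
    fun α => by
      have h := frc_norm_prod_cyl_le O (frc_out_disj hO) (fun j => u j (α j))
        (fun j => hu1 j (α j))
      rwa [frc_out_union hO] at h
  have n2 : ∀ β : Fin J → Fin kk, ‖frcCyl (Finset.univ.biUnion D)
      (fun σ => ∏ j, u' j (β j) (crOn (I j) σ)) (fun σ => ∏ j, u' j (β j) (crOn (I j) σ))‖ ≤ 1 :=
    fun β => by
      have h := frc_norm_prod_cyl_le I (frc_in_disj hI) (fun j => u' j (β j))
        (fun j => hu1' j (β j))
      rwa [frc_in_union hI] at h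
  choose c hc1 hc using fun α β : Fin J → Fin kk => frc_term hXs hX1 O I hOS hIS
    (fun j => u j (α j)) (fun j => a j (α j)) (fun j => u' j (β j)) (fun j => b j (β j))
    (fun j => hu j (α j)) (fun j => hu' j (β j)) (n1 α) (n2 β)
  refine ⟨a, b, c, ha, hb, hc1, hkeep, hkeep', frc_bd_of_norm_le ?_⟩
  obtain ⟨Pl, hPld⟩ : ∃ Pl, Pl = cpTprod J
    (fun j => emb (O j) (∑ i, vecMulVec (u j i) (star (u j i)))) := ⟨_, rfl⟩
  obtain ⟨Pr, hPrd⟩ : ∃ Pr, Pr = cpTprod J
    (fun j => emb (I j) (∑ i, vecMulVec (u' j i) (star (u' j i)))) := ⟨_, rfl⟩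
  have e : ∑ α, ∑ β, c α β • frProdOp (Finset.univ.biUnion D) O I (fun j => a j (α j))
      (fun j => b j (β j)) = Pl * X * Pr := by
    rw [hPld, hPrd, hPl, hPr, Finset.sum_mul, Finset.sum_mul]
    refine Finset.sum_congr rfl fun α _ => ?_
    rw [Finset.mul_sum]
    exact Finset.sum_congr rfl fun β _ => (hc α β).symm
  have p1 : ∀ j, ‖emb (O j) (∑ i, vecMulVec (u j i) (star (u j i)))‖ ≤ 1 :=
    fun j => (norm_emb_le _ _).trans (hP j)
  have p2 : ∀ j, ‖emb (I j) (∑ i, vecMulVec (u' j i) (star (u' j i)))‖ ≤ 1 :=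
    fun j => (norm_emb_le _ _).trans (hP' j)
  have b1 : ‖X - Pl * X‖ ≤ J * (1 / Real.sqrt kk) := by
    rw [hPld]
    exact frc_tprod_left J _ p1 X hbd
  have b2 : ‖X - X * Pr‖ ≤ J * (1 / Real.sqrt kk) := by
    rw [hPrd]
    exact frc_tprod_right J _ p2 X hbd'
  have b3 : ‖Pl‖ ≤ 1 := by
    rw [hPld]
    exact frc_norm_tprod_le J _ p1
  have e2 : X - Pl * X * Pr = (X - Pl * X) + Pl * (X - X * Pr) := by
    rw [Matrix.mul_sub, Matrix.mul_assoc]
    abel
  rw [e, e2]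
  calc _ ≤ ‖X - Pl * X‖ + ‖Pl * (X - X * Pr)‖ := norm_add_le _ _
    _ ≤ J * (1 / Real.sqrt kk) + 1 * (J * (1 / Real.sqrt kk)) := by
        refine add_le_add b1 ((Matrix.l2_opNorm_mul _ _).trans ?_)
        exact mul_le_mul b3 b2 (norm_nonneg _) zero_le_one
    _ = 2 * J / Real.sqrt kk := by ring

end CylD

end Claimed.Agent.R296
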