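import Claimed.Agent.R296.HS

/-!
# Row 296, paper 2, Lemma 5.3: the truncation step (LEAF `P2-FR-TRUNC`, prefix `frt_`; helper2)

`frt_trunc` = statement of `frc_trunc` (FrCyl.lean), verbatim.

Proof.  `G = Z Zᴴ = U Λ Uᴴ`; `Y = Uᴴ Z` has orthogonal rows, `Y Yᴴ = Λ`.  With `σ = √λ`, `W = Yᴴ diag(σ⁻¹)` is a partial isometry
(`Wᴴ W = diag (0/1)`), and `∑ σ_i = Tr (Y W) = Tr ((Uᴴ A) (B W)) ≤ hsn A * hsn B`.  `S = {σ_i > 1/kk}` has at most `kk` elements,
`P = U 1_S Uᴴ`, `hsSq (Z - P Z) = ∑_{i ∉ S} λ_i ≤ (1/kk) ∑ σ_i`.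
-/

set_option autoImplicit false
set_option linter.unusedSectionVars false
set_option linter.unusedDecidableInType false

namespace Claimed.Agent.R296

open Matrix
open scoped Matrix.Norms.L2Operator ComplexOrder

section

variable {m n c : Type} [Fintype m] [DecidableEq m] [Fintype n] [DecidableEq n] [Fintype c]
  [DecidableEq c]

/-- unitary change of basis which makes the rows of `Z` orthogonal -/
theorem frt_diag (Z : Matrix m n ℂ) : ∃ (U : Matrix m m ℂ) (lam : m → ℝ), Uᴴ * U = 1 ∧ U * Uᴴ = 1 ∧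
    (∀ i, 0 ≤ lam i) ∧ (Uᴴ * Z) * (Uᴴ * Z)ᴴ = diagonal (fun i => ((lam i : ℝ) : ℂ)) := by
  have hP : (Z * Zᴴ).PosSemidef := posSemidef_self_mul_conjTranspose Z
  have hG := hP.isHermitian
  have h1 : (hG.eigenvectorUnitary : Matrix m m ℂ)ᴴ * (hG.eigenvectorUnitary : Matrix m m ℂ) = 1 :=
    Unitary.coe_star_mul_self _
  have h2 : (hG.eigenvectorUnitary : Matrix m m ℂ) * (hG.eigenvectorUnitary : Matrix m m ℂ)ᴴ = 1 :=
    Unitary.coe_mul_star_self _
  refine ⟨hG.eigenvectorUnitary, hG.eigenvalues, h1, h2, hP.eigenvalues_nonneg, ?_⟩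
  have h3 := hG.conjStarAlgAut_star_eigenvectorUnitary
  rw [Unitary.conjStarAlgAut_star_apply] at h3
  rw [conjTranspose_mul, conjTranspose_conjTranspose, Matrix.mul_assoc, ← Matrix.mul_assoc Z,
    ← Matrix.mul_assoc]
  exact h3

theorem frt_hsSq_isometry_mul {l : Type} [Fintype l] [DecidableEq l] (V : Matrix l m ℂ)
    (hV : Vᴴ * V = 1) (B : Matrix m n ℂ) : hsSq (V * B) = hsSq B := by
  rw [← hsn_sq, ← hsn_sq, hsn_isometry_mul V hV]

/-- the nuclear norm bound -/
theorem frt_nuclear (Y : Matrix m n ℂ) (A : Matrix m c ℂ) (B : Matrix c n ℂ) (hY : Y = A * B)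
    (lam : m → ℝ) (hl : ∀ i, 0 ≤ lam i) (hYY : Y * Yᴴ = diagonal (fun i => ((lam i : ℝ) : ℂ))) :
    ∑ i, Real.sqrt (lam i) ≤ hsn A * hsn B := by
  set D : Matrix m m ℂ := diagonal (fun i => (((Real.sqrt (lam i))⁻¹ : ℝ) : ℂ)) with hD
  have hDH : Dᴴ = D := by
    rw [hD, diagonal_conjTranspose]
    congr 1
    ext i
    simp
  set W : Matrix n m ℂ := Yᴴ * D with hW
  have hWW : Wᴴ * W = diagonal (fun i => ((lam i * ((Real.sqrt (lam i))⁻¹) ^ 2 : ℝ) : ℂ)) := by
    rw [hW, conjTranspose_mul, conjTranspose_conjTranspose, hDH, Matrix.mul_assoc,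
      ← Matrix.mul_assoc Y, hYY, hD, diagonal_mul_diagonal, diagonal_mul_diagonal]
    congr 1
    ext i
    push_cast
    ring
  have hWn : ‖W‖ ≤ 1 := by
    have h1 : ‖W‖ * ‖W‖ ≤ 1 := by
      rw [← l2_opNorm_conjTranspose_mul_self, hWW, l2_opNorm_diagonal]
      refine (pi_norm_le_iff_of_nonneg zero_le_one).2 fun i => ?_
      rw [Complex.norm_real, Real.norm_eq_abs]
      rcases eq_or_lt_of_le (hl i) with h0 | h0
      · rw [← h0]; simp
      · have hs : Real.sqrt (lam i) ≠ 0 := (Real.sqrt_pos.2 h0).ne'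
        rw [inv_pow, Real.sq_sqrt (hl i), mul_inv_cancel₀ h0.ne']
        simp
    nlinarith [norm_nonneg W]
  have htr : (Y * W).trace = ((∑ i, Real.sqrt (lam i) : ℝ) : ℂ) := by
    rw [hW, ← Matrix.mul_assoc, hYY, hD, diagonal_mul_diagonal, trace_diagonal]
    push_cast
    refine Finset.sum_congr rfl fun i _ => ?_
    rcases eq_or_lt_of_le (hl i) with h0 | h0
    · rw [← h0]; simp
    · have hs : Real.sqrt (lam i) ≠ 0 := (Real.sqrt_pos.2 h0).ne'
      have : lam i * (Real.sqrt (lam i))⁻¹ = Real.sqrt (lam i) := by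
        field_simp
        exact (Real.sq_sqrt (hl i)).symm
      exact_mod_cast this
  have h2 := norm_trace_mul_le A (B * W)
  rw [← Matrix.mul_assoc, ← hY, htr, Complex.norm_real, Real.norm_eq_abs,
    abs_of_nonneg (Finset.sum_nonneg fun i _ => Real.sqrt_nonneg _)] at h2
  refine h2.trans (mul_le_mul_of_nonneg_left ?_ (hsn_nonneg A))
  calc hsn (B * W) ≤ hsn B * ‖W‖ := hsn_mul_le_right B W
    _ ≤ hsn B * 1 := mul_le_mul_of_nonneg_left hWn (hsn_nonneg B)
    _ = hsn B := mul_one _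

/-- **truncation** (statement of `frc_trunc`, FrCyl.lean) -/
theorem frt_trunc (Z : Matrix m n ℂ) (A : Matrix m c ℂ) (B : Matrix c n ℂ) (hZ : Z = A * B)
    (hA : hsn A ≤ 1) (hB : hsn B ≤ 1) (kk : ℕ) (hkk : 1 ≤ kk) :
    ∃ u : Fin kk → m → ℂ,
      (∀ i j, i ≠ j → star (u i) ⬝ᵥ u j = 0) ∧ (∀ i, star (u i) ⬝ᵥ u i = 1 ∨ u i = 0) ∧
      hsSq (Z - (∑ i, vecMulVec (u i) (star (u i))) * Z) ≤ 1 / kk := by
  obtain ⟨U, lam, hU1, hU2, hl, hYY⟩ := frt_diag Z
  set Y := Uᴴ * Z with hY
  have hnuc : ∑ i, Real.sqrt (lam i) ≤ 1 := by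
    have h := frt_nuclear Y (Uᴴ * A) B (by rw [hY, hZ, Matrix.mul_assoc]) lam hl hYY
    have hUA : hsn (Uᴴ * A) = hsn A :=
      hsn_isometry_mul Uᴴ (by rw [conjTranspose_conjTranspose]; exact hU2) A
    rw [hUA] at h
    calc _ ≤ hsn A * hsn B := h
      _ ≤ 1 * 1 := mul_le_mul hA hB (hsn_nonneg _) zero_le_one
      _ = 1 := one_mul 1
  have hk0 : (0 : ℝ) < kk := by exact_mod_cast hkk
  set S : Finset m := Finset.univ.filter (fun i => 1 / (kk : ℝ) < Real.sqrt (lam i)) with hS
  have hcard : S.card ≤ kk := by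
    have h1 : (S.card : ℝ) * (1 / kk) ≤ ∑ i ∈ S, Real.sqrt (lam i) := by
      rw [← nsmul_eq_mul]
      exact Finset.card_nsmul_le_sum _ _ _ (fun i hi => (Finset.mem_filter.1 hi).2.le)
    have h2 : ∑ i ∈ S, Real.sqrt (lam i) ≤ ∑ i, Real.sqrt (lam i) :=
      Finset.sum_le_sum_of_subset_of_nonneg (Finset.subset_univ _) (fun i _ _ => Real.sqrt_nonneg _)
    have h3 : (S.card : ℝ) * (1 / kk) ≤ 1 := h1.trans (h2.trans hnuc)
    have h4 : (S.card : ℝ) ≤ kk := by
      rw [mul_one_div, div_le_one hk0] at h3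
      exact h3
    exact_mod_cast h4
  -- enumeration of `S`
  let emb : S ↪ Fin kk := S.equivFin.toEmbedding.trans (Fin.castLEEmb hcard)
  let col : m → m → ℂ := fun j a => U a j
  have hcol : ∀ a b, star (col a) ⬝ᵥ col b = if a = b then 1 else 0 := by
    intro a b
    have := congrFun (congrFun hU1 a) b
    rw [mul_apply, one_apply] at this
    rw [← this]
    simp [dotProduct, col, conjTranspose_apply]
  let u : Fin kk → m → ℂ := Function.extend emb (fun j : S => col j) 0
  have hu1 : ∀ j : S, u (emb j) = col j := fun j => emb.injective.extend_apply _ _ j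
  have hu0 : ∀ i, (¬ ∃ j, emb j = i) → u i = 0 := fun i h => by
    simp only [u]
    rw [Function.extend_apply' _ _ _ h]
    rfl
  refine ⟨u, ?_, ?_, ?_⟩
  · intro i j hij
    by_cases hi : ∃ a, emb a = i
    · by_cases hj : ∃ b, emb b = j
      · obtain ⟨a, rfl⟩ := hi
        obtain ⟨b, rfl⟩ := hj
        rw [hu1, hu1, hcol, if_neg]
        intro hab
        exact hij (congrArg emb (Subtype.ext hab))
      · rw [hu0 j hj]; simp
    · rw [hu0 i hi]; simp
  · intro i
    by_cases hi : ∃ a, emb a = i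
    · obtain ⟨a, rfl⟩ := hi
      left
      rw [hu1, hcol, if_pos rfl]
    · right
      exact hu0 i hi
  · set D : Matrix m m ℂ := diagonal (fun i => if i ∈ S then (1 : ℂ) else 0) with hD
    have hP : ∑ i, vecMulVec (u i) (star (u i)) = U * D * Uᴴ := by
      have e1 : ∑ i, vecMulVec (u i) (star (u i)) = ∑ j : S, vecMulVec (col j) (star (col j)) := by
        rw [← Finset.sum_subset (Finset.subset_univ (Finset.univ.map emb))]
        · rw [Finset.sum_map]
          exact Finset.sum_congr rfl fun j _ => by rw [hu1]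
        · intro i _ hi
          rw [hu0 i (by simpa using hi)]
          simp
      rw [e1, Finset.sum_coe_sort S (fun j => vecMulVec (col j) (star (col j)))]
      ext a b
      rw [Matrix.sum_apply, mul_apply]
      simp only [vecMulVec_apply, hD, mul_diagonal, conjTranspose_apply, Pi.star_apply, col]
      have e3 : ∑ j ∈ S, U a j * star (U b j) = ∑ j, if j ∈ S then U a j * star (U b j) else 0 := by
        rw [Finset.sum_ite_mem, Finset.univ_inter]
      rw [e3]
      refine Finset.sum_congr rfl fun j _ => ?_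
      split_ifs <;> simp
    have hZP : Z - (U * D * Uᴴ) * Z
        = U * (diagonal (fun i => if i ∈ S then (0 : ℂ) else 1) * Y) := by
      have hD' : diagonal (fun i => if i ∈ S then (0 : ℂ) else 1) = 1 - D := by
        rw [hD, ← diagonal_one, diagonal_sub]
        congr 1
        ext i
        split_ifs <;> simp
      rw [hD', hY, Matrix.sub_mul, Matrix.one_mul, Matrix.mul_sub, ← Matrix.mul_assoc U Uᴴ Z, hU2,
        Matrix.one_mul]
      simp only [Matrix.mul_assoc]
    have hrow : ∀ i, ∑ j, ‖Y i j‖ ^ 2 = lam i := by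
      intro i
      have h := congrFun (congrFun hYY i) i
      rw [mul_apply, diagonal_apply_eq] at h
      have h' : ((∑ j, ‖Y i j‖ ^ 2 : ℝ) : ℂ) = ((lam i : ℝ) : ℂ) := by
        rw [← h]
        push_cast
        refine Finset.sum_congr rfl fun j _ => ?_
        rw [conjTranspose_apply, Complex.star_def, Complex.mul_conj']
      exact_mod_cast h'
    rw [hP, hZP, frt_hsSq_isometry_mul U hU1]
    have e2 : hsSq (diagonal (fun i => if i ∈ S then (0 : ℂ) else 1) * Y)
        = ∑ i, if i ∈ S then 0 else lam i := by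
      unfold hsSq
      refine Finset.sum_congr rfl fun i _ => ?_
      simp only [diagonal_mul]
      split_ifs with hi
      · simp
      · simp only [one_mul]
        exact hrow i
    rw [e2]
    calc (∑ i, if i ∈ S then 0 else lam i) ≤ ∑ i, 1 / (kk : ℝ) * Real.sqrt (lam i) := by
          refine Finset.sum_le_sum fun i _ => ?_
          split_ifs with hi
          · positivity
          · have h1 : Real.sqrt (lam i) ≤ 1 / (kk : ℝ) := by
              by_contra hcon
              exact hi (Finset.mem_filter.2 ⟨Finset.mem_univ _, not_le.1 hcon⟩)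
            calc lam i = Real.sqrt (lam i) * Real.sqrt (lam i) := (Real.mul_self_sqrt (hl i)).symm
              _ ≤ 1 / (kk : ℝ) * Real.sqrt (lam i) :=
                mul_le_mul_of_nonneg_right h1 (Real.sqrt_nonneg _)
      _ = 1 / (kk : ℝ) * ∑ i, Real.sqrt (lam i) := by rw [Finset.mul_sum]
      _ ≤ 1 / (kk : ℝ) * 1 := mul_le_mul_of_nonneg_left hnuc (by positivity)
      _ = 1 / (kk : ℝ) := mul_one _

end

end Claimed.Agent.R296
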