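import Claimed.Agent.R296.P2.FrSlot
import Claimed.Agent.R296.HS
import Claimed.Agent.R296.P2.FrTrunc
import Claimed.Agent.R296.P2.FrCylD

/-!
# Row 296, paper 2, Lemma 5.3 (`lem:group-tensor`) in operator form (LEAVES `P2-FR-TRUNC`, `P2-FR-CYL`, prefix `frc_`)

General sites `s`, `io` (no frames here).  A *cylinder* is `emb D |k⟩⟨r|`.  For a time ordered product
`X = X_{J-1} ⋯ X_0` of cylinders put `S = ⋃ D j`,
  `frcIn D j  = D j \ ⋃_{i<j} D i`   (legs of the bra `r j` which are inputs of `X`),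
  `frcOut D j = D j \ ⋃_{i>j} D i`   (legs of the ket `k j` which are outputs of `X`).
`frc_expand`: `X` is within `2J/√kk` (operator norm) of a sum of `kk^(2J)` product-form operators `frProdOp` with
coefficients of modulus `≤ 1`; a bra all of whose legs are inputs is kept as it is, and so is a ket all of whose legs are outputs.

BLUEPRINT (no tensor-network formalism is needed).
 (N) for `X = emb S K` write `N_S(X) = hsn K`.   (N1) `N_D(emb D |k⟩⟨r|) = ‖k‖‖r‖`.
     (N2) SUBMULTIPLICATIVITY: `X = emb A K`, `Y = emb B K'`  ⟹  `X * Y = emb (A ∪ B) K''`, `hsn K'' ≤ hsn K * hsn K'`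
          [`hsn² = Tr((a ⊗ 1)(1 ⊗ b)) = Tr_{A∩B}(Tr_{A\B} a · Tr_{B\A} b) ≤ Tr a · Tr b`, `a = K†K`, `b = K'K'†` positive].
     Hence `N_S(X) ≤ 1`, and `‖X‖ ≤ N_S(X)` (`opNorm_le_hsn`, `emb` preserves the operator norm).
 (F) FACTORISATION at the ket `k j`.  `C = D j \ frcOut D j`, `Y = X_{J-1} ⋯ X_{j+1}` (acts trivially on `frcOut D j`, touches all of `C`),
     `W' = |z⟩⟨r j| X_{j-1} ⋯ X_0` (`z` any unit vector on `D j`).  For basis vectors `e` on `frcOut D j`, `f` on `C`: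
     `X = ∑_{e,f} k_j(e,f) · Y |e f⟩⟨z| W'`, `Y |e f⟩⟨z| = |e⟩⟨e0| · Y |e0 f⟩⟨z|`, and `∑_f N(Y |e0 f⟩⟨z|)² = N(Y)² ≤ 1`.
     So the flattening of `K` with rows `e` is `A * B`, `A = (k_j(e,f))`, `hsn A ≤ 1`, `hsn B ≤ 1` (by (N2)).  Bras: adjoint.
 (T) `frc_trunc`: rank `< kk` projector `P_j` on the group space with `N((1 - emb (frcOut D j) P_j) X) ≤ 1/√kk`.
 (E) `X_kk = (∏ emb (frcOut D j) P_j) X (∏ emb (frcIn D j) P'_j)`; telescoping with contractions gives the error `2J/√kk`; expanding the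
     projectors in their orthonormal vectors gives the product form, coefficients `⟨⊗ a| K |⊗ b⟩`, modulus `≤ ‖X‖ ≤ 1`.
     If `frcIn D j = D j` then `X = X' * emb (D j) |k j⟩⟨r j|` (the cylinder commutes to the right), take `P'_j = |r j⟩⟨r j|` (no error).
     Zero vectors of a family are replaced by arbitrary unit vectors, with coefficient `0`.
-/

set_option autoImplicit false

namespace Claimed.Agent.R296

open Matrix

/-- **truncation** (last paragraph of the proof of Lemma 5.3).  If `Z = A * B` with Hilbert-Schmidt norms `≤ 1` (so the nuclear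
norm of `Z` is `≤ 1`), the projector `P` onto the left singular vectors with singular value `> 1/kk` has rank `< kk` and
`hsn (Z - P Z)² ≤ 1/kk`.  Proof: spectral theorem for `G = Z Zᴴ = ∑ λ_i |u_i⟩⟨u_i|`; `w_i = Zᴴ u_i/√λ_i` orthonormal;
`∑ √λ_i = ∑ ⟨Aᴴ u_i, B w_i⟩ ≤ hsn A * hsn B`; `#{√λ_i > 1/kk} < kk`; `∑_{√λ_i ≤ 1/kk} λ_i ≤ (1/kk) ∑ √λ_i`. -/
theorem frc_trunc {m n c : Type} [Fintype m] [DecidableEq m] [Fintype n] [DecidableEq n] [Fintype c]
    [DecidableEq c] (Z : Matrix m n ℂ) (A : Matrix m c ℂ) (B : Matrix c n ℂ) (hZ : Z = A * B)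
    (hA : hsn A ≤ 1) (hB : hsn B ≤ 1) (kk : ℕ) (hkk : 1 ≤ kk) :
    ∃ u : Fin kk → m → ℂ,
      (∀ i j, i ≠ j → star (u i) ⬝ᵥ u j = 0) ∧ (∀ i, star (u i) ⬝ᵥ u i = 1 ∨ u i = 0) ∧
      hsSq (Z - (∑ i, vecMulVec (u i) (star (u i))) * Z) ≤ 1 / kk :=
  frt_trunc Z A B hZ hA hB kk hkk

section Cyl

variable {s : Type} [DecidableEq s] [Fintype s] {io : s → Type} [∀ x, Fintype (io x)]
  [∀ x, DecidableEq (io x)] [∀ x, Nonempty (io x)]

/-- input legs of the `j`-th bra -/
def frcIn {J : ℕ} (D : Fin J → Finset s) (j : Fin J) : Finset s :=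
  D j \ (Finset.univ.filter fun i => i < j).biUnion D

/-- output legs of the `j`-th ket -/
def frcOut {J : ℕ} (D : Fin J → Finset s) (j : Fin J) : Finset s :=
  D j \ (Finset.univ.filter fun i => j < i).biUnion D

/-- time ordered product of cylinders -/
def frcProd {J : ℕ} (D : Fin J → Finset s) (k r : ∀ j, CfgOn io (D j) → ℂ) :
    Matrix (Cfg io) (Cfg io) ℂ :=
  cpTprod J fun j => emb (D j) (vecMulVec (k j) (star (r j)))

theorem frc_expand {J : ℕ} (D : Fin J → Finset s) (k r : ∀ j, CfgOn io (D j) → ℂ)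
    (hk : ∀ j, cpNsq (k j) = 1) (hr : ∀ j, cpNsq (r j) = 1) (kk : ℕ) (hkk : 1 ≤ kk) :
    ∃ (a : ∀ j, Fin kk → CfgOn io (frcOut D j) → ℂ) (b : ∀ j, Fin kk → CfgOn io (frcIn D j) → ℂ)
      (c : (Fin J → Fin kk) → (Fin J → Fin kk) → ℂ),
      (∀ j i, cpNsq (a j i) = 1) ∧ (∀ j i, cpNsq (b j i) = 1) ∧ (∀ α β, ‖c α β‖ ≤ 1) ∧
      (∀ j, frcOut D j = D j → ∀ i (σ : Cfg io), a j i (crOn _ σ) = k j (crOn _ σ)) ∧
      (∀ j, frcIn D j = D j → ∀ i (σ : Cfg io), b j i (crOn _ σ) = r j (crOn _ σ)) ∧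
      FrBd (frcProd D k r - ∑ α, ∑ β, c α β •
        frProdOp (Finset.univ.biUnion D) (frcOut D) (frcIn D) (fun j => a j (α j)) (fun j => b j (β j)))
        (2 * J / Real.sqrt kk) :=
  frc_expand_aux D (frcOut D) (frcIn D)
    (fun j x => by
      simp only [frcOut, Finset.mem_sdiff, Finset.mem_biUnion, Finset.mem_filter, Finset.mem_univ,
        true_and, not_exists, not_and])
    (fun j x => by
      simp only [frcIn, Finset.mem_sdiff, Finset.mem_biUnion, Finset.mem_filter, Finset.mem_univ,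
        true_and, not_exists, not_and])
    k r hk hr kk hkk

end Cyl

end Claimed.Agent.R296
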