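import Claimed.Agent.R296.P2.FrSlot
import Claimed.Agent.R296.HS

/-!
# Row 296, paper 2, Lemma 5.3: cylinder calculus (part A of leaf `P2-FR-CYL`, prefix `frc_`; helper267)

`frcCyl D α β` is the operator `|α⟩⟨β|` on `D`, identity off `D`, where the ket and the bra are given as functions of the WHOLE
configuration (meant to depend on the sites of `D` only).  No dependent types: `D` can be rewritten.
* `emb D (vecMulVec k (star r)) = frcCyl D (k ∘ crOn D) (r ∘ crOn D)` and `frProdOp S O I a b = frcCyl S (∏ a) (∏ b)` hold by `rfl`;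
* operators supported inside `D` act on the ket (`frc_mul_cyl`) resp. on the bra (`frc_cyl_mul`);
* two cylinders with disjoint supports merge (`frc_cyl_merge`);
* `frcE B e e0 = emb B |e⟩⟨e0|` (matrix units of a region).
-/

set_option autoImplicit false
set_option linter.unusedSectionVars false
set_option linter.unusedDecidableInType false

namespace Claimed.Agent.R296

open Matrix
open scoped Matrix.Norms.L2Operator ComplexOrder

section CylA

variable {s : Type} [DecidableEq s] [Fintype s] {io : s → Type} [∀ x, Fintype (io x)]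
  [∀ x, DecidableEq (io x)]

/-! ### configurations -/

theorem frc_crOff_eq_iff (A : Finset s) (σ τ : Cfg io) :
    crOff A σ = crOff A τ ↔ ∀ x, x ∉ A → σ x = τ x :=
  ⟨fun h x hx => congrFun h ⟨x, hx⟩, fun h => funext fun x => h x.1 x.2⟩

theorem frc_crOn_eq_iff (A : Finset s) (σ τ : Cfg io) :
    crOn A σ = crOn A τ ↔ ∀ x, x ∈ A → σ x = τ x :=
  ⟨fun h x hx => congrFun h ⟨x, hx⟩, fun h => funext fun x => h x.1 x.2⟩

theorem frc_crOff_mono {A B : Finset s} (h : A ⊆ B) {σ τ : Cfg io} (h1 : crOff A σ = crOff A τ) :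
    crOff B σ = crOff B τ :=
  (frc_crOff_eq_iff B σ τ).2 fun x hx => (frc_crOff_eq_iff A σ τ).1 h1 x fun hA => hx (h hA)

theorem frc_cglue_of_mem (A : Finset s) (a : CfgOn io A) (b : CfgOff io A) {x : s} (hx : x ∈ A) :
    cglue A a b x = a ⟨x, hx⟩ := by
  simp [cglue, hx]

theorem frc_cglue_of_not_mem (A : Finset s) (a : CfgOn io A) (b : CfgOff io A) {x : s}
    (hx : x ∉ A) : cglue A a b x = b ⟨x, hx⟩ := by
  simp [cglue, hx]

/-- the function depends on the sites of `A` only -/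
def FrcDep (A : Finset s) (α : Cfg io → ℂ) : Prop :=
  ∀ σ τ : Cfg io, (∀ x, x ∈ A → σ x = τ x) → α σ = α τ

theorem frc_dep_comp (A : Finset s) (a : CfgOn io A → ℂ) : FrcDep A (fun σ => a (crOn A σ)) :=
  fun σ τ h => congrArg a ((frc_crOn_eq_iff A σ τ).2 h)

theorem FrcDep.mono {A B : Finset s} (h : A ⊆ B) {α : Cfg io → ℂ} (hα : FrcDep A α) :
    FrcDep B α := fun σ τ h1 => hα σ τ fun x hx => h1 x (h hx)

theorem FrcDep.mul {A : Finset s} {α β : Cfg io → ℂ} (hα : FrcDep A α) (hβ : FrcDep A β) :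
    FrcDep A (fun σ => α σ * β σ) := fun σ τ h => by
  show α σ * β σ = α τ * β τ
  rw [hα σ τ h, hβ σ τ h]

/-- summation over configurations splits (any commutative monoid) -/
theorem frc_sum_cfg {M : Type} [AddCommMonoid M] (A : Finset s) (f : Cfg io → M) :
    ∑ σ, f σ = ∑ a : CfgOn io A, ∑ b : CfgOff io A, f (cglue A a b) := by
  rw [← Fintype.sum_prod_type']
  exact Fintype.sum_equiv (cfgSplit A) _ _ (fun σ => by simp [cfgSplit])

/-! ### norms -/

theorem frc_nsq_eq {n : Type} [Fintype n] [DecidableEq n] (v : n → ℂ) : cpNsq v = l2n v ^ 2 :=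
  (l2n_sq v).symm

theorem frc_nsq_nonneg {n : Type} [Fintype n] (v : n → ℂ) : 0 ≤ cpNsq v :=
  Finset.sum_nonneg fun _ _ => by positivity

theorem frc_nsq_mulVec_le {m n : Type} [Fintype m] [DecidableEq m] [Fintype n] [DecidableEq n]
    (A : Matrix m n ℂ) (v : n → ℂ) : cpNsq (A *ᵥ v) ≤ ‖A‖ ^ 2 * cpNsq v := by
  rw [frc_nsq_eq, frc_nsq_eq, ← mul_pow]
  exact pow_le_pow_left₀ (l2n_nonneg _) (l2n_mulVec_le A v) 2

theorem frc_nsq_mulVec_le_of {m n : Type} [Fintype m] [DecidableEq m] [Fintype n] [DecidableEq n]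
    {A : Matrix m n ℂ} (hA : ‖A‖ ≤ 1) (v : n → ℂ) : cpNsq (A *ᵥ v) ≤ cpNsq v := by
  refine (frc_nsq_mulVec_le A v).trans ?_
  have h1 : ‖A‖ ^ 2 ≤ 1 := pow_le_one₀ (norm_nonneg _) hA
  nlinarith [frc_nsq_nonneg v]

theorem frc_bd_of_norm_le {m n : Type} [Fintype m] [DecidableEq m] [Fintype n] [DecidableEq n]
    {A : Matrix m n ℂ} {c : ℝ} (h : ‖A‖ ≤ c) : FrBd A c := fun v => by
  refine (frc_nsq_mulVec_le A v).trans ?_
  exact mul_le_mul_of_nonneg_right (pow_le_pow_left₀ (norm_nonneg _) h 2) (frc_nsq_nonneg v)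

theorem frc_norm_le_of_nsq {m n : Type} [Fintype m] [DecidableEq m] [Fintype n] [DecidableEq n]
    {A : Matrix m n ℂ} {c : ℝ} (hc : 0 ≤ c) (h : ∀ v, cpNsq (A *ᵥ v) ≤ c ^ 2 * cpNsq v) :
    ‖A‖ ≤ c := by
  refine opNorm_le_of_l2n hc fun v => ?_
  have h1 := h v
  rw [frc_nsq_eq, frc_nsq_eq, ← mul_pow] at h1
  exact (pow_le_pow_iff_left₀ (l2n_nonneg _) (mul_nonneg hc (l2n_nonneg _)) two_ne_zero).1 h1

theorem frc_norm_vecMulVec_le {m n : Type} [Fintype m] [DecidableEq m] [Fintype n] [DecidableEq n]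
    (v : m → ℂ) (w : n → ℂ) (hv : cpNsq v ≤ 1) (hw : cpNsq w ≤ 1) :
    ‖vecMulVec v (star w)‖ ≤ 1 := by
  refine (opNorm_le_hsn _).trans ?_
  rw [hsn_vecMulVec]
  have h1 : l2n v ≤ 1 := by
    rw [frc_nsq_eq] at hv
    exact (pow_le_one_iff_of_nonneg (l2n_nonneg _) two_ne_zero).1 hv
  have h2 : l2n (star w) ≤ 1 := by
    have e : cpNsq (star w) = cpNsq w := by simp [cpNsq]
    rw [← e, frc_nsq_eq] at hw
    exact (pow_le_one_iff_of_nonneg (l2n_nonneg _) two_ne_zero).1 hw
  calc l2n v * l2n (star w) ≤ 1 * 1 := mul_le_mul h1 h2 (l2n_nonneg _) zero_le_one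
    _ = 1 := one_mul 1

/-! ### cylinders -/

/-- `|α⟩⟨β|` on `D`, identity off `D` -/
def frcCyl (D : Finset s) (α β : Cfg io → ℂ) : Matrix (Cfg io) (Cfg io) ℂ :=
  Matrix.of fun σ' σ => if crOff D σ' = crOff D σ then α σ' * star (β σ) else 0

theorem frc_cyl_apply (D : Finset s) (α β : Cfg io → ℂ) (σ' σ : Cfg io) :
    frcCyl D α β σ' σ = if crOff D σ' = crOff D σ then α σ' * star (β σ) else 0 := rfl

theorem frc_emb_eq_cyl (D : Finset s) (k r : CfgOn io D → ℂ) :
    emb D (vecMulVec k (star r)) = frcCyl D (fun σ => k (crOn D σ)) (fun σ => r (crOn D σ)) := rfl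

theorem frc_prodOp_eq_cyl {J : ℕ} (S : Finset s) (O I : Fin J → Finset s)
    (a : ∀ j, CfgOn io (O j) → ℂ) (b : ∀ j, CfgOn io (I j) → ℂ) :
    frProdOp S O I a b =
      frcCyl S (fun σ => ∏ j, a j (crOn (O j) σ)) (fun σ => ∏ j, b j (crOn (I j) σ)) := rfl

theorem frc_cyl_conjTranspose (D : Finset s) (α β : Cfg io → ℂ) :
    (frcCyl D α β)ᴴ = frcCyl D β α := by
  ext σ' σ
  rw [conjTranspose_apply, frc_cyl_apply, frc_cyl_apply]
  by_cases h : crOff D σ = crOff D σ'
  · rw [if_pos h, if_pos h.symm, star_mul', star_star, mul_comm]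
  · rw [if_neg h, if_neg (fun h' => h h'.symm), star_zero]

theorem frc_cyl_smul (D : Finset s) (c : ℂ) (α β : Cfg io → ℂ) :
    frcCyl D (fun σ => c * α σ) β = c • frcCyl D α β := by
  ext σ' σ
  rw [Matrix.smul_apply, frc_cyl_apply, frc_cyl_apply]
  split_ifs
  · rw [smul_eq_mul, mul_assoc]
  · rw [smul_zero]

theorem frc_cyl_sum {ι : Type} (t : Finset ι) (D : Finset s) (α : ι → Cfg io → ℂ)
    (β : Cfg io → ℂ) :
    frcCyl D (fun σ => ∑ i ∈ t, α i σ) β = ∑ i ∈ t, frcCyl D (α i) β := by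
  ext σ' σ
  rw [Matrix.sum_apply, frc_cyl_apply]
  simp only [frc_cyl_apply]
  split_ifs
  · rw [Finset.sum_mul]
  · rw [Finset.sum_const_zero]

theorem frc_cyl_zero_left (D : Finset s) (β : Cfg io → ℂ) :
    frcCyl D (fun _ => 0) β = 0 := by
  ext σ' σ
  rw [frc_cyl_apply]
  simp

/-- operators supported inside `D` act on the ket -/
theorem frc_mul_cyl {B D : Finset s} (hBD : B ⊆ D) {Z : Matrix (Cfg io) (Cfg io) ℂ}
    (hZ : SuppIn B Z) (α β : Cfg io → ℂ) : Z * frcCyl D α β = frcCyl D (Z *ᵥ α) β := by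
  obtain ⟨K, rfl⟩ := hZ
  ext σ' σ
  rw [Matrix.mul_apply, frc_cyl_apply]
  have key : ∀ τ, emb B K σ' τ * frcCyl D α β τ σ
      = if crOff D σ' = crOff D σ then emb B K σ' τ * α τ * star (β σ) else 0 := by
    intro τ
    rw [frc_cyl_apply]
    by_cases h1 : crOff B σ' = crOff B τ
    · have h2 : crOff D σ' = crOff D τ := frc_crOff_mono hBD h1
      rw [h2]
      split_ifs
      · rw [mul_assoc]
      · rw [mul_zero]
    · have h3 : emb B K σ' τ = 0 := by
        simp only [emb, Matrix.of_apply]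
        rw [if_neg h1]
      rw [h3]
      simp
  rw [Finset.sum_congr rfl fun τ _ => key τ]
  split_ifs
  · rw [← Finset.sum_mul]
    rfl
  · rw [Finset.sum_const_zero]

/-- operators supported inside `D` act on the bra -/
theorem frc_cyl_mul {B D : Finset s} (hBD : B ⊆ D) {Z : Matrix (Cfg io) (Cfg io) ℂ}
    (hZ : SuppIn B Z) (α β : Cfg io → ℂ) : frcCyl D α β * Z = frcCyl D α (Zᴴ *ᵥ β) := by
  have h := frc_mul_cyl hBD hZ.conjTranspose β α
  have h2 := congrArg conjTranspose h
  rw [conjTranspose_mul, conjTranspose_conjTranspose, frc_cyl_conjTranspose,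
    frc_cyl_conjTranspose] at h2
  exact h2

/-- two cylinders with disjoint supports merge -/
theorem frc_cyl_merge {A B : Finset s} (hAB : Disjoint A B) (α α' β β' : Cfg io → ℂ)
    (hα' : FrcDep A α') (hβ : FrcDep B β) :
    frcCyl A α α' * frcCyl B β β'
      = frcCyl (A ∪ B) (fun σ => α σ * β σ) (fun σ => α' σ * β' σ) := by
  ext σ' σ
  rw [Matrix.mul_apply, frc_cyl_apply]
  simp only [frc_cyl_apply]
  by_cases h : crOff (A ∪ B) σ' = crOff (A ∪ B) σ
  · rw [if_pos h]
    have h' := (frc_crOff_eq_iff _ _ _).1 h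
    rw [Finset.sum_eq_single (cmix A σ σ')]
    · have h1 : crOff A σ' = crOff A (cmix A σ σ') :=
        (frc_crOff_eq_iff _ _ _).2 fun x hx => by simp [cmix, hx]
      have h2 : crOff B (cmix A σ σ') = crOff B σ :=
        (frc_crOff_eq_iff _ _ _).2 fun x hx => by
          by_cases hA : x ∈ A
          · simp [cmix, hA]
          · simp only [cmix, hA, if_false]
            exact h' x (by simp [hA, hx])
      rw [if_pos h1, if_pos h2]
      have h3 : α' (cmix A σ σ') = α' σ := hα' _ _ fun x hx => by simp [cmix, hx]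
      have h4 : β (cmix A σ σ') = β σ' := hβ _ _ fun x hx => by
        have hA : x ∉ A := fun hA => (Finset.disjoint_left.1 hAB hA) hx
        simp [cmix, hA]
      rw [h3, h4, star_mul']
      ring
    · intro τ _ hτ
      by_cases h1 : crOff A σ' = crOff A τ
      · by_cases h2 : crOff B τ = crOff B σ
        · exfalso
          apply hτ
          funext x
          by_cases hA : x ∈ A
          · have hB : x ∉ B := Finset.disjoint_left.1 hAB hA
            simp only [cmix, hA, if_true]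
            exact (frc_crOff_eq_iff _ _ _).1 h2 x hB
          · simp only [cmix, hA, if_false]
            exact ((frc_crOff_eq_iff _ _ _).1 h1 x hA).symm
        · rw [if_neg h2, mul_zero]
      · rw [if_neg h1, zero_mul]
    · intro h0
      exact absurd (Finset.mem_univ _) h0
  · rw [if_neg h]
    refine Finset.sum_eq_zero fun τ _ => ?_
    by_cases h1 : crOff A σ' = crOff A τ
    · by_cases h2 : crOff B τ = crOff B σ
      · exfalso
        apply h
        refine (frc_crOff_eq_iff _ _ _).2 fun x hx => ?_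
        have hA : x ∉ A := fun hA => hx (Finset.mem_union_left _ hA)
        have hB : x ∉ B := fun hB => hx (Finset.mem_union_right _ hB)
        rw [(frc_crOff_eq_iff _ _ _).1 h1 x hA, (frc_crOff_eq_iff _ _ _).1 h2 x hB]
      · rw [if_neg h2, mul_zero]
    · rw [if_neg h1, zero_mul]

theorem frc_cyl_empty : frcCyl (∅ : Finset s) (fun _ : Cfg io => 1) (fun _ => 1) = 1 := by
  ext σ' σ
  rw [frc_cyl_apply, Matrix.one_apply]
  have : crOff (∅ : Finset s) σ' = crOff ∅ σ ↔ σ' = σ := by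
    rw [frc_crOff_eq_iff]
    constructor
    · intro h
      funext x
      exact h x (by simp)
    · intro h x _
      rw [h]
  simp only [this]
  split_ifs <;> simp

/-! ### from functions of the whole configuration to functions on `CfgOn` -/

variable [∀ x, Nonempty (io x)]

/-- restriction of a function which depends on `S` only -/
noncomputable def frcLow (S : Finset s) (α : Cfg io → ℂ) : CfgOn io S → ℂ :=
  fun e => α (cglue S e (Classical.arbitrary _))

theorem frc_low_crOn {S : Finset s} {α : Cfg io → ℂ} (hα : FrcDep S α) (σ : Cfg io) :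
    frcLow S α (crOn S σ) = α σ :=
  hα _ _ fun x hx => by rw [frc_cglue_of_mem _ _ _ hx]; rfl

theorem frc_cyl_eq_emb {S : Finset s} {α β : Cfg io → ℂ} (hα : FrcDep S α) (hβ : FrcDep S β) :
    frcCyl S α β = emb S (vecMulVec (frcLow S α) (star (frcLow S β))) := by
  rw [frc_emb_eq_cyl]
  congr 1
  · funext σ; exact (frc_low_crOn hα σ).symm
  · funext σ; exact (frc_low_crOn hβ σ).symm

theorem frc_cyl_suppIn {S : Finset s} {α β : Cfg io → ℂ} (hα : FrcDep S α) (hβ : FrcDep S β) :
    SuppIn S (frcCyl S α β) := ⟨_, frc_cyl_eq_emb hα hβ⟩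

theorem frc_low_zero (S : Finset s) : frcLow S (fun _ : Cfg io => 0) = 0 := rfl

/-! ### matrix units of a region -/

/-- `|e⟩⟨e0|` on the region `B` -/
def frcE (B : Finset s) (e e0 : CfgOn io B) : Matrix (Cfg io) (Cfg io) ℂ :=
  emb B (Matrix.single e e0 1)

theorem frc_E_suppIn (B : Finset s) (e e0 : CfgOn io B) : SuppIn B (frcE B e e0) := ⟨_, rfl⟩

theorem frc_E_mulVec (B : Finset s) (e e0 : CfgOn io B) (Ψ : Cfg io → ℂ) (σ : Cfg io) :
    (frcE B e e0 *ᵥ Ψ) σ = if crOn B σ = e then Ψ (cglue B e0 (crOff B σ)) else 0 := by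
  rw [frcE, sp_emb_mulVec, Finset.sum_eq_single e0]
  · rw [Matrix.single_apply]
    by_cases h : crOn B σ = e
    · rw [if_pos ⟨h.symm, rfl⟩, if_pos h, one_mul]
    · rw [if_neg (fun h' => h h'.1.symm), if_neg h, zero_mul]
  · intro a' _ ha'
    rw [Matrix.single_apply, if_neg (fun h' => ha' h'.2.symm), zero_mul]
  · intro h
    exact absurd (Finset.mem_univ _) h

theorem frc_E_mul (B : Finset s) (e e0 e1 : CfgOn io B) :
    frcE B e e0 * frcE B e0 e1 = frcE B e e1 := by
  rw [frcE, frcE, ← emb_mul, Matrix.single_mul_single_same, mul_one]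
  rfl

theorem frc_norm_single_le {m n : Type} [Fintype m] [DecidableEq m] [Fintype n] [DecidableEq n]
    (i : m) (j : n) : ‖(Matrix.single i j (1 : ℂ))‖ ≤ 1 := by
  refine (opNorm_le_hsn _).trans ?_
  rw [hsn]
  refine Real.sqrt_le_one.2 ?_
  unfold hsSq
  rw [Finset.sum_eq_single i, Finset.sum_eq_single j]
  · simp
  · intro b _ hb
    rw [Matrix.single_apply, if_neg (fun h => hb h.2.symm)]
    simp
  · intro h; exact absurd (Finset.mem_univ _) h
  · intro a _ ha
    refine Finset.sum_eq_zero fun b _ => ?_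
    rw [Matrix.single_apply, if_neg (fun h => ha h.1.symm)]
    simp
  · intro h; exact absurd (Finset.mem_univ _) h

theorem frc_norm_E_le (B : Finset s) (e e0 : CfgOn io B) : ‖frcE B e e0‖ ≤ 1 :=
  (norm_emb_le B _).trans (frc_norm_single_le e e0)

/-- `frcE` as a cylinder -/
theorem frc_E_eq_cyl (B : Finset s) (e e0 : CfgOn io B) :
    frcE B e e0 = frcCyl B (fun σ => if crOn B σ = e then 1 else 0)
      (fun σ => if crOn B σ = e0 then 1 else 0) := by
  ext σ' σ
  rw [frc_cyl_apply, frcE]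
  simp only [emb, Matrix.of_apply, Matrix.single_apply]
  by_cases h : crOff B σ' = crOff B σ
  · rw [if_pos h, if_pos h]
    by_cases h1 : crOn B σ' = e
    · by_cases h2 : crOn B σ = e0
      · rw [if_pos ⟨h1.symm, h2.symm⟩, if_pos h1, if_pos h2]; simp
      · rw [if_neg (fun h' => h2 h'.2.symm), if_neg h2]; simp
    · rw [if_neg (fun h' => h1 h'.1.symm), if_neg h1]; simp
  · rw [if_neg h, if_neg h]

/-- the family `e ↦ |e⟩⟨e0|` is a row contraction -/
theorem frc_E_row (B : Finset s) (e0 : CfgOn io B) (v : CfgOn io B → Cfg io → ℂ) :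
    cpNsq (∑ e, frcE B e e0 *ᵥ v e) ≤ ∑ e, cpNsq (v e) := by
  have h1 : ∀ σ, (∑ e, frcE B e e0 *ᵥ v e) σ = v (crOn B σ) (cglue B e0 (crOff B σ)) := by
    intro σ
    rw [Finset.sum_apply]
    simp only [frc_E_mulVec]
    rw [Finset.sum_ite_eq Finset.univ (crOn B σ), if_pos (Finset.mem_univ _)]
  unfold cpNsq
  simp only [h1]
  rw [frc_sum_cfg B]
  refine Finset.sum_le_sum fun e _ => ?_
  simp only [sp_crOn_cglue, sp_crOff_cglue]
  rw [frc_sum_cfg B (fun σ => ‖v e σ‖ ^ 2)]
  exact Finset.single_le_sum (f := fun e' => ∑ b : CfgOff io B, ‖v e (cglue B e' b)‖ ^ 2)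
    (fun _ _ => Finset.sum_nonneg fun _ _ => by positivity) (Finset.mem_univ e0)

end CylA

end Claimed.Agent.R296
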