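import Claimed.Agent.R296.P2.FrCylA

/-!
# Row 296, paper 2, Lemma 5.3: support-Hilbert-Schmidt calculus (part B of leaf `P2-FR-CYL`, prefix `frc_`; helper267)

`FrcHS T Y`: `Y` is supported in `T` and `∑_f ‖Y |f⟩⟨g|_C v‖² ≤ ‖v‖²` for every `C ⊆ T` (this is `N_T(Y) ≤ 1` of the blueprint, in a
form which needs no identification of configuration spaces).  The class contains `1` (`T = ∅`), the cylinders of unit vectors
and is closed under products.
`frc_key`: if `Z` is a matrix with rows `CfgOn O`, columns `CfgOn C`, `D = O ∪ C`, `Y` is `FrcHS T` with `C ⊆ T`, `O ∩ T = ∅`, then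
`‖Y |Z⟩⟨ρ|_D‖ ≤ ‖Z‖` (operator norm of `Z`!).
-/

set_option autoImplicit false
set_option linter.unusedSectionVars false
set_option linter.unusedDecidableInType false

namespace Claimed.Agent.R296

open Matrix
open scoped Matrix.Norms.L2Operator ComplexOrder

section CylB

variable {s : Type} [DecidableEq s] [Fintype s] {io : s → Type} [∀ x, Fintype (io x)]
  [∀ x, DecidableEq (io x)] [∀ x, Nonempty (io x)]

/-! ### auxiliary -/

theorem frc_sum_comp_le {α β : Type} [Fintype α] [Fintype β] [DecidableEq β] (ι : α → β)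
    (hι : Function.Injective ι) (h : β → ℝ) (h0 : ∀ b, 0 ≤ h b) : ∑ a, h (ι a) ≤ ∑ b, h b := by
  rw [← Finset.sum_image (s := Finset.univ) (g := ι) (f := h) (fun a _ b _ hab => hι hab)]
  exact Finset.sum_le_sum_of_subset_of_nonneg (Finset.subset_univ _) fun b _ _ => h0 b

/-- restriction of a configuration on `C` to a subset -/
def frcRes {A C : Finset s} (h : A ⊆ C) (f : CfgOn io C) : CfgOn io A := fun x => f ⟨x.1, h x.2⟩

theorem frc_res_crOn {A C : Finset s} (h : A ⊆ C) (σ : Cfg io) :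
    frcRes h (crOn C σ) = crOn A σ := rfl

theorem frc_eq_of_res {C C₁ C₂ : Finset s} (h₁ : C₁ ⊆ C) (h₂ : C₂ ⊆ C) (hc : C₁ ∪ C₂ = C)
    {f f' : CfgOn io C} (e₁ : frcRes h₁ f = frcRes h₁ f') (e₂ : frcRes h₂ f = frcRes h₂ f') :
    f = f' := by
  funext x
  have hx : x.1 ∈ C₁ ∪ C₂ := by rw [hc]; exact x.2
  rcases Finset.mem_union.1 hx with h | h
  · exact congrFun e₁ ⟨x.1, h⟩
  · exact congrFun e₂ ⟨x.1, h⟩

theorem frc_crOn_eq_split {C C₁ C₂ : Finset s} (h₁ : C₁ ⊆ C) (h₂ : C₂ ⊆ C) (hc : C₁ ∪ C₂ = C)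
    (σ : Cfg io) (f : CfgOn io C) :
    crOn C σ = f ↔ crOn C₁ σ = frcRes h₁ f ∧ crOn C₂ σ = frcRes h₂ f := by
  constructor
  · rintro rfl
    exact ⟨rfl, rfl⟩
  · rintro ⟨e₁, e₂⟩
    exact frc_eq_of_res h₁ h₂ hc e₁ e₂

theorem frc_crOn_cglue_disj {O C : Finset s} (h : Disjoint O C) (e : CfgOn io O) (σ : Cfg io) :
    crOn C (cglue O e (crOff O σ)) = crOn C σ := by
  funext x
  have hx : x.1 ∉ O := fun hO => (Finset.disjoint_left.1 h hO) x.2
  show cglue O e (crOff O σ) x.1 = σ x.1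
  rw [frc_cglue_of_not_mem _ _ _ hx]
  rfl

theorem frc_E_conjTranspose (B : Finset s) (e e0 : CfgOn io B) :
    (frcE B e e0)ᴴ = frcE B e0 e := by
  rw [frcE, ← emb_conjTranspose, Matrix.conjTranspose_single, star_one]
  rfl

theorem frc_E_split {C C₁ C₂ : Finset s} (h₁ : C₁ ⊆ C) (h₂ : C₂ ⊆ C) (hd : Disjoint C₁ C₂)
    (hc : C₁ ∪ C₂ = C) (f g : CfgOn io C) :
    frcE C f g = frcE C₁ (frcRes h₁ f) (frcRes h₁ g) * frcE C₂ (frcRes h₂ f) (frcRes h₂ g) := by
  rw [frc_E_eq_cyl, frc_E_eq_cyl, frc_E_eq_cyl, frc_cyl_merge hd, hc]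
  · have key : ∀ (f : CfgOn io C) (σ : Cfg io), (if crOn C σ = f then (1 : ℂ) else 0)
        = (if crOn C₁ σ = frcRes h₁ f then 1 else 0) * (if crOn C₂ σ = frcRes h₂ f then 1 else 0) := by
      intro f σ
      by_cases e₁ : crOn C₁ σ = frcRes h₁ f
      · by_cases e₂ : crOn C₂ σ = frcRes h₂ f
        · rw [if_pos e₁, if_pos e₂, if_pos ((frc_crOn_eq_split h₁ h₂ hc σ f).2 ⟨e₁, e₂⟩), one_mul]
        · rw [if_neg e₂, if_neg (fun h => e₂ ((frc_crOn_eq_split h₁ h₂ hc σ f).1 h).2), mul_zero]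
      · rw [if_neg e₁, if_neg (fun h => e₁ ((frc_crOn_eq_split h₁ h₂ hc σ f).1 h).1), zero_mul]
    congr 1
    · funext σ; exact key f σ
    · funext σ; exact key g σ
  · exact frc_dep_comp C₁ (fun e => if e = frcRes h₁ g then 1 else 0)
  · exact frc_dep_comp C₂ (fun e => if e = frcRes h₂ f then 1 else 0)

theorem frc_E_empty (g : CfgOn io (∅ : Finset s)) : frcE ∅ g g = 1 := by
  have h : (Matrix.single g g (1 : ℂ)) = 1 := by
    ext a b
    have ha : a = g := funext fun x => (Finset.notMem_empty _ x.2).elim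
    have hb : b = g := funext fun x => (Finset.notMem_empty _ x.2).elim
    rw [ha, hb]
    simp
  rw [frcE, h, emb_one]

theorem frc_norm_sq_vecMulVec_le {m n : Type} [Fintype m] [DecidableEq m] [Fintype n]
    [DecidableEq n] (v : m → ℂ) (w : n → ℂ) :
    ‖vecMulVec v (star w)‖ ^ 2 ≤ cpNsq v * cpNsq w := by
  have e : cpNsq (star w) = cpNsq w := by simp [cpNsq]
  rw [← e, frc_nsq_eq, frc_nsq_eq, ← mul_pow, ← hsn_vecMulVec]
  exact pow_le_pow_left₀ (norm_nonneg _) (opNorm_le_hsn _) 2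

theorem frc_emb_sub (A : Finset s) (K L : Matrix (CfgOn io A) (CfgOn io A) ℂ) :
    emb A (K - L) = emb A K - emb A L := map_sub (embHom A) K L

theorem frc_emb_sum {ι : Type} (t : Finset ι) (A : Finset s)
    (K : ι → Matrix (CfgOn io A) (CfgOn io A) ℂ) :
    emb A (∑ i ∈ t, K i) = ∑ i ∈ t, emb A (K i) := map_sum (embHom A) K t

/-! ### the class `FrcHS` -/

/-- `Y` is supported in `T`, with Hilbert-Schmidt norm at most one on `T` -/
def FrcHS (T : Finset s) (Y : Matrix (Cfg io) (Cfg io) ℂ) : Prop :=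
  SuppIn T Y ∧ ∀ C : Finset s, C ⊆ T → ∀ (g : CfgOn io C) (v : Cfg io → ℂ),
    ∑ f : CfgOn io C, cpNsq ((Y * frcE C f g) *ᵥ v) ≤ cpNsq v

theorem FrcHS.one : FrcHS (∅ : Finset s) (1 : Matrix (Cfg io) (Cfg io) ℂ) := by
  refine ⟨SuppIn.one _, fun C hC g v => ?_⟩
  obtain rfl := Finset.subset_empty.1 hC
  rw [Finset.sum_eq_single g]
  · rw [frc_E_empty, Matrix.one_mul, Matrix.one_mulVec]
  · intro f _ hf
    exact absurd (funext fun x => (Finset.notMem_empty _ x.2).elim) hf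
  · intro h
    exact absurd (Finset.mem_univ _) h

theorem FrcHS.norm_le {T : Finset s} {Y : Matrix (Cfg io) (Cfg io) ℂ} (h : FrcHS T Y) :
    ‖Y‖ ≤ 1 := by
  refine frc_norm_le_of_nsq zero_le_one fun v => ?_
  have g : CfgOn io (∅ : Finset s) := Classical.arbitrary _
  have h1 := h.2 ∅ (Finset.empty_subset _) g v
  have h2 : cpNsq ((Y * frcE ∅ g g) *ᵥ v) ≤ ∑ f : CfgOn io (∅ : Finset s),
      cpNsq ((Y * frcE ∅ f g) *ᵥ v) :=
    Finset.single_le_sum (f := fun f : CfgOn io (∅ : Finset s) => cpNsq ((Y * frcE ∅ f g) *ᵥ v))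
      (fun _ _ => frc_nsq_nonneg _) (Finset.mem_univ g)
  rw [frc_E_empty, Matrix.mul_one] at h2
  rw [one_pow, one_mul]
  exact h2.trans h1

/-- cylinders of vectors of norm at most one -/
theorem FrcHS.cyl (D : Finset s) (k r : CfgOn io D → ℂ) (hk : cpNsq k ≤ 1) (hr : cpNsq r ≤ 1) :
    FrcHS D (emb D (vecMulVec k (star r))) := by
  refine ⟨⟨_, rfl⟩, fun C hC g v => ?_⟩
  set rf : CfgOn io C → CfgOn io D → ℂ := fun f a => if frcRes hC a = f then r a else 0 with hrf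
  have h1 : ∀ f, emb D (vecMulVec k (star r)) * frcE C f f = emb D (vecMulVec k (star (rf f))) := by
    intro f
    rw [frc_emb_eq_cyl, frc_emb_eq_cyl, frc_cyl_mul hC (frc_E_suppIn C f f), frc_E_conjTranspose]
    congr 1
    funext σ
    rw [frc_E_mulVec]
    show _ = if frcRes hC (crOn D σ) = f then r (crOn D σ) else 0
    rw [frc_res_crOn]
    by_cases h : crOn C σ = f
    · rw [if_pos h, if_pos h, ← h, sp_cglue_cr]
    · rw [if_neg h, if_neg h]
  have h2 : ∀ f, cpNsq ((emb D (vecMulVec k (star r)) * frcE C f g) *ᵥ v)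
      ≤ cpNsq (rf f) * cpNsq v := by
    intro f
    rw [← frc_E_mul C f f g, ← Matrix.mul_assoc, h1, ← mulVec_mulVec]
    refine (frc_nsq_mulVec_le _ _).trans ?_
    have h3 : ‖emb D (vecMulVec k (star (rf f)))‖ ^ 2 ≤ cpNsq (rf f) := by
      calc ‖emb D (vecMulVec k (star (rf f)))‖ ^ 2 ≤ ‖vecMulVec k (star (rf f))‖ ^ 2 :=
            pow_le_pow_left₀ (norm_nonneg _) (norm_emb_le D _) 2
        _ ≤ cpNsq k * cpNsq (rf f) := frc_norm_sq_vecMulVec_le _ _
        _ ≤ 1 * cpNsq (rf f) := mul_le_mul_of_nonneg_right hk (frc_nsq_nonneg _)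
        _ = cpNsq (rf f) := one_mul _
    exact mul_le_mul h3 (frc_nsq_mulVec_le_of (frc_norm_E_le C f g) v) (frc_nsq_nonneg _)
      (frc_nsq_nonneg _)
  have h4 : ∑ f, cpNsq (rf f) = cpNsq r := by
    unfold cpNsq
    rw [Finset.sum_comm]
    refine Finset.sum_congr rfl fun a _ => ?_
    rw [Finset.sum_eq_single (frcRes hC a)]
    · simp [hrf]
    · intro f _ hf
      simp [hrf, Ne.symm hf]
    · intro h
      exact absurd (Finset.mem_univ _) h
  calc ∑ f, cpNsq ((emb D (vecMulVec k (star r)) * frcE C f g) *ᵥ v)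
      ≤ ∑ f, cpNsq (rf f) * cpNsq v := Finset.sum_le_sum fun f _ => h2 f
    _ = cpNsq r * cpNsq v := by rw [← Finset.sum_mul, h4]
    _ ≤ 1 * cpNsq v := mul_le_mul_of_nonneg_right hr (frc_nsq_nonneg _)
    _ = cpNsq v := one_mul _

/-- closure under products -/
theorem FrcHS.mul {T₁ T₂ : Finset s} {A B : Matrix (Cfg io) (Cfg io) ℂ} (hA : FrcHS T₁ A)
    (hB : FrcHS T₂ B) : FrcHS (T₁ ∪ T₂) (A * B) := by
  refine ⟨(hA.1.mono Finset.subset_union_left).mul (hB.1.mono Finset.subset_union_right),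
    fun C hC g v => ?_⟩
  have h₁ : C \ T₂ ⊆ C := Finset.sdiff_subset
  have h₂ : C ∩ T₂ ⊆ C := Finset.inter_subset_left
  have hd : Disjoint (C \ T₂) (C ∩ T₂) :=
    Finset.disjoint_left.2 fun x hx hx' => (Finset.mem_sdiff.1 hx).2 (Finset.mem_inter.1 hx').2
  have hc : C \ T₂ ∪ C ∩ T₂ = C := Finset.sdiff_union_inter C T₂
  have hT₁ : C \ T₂ ⊆ T₁ := fun x hx => by
    rcases Finset.mem_union.1 (hC (Finset.mem_sdiff.1 hx).1) with h | h
    · exact h
    · exact absurd h (Finset.mem_sdiff.1 hx).2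
  have hT₂ : C ∩ T₂ ⊆ T₂ := Finset.inter_subset_right
  have hdT : Disjoint T₂ (C \ T₂) :=
    Finset.disjoint_left.2 fun x hx hx' => (Finset.mem_sdiff.1 hx').2 hx
  obtain ⟨F, hF⟩ : ∃ F : CfgOn io (C \ T₂) × CfgOn io (C ∩ T₂) → ℝ, ∀ f₁ f₂, F (f₁, f₂) =
      cpNsq ((A * frcE (C \ T₂) f₁ (frcRes h₁ g)) *ᵥ ((B * frcE (C ∩ T₂) f₂ (frcRes h₂ g)) *ᵥ v)) :=
    ⟨fun p => cpNsq ((A * frcE (C \ T₂) p.1 (frcRes h₁ g)) *ᵥ
      ((B * frcE (C ∩ T₂) p.2 (frcRes h₂ g)) *ᵥ v)), fun _ _ => rfl⟩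
  have hF0 : ∀ p, 0 ≤ F p := by
    rintro ⟨f₁, f₂⟩
    rw [hF]
    exact frc_nsq_nonneg _
  have e1 : ∀ f : CfgOn io C, cpNsq ((A * B * frcE C f g) *ᵥ v) = F (frcRes h₁ f, frcRes h₂ f) := by
    intro f
    have hcomm : B * frcE (C \ T₂) (frcRes h₁ f) (frcRes h₁ g)
        = frcE (C \ T₂) (frcRes h₁ f) (frcRes h₁ g) * B :=
      (SuppIn.commute hdT hB.1 (frc_E_suppIn _ _ _)).eq
    have hmat : A * B * (frcE (C \ T₂) (frcRes h₁ f) (frcRes h₁ g) * frcE (C ∩ T₂) (frcRes h₂ f) (frcRes h₂ g))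
        = A * frcE (C \ T₂) (frcRes h₁ f) (frcRes h₁ g) * (B * frcE (C ∩ T₂) (frcRes h₂ f) (frcRes h₂ g)) := by
      calc A * B * (frcE (C \ T₂) (frcRes h₁ f) (frcRes h₁ g) * frcE (C ∩ T₂) (frcRes h₂ f) (frcRes h₂ g))
          = A * (B * frcE (C \ T₂) (frcRes h₁ f) (frcRes h₁ g)) * frcE (C ∩ T₂) (frcRes h₂ f) (frcRes h₂ g) := by
            simp only [Matrix.mul_assoc]
        _ = _ := by rw [hcomm]; simp only [Matrix.mul_assoc]
    rw [hF, frc_E_split h₁ h₂ hd hc f g, mulVec_mulVec, hmat]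
  rw [Finset.sum_congr rfl fun f _ => e1 f]
  have hinj : Function.Injective fun f : CfgOn io C => (frcRes h₁ f, frcRes h₂ f) := by
    intro f f' hff
    exact frc_eq_of_res h₁ h₂ hc (congrArg Prod.fst hff) (congrArg Prod.snd hff)
  refine (frc_sum_comp_le _ hinj F hF0).trans ?_
  rw [Fintype.sum_prod_type_right]
  calc ∑ f₂, ∑ f₁, F (f₁, f₂)
      ≤ ∑ f₂, cpNsq ((B * frcE (C ∩ T₂) f₂ (frcRes h₂ g)) *ᵥ v) :=
        Finset.sum_le_sum fun f₂ _ => by
          simp only [hF]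
          exact hA.2 _ hT₁ _ _
    _ ≤ cpNsq v := hB.2 _ hT₂ _ _

/-! ### the key estimate -/

/-- **key estimate**: the operator norm of the coefficient matrix controls the product -/
theorem frc_key {O C D T : Finset s} (hOC : Disjoint O C) (hD : O ∪ C = D) (hOT : Disjoint O T)
    (hCT : C ⊆ T) (Z : Matrix (CfgOn io O) (CfgOn io C) ℂ) (ρ : Cfg io → ℂ)
    (hρ : ∀ a0 : CfgOn io D, ‖frcCyl D (fun σ => if crOn D σ = a0 then 1 else 0) ρ‖ ≤ 1)
    {Y : Matrix (Cfg io) (Cfg io) ℂ} (hY : FrcHS T Y) :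
    ‖Y * frcCyl D (fun σ => Z (crOn O σ) (crOn C σ)) ρ‖ ≤ ‖Z‖ := by
  have hO : O ⊆ D := hD ▸ Finset.subset_union_left
  have hC : C ⊆ D := hD ▸ Finset.subset_union_right
  have a0 : CfgOn io D := Classical.arbitrary _
  set e0 := frcRes hO a0 with he0
  set g := frcRes hC a0 with hg
  set M0 := frcCyl D (fun σ => if crOn D σ = a0 then 1 else 0) ρ with hM0
  -- the elementary cylinders
  have h1 : ∀ e f, frcE O e e0 * (frcE C f g * M0)
      = frcCyl D (fun σ => (if crOn O σ = e then 1 else 0) * (if crOn C σ = f then 1 else 0)) ρ := by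
    intro e f
    rw [hM0, frc_mul_cyl hC (frc_E_suppIn _ _ _), frc_mul_cyl hO (frc_E_suppIn _ _ _)]
    congr 1
    funext σ
    rw [frc_E_mulVec, frc_E_mulVec, frc_crOn_cglue_disj hOC]
    by_cases h : crOn O σ = e
    · rw [if_pos h, if_pos h, one_mul]
      by_cases h' : crOn C σ = f
      · rw [if_pos h', if_pos h', if_pos]
        rw [frc_crOn_eq_split hO hC hD]
        refine ⟨?_, by rw [sp_crOn_cglue]⟩
        rw [frc_crOn_cglue_disj hOC.symm, sp_crOn_cglue]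
      · rw [if_neg h', if_neg h']
    · rw [if_neg h, if_neg h, zero_mul]
  have h2 : frcCyl D (fun σ => Z (crOn O σ) (crOn C σ)) ρ
      = ∑ e, ∑ f, Z e f • (frcE O e e0 * (frcE C f g * M0)) := by
    simp only [h1, ← frc_cyl_smul, ← frc_cyl_sum]
    congr 1
    funext σ
    rw [Finset.sum_eq_single (crOn O σ), Finset.sum_eq_single (crOn C σ)]
    · simp
    · intro f _ hf
      simp [Ne.symm hf]
    · intro h; exact absurd (Finset.mem_univ _) h
    · intro e _ he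
      refine Finset.sum_eq_zero fun f _ => ?_
      simp [Ne.symm he]
    · intro h; exact absurd (Finset.mem_univ _) h
  refine frc_norm_le_of_nsq (norm_nonneg _) fun v => ?_
  set χ : CfgOn io C → Cfg io → ℂ := fun f => (Y * frcE C f g) *ᵥ (M0 *ᵥ v) with hχ
  have h3 : (Y * frcCyl D (fun σ => Z (crOn O σ) (crOn C σ)) ρ) *ᵥ v
      = ∑ e, frcE O e e0 *ᵥ (∑ f, Z e f • χ f) := by
    rw [h2, Finset.mul_sum, Matrix.sum_mulVec]
    refine Finset.sum_congr rfl fun e _ => ?_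
    rw [Finset.mul_sum, Matrix.sum_mulVec, Matrix.mulVec_sum]
    refine Finset.sum_congr rfl fun f _ => ?_
    have hcomm : Y * frcE O e e0 = frcE O e e0 * Y :=
      (SuppIn.commute hOT.symm hY.1 (frc_E_suppIn _ _ _)).eq
    rw [Matrix.mul_smul, smul_mulVec, mulVec_smul, hχ]
    congr 1
    rw [mulVec_mulVec, mulVec_mulVec]
    congr 1
    calc Y * (frcE O e e0 * (frcE C f g * M0)) = (Y * frcE O e e0) * (frcE C f g * M0) := by
          rw [Matrix.mul_assoc]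
      _ = _ := by rw [hcomm]; simp only [Matrix.mul_assoc]
  rw [h3]
  refine (frc_E_row O e0 _).trans ?_
  set Xm : Matrix (CfgOn io C) (Cfg io) ℂ := Matrix.of fun f σ => χ f σ with hXm
  have h4 : ∑ e, cpNsq (∑ f, Z e f • χ f) = hsSq (Z * Xm) := by
    unfold hsSq cpNsq
    refine Finset.sum_congr rfl fun e _ => Finset.sum_congr rfl fun σ _ => ?_
    rw [Matrix.mul_apply, Finset.sum_apply]
    rfl
  have h5 : hsSq Xm = ∑ f, cpNsq (χ f) := rfl
  have h6 : hsSq Xm ≤ cpNsq v := by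
    rw [h5]
    exact (hY.2 C hCT g (M0 *ᵥ v)).trans (frc_nsq_mulVec_le_of (hρ a0) v)
  rw [h4, ← hsn_sq]
  calc hsn (Z * Xm) ^ 2 ≤ (‖Z‖ * hsn Xm) ^ 2 :=
        pow_le_pow_left₀ (hsn_nonneg _) (hsn_mul_le_left Z Xm) 2
    _ = ‖Z‖ ^ 2 * hsSq Xm := by rw [mul_pow, hsn_sq]
    _ ≤ ‖Z‖ ^ 2 * cpNsq v := mul_le_mul_of_nonneg_left h6 (by positivity)

/-- an operator on `O` acts on the rows of the coefficient matrix -/
theorem frc_emb_mul_cyl {O C D : Finset s} (hOC : Disjoint O C) (hO : O ⊆ D)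
    (Q : Matrix (CfgOn io O) (CfgOn io O) ℂ) (A : Matrix (CfgOn io O) (CfgOn io C) ℂ)
    (ρ : Cfg io → ℂ) :
    emb O Q * frcCyl D (fun σ => A (crOn O σ) (crOn C σ)) ρ
      = frcCyl D (fun σ => (Q * A) (crOn O σ) (crOn C σ)) ρ := by
  rw [frc_mul_cyl hO ⟨Q, rfl⟩]
  congr 1
  funext σ
  rw [sp_emb_mulVec, Matrix.mul_apply]
  refine Finset.sum_congr rfl fun e _ => ?_
  rw [sp_crOn_cglue, frc_crOn_cglue_disj hOC]

/-- a full configuration with prescribed restrictions to `O` and `C` -/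
noncomputable def frcFull (O C : Finset s) (e : CfgOn io O) (f : CfgOn io C) : Cfg io :=
  cglue O e (crOff O (cglue C f (Classical.arbitrary _)))

theorem frc_full_crOn_left (O C : Finset s) (e : CfgOn io O) (f : CfgOn io C) :
    crOn O (frcFull O C e f) = e := sp_crOn_cglue _ _ _

theorem frc_full_crOn_right {O C : Finset s} (h : Disjoint O C) (e : CfgOn io O)
    (f : CfgOn io C) : crOn C (frcFull O C e f) = f := by
  rw [frcFull, frc_crOn_cglue_disj h, sp_crOn_cglue]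

/-- a vector on `D = O ∪ C` as a matrix -/
noncomputable def frcMat (O C D : Finset s) (k : CfgOn io D → ℂ) :
    Matrix (CfgOn io O) (CfgOn io C) ℂ :=
  Matrix.of fun e f => k (crOn D (frcFull O C e f))

theorem frc_mat_crOn {O C D : Finset s} (hOC : Disjoint O C) (hD : O ∪ C = D)
    (k : CfgOn io D → ℂ) (σ : Cfg io) :
    frcMat O C D k (crOn O σ) (crOn C σ) = k (crOn D σ) := by
  have hO : O ⊆ D := hD ▸ Finset.subset_union_left
  have hC : C ⊆ D := hD ▸ Finset.subset_union_right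
  show k (crOn D (frcFull O C (crOn O σ) (crOn C σ))) = k (crOn D σ)
  congr 1
  rw [frc_crOn_eq_split hO hC hD, frc_full_crOn_left, frc_full_crOn_right hOC]
  exact ⟨rfl, rfl⟩

theorem frc_mat_hsSq_le {O C D : Finset s} (hOC : Disjoint O C) (hD : O ∪ C = D)
    (k : CfgOn io D → ℂ) : hsSq (frcMat O C D k) ≤ cpNsq k := by
  have hO : O ⊆ D := hD ▸ Finset.subset_union_left
  have hC : C ⊆ D := hD ▸ Finset.subset_union_right
  unfold hsSq cpNsq
  rw [← Fintype.sum_prod_type']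
  refine frc_sum_comp_le (fun p : CfgOn io O × CfgOn io C => crOn D (frcFull O C p.1 p.2)) ?_
    (fun a => ‖k a‖ ^ 2) (fun a => by positivity)
  rintro ⟨e, f⟩ ⟨e', f'⟩ h
  have h1 := congrArg (frcRes hO) h
  have h2 := congrArg (frcRes hC) h
  simp only [frc_res_crOn, frc_full_crOn_left, frc_full_crOn_right hOC] at h1 h2
  rw [h1, h2]

end CylB

end Claimed.Agent.R296
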