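import Claimed.Agent.R296.P2.FrCylB
import Claimed.Agent.R296.P2.FrTrunc

/-!
# Row 296, paper 2, Lemma 5.3: truncation of one vertex (part C of leaf `P2-FR-CYL`, prefix `frc_`; helper267)

* `frc_trunc_op`: a matrix `A` with `hsSq A ≤ 1` is within `1/√kk` IN OPERATOR NORM of `P A`, `P` a projector of rank `≤ kk`
  (spectral projector of `A Aᴴ` for the eigenvalues `> 1/kk`).
* `frc_ket`: truncation of the open legs `O` of the ket of one cylinder inside a product `Y * emb D |k⟩⟨r| * W`.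
-/

set_option autoImplicit false
set_option linter.unusedSectionVars false
set_option linter.unusedDecidableInType false

namespace Claimed.Agent.R296

open Matrix
open scoped Matrix.Norms.L2Operator ComplexOrder

section Trunc

variable {m c : Type} [Fintype m] [DecidableEq m] [Fintype c] [DecidableEq c]

theorem frc_norm_diagonal_le (d : m → ℂ) {C : ℝ} (hC : 0 ≤ C) (h : ∀ i, ‖d i‖ ≤ C) :
    ‖(diagonal d : Matrix m m ℂ)‖ ≤ C := by
  rw [l2_opNorm_diagonal]
  exact (pi_norm_le_iff_of_nonneg hC).2 h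

theorem frc_norm_one_le : ‖(1 : Matrix m m ℂ)‖ ≤ 1 := by
  rw [← diagonal_one]
  exact frc_norm_diagonal_le _ zero_le_one fun i => by simp

theorem frc_norm_le_one_of_isometry (U : Matrix m c ℂ) (h : Uᴴ * U = 1) : ‖U‖ ≤ 1 := by
  have h1 : ‖U‖ * ‖U‖ ≤ 1 := by
    rw [← l2_opNorm_conjTranspose_mul_self, h]
    exact frc_norm_one_le
  nlinarith [norm_nonneg U]

theorem frc_nsq_eq_one_of_dot {v : m → ℂ} (h : star v ⬝ᵥ v = 1) : cpNsq v = 1 := by
  rw [frc_nsq_eq, (l2n_eq_one_iff v).2 h, one_pow]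

theorem frc_dot_eq_one_of_nsq {v : m → ℂ} (h : cpNsq v = 1) : star v ⬝ᵥ v = 1 := by
  rw [← l2n_sq_eq_dotProduct, ← frc_nsq_eq, h]
  simp

/-- truncation in operator norm -/
theorem frc_trunc_op (A : Matrix m c ℂ) (hA : hsSq A ≤ 1) (kk : ℕ) (hkk : 1 ≤ kk) :
    ∃ u : Fin kk → m → ℂ, (∀ i, cpNsq (u i) = 1 ∨ u i = 0) ∧
      ‖∑ i, vecMulVec (u i) (star (u i))‖ ≤ 1 ∧
      ‖A - (∑ i, vecMulVec (u i) (star (u i))) * A‖ ≤ 1 / Real.sqrt kk := by
  obtain ⟨U, lam, hU1, hU2, hl, hYY⟩ := frt_diag A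
  set Y := Uᴴ * A with hY
  have hk0 : (0 : ℝ) < kk := by exact_mod_cast hkk
  have hsum : ∑ i, lam i ≤ 1 := by
    have h1 : hsSq Y = hsSq A :=
      frt_hsSq_isometry_mul Uᴴ (by rw [conjTranspose_conjTranspose]; exact hU2) A
    have h2 : ((hsSq Y : ℝ) : ℂ) = ((∑ i, lam i : ℝ) : ℂ) := by
      rw [hsSq_eq_trace', hYY, trace_diagonal]
      push_cast
      rfl
    have h3 : hsSq Y = ∑ i, lam i := by exact_mod_cast h2
    rw [← h3, h1]
    exact hA
  set S : Finset m := Finset.univ.filter (fun i => 1 / (kk : ℝ) < lam i) with hS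
  have hcard : S.card ≤ kk := by
    have h1 : (S.card : ℝ) * (1 / kk) ≤ ∑ i ∈ S, lam i := by
      rw [← nsmul_eq_mul]
      exact Finset.card_nsmul_le_sum _ _ _ (fun i hi => (Finset.mem_filter.1 hi).2.le)
    have h2 : ∑ i ∈ S, lam i ≤ ∑ i, lam i :=
      Finset.sum_le_sum_of_subset_of_nonneg (Finset.subset_univ _) (fun i _ _ => hl i)
    have h3 : (S.card : ℝ) * (1 / kk) ≤ 1 := h1.trans (h2.trans hsum)
    have h4 : (S.card : ℝ) ≤ kk := by
      rw [mul_one_div, div_le_one hk0] at h3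
      exact h3
    exact_mod_cast h4
  -- enumeration of `S`
  let emb : S ↪ Fin kk := S.equivFin.toEmbedding.trans (Fin.castLEEmb hcard)
  let col : m → m → ℂ := fun j a => U a j
  have hcol : ∀ a b, star (col a) ⬝ᵥ col b = if a = b then 1 else 0 := by
    intro a b
    have := congrFun (congrFun hU1 a) b
    rw [mul_apply, one_apply] at this
    rw [← this]
    simp [dotProduct, col, conjTranspose_apply]
  let u : Fin kk → m → ℂ := Function.extend emb (fun j : S => col j) 0
  have hu1 : ∀ j : S, u (emb j) = col j := fun j => emb.injective.extend_apply _ _ j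
  have hu0 : ∀ i, (¬ ∃ j, emb j = i) → u i = 0 := fun i h => by
    simp only [u]
    rw [Function.extend_apply' _ _ _ h]
    rfl
  set D : Matrix m m ℂ := diagonal (fun i => if i ∈ S then (1 : ℂ) else 0) with hD
  have hP : ∑ i, vecMulVec (u i) (star (u i)) = U * D * Uᴴ := by
    have e1 : ∑ i, vecMulVec (u i) (star (u i)) = ∑ j : S, vecMulVec (col j) (star (col j)) := by
      rw [← Finset.sum_subset (Finset.subset_univ (Finset.univ.map emb))]
      · rw [Finset.sum_map]
        exact Finset.sum_congr rfl fun j _ => by rw [hu1]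
      · intro i _ hi
        rw [hu0 i (by simpa using hi)]
        simp
    rw [e1, Finset.sum_coe_sort S (fun j => vecMulVec (col j) (star (col j)))]
    ext a b
    rw [Matrix.sum_apply, mul_apply]
    simp only [vecMulVec_apply, hD, mul_diagonal, conjTranspose_apply, Pi.star_apply, col]
    have e3 : ∑ j ∈ S, U a j * star (U b j) = ∑ j, if j ∈ S then U a j * star (U b j) else 0 := by
      rw [Finset.sum_ite_mem, Finset.univ_inter]
    rw [e3]
    refine Finset.sum_congr rfl fun j _ => ?_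
    split_ifs <;> simp
  have hUn : ‖U‖ ≤ 1 := frc_norm_le_one_of_isometry U hU1
  have hUn' : ‖Uᴴ‖ ≤ 1 :=
    frc_norm_le_one_of_isometry Uᴴ (by rw [conjTranspose_conjTranspose]; exact hU2)
  refine ⟨u, ?_, ?_, ?_⟩
  · intro i
    by_cases hi : ∃ a, emb a = i
    · obtain ⟨a, rfl⟩ := hi
      left
      apply frc_nsq_eq_one_of_dot
      rw [hu1, hcol, if_pos rfl]
    · right
      exact hu0 i hi
  · rw [hP]
    have hDn : ‖D‖ ≤ 1 := frc_norm_diagonal_le _ zero_le_one fun i => by split_ifs <;> simp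
    calc ‖U * D * Uᴴ‖ ≤ ‖U * D‖ * ‖Uᴴ‖ := norm_mul_le _ _
      _ ≤ (‖U‖ * ‖D‖) * ‖Uᴴ‖ := mul_le_mul_of_nonneg_right (norm_mul_le _ _) (norm_nonneg _)
      _ ≤ (1 * 1) * 1 := by gcongr
      _ = 1 := by norm_num
  · set D' : Matrix m m ℂ := diagonal (fun i => if i ∈ S then (0 : ℂ) else 1) with hD'
    have hZP : A - (U * D * Uᴴ) * A = U * (D' * Y) := by
      have hD'' : D' = 1 - D := by
        rw [hD', hD, ← diagonal_one, diagonal_sub]
        congr 1
        ext i
        split_ifs <;> simp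
      rw [hD'', hY, Matrix.sub_mul, Matrix.one_mul, Matrix.mul_sub, ← Matrix.mul_assoc U Uᴴ A, hU2,
        Matrix.one_mul]
      simp only [Matrix.mul_assoc]
    have hD'H : D'ᴴ = D' := by
      rw [hD', diagonal_conjTranspose]
      congr 1
      ext i
      simp only [Pi.star_apply]
      split_ifs <;> simp
    have hNN : (D' * Y) * (D' * Y)ᴴ
        = diagonal (fun i => if i ∈ S then (0 : ℂ) else ((lam i : ℝ) : ℂ)) := by
      rw [conjTranspose_mul, hD'H]
      calc D' * Y * (Yᴴ * D') = D' * (Y * Yᴴ) * D' := by simp only [Matrix.mul_assoc]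
        _ = _ := by
          rw [hYY, hD', diagonal_mul_diagonal, diagonal_mul_diagonal]
          congr 1
          ext i
          split_ifs <;> simp
    have hN : ‖D' * Y‖ * ‖D' * Y‖ ≤ 1 / kk := by
      have h1 := l2_opNorm_conjTranspose_mul_self (D' * Y)ᴴ
      rw [conjTranspose_conjTranspose, l2_opNorm_conjTranspose] at h1
      rw [← h1, hNN]
      refine frc_norm_diagonal_le _ (by positivity) fun i => ?_
      split_ifs with hi
      · simp
      · rw [Complex.norm_real, Real.norm_of_nonneg (hl i)]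
        by_contra hcon
        exact hi (Finset.mem_filter.2 ⟨Finset.mem_univ _, not_le.1 hcon⟩)
    rw [hP, hZP]
    have h2 : ‖D' * Y‖ ≤ 1 / Real.sqrt kk := by
      rw [← Real.sqrt_one, ← Real.sqrt_div zero_le_one]
      apply Real.le_sqrt_of_sq_le
      rw [sq]
      exact hN
    calc ‖U * (D' * Y)‖ ≤ ‖U‖ * ‖D' * Y‖ := Matrix.l2_opNorm_mul _ _
      _ ≤ 1 * ‖D' * Y‖ := mul_le_mul_of_nonneg_right hUn (norm_nonneg _)
      _ = ‖D' * Y‖ := one_mul _
      _ ≤ _ := h2

end Trunc

section Ket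

variable {s : Type} [DecidableEq s] [Fintype s] {io : s → Type} [∀ x, Fintype (io x)]
  [∀ x, DecidableEq (io x)] [∀ x, Nonempty (io x)]

theorem frc_nsq_single {n : Type} [Fintype n] [DecidableEq n] (a : n) :
    cpNsq (Pi.single a (1 : ℂ)) = 1 := by
  unfold cpNsq
  rw [Finset.sum_eq_single a]
  · simp
  · intro b _ hb
    simp [hb]
  · intro h; exact absurd (Finset.mem_univ _) h

theorem frc_norm_delta_cyl_le (D : Finset s) (r : CfgOn io D → ℂ) (hr : cpNsq r ≤ 1)
    (a0 : CfgOn io D) :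
    ‖frcCyl D (fun σ => if crOn D σ = a0 then 1 else 0) (fun σ => r (crOn D σ))‖ ≤ 1 := by
  have e : frcCyl D (fun σ => if crOn D σ = a0 then 1 else 0) (fun σ => r (crOn D σ))
      = emb D (vecMulVec (Pi.single a0 (1 : ℂ)) (star r)) := by
    rw [frc_emb_eq_cyl]
    congr 1
    funext σ
    rw [Pi.single_apply]
  rw [e]
  exact (norm_emb_le D _).trans (frc_norm_vecMulVec_le _ _ (frc_nsq_single a0).le hr)

/-- **truncation of the open legs of one ket** -/
theorem frc_ket {O D T : Finset s} (hOD : O ⊆ D) (hOT : Disjoint O T) (hCT : D \ O ⊆ T)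
    (k : CfgOn io D → ℂ) (hk : cpNsq k = 1) (kk : ℕ) (hkk : 1 ≤ kk) :
    ∃ (u a : Fin kk → CfgOn io O → ℂ), (∀ i, cpNsq (a i) = 1) ∧ (∀ i, u i = 0 ∨ u i = a i) ∧
      ‖∑ i, vecMulVec (u i) (star (u i))‖ ≤ 1 ∧
      (O = D → ∀ i (σ : Cfg io), a i (crOn O σ) = k (crOn D σ)) ∧
      ∀ (r : CfgOn io D → ℂ) (Y W : Matrix (Cfg io) (Cfg io) ℂ), cpNsq r ≤ 1 → FrcHS T Y →
        ‖W‖ ≤ 1 →
        ‖(1 - emb O (∑ i, vecMulVec (u i) (star (u i)))) * (Y * emb D (vecMulVec k (star r)) * W)‖
          ≤ 1 / Real.sqrt kk := by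
  have hmove : ∀ (P : Matrix (CfgOn io O) (CfgOn io O) ℂ) (Y M W : Matrix (Cfg io) (Cfg io) ℂ),
      FrcHS T Y → (1 - emb O P) * (Y * M * W) = Y * (emb O (1 - P) * M) * W := by
    intro P Y M W hY
    have hcomm : emb O (1 - P) * Y = Y * emb O (1 - P) :=
      (SuppIn.commute hOT ⟨_, rfl⟩ hY.1).eq
    rw [← emb_one O, ← frc_emb_sub]
    calc emb O (1 - P) * (Y * M * W) = (emb O (1 - P) * Y) * M * W := by
          simp only [Matrix.mul_assoc]
      _ = _ := by rw [hcomm]; simp only [Matrix.mul_assoc]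
  by_cases hEq : O = D
  · subst hEq
    refine ⟨fun i => if i = ⟨0, hkk⟩ then k else 0, fun _ => k, fun _ => hk, fun i => ?_, ?_,
      fun _ _ _ => rfl, ?_⟩
    · by_cases hi : i = ⟨0, hkk⟩
      · right; simp [hi]
      · left; simp [hi]
    all_goals
      have hP : ∑ i : Fin kk, vecMulVec (if i = ⟨0, hkk⟩ then k else 0)
          (star (if i = ⟨0, hkk⟩ then k else 0)) = vecMulVec k (star k) := by
        rw [Finset.sum_eq_single ⟨0, hkk⟩]
        · simp
        · intro i _ hi
          simp [hi]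
        · intro h; exact absurd (Finset.mem_univ _) h
      rw [hP]
    · exact frc_norm_vecMulVec_le _ _ hk.le hk.le
    · intro r Y W _ hY _
      rw [hmove _ _ _ _ hY, ← emb_mul, Matrix.sub_mul, Matrix.one_mul, vecMulVec_mul_vecMulVec,
        frc_dot_eq_one_of_nsq hk, one_smul, sub_self, emb_zero, Matrix.mul_zero, Matrix.zero_mul,
        norm_zero]
      positivity
  · have hOC : Disjoint O (D \ O) := Finset.disjoint_sdiff
    have hD : O ∪ D \ O = D := Finset.union_sdiff_of_subset hOD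
    obtain ⟨u, hu1, hu2, hu3⟩ := frc_trunc_op (frcMat O (D \ O) D k)
      ((frc_mat_hsSq_le hOC hD k).trans hk.le) kk hkk
    have e0 : CfgOn io O := Classical.arbitrary _
    refine ⟨u, fun i => if u i = 0 then Pi.single e0 1 else u i, fun i => ?_, fun i => ?_, hu2,
      fun h => absurd h hEq, ?_⟩
    · by_cases hi : u i = 0
      · simp only [hi, if_true]
        exact frc_nsq_single e0
      · simp only [hi, if_false]
        exact (hu1 i).resolve_right hi
    · by_cases hi : u i = 0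
      · left; exact hi
      · right; simp [hi]
    · intro r Y W hr hY hW
      have hM : emb D (vecMulVec k (star r))
          = frcCyl D (fun σ => frcMat O (D \ O) D k (crOn O σ) (crOn (D \ O) σ))
              (fun σ => r (crOn D σ)) := by
        rw [frc_emb_eq_cyl]
        congr 1
        funext σ
        exact (frc_mat_crOn hOC hD k σ).symm
      rw [hmove _ _ _ _ hY, hM, frc_emb_mul_cyl hOC hOD, Matrix.sub_mul, Matrix.one_mul]
      calc _ ≤ ‖Y * frcCyl D (fun σ => (frcMat O (D \ O) D k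
                - (∑ i, vecMulVec (u i) (star (u i))) * frcMat O (D \ O) D k)
                  (crOn O σ) (crOn (D \ O) σ)) (fun σ => r (crOn D σ))‖ * ‖W‖ := norm_mul_le _ _
        _ ≤ ‖frcMat O (D \ O) D k - (∑ i, vecMulVec (u i) (star (u i))) * frcMat O (D \ O) D k‖ * 1 :=
            mul_le_mul (frc_key hOC hD hOT hCT _ _ (frc_norm_delta_cyl_le D r hr) hY) hW
              (norm_nonneg _) (norm_nonneg _)
        _ ≤ 1 / Real.sqrt kk := by rw [mul_one]; exact hu3

end Ket

end Claimed.Agent.R296
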