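import Claimed.Agent.R296.P2.AsmDefs

/-!
# Row 296, paper 2, Section 5 (encoded frames): geometry-free definitions (prefix `fr`/`Fr`)

INTERFACE between Section 5 (operations -> gates of `CompModel.lean`) and Section 6 (geometry: an explicit
schedule).  Nothing in this file knows the square grid: sites are a finite type `Λ`, holes and patches are drawn
from ONE family `pat : HI → FrPatch Ω ε` of cylinder decompositions (Proposition 3.1), the information
hypotheses are `minfo (pureOp Ω) T E ≤ δ`.

* sheets `SH` (independent copies of `Ω`), parties `PP`;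
* canonical registers `FrReg = SH × Λ ⊕ SH × HI`: raw registers and tag registers; a tag has the value `none`
  iff its hole is absent;
* a state `FrState` = owner of every register + set of present holes;
* operations `FrOp`: `birth`, `death` (Lemma 5.6), `rewrite` (Lemma 5.4), `exch` (Lemma 5.7), with their
  admissibility conditions `FrOp.Ok` (verbatim the hypotheses of these lemmas) and the state change `FrOp.next`.
-/

set_option autoImplicit false

namespace Claimed.Agent.R296

open Matrix

/-- a cylinder decomposition (Proposition 3.1 / eq. (hole-projector)): rank-one cylinders on sets `D b` between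
`inn` and `out`, with mutually orthogonal ranges, whose sum fixes `Ω` up to `ε` -/
structure FrPatch {Λ : Type} [Fintype Λ] [DecidableEq Λ] {q : ℕ} (Ω : (Λ → Fin q) → ℂ) (ε : ℝ) where
  inn : Finset Λ
  out : Finset Λ
  nb : ℕ
  D : Fin nb → Finset Λ
  v : ∀ b, CfgOn (fun _ : Λ => Fin q) (D b) → ℂ
  inn_sub : ∀ b, inn ⊆ D b
  sub_out : ∀ b, D b ⊆ out
  /-- (not a consequence of the two previous fields if `nb = 0`) -/
  inn_out : inn ⊆ out
  unit : ∀ b, star (v b) ⬝ᵥ v b = 1
  orth : ∀ b b', b ≠ b' →
    emb (io := fun _ : Λ => Fin q) (D b) (pureOp (v b)) *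
      emb (io := fun _ : Λ => Fin q) (D b') (pureOp (v b')) = 0
  err : ∑ σ, ‖(Ω - (∑ b, emb (io := fun _ : Λ => Fin q) (D b) (pureOp (v b))) *ᵥ Ω) σ‖ ^ 2 ≤ ε ^ 2

/-- canonical registers: raw registers `(sheet, site)` and tag registers `(sheet, hole)` -/
abbrev FrReg (SH Λ HI : Type) : Type := SH × Λ ⊕ SH × HI

/-- value types of the registers; `nb a` is the number of cylinders of the patch `a` -/
def frIo {SH Λ HI : Type} (q : ℕ) (nb : HI → ℕ) : FrReg SH Λ HI → Type
  | .inl _ => Fin q
  | .inr p => Option (Fin (nb p.2))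

instance {SH Λ HI : Type} (q : ℕ) (nb : HI → ℕ) (r : FrReg SH Λ HI) : Fintype (frIo q nb r) := by
  cases r <;> (unfold frIo; infer_instance)

instance {SH Λ HI : Type} (q : ℕ) (nb : HI → ℕ) (r : FrReg SH Λ HI) : DecidableEq (frIo q nb r) := by
  cases r <;> (unfold frIo; infer_instance)

/-- the base value of a register: `0` for a raw register, `none` for a tag -/
def fr0 {SH Λ HI : Type} (q : ℕ) [NeZero q] (nb : HI → ℕ) : ∀ r : FrReg SH Λ HI, frIo q nb r
  | .inl _ => (0 : Fin q)
  | .inr _ => (none : Option (Fin _))

/-- a state of the protocol -/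
structure FrState (PP SH Λ HI : Type) where
  /-- owner of every register (the owner of the tag of an absent hole is irrelevant) -/
  own : FrReg SH Λ HI → PP
  /-- the present holes -/
  hol : Finset (SH × HI)

/-- the operations -/
inductive FrOp (PP SH Λ HI : Type)
  /-- `T`, owned by `P` on sheet `s`, is handed to `Q` -/
  | birth (s : SH) (T : Finset Λ) (P Q : PP)
  /-- `T`, owned by `Q` on sheet `s`, is handed back to the surrounding owner `P` -/
  | death (s : SH) (T : Finset Λ) (P Q : PP)
  /-- small-patch rewrite on sheet `s`: new raw owners `ow'`, new tag owners `tw'`, the holes `old` are removed,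
  the holes `new` are created, `pl` are the additional patches, `A` the participants -/
  | rewrite (s : SH) (ow' : Λ → PP) (tw' : HI → PP) (old new : Finset HI) (pl : List HI) (A : Finset PP)
  /-- exchange of the sheets `s1`, `s2` inside `Y`, buffer owner `P` -/
  | exch (s1 s2 : SH) (Y : Finset Λ) (P : PP)

section Ops

variable {PP SH Λ HI : Type} [DecidableEq PP] [DecidableEq SH] [Fintype Λ] [DecidableEq Λ]
  [Fintype HI] [DecidableEq HI]

namespace FrState

variable (st : FrState PP SH Λ HI)

/-- raw owner -/
def ow (s : SH) (x : Λ) : PP := st.own (.inl (s, x))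

/-- tag owner -/
def tw (s : SH) (a : HI) : PP := st.own (.inr (s, a))

/-- present holes of a sheet -/
def hs (s : SH) : Finset HI := Finset.univ.filter fun a => (s, a) ∈ st.hol

end FrState

variable {q : ℕ} {Ω : (Λ → Fin q) → ℂ} {ε : ℝ} (pat : HI → FrPatch Ω ε)

/-- union of the outer footprints -/
def frOut (H : Finset HI) : Finset Λ := H.biUnion fun a => (pat a).out

/-- union of the inner footprints -/
def frInn (H : Finset HI) : Finset Λ := H.biUnion fun a => (pat a).inn

/-- well-formed state: outer footprints of the holes of one sheet are pairwise disjoint -/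
def FrState.WF (st : FrState PP SH Λ HI) : Prop :=
  ∀ s, ∀ a ∈ st.hs s, ∀ a' ∈ st.hs s, a ≠ a' → Disjoint (pat a).out (pat a').out

/-- the state after an operation -/
def FrOp.next (o : FrOp PP SH Λ HI) (st : FrState PP SH Λ HI) : FrState PP SH Λ HI :=
  match o with
  | .birth s T _ Q =>
      { st with own := fun r => match r with
                  | .inl p => if p.1 = s ∧ p.2 ∈ T then Q else st.own (.inl p)
                  | .inr p => st.own (.inr p) }
  | .death s T P _ =>
      { st with own := fun r => match r with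
                  | .inl p => if p.1 = s ∧ p.2 ∈ T then P else st.own (.inl p)
                  | .inr p => st.own (.inr p) }
  | .rewrite s ow' tw' old new _ _ =>
      { own := fun r => match r with
                  | .inl p => if p.1 = s then ow' p.2 else st.own (.inl p)
                  | .inr p => if p.1 = s then tw' p.2 else st.own (.inr p)
        hol := (st.hol.filter fun p => ¬ (p.1 = s ∧ p.2 ∈ old)) ∪ new.image fun a => (s, a) }
  | .exch s1 s2 Y _ =>
      let sw : SH → SH := fun s => if s = s1 then s2 else if s = s2 then s1 else s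
      { own := fun r => match r with
                  | .inl p => if p.2 ∈ Y then st.own (.inl (sw p.1, p.2)) else st.own (.inl p)
                  | .inr p => if (pat p.2).out ⊆ Y then st.own (.inr (sw p.1, p.2)) else st.own (.inr p)
        hol := (st.hol.filter fun p => ¬ (pat p.2).out ⊆ Y) ∪
          (st.hol.filter fun p => (pat p.2).out ⊆ Y).image fun p => (sw p.1, p.2) }

/-- participants of the (unique) linked gate of an operation; an exchange has none -/
def FrOp.part (o : FrOp PP SH Λ HI) : Finset PP :=
  match o with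
  | .birth _ _ P Q => {P, Q}
  | .death _ _ P Q => {P, Q}
  | .rewrite _ _ _ _ _ _ A => A
  | .exch _ _ _ _ => ∅

/-- is the operation a rewrite in which `P` takes part? (only these gates have a cost) -/
def FrOp.costly (o : FrOp PP SH Λ HI) (P : PP) : Prop :=
  match o with
  | .rewrite _ _ _ _ _ _ A => P ∈ A
  | _ => False

/-- admissibility (hypotheses of Lemmas 5.4, 5.6, 5.7).  `δ`: information bound; `m0`, `h0`, `b`: bounds for the
numbers of patches, of affected holes (old, new separately), of participants of a rewrite. -/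
def FrOp.Ok (δ : ℝ) (m0 h0 b : ℕ) (o : FrOp PP SH Λ HI) (st : FrState PP SH Λ HI) : Prop :=
  match o with
  | .birth s T P _ =>
      (∀ x ∈ T, st.ow s x = P) ∧ Disjoint T (frOut pat (st.hs s)) ∧
      minfo (io := fun _ : Λ => Fin q) (pureOp Ω) T
        ((Finset.univ.filter fun x => st.ow s x ≠ P) ∪ frOut pat (st.hs s)) ≤ δ
  | .death s T P Q =>
      (∀ x ∈ T, st.ow s x = Q) ∧ Disjoint T (frOut pat (st.hs s)) ∧
      minfo (io := fun _ : Λ => Fin q) (pureOp Ω) T
        ((Finset.univ.filter fun x => x ∉ T ∧ st.ow s x ≠ P) ∪ frOut pat (st.hs s)) ≤ δ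
  | .rewrite s ow' tw' old new pl A =>
      let keep := st.hs s \ old
      old ⊆ st.hs s ∧ Disjoint new keep ∧
      (∀ a ∈ new, ∀ a' ∈ new, a ≠ a' → Disjoint (pat a).out (pat a').out) ∧
      -- (1)
      (∀ a, (a ∈ pl ∨ a ∈ old ∨ a ∈ new) → Disjoint (pat a).out (frOut pat keep)) ∧
      -- (2)
      (∀ x, (ow' x ≠ st.ow s x ∨ x ∈ frOut pat (old ∪ new)) → x ∈ frInn pat pl.toFinset) ∧
      -- (3)
      (∀ a ∈ pl, (((pat a).out \ frInn pat old).image (st.ow s)).card ≤ 2 ∧
        (((pat a).out \ frInn pat new).image ow').card ≤ 2) ∧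
      -- (4)
      (∀ x ∈ frOut pat pl.toFinset, st.ow s x ∈ A ∧ ow' x ∈ A) ∧
      (∀ a ∈ old, st.tw s a ∈ A) ∧ (∀ a ∈ new, tw' a ∈ A) ∧ (∀ a ∈ keep, tw' a = st.tw s a) ∧
      pl.length ≤ m0 ∧ old.card ≤ h0 ∧ new.card ≤ h0 ∧ A.card ≤ b
  | .exch s1 s2 Y P =>
      s1 ≠ s2 ∧
      (∀ a ∈ st.hs s1 ∪ st.hs s2, (pat a).out ⊆ Y ∨ Disjoint (pat a).out Y) ∧
      (let Z := (Finset.univ.filter fun x => ¬ (st.ow s1 x = P ∧ st.ow s2 x = P)) ∪
          frOut pat (st.hs s1) ∪ frOut pat (st.hs s2)
       minfo (io := fun _ : Λ => Fin q) (pureOp Ω) (Z ∩ Y) (Z \ Y) ≤ δ)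

/-- the state after a list of operations (head first) -/
def frRun : List (FrOp PP SH Λ HI) → FrState PP SH Λ HI → FrState PP SH Λ HI
  | [], st => st
  | o :: l, st => frRun l (o.next pat st)

/-- admissibility of a schedule -/
def FrSchedOk (δ : ℝ) (m0 h0 b : ℕ) : List (FrOp PP SH Λ HI) → FrState PP SH Λ HI → Prop
  | [], _ => True
  | o :: l, st => o.Ok pat δ m0 h0 b st ∧ FrSchedOk δ m0 h0 b l (o.next pat st)

/-- initial states: no holes, every sheet has one owner -/
def FrState.Init (st : FrState PP SH Λ HI) : Prop :=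
  st.hol = ∅ ∧ ∀ s, ∃ P, ∀ x, st.ow s x = P

/-- final states: on the main sheet `s0` the site `x` is raw at its party `home x`, no hole is left on `s0` -/
def FrState.Final (st : FrState PP SH Λ HI) (s0 : SH) (home : Λ → PP) : Prop :=
  (∀ x, st.ow s0 x = home x) ∧ st.hs s0 = ∅

end Ops

end Claimed.Agent.R296
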