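import Claimed.Agent.R296.P2.FrSlot
import Claimed.Agent.R296.EntPtrE
import Claimed.Agent.R296.LocEmb
import Claimed.Agent.R296.HS

/-!
# Row 296, paper 2, Section 5.1: encoders, part A (definitions; the sheet embedding)

Owner: helper19 (leaf `P2-FR-ENC`).  `frSheet s X = embE (freSplit s) X`.
-/

set_option autoImplicit false
set_option linter.unusedSectionVars false
set_option linter.unusedDecidableInType false
set_option linter.unusedFintypeInType false

namespace Claimed.Agent.R296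

open Matrix

variable {PP SH Λ HI : Type} [Fintype PP] [DecidableEq PP] [Fintype SH] [DecidableEq SH]
  [Fintype Λ] [DecidableEq Λ] [Fintype HI] [DecidableEq HI] {q : ℕ} [NeZero q]

/-- a one-sheet operator acting on the sheet `s` -/
def frSheet {nb : HI → ℕ} (s : SH) (X : Matrix (Λ → Fin q) (Λ → Fin q) ℂ) :
    Matrix (FrCfg SH Λ q nb) (FrCfg SH Λ q nb) ℂ :=
  Matrix.of fun σ' σ =>
    if (∀ s' x, s' ≠ s → frRaw σ' s' x = frRaw σ s' x) ∧ (∀ s' a, frTag σ' s' a = frTag σ s' a)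
    then X (frRaw σ' s) (frRaw σ s) else 0

/-- projector onto `tag (s, a) = none` -/
def frNoTag {nb : HI → ℕ} (s : SH) (a : HI) : Matrix (FrCfg SH Λ q nb) (FrCfg SH Λ q nb) ℂ :=
  Matrix.diagonal fun σ => if frTag σ s a = none then 1 else 0

/-- the projector of a patch -/
def frPatP {Ω : (Λ → Fin q) → ℂ} {ε : ℝ} (p : FrPatch Ω ε) : Matrix (Λ → Fin q) (Λ → Fin q) ℂ :=
  ∑ b, emb (io := fun _ : Λ => Fin q) (p.D b) (pureOp (p.v b))

/-! ### the splitting `FrCfg ≃ sheet s × rest` -/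

/-- configurations of the registers off the sheet `s` -/
abbrev FreRest (SH Λ : Type) {HI : Type} (q : ℕ) (nb : HI → ℕ) (s : SH) : Type :=
  ∀ r : {r : FrReg SH Λ HI // ∀ x, r ≠ Sum.inl (s, x)}, frIo q nb r.1

/-- glue a sheet configuration and a rest configuration -/
def freGlue {nb : HI → ℕ} (s : SH) (ω : Λ → Fin q) (ρ : FreRest SH Λ q nb s) : FrCfg SH Λ q nb :=
  fun r => match r with
    | .inl (s', x) => if h : s' = s then ω x else ρ ⟨.inl (s', x), fun y hy => h (by
        have := Sum.inl.inj hy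
        exact (Prod.mk.inj this).1)⟩
    | .inr t => ρ ⟨.inr t, fun y hy => by cases hy⟩

/-- `FrCfg ≃ sheet s × rest` -/
def freSplit {nb : HI → ℕ} (s : SH) : FrCfg SH Λ q nb ≃ (Λ → Fin q) × FreRest SH Λ q nb s where
  toFun σ := (frRaw σ s, fun r => σ r.1)
  invFun p := freGlue s p.1 p.2
  left_inv σ := by
    funext r
    rcases r with ⟨s', x⟩ | t
    · by_cases h : s' = s
      · subst h
        simp [freGlue, frRaw]
      · simp [freGlue, h]
    · simp [freGlue]
  right_inv p := by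
    rcases p with ⟨ω, ρ⟩
    refine Prod.ext ?_ ?_
    · funext x
      simp [freGlue, frRaw]
    · funext r
      rcases r with ⟨r, hr⟩
      rcases r with ⟨s', x⟩ | t
      · have h : s' ≠ s := fun h => hr x (by rw [h])
        simp [freGlue, h]
      · simp [freGlue]

theorem freSplit_snd_eq_iff {nb : HI → ℕ} (s : SH) (σ' σ : FrCfg SH Λ q nb) :
    (freSplit s σ').2 = (freSplit s σ).2 ↔
      (∀ s' x, s' ≠ s → frRaw σ' s' x = frRaw σ s' x) ∧ (∀ s' a, frTag σ' s' a = frTag σ s' a) := by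
  constructor
  · intro h
    refine ⟨fun s' x hs => ?_, fun s' a => ?_⟩
    · exact congrFun h ⟨.inl (s', x), fun y hy => hs (Prod.mk.inj (Sum.inl.inj hy)).1⟩
    · exact congrFun h ⟨.inr (s', a), fun y hy => by cases hy⟩
  · rintro ⟨h1, h2⟩
    funext r
    rcases r with ⟨r, hr⟩
    rcases r with ⟨s', x⟩ | ⟨s', a⟩
    · exact h1 s' x fun h => hr x (by rw [h])
    · exact h2 s' a

theorem frSheet_eq_embE {nb : HI → ℕ} (s : SH) (X : Matrix (Λ → Fin q) (Λ → Fin q) ℂ) :
    frSheet (nb := nb) s X = embE (freSplit s) X := by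
  ext σ' σ
  simp only [frSheet, Matrix.of_apply, embE_apply, freSplit_snd_eq_iff]
  rfl

/-! ### the sheet embedding is a unital star homomorphism which preserves norms -/

theorem fre_sheet_one {nb : HI → ℕ} (s : SH) :
    frSheet (nb := nb) s (1 : Matrix (Λ → Fin q) (Λ → Fin q) ℂ) = 1 := by
  rw [frSheet_eq_embE, embE_one]

theorem fre_sheet_mul {nb : HI → ℕ} (s : SH) (X Y : Matrix (Λ → Fin q) (Λ → Fin q) ℂ) :
    frSheet (nb := nb) s (X * Y) = frSheet s X * frSheet s Y := by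
  simp only [frSheet_eq_embE, embE_mul]

theorem fre_sheet_add {nb : HI → ℕ} (s : SH) (X Y : Matrix (Λ → Fin q) (Λ → Fin q) ℂ) :
    frSheet (nb := nb) s (X + Y) = frSheet s X + frSheet s Y := by
  simp only [frSheet_eq_embE, embE_add]

theorem fre_sheet_sub {nb : HI → ℕ} (s : SH) (X Y : Matrix (Λ → Fin q) (Λ → Fin q) ℂ) :
    frSheet (nb := nb) s (X - Y) = frSheet s X - frSheet s Y := by
  simp only [frSheet_eq_embE, embE_sub]

theorem fre_sheet_smul {nb : HI → ℕ} (s : SH) (c : ℂ) (X : Matrix (Λ → Fin q) (Λ → Fin q) ℂ) :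
    frSheet (nb := nb) s (c • X) = c • frSheet s X := by
  simp only [frSheet_eq_embE, embE_smul]

theorem fre_sheet_conjTranspose {nb : HI → ℕ} (s : SH) (X : Matrix (Λ → Fin q) (Λ → Fin q) ℂ) :
    frSheet (nb := nb) s Xᴴ = (frSheet s X)ᴴ := by
  simp only [frSheet_eq_embE, embE_conjTranspose]

theorem fre_sheet_zero {nb : HI → ℕ} (s : SH) :
    frSheet (nb := nb) s (0 : Matrix (Λ → Fin q) (Λ → Fin q) ℂ) = 0 := by
  rw [frSheet_eq_embE, embE_zero]

theorem fre_sheet_sum {nb : HI → ℕ} {ι : Type} (s : SH) (t : Finset ι)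
    (X : ι → Matrix (Λ → Fin q) (Λ → Fin q) ℂ) :
    frSheet (nb := nb) s (∑ i ∈ t, X i) = ∑ i ∈ t, frSheet s (X i) := by
  simp only [frSheet_eq_embE]
  exact map_sum (embEHom (freSplit s)) _ _

/-! ### action of `embE` on vectors -/

section EmbVec

variable {n m r : Type} [Fintype n] [DecidableEq n] [Fintype m] [DecidableEq m]
  [Fintype r] [DecidableEq r]

theorem fre_embE_mulVec_apply (e : n ≃ m × r) (X : Matrix m m ℂ) (v : n → ℂ) (u : n) :
    (embE e X *ᵥ v) u = (X *ᵥ fun x => v (e.symm (x, (e u).2))) (e u).1 := by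
  simp only [mulVec, dotProduct, embE_apply]
  rw [← e.symm.sum_comp, Fintype.sum_prod_type]
  refine Finset.sum_congr rfl fun x _ => ?_
  simp only [Equiv.apply_symm_apply]
  rw [Finset.sum_eq_single (e u).2]
  · simp
  · intro k _ hk
    rw [if_neg (Ne.symm hk), zero_mul]
  · simp

theorem fre_nsq_split (e : n ≃ m × r) (v : n → ℂ) :
    cpNsq v = ∑ k, cpNsq fun x => v (e.symm (x, k)) := by
  unfold cpNsq
  rw [← e.symm.sum_comp, Fintype.sum_prod_type, Finset.sum_comm]

theorem fre_nsq_embE_mulVec (e : n ≃ m × r) (X : Matrix m m ℂ) (v : n → ℂ) :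
    cpNsq (embE e X *ᵥ v) = ∑ k, cpNsq (X *ᵥ fun x => v (e.symm (x, k))) := by
  rw [fre_nsq_split e]
  refine Finset.sum_congr rfl fun k _ => ?_
  congr 1
  funext x
  rw [fre_embE_mulVec_apply]
  simp

theorem fre_embE_bd (e : n ≃ m × r) (X : Matrix m m ℂ) (c : ℝ) (h : FrBd X c) :
    FrBd (embE e X) c := by
  intro v
  rw [fre_nsq_embE_mulVec, fre_nsq_split e v, Finset.mul_sum]
  exact Finset.sum_le_sum fun k _ => h _

end EmbVec

theorem fre_sheet_bd {nb : HI → ℕ} (s : SH) (X : Matrix (Λ → Fin q) (Λ → Fin q) ℂ) (c : ℝ)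
    (h : FrBd X c) : FrBd (frSheet (nb := nb) s X) c := by
  rw [frSheet_eq_embE]
  exact fre_embE_bd _ _ _ h

/-! ### product vectors -/

theorem frRaw_freGlue_self {nb : HI → ℕ} (s : SH) (ω : Λ → Fin q) (ρ : FreRest SH Λ q nb s) :
    frRaw (freGlue s ω ρ) s = ω := by
  funext x
  simp [freGlue, frRaw]

theorem frRaw_freGlue_ne {nb : HI → ℕ} {s s' : SH} (h : s' ≠ s) (ω : Λ → Fin q)
    (σ : FrCfg SH Λ q nb) : frRaw (freGlue s ω (freSplit s σ).2) s' = frRaw σ s' := by
  funext x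
  simp [freGlue, frRaw, freSplit, h]
  rfl

theorem frTag_freGlue {nb : HI → ℕ} (s : SH) (ω : Λ → Fin q) (σ : FrCfg SH Λ q nb) (s' : SH)
    (a : HI) : frTag (freGlue s ω (freSplit s σ).2) s' a = frTag σ s' a := by
  simp [freGlue, frTag, freSplit]
  rfl

/-- product vector `⊗_s g s ⊗ |none ... none⟩` -/
def frePV (nb : HI → ℕ) (g : SH → (Λ → Fin q) → ℂ) : FrCfg SH Λ q nb → ℂ :=
  fun σ => (∏ s, g s (frRaw σ s)) * if ∀ s a, frTag σ s a = none then 1 else 0

theorem frBase_eq_frePV (nb : HI → ℕ) (Ω : (Λ → Fin q) → ℂ) :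
    frBase (SH := SH) nb Ω = frePV nb fun _ => Ω := rfl

theorem fre_sheet_pv (nb : HI → ℕ) (s : SH) (X : Matrix (Λ → Fin q) (Λ → Fin q) ℂ)
    (g : SH → (Λ → Fin q) → ℂ) :
    frSheet s X *ᵥ frePV nb g = frePV nb (Function.update g s (X *ᵥ g s)) := by
  funext σ
  rw [frSheet_eq_embE, fre_embE_mulVec_apply]
  have h1 : ∀ ω : Λ → Fin q, frePV nb g ((freSplit s).symm (ω, (freSplit s σ).2))
      = g s ω * ((∏ s' ∈ Finset.univ.erase s, g s' (frRaw σ s')) *
          if ∀ s a, frTag σ s a = none then 1 else 0) := by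
    intro ω
    show frePV nb g (freGlue s ω (freSplit s σ).2) = _
    unfold frePV
    simp only [frTag_freGlue]
    rw [← Finset.mul_prod_erase Finset.univ _ (Finset.mem_univ s), frRaw_freGlue_self, mul_assoc]
    congr 2
    refine Finset.prod_congr rfl fun s' hs' => ?_
    rw [frRaw_freGlue_ne (Finset.ne_of_mem_erase hs')]
  simp only [h1]
  unfold frePV
  rw [← Finset.mul_prod_erase Finset.univ _ (Finset.mem_univ s), Function.update_self, mul_assoc]
  have h2 : ∏ s' ∈ Finset.univ.erase s, Function.update g s (X *ᵥ g s) s' (frRaw σ s')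
      = ∏ s' ∈ Finset.univ.erase s, g s' (frRaw σ s') := by
    refine Finset.prod_congr rfl fun s' hs' => ?_
    rw [Function.update_of_ne (Finset.ne_of_mem_erase hs')]
  rw [h2]
  simp only [mulVec, dotProduct, Finset.sum_mul]
  refine Finset.sum_congr rfl fun ω _ => ?_
  show X (frRaw σ s) ω * _ = _
  ring

/-- `FrCfg ≃ raw × tags` -/
def freRT {nb : HI → ℕ} :
    FrCfg SH Λ q nb ≃ (SH → Λ → Fin q) × (∀ p : SH × HI, Option (Fin (nb p.2))) where
  toFun σ := (fun s => frRaw σ s, fun p => frTag σ p.1 p.2)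
  invFun p := fun r => match r with
    | .inl t => p.1 t.1 t.2
    | .inr t => p.2 t
  left_inv σ := by
    funext r
    rcases r with t | t <;> rfl
  right_inv p := rfl

theorem fre_pv_nsq (nb : HI → ℕ) (g : SH → (Λ → Fin q) → ℂ) :
    cpNsq (frePV nb g) = ∏ s, cpNsq (g s) := by
  unfold cpNsq
  rw [← (freRT (SH := SH) (Λ := Λ) (q := q) (nb := nb)).symm.sum_comp, Fintype.sum_prod_type,
    Finset.prod_univ_sum, Fintype.piFinset_univ]
  refine Finset.sum_congr rfl fun R _ => ?_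
  rw [Finset.sum_eq_single (fun _ => none)]
  · have : frePV nb g (freRT.symm (R, fun _ => none)) = ∏ s, g s (R s) := by
      unfold frePV
      have hc : ∀ (s : SH) (a : HI),
          frTag (freRT.symm (R, fun _ => none) : FrCfg SH Λ q nb) s a = none := fun s a => rfl
      rw [if_pos hc, mul_one]
      rfl
    rw [this, norm_prod, Finset.prod_pow]
  · intro T _ hT
    have : frePV nb g (freRT.symm (R, T)) = 0 := by
      unfold frePV
      rw [if_neg, mul_zero]
      intro h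
      exact hT (funext fun p => h p.1 p.2)
    rw [this]
    simp
  · simp

theorem fre_nsq_eq_one {n : Type} [Fintype n] {v : n → ℂ} (h : star v ⬝ᵥ v = 1) :
    cpNsq v = 1 := by
  classical
  rw [star_dotProduct_self_eq] at h
  exact_mod_cast h

theorem fre_base_nsq (nb : HI → ℕ) (Ω : (Λ → Fin q) → ℂ) (hΩ : star Ω ⬝ᵥ Ω = 1) :
    cpNsq (frBase (SH := SH) nb Ω) = 1 := by
  rw [frBase_eq_frePV, fre_pv_nsq]
  simp [fre_nsq_eq_one hΩ]

/-- action on the base vector: only the factor of the sheet `s` changes -/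
theorem fre_sheet_base (nb : HI → ℕ) (Ω : (Λ → Fin q) → ℂ) (hΩ : star Ω ⬝ᵥ Ω = 1) (s : SH)
    (X : Matrix (Λ → Fin q) (Λ → Fin q) ℂ) :
    cpNsq (frSheet s X *ᵥ frBase (SH := SH) nb Ω) = cpNsq (X *ᵥ Ω) := by
  rw [frBase_eq_frePV, fre_sheet_pv, fre_pv_nsq,
    ← Finset.mul_prod_erase Finset.univ _ (Finset.mem_univ s), Function.update_self]
  have : ∏ s' ∈ Finset.univ.erase s, cpNsq (Function.update (fun _ : SH => Ω) s (X *ᵥ Ω) s') = 1 := by
    refine Finset.prod_eq_one fun s' hs' => ?_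
    rw [Function.update_of_ne (Finset.ne_of_mem_erase hs')]
    exact fre_nsq_eq_one hΩ
  rw [this, mul_one]

end Claimed.Agent.R296
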