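import Claimed.Agent.R296.P2.FrEncA

/-!
# Row 296, paper 2, Section 5.1: encoders, part B (supports and commutation)

Owner: helper19 (leaf `P2-FR-ENC`).
-/

set_option autoImplicit false
set_option linter.unusedSectionVars false
set_option linter.unusedDecidableInType false
set_option linter.unusedFintypeInType false

namespace Claimed.Agent.R296

open Matrix

variable {PP SH Λ HI : Type} [Fintype PP] [DecidableEq PP] [Fintype SH] [DecidableEq SH]
  [Fintype Λ] [DecidableEq Λ] [Fintype HI] [DecidableEq HI] {q : ℕ} [NeZero q]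

/-! ### configurations -/

theorem fre_ext {nb : HI → ℕ} {σ σ' : FrCfg SH Λ q nb}
    (h1 : ∀ s x, frRaw σ s x = frRaw σ' s x) (h2 : ∀ s a, frTag σ s a = frTag σ' s a) : σ = σ' := by
  funext r
  rcases r with ⟨s, x⟩ | ⟨s, a⟩
  · exact h1 s x
  · exact h2 s a

/-- raw registers of the sheet `s` over `D` -/
def frRS (s : SH) (D : Finset Λ) : Finset (FrReg SH Λ HI) := D.image fun x => Sum.inl (s, x)

theorem inl_mem_frRS {s s' : SH} {D : Finset Λ} {x : Λ} :
    (Sum.inl (s', x) : FrReg SH Λ HI) ∈ frRS s D ↔ s' = s ∧ x ∈ D := by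
  simp only [frRS, Finset.mem_image, Sum.inl.injEq, Prod.mk.injEq]
  constructor
  · rintro ⟨y, hy, rfl, rfl⟩
    exact ⟨rfl, hy⟩
  · rintro ⟨rfl, hx⟩
    exact ⟨x, hx, rfl, rfl⟩

theorem inr_notMem_frRS {s : SH} {D : Finset Λ} {p : SH × HI} :
    (Sum.inr p : FrReg SH Λ HI) ∉ frRS s D := by
  simp [frRS]

theorem frRS_mono (s : SH) {D D' : Finset Λ} (h : D ⊆ D') :
    (frRS s D : Finset (FrReg SH Λ HI)) ⊆ frRS s D' := Finset.image_subset_image h

theorem frRS_disjoint_of_ne {s s' : SH} (h : s ≠ s') (D D' : Finset Λ) :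
    Disjoint (frRS s D : Finset (FrReg SH Λ HI)) (frRS s' D') := by
  rw [Finset.disjoint_left]
  intro r hr hr'
  rcases r with ⟨t, x⟩ | p
  · exact h ((inl_mem_frRS.1 hr).1.symm.trans (inl_mem_frRS.1 hr').1)
  · exact inr_notMem_frRS hr

theorem frRS_disjoint (s s' : SH) {D D' : Finset Λ} (h : Disjoint D D') :
    Disjoint (frRS s D : Finset (FrReg SH Λ HI)) (frRS s' D') := by
  rw [Finset.disjoint_left]
  intro r hr hr'
  rcases r with ⟨t, x⟩ | p
  · exact Finset.disjoint_left.1 h (inl_mem_frRS.1 hr).2 (inl_mem_frRS.1 hr').2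
  · exact inr_notMem_frRS hr

theorem frRaw_cmix {nb : HI → ℕ} (A : Finset (FrReg SH Λ HI)) (σ ρ : FrCfg SH Λ q nb) (s : SH)
    (x : Λ) : frRaw (cmix A σ ρ) s x = if Sum.inl (s, x) ∈ A then frRaw σ s x else frRaw ρ s x := by
  by_cases h : (Sum.inl (s, x) : FrReg SH Λ HI) ∈ A
  · rw [if_pos h]
    simp only [frRaw, cmix, if_pos h]
    rfl
  · rw [if_neg h]
    simp only [frRaw, cmix, if_neg h]
    rfl

theorem frTag_cmix {nb : HI → ℕ} (A : Finset (FrReg SH Λ HI)) (σ ρ : FrCfg SH Λ q nb) (s : SH)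
    (a : HI) : frTag (cmix A σ ρ) s a = if Sum.inr (s, a) ∈ A then frTag σ s a else frTag ρ s a := by
  by_cases h : (Sum.inr (s, a) : FrReg SH Λ HI) ∈ A
  · rw [if_pos h]
    simp only [frTag, cmix, if_pos h]
    rfl
  · rw [if_neg h]
    simp only [frTag, cmix, if_neg h]
    rfl

/-! ### supports -/

/-- `frSheet s (emb D K)` is supported on the raw registers `(s, x)`, `x ∈ D` -/
theorem fre_sheet_suppIn {nb : HI → ℕ} (s : SH) (D : Finset Λ)
    (K : Matrix (CfgOn (fun _ : Λ => Fin q) D) (CfgOn (fun _ : Λ => Fin q) D) ℂ) :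
    SuppIn (io := frIo (SH := SH) (Λ := Λ) q nb) (D.image fun x => Sum.inl (s, x))
      (frSheet (nb := nb) s (emb (io := fun _ : Λ => Fin q) D K)) := by
  change SuppIn (io := frIo (SH := SH) (Λ := Λ) q nb) (frRS s D) _
  rw [suppIn_iff]
  constructor
  · rintro σ' σ ⟨r, hr, hne⟩
    simp only [frSheet, Matrix.of_apply]
    split_ifs with hc
    · rcases r with ⟨s', x⟩ | ⟨s', a⟩
      · by_cases hs : s' = s
        · subst hs
          have hx : x ∉ D := fun hx => hr (inl_mem_frRS.2 ⟨rfl, hx⟩)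
          simp only [emb, Matrix.of_apply]
          rw [if_neg]
          intro h
          exact hne (congrFun h ⟨x, hx⟩)
        · exact absurd (hc.1 s' x hs) hne
      · exact absurd (hc.2 s' a) hne
    · rfl
  · intro σ' σ ρ h
    have hc : (∀ s' x, s' ≠ s → frRaw σ' s' x = frRaw σ s' x) ∧
        (∀ s' a, frTag σ' s' a = frTag σ s' a) :=
      ⟨fun s' x hs => h _ fun hm => hs (inl_mem_frRS.1 hm).1, fun s' a => h _ inr_notMem_frRS⟩
    have hc' : (∀ s' x, s' ≠ s → frRaw (cmix (frRS s D) σ' ρ) s' x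
          = frRaw (cmix (frRS s D) σ ρ) s' x) ∧
        (∀ s' a, frTag (cmix (frRS s D) σ' ρ) s' a = frTag (cmix (frRS s D) σ ρ) s' a) := by
      refine ⟨fun s' x hs => ?_, fun s' a => ?_⟩
      · rw [frRaw_cmix, frRaw_cmix, if_neg fun hm => hs (inl_mem_frRS.1 hm).1,
          if_neg fun hm => hs (inl_mem_frRS.1 hm).1]
      · rw [frTag_cmix, frTag_cmix, if_neg inr_notMem_frRS, if_neg inr_notMem_frRS]
    simp only [frSheet, Matrix.of_apply]
    rw [if_pos hc, if_pos hc']
    simp only [emb, Matrix.of_apply]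
    have h1 : crOff D (frRaw σ' s) = crOff D (frRaw σ s) := by
      funext x
      exact h _ fun hm => x.2 (inl_mem_frRS.1 hm).2
    have h2 : crOff D (frRaw (cmix (frRS s D) σ' ρ) s) = crOff D (frRaw (cmix (frRS s D) σ ρ) s) := by
      funext x
      simp only [crOff]
      rw [frRaw_cmix, frRaw_cmix, if_neg fun hm => x.2 (inl_mem_frRS.1 hm).2,
        if_neg fun hm => x.2 (inl_mem_frRS.1 hm).2]
    have h3 : ∀ υ : FrCfg SH Λ q nb, crOn D (frRaw (cmix (frRS s D) υ ρ) s) = crOn D (frRaw υ s) := by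
      intro υ
      funext x
      simp only [crOn]
      rw [frRaw_cmix, if_pos (inl_mem_frRS.2 ⟨rfl, x.2⟩)]
    rw [if_pos h1, if_pos h2, h3, h3]

theorem fre_sheet_suppIn' {nb : HI → ℕ} (s : SH) {D : Finset Λ}
    {X : Matrix (Λ → Fin q) (Λ → Fin q) ℂ} (hX : SuppIn (io := fun _ : Λ => Fin q) D X) :
    SuppIn (io := frIo (SH := SH) (Λ := Λ) q nb) (frRS s D) (frSheet (nb := nb) s X) := by
  obtain ⟨K, rfl⟩ := hX
  exact fre_sheet_suppIn s D K

theorem fre_sheet_suppIn_univ {nb : HI → ℕ} (s : SH) (X : Matrix (Λ → Fin q) (Λ → Fin q) ℂ) :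
    SuppIn (io := frIo (SH := SH) (Λ := Λ) q nb) (frRS s Finset.univ) (frSheet (nb := nb) s X) :=
  fre_sheet_suppIn' s (SuppIn.univ X)

theorem fre_sheet_commute {nb : HI → ℕ} {s s' : SH} (h : s ≠ s')
    (X Y : Matrix (Λ → Fin q) (Λ → Fin q) ℂ) :
    Commute (frSheet (nb := nb) s X) (frSheet s' Y) :=
  SuppIn.commute (frRS_disjoint_of_ne h _ _) (fre_sheet_suppIn_univ s X) (fre_sheet_suppIn_univ s' Y)

theorem fre_noTag_suppIn {nb : HI → ℕ} (s : SH) (a : HI) :
    SuppIn (io := frIo (SH := SH) (Λ := Λ) q nb) {Sum.inr (s, a)} (frNoTag (nb := nb) s a) := by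
  rw [suppIn_iff]
  constructor
  · rintro σ' σ ⟨r, hr, hne⟩
    have : σ' ≠ σ := fun h => hne (by rw [h])
    simp [frNoTag, Matrix.diagonal_apply_ne _ this]
  · intro σ' σ ρ h
    by_cases hσ : σ' = σ
    · subst hσ
      simp only [frNoTag, Matrix.diagonal_apply_eq]
      rw [frTag_cmix, if_pos (Finset.mem_singleton_self _)]
    · have h2 : cmix {Sum.inr (s, a)} σ' ρ ≠ cmix {Sum.inr (s, a)} σ ρ := by
        intro h3
        apply hσ
        funext r
        by_cases hr : r ∈ ({Sum.inr (s, a)} : Finset (FrReg SH Λ HI))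
        · have := congrFun h3 r
          simpa [cmix, hr] using this
        · exact h r hr
      simp only [frNoTag]
      rw [Matrix.diagonal_apply_ne _ hσ, Matrix.diagonal_apply_ne _ h2]

/-! ### the encoder -/

section Pat

variable {Ω : (Λ → Fin q) → ℂ} {ε : ℝ} (pat : HI → FrPatch Ω ε)

/-- footprint of a hole in the canonical registers -/
def frFoot (s : SH) (a : HI) : Finset (FrReg SH Λ HI) :=
  insert (Sum.inr (s, a)) (frRS s (pat a).out)

/-- one branch of the encoder -/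
def frEncB (s : SH) (a : HI) (b : Fin (pat a).nb) :
    Matrix (FrCfg SH Λ q (frNb pat)) (FrCfg SH Λ q (frNb pat)) ℂ :=
  Matrix.of fun σ' σ =>
    if frTag σ s a = none ∧ frTag σ' s a = some b ∧ (∀ x ∈ (pat a).D b, frRaw σ' s x = 0) ∧
        (∀ x, x ∉ (pat a).D b → frRaw σ' s x = frRaw σ s x) ∧
        (∀ s' x, s' ≠ s → frRaw σ' s' x = frRaw σ s' x) ∧
        (∀ s' a', (s', a') ≠ (s, a) → frTag σ' s' a' = frTag σ s' a')
    then star ((pat a).v b (fun x => frRaw σ s x.1)) else 0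

theorem frEnc_eq_sum (s : SH) (a : HI) : frEnc pat s a = ∑ b, frEncB pat s a b := by
  ext σ' σ
  simp only [frEnc, frEncB, Matrix.sum_apply, Matrix.of_apply]

theorem frEncB_suppIn (s : SH) (a : HI) (b : Fin (pat a).nb) :
    SuppIn (io := frIo (SH := SH) (Λ := Λ) q (frNb pat))
      (insert (Sum.inr (s, a)) (frRS s ((pat a).D b))) (frEncB pat s a b) := by
  set A : Finset (FrReg SH Λ HI) := insert (Sum.inr (s, a)) (frRS s ((pat a).D b)) with hA
  have hinl : ∀ s' x, (Sum.inl (s', x) : FrReg SH Λ HI) ∈ A ↔ s' = s ∧ x ∈ (pat a).D b := by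
    intro s' x
    rw [hA, Finset.mem_insert, inl_mem_frRS]
    simp
  have hinr : ∀ p : SH × HI, (Sum.inr p : FrReg SH Λ HI) ∈ A ↔ p = (s, a) := by
    intro p
    rw [hA, Finset.mem_insert]
    simp [inr_notMem_frRS]
  rw [suppIn_iff]
  constructor
  · rintro σ' σ ⟨r, hr, hne⟩
    simp only [frEncB, Matrix.of_apply]
    rw [if_neg]
    rintro ⟨-, -, -, h4, h5, h6⟩
    rcases r with ⟨s', x⟩ | ⟨s', a'⟩
    · by_cases hs : s' = s
      · subst hs
        exact hne (h4 x fun hx => hr ((hinl _ _).2 ⟨rfl, hx⟩))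
      · exact hne (h5 s' x hs)
    · exact hne (h6 s' a' fun h => hr ((hinr _).2 h))
  · intro σ' σ ρ h
    simp only [frEncB, Matrix.of_apply]
    have e1 : ∀ υ : FrCfg SH Λ q (frNb pat), frTag (cmix A υ ρ) s a = frTag υ s a := fun υ => by
      rw [frTag_cmix, if_pos ((hinr _).2 rfl)]
    have e2 : ∀ (υ : FrCfg SH Λ q (frNb pat)), ∀ x ∈ (pat a).D b,
        frRaw (cmix A υ ρ) s x = frRaw υ s x := fun υ x hx => by
      rw [frRaw_cmix, if_pos ((hinl _ _).2 ⟨rfl, hx⟩)]
    have e3 : (fun x : {x // x ∈ (pat a).D b} => frRaw (cmix A σ ρ) s x.1)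
        = fun x : {x // x ∈ (pat a).D b} => frRaw σ s x.1 := by
      funext x
      exact e2 σ x.1 x.2
    have c4 : ∀ x, x ∉ (pat a).D b → frRaw σ' s x = frRaw σ s x := fun x hx =>
      h _ fun hm => hx ((hinl _ _).1 hm).2
    have c5 : ∀ s' x, s' ≠ s → frRaw σ' s' x = frRaw σ s' x := fun s' x hs =>
      h _ fun hm => hs ((hinl _ _).1 hm).1
    have c6 : ∀ s' a', (s', a') ≠ (s, a) → frTag σ' s' a' = frTag σ s' a' := fun s' a' hp =>
      h _ fun hm => hp ((hinr _).1 hm)
    have d4 : ∀ x, x ∉ (pat a).D b → frRaw (cmix A σ' ρ) s x = frRaw (cmix A σ ρ) s x :=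
      fun x hx => by
        rw [frRaw_cmix, frRaw_cmix, if_neg fun hm => hx ((hinl _ _).1 hm).2,
          if_neg fun hm => hx ((hinl _ _).1 hm).2]
    have d5 : ∀ s' x, s' ≠ s → frRaw (cmix A σ' ρ) s' x = frRaw (cmix A σ ρ) s' x :=
      fun s' x hs => by
        rw [frRaw_cmix, frRaw_cmix, if_neg fun hm => hs ((hinl _ _).1 hm).1,
          if_neg fun hm => hs ((hinl _ _).1 hm).1]
    have d6 : ∀ s' a', (s', a') ≠ (s, a) →
        frTag (cmix A σ' ρ) s' a' = frTag (cmix A σ ρ) s' a' := fun s' a' hp => by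
      rw [frTag_cmix, frTag_cmix, if_neg fun hm => hp ((hinr _).1 hm),
        if_neg fun hm => hp ((hinr _).1 hm)]
    rw [e1, e1, e3]
    refine if_congr ?_ rfl rfl
    constructor
    · rintro ⟨h1, h2, h3, -, -, -⟩
      exact ⟨h1, h2, fun x hx => (e2 σ' x hx) ▸ h3 x hx, c4, c5, c6⟩
    · rintro ⟨h1, h2, h3, -, -, -⟩
      exact ⟨h1, h2, fun x hx => (e2 σ' x hx).trans (h3 x hx), d4, d5, d6⟩

theorem fre_enc_suppIn (s : SH) (a : HI) :
    SuppIn (io := frIo (SH := SH) (Λ := Λ) q (frNb pat)) (frFoot pat s a) (frEnc pat s a) := by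
  rw [frEnc_eq_sum]
  refine SuppIn.sum _ fun b _ => SuppIn.mono ?_ (frEncB_suppIn pat s a b)
  exact Finset.insert_subset_insert _ (frRS_mono s ((pat a).sub_out b))

/-- compatibility of two holes: different sheets or disjoint outer footprints -/
def FrCompat (p p' : SH × HI) : Prop := p.1 ≠ p'.1 ∨ Disjoint (pat p.2).out (pat p'.2).out

theorem FrCompat.symm {p p' : SH × HI} (h : FrCompat pat p p') : FrCompat pat p' p :=
  h.imp Ne.symm fun h => h.symm

theorem frFoot_disjoint (p p' : SH × HI) (hne : p ≠ p') (h : FrCompat pat p p') :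
    Disjoint (frFoot pat p.1 p.2) (frFoot pat p'.1 p'.2) := by
  have h1 : Disjoint (frRS p.1 (pat p.2).out : Finset (FrReg SH Λ HI)) (frRS p'.1 (pat p'.2).out) := by
    rcases h with h | h
    · exact frRS_disjoint_of_ne h _ _
    · exact frRS_disjoint _ _ h
  unfold frFoot
  rw [Finset.disjoint_insert_left, Finset.disjoint_insert_right]
  refine ⟨?_, inr_notMem_frRS, h1⟩
  rw [Finset.mem_insert]
  rintro (h2 | h2)
  · exact hne (Sum.inr.inj h2)
  · exact inr_notMem_frRS h2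

theorem fre_enc_commute (p p' : SH × HI) (hne : p ≠ p') (h : FrCompat pat p p') :
    Commute (frEnc pat p.1 p.2) (frEnc pat p'.1 p'.2) :=
  SuppIn.commute (frFoot_disjoint pat p p' hne h) (fre_enc_suppIn pat _ _) (fre_enc_suppIn pat _ _)

theorem fre_enc_adj_commute (p p' : SH × HI) (hne : p ≠ p') (h : FrCompat pat p p') :
    Commute (frEnc pat p.1 p.2)ᴴ (frEnc pat p'.1 p'.2) :=
  SuppIn.commute (frFoot_disjoint pat p p' hne h) (fre_enc_suppIn pat _ _).conjTranspose
    (fre_enc_suppIn pat _ _)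

theorem frFoot_disjoint_frRS (s s' : SH) (a : HI) (D : Finset Λ)
    (h : s ≠ s' ∨ Disjoint D (pat a).out) :
    Disjoint (frFoot pat s a) (frRS s' D : Finset (FrReg SH Λ HI)) := by
  unfold frFoot
  rw [Finset.disjoint_insert_left]
  refine ⟨inr_notMem_frRS, ?_⟩
  rcases h with h | h
  · exact frRS_disjoint_of_ne h _ _
  · exact frRS_disjoint _ _ h.symm

/-- an encoder commutes with one-sheet operators supported off its outer footprint -/
theorem fre_enc_sheet_commute (s : SH) (a : HI) (D : Finset Λ) (h : Disjoint D (pat a).out)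
    (K : Matrix (CfgOn (fun _ : Λ => Fin q) D) (CfgOn (fun _ : Λ => Fin q) D) ℂ) :
    Commute (frEnc pat s a) (frSheet s (emb (io := fun _ : Λ => Fin q) D K)) :=
  SuppIn.commute (frFoot_disjoint_frRS pat s s a D (Or.inr h)) (fre_enc_suppIn pat s a)
    (fre_sheet_suppIn s D K)

theorem fre_enc_sheet_commute' {s s' : SH} (h : s ≠ s') (a : HI)
    (X : Matrix (Λ → Fin q) (Λ → Fin q) ℂ) : Commute (frEnc pat s a) (frSheet s' X) :=
  SuppIn.commute (frFoot_disjoint_frRS pat s s' a _ (Or.inl h)) (fre_enc_suppIn pat s a)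
    (fre_sheet_suppIn_univ s' X)

/-- an encoder commutes with the tag projector of another hole -/
theorem fre_enc_noTag_commute (p p' : SH × HI) (hne : p ≠ p') :
    Commute (frEnc pat p.1 p.2) (frNoTag p'.1 p'.2) := by
  refine SuppIn.commute ?_ (fre_enc_suppIn pat _ _) (fre_noTag_suppIn _ _)
  unfold frFoot
  rw [Finset.disjoint_singleton_right, Finset.mem_insert]
  rintro (h2 | h2)
  · exact hne (Sum.inr.inj h2).symm
  · exact inr_notMem_frRS h2

end Pat

end Claimed.Agent.R296
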