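import Claimed.Agent.R296.P2.FrEncB
import Claimed.Agent.R296.EntPure

/-!
# Row 296, paper 2, Section 5.1: encoders, part C (patch projector, `K^* K = P ⊗ |none⟩⟨none|`, contraction)

Owner: helper19 (leaf `P2-FR-ENC`).
-/

set_option autoImplicit false
set_option linter.unusedSectionVars false
set_option linter.unusedDecidableInType false
set_option linter.unusedFintypeInType false

namespace Claimed.Agent.R296

open Matrix
open scoped ComplexOrder

variable {PP SH Λ HI : Type} [Fintype PP] [DecidableEq PP] [Fintype SH] [DecidableEq SH]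
  [Fintype Λ] [DecidableEq Λ] [Fintype HI] [DecidableEq HI] {q : ℕ} [NeZero q]

/-! ### projections and contractions -/

section Gen

variable {n m : Type} [Fintype n] [DecidableEq n] [Fintype m] [DecidableEq m]

theorem fre_nsq_eq (v : n → ℂ) : ((cpNsq v : ℝ) : ℂ) = star v ⬝ᵥ v := by
  rw [star_dotProduct_self_eq]
  rfl

theorem fre_nsq_mulVec (A : Matrix m n ℂ) (v : n → ℂ) :
    ((cpNsq (A *ᵥ v) : ℝ) : ℂ) = star v ⬝ᵥ ((Aᴴ * A) *ᵥ v) := by
  rw [fre_nsq_eq, star_mulVec, ← dotProduct_mulVec, Matrix.mulVec_mulVec]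

theorem fre_nsq_proj {P : Matrix n n ℂ} (h1 : P * P = P) (h2 : Pᴴ = P) (v : n → ℂ) :
    ((cpNsq (P *ᵥ v) : ℝ) : ℂ) = star v ⬝ᵥ (P *ᵥ v) := by
  rw [fre_nsq_mulVec, h2, h1]

theorem fre_proj_compl {P : Matrix n n ℂ} (h1 : P * P = P) (h2 : Pᴴ = P) :
    (1 - P) * (1 - P) = 1 - P ∧ (1 - P)ᴴ = 1 - P := by
  constructor
  · rw [Matrix.sub_mul, Matrix.mul_sub, Matrix.mul_sub, Matrix.one_mul, Matrix.one_mul,
      Matrix.mul_one, h1]
    abel
  · rw [conjTranspose_sub, conjTranspose_one, h2]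

/-- Pythagoras -/
theorem fre_nsq_pyth {P : Matrix n n ℂ} (h1 : P * P = P) (h2 : Pᴴ = P) (v : n → ℂ) :
    cpNsq v = cpNsq (P *ᵥ v) + cpNsq ((1 - P) *ᵥ v) := by
  have h3 := fre_proj_compl h1 h2
  have : ((cpNsq v : ℝ) : ℂ) = ((cpNsq (P *ᵥ v) + cpNsq ((1 - P) *ᵥ v) : ℝ) : ℂ) := by
    rw [Complex.ofReal_add, fre_nsq_proj h1 h2, fre_nsq_proj h3.1 h3.2, ← dotProduct_add,
      ← Matrix.add_mulVec, add_sub_cancel, Matrix.one_mulVec, fre_nsq_eq]
  exact_mod_cast this

theorem fre_proj_contr {P : Matrix n n ℂ} (h1 : P * P = P) (h2 : Pᴴ = P) : CpContr P := by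
  intro v
  rw [fre_nsq_pyth h1 h2 v]
  have := cpNsq_nonneg ((1 - P) *ᵥ v)
  linarith

theorem fre_nsq_of_adj_mul {A : Matrix m n ℂ} {P : Matrix n n ℂ} (h : Aᴴ * A = P) (h1 : P * P = P)
    (h2 : Pᴴ = P) (v : n → ℂ) : cpNsq (A *ᵥ v) = cpNsq (P *ᵥ v) := by
  have : ((cpNsq (A *ᵥ v) : ℝ) : ℂ) = ((cpNsq (P *ᵥ v) : ℝ) : ℂ) := by
    rw [fre_nsq_mulVec, h, fre_nsq_proj h1 h2]
  exact_mod_cast this

theorem fre_contr_of_adj_mul {A : Matrix m n ℂ} {P : Matrix n n ℂ} (h : Aᴴ * A = P)
    (h1 : P * P = P) (h2 : Pᴴ = P) : CpContr A := by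
  intro v
  rw [fre_nsq_of_adj_mul h h1 h2]
  exact fre_proj_contr h1 h2 v

/-- the product of two commuting projections is a projection -/
theorem fre_proj_mul {P Q : Matrix n n ℂ} (hP1 : P * P = P) (hP2 : Pᴴ = P) (hQ1 : Q * Q = Q)
    (hQ2 : Qᴴ = Q) (hc : Commute P Q) : (P * Q) * (P * Q) = P * Q ∧ (P * Q)ᴴ = P * Q := by
  constructor
  · calc P * Q * (P * Q) = P * (Q * P) * Q := by simp only [Matrix.mul_assoc]
      _ = P * (P * Q) * Q := by rw [hc.eq]
      _ = (P * P) * (Q * Q) := by simp only [Matrix.mul_assoc]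
      _ = P * Q := by rw [hP1, hQ1]
  · rw [conjTranspose_mul, hP2, hQ2, hc.eq]

theorem fre_pureOp_mul_self {v : n → ℂ} (h : star v ⬝ᵥ v = 1) : pureOp v * pureOp v = pureOp v := by
  unfold pureOp
  rw [vecMulVec_mul_vecMulVec, h]
  simp

theorem fre_pureOp_conjTranspose (v : n → ℂ) : (pureOp v)ᴴ = pureOp v :=
  (pureOp_posSemidef v).isHermitian.eq

end Gen

/-! ### patches -/

section Pat

variable {Ω : (Λ → Fin q) → ℂ} {ε : ℝ}

/-- the patch operator is an orthogonal projector -/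
theorem fre_patP_proj (p : FrPatch Ω ε) : frPatP p * frPatP p = frPatP p ∧ (frPatP p)ᴴ = frPatP p := by
  constructor
  · unfold frPatP
    rw [Finset.sum_mul_sum]
    refine Finset.sum_congr rfl fun b _ => ?_
    rw [Finset.sum_eq_single b]
    · rw [← emb_mul, fre_pureOp_mul_self (p.unit b)]
    · intro b' _ hb
      exact p.orth b b' (Ne.symm hb)
    · simp
  · unfold frPatP
    rw [conjTranspose_sum]
    refine Finset.sum_congr rfl fun b _ => ?_
    rw [← emb_conjTranspose, fre_pureOp_conjTranspose]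

theorem fre_patP_contr (p : FrPatch Ω ε) : CpContr (frPatP p) :=
  fre_proj_contr (fre_patP_proj p).1 (fre_patP_proj p).2

theorem fre_patP_err (p : FrPatch Ω ε) : cpNsq (Ω - frPatP p *ᵥ Ω) ≤ ε ^ 2 := p.err

theorem fre_patP_suppIn (p : FrPatch Ω ε) : SuppIn (io := fun _ : Λ => Fin q) p.out (frPatP p) := by
  unfold frPatP
  exact SuppIn.sum _ fun b _ => SuppIn.mono (p.sub_out b) ⟨_, rfl⟩

variable (pat : HI → FrPatch Ω ε)

/-! ### the image configuration of a branch -/

/-- tag `(s, a) := some b`, raw registers `(s, x)`, `x ∈ D b`, `:= 0` -/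
def freImg (s : SH) (a : HI) (b : Fin (pat a).nb) (σ : FrCfg SH Λ q (frNb pat)) :
    FrCfg SH Λ q (frNb pat) :=
  freRT.symm (fun s' x => if s' = s ∧ x ∈ (pat a).D b then 0 else frRaw σ s' x,
    Function.update (fun p : SH × HI => frTag σ p.1 p.2) (s, a) (some b))

theorem frRaw_freImg (s : SH) (a : HI) (b : Fin (pat a).nb) (σ : FrCfg SH Λ q (frNb pat)) (s' : SH)
    (x : Λ) : frRaw (freImg pat s a b σ) s' x
      = if s' = s ∧ x ∈ (pat a).D b then 0 else frRaw σ s' x := rfl

theorem frTag_freImg (s : SH) (a : HI) (b : Fin (pat a).nb) (σ : FrCfg SH Λ q (frNb pat)) (s' : SH)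
    (a' : HI) : frTag (freImg pat s a b σ) s' a'
      = Function.update (fun p : SH × HI => frTag σ p.1 p.2) (s, a) (some b) (s', a') := rfl

theorem frTag_freImg_self (s : SH) (a : HI) (b : Fin (pat a).nb) (σ : FrCfg SH Λ q (frNb pat)) :
    frTag (freImg pat s a b σ) s a = some b := by
  rw [frTag_freImg, Function.update_self]

theorem frTag_freImg_ne (s : SH) (a : HI) (b : Fin (pat a).nb) (σ : FrCfg SH Λ q (frNb pat))
    {s' : SH} {a' : HI} (h : (s', a') ≠ (s, a)) :
    frTag (freImg pat s a b σ) s' a' = frTag σ s' a' := by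
  rw [frTag_freImg, Function.update_of_ne h]

/-- normal form of a branch of the encoder -/
theorem frEncB_apply (s : SH) (a : HI) (b : Fin (pat a).nb) (τ σ : FrCfg SH Λ q (frNb pat)) :
    frEncB pat s a b τ σ = if frTag σ s a = none ∧ τ = freImg pat s a b σ
      then star ((pat a).v b (fun x => frRaw σ s x.1)) else 0 := by
  simp only [frEncB, Matrix.of_apply]
  refine if_congr ?_ rfl rfl
  constructor
  · rintro ⟨h1, h2, h3, h4, h5, h6⟩
    refine ⟨h1, fre_ext (fun s' x => ?_) fun s' a' => ?_⟩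
    · rw [frRaw_freImg]
      split_ifs with hc
      · obtain ⟨rfl, hx⟩ := hc
        exact h3 x hx
      · by_cases hs : s' = s
        · subst hs
          exact h4 x fun hx => hc ⟨rfl, hx⟩
        · exact h5 s' x hs
    · by_cases hp : (s', a') = (s, a)
      · obtain ⟨rfl, rfl⟩ := Prod.mk.inj hp
        rw [frTag_freImg_self, h2]
      · rw [frTag_freImg_ne pat s a b σ hp]
        exact h6 s' a' hp
  · rintro ⟨h1, rfl⟩
    refine ⟨h1, frTag_freImg_self pat s a b σ, fun x hx => ?_, fun x hx => ?_, fun s' x hs => ?_,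
      fun s' a' hp => frTag_freImg_ne pat s a b σ hp⟩
    · rw [frRaw_freImg, if_pos ⟨rfl, hx⟩]
    · rw [frRaw_freImg, if_neg fun h => hx h.2]
    · rw [frRaw_freImg, if_neg fun h => hs h.1]

/-- different branches have orthogonal ranges -/
theorem frEncB_adj_mul_ne (s : SH) (a : HI) {b b' : Fin (pat a).nb} (h : b' ≠ b) :
    (frEncB pat s a b')ᴴ * frEncB pat s a b = 0 := by
  ext σ' σ
  rw [Matrix.mul_apply, Matrix.zero_apply]
  refine Finset.sum_eq_zero fun τ _ => ?_
  rw [conjTranspose_apply, frEncB_apply, frEncB_apply]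
  split_ifs with h1 h2
  · exfalso
    have e1 := frTag_freImg_self pat s a b' σ'
    have e2 := frTag_freImg_self pat s a b σ
    rw [← h1.2] at e1
    rw [← h2.2, e1] at e2
    exact h (Option.some.inj e2)
  · simp
  · simp
  · simp

theorem freImg_eq_iff (s : SH) (a : HI) (b : Fin (pat a).nb) (σ' σ : FrCfg SH Λ q (frNb pat)) :
    (frTag σ' s a = none ∧ frTag σ s a = none ∧ freImg pat s a b σ = freImg pat s a b σ') ↔
      ((∀ s' x, s' ≠ s → frRaw σ' s' x = frRaw σ s' x) ∧ (∀ s' a, frTag σ' s' a = frTag σ s' a)) ∧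
      crOff ((pat a).D b) (frRaw σ' s) = crOff ((pat a).D b) (frRaw σ s) ∧ frTag σ s a = none := by
  constructor
  · rintro ⟨h1, h2, h3⟩
    refine ⟨⟨fun s' x hs => ?_, fun s' a' => ?_⟩, ?_, h2⟩
    · have := congrArg (fun υ => frRaw υ s' x) h3
      simp only [frRaw_freImg] at this
      rw [if_neg fun h => hs h.1, if_neg fun h => hs h.1] at this
      exact this.symm
    · by_cases hp : (s', a') = (s, a)
      · obtain ⟨rfl, rfl⟩ := Prod.mk.inj hp
        rw [h1, h2]
      · have : frTag (freImg pat s a b σ) s' a' = frTag (freImg pat s a b σ') s' a' := by rw [h3]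
        rw [frTag_freImg_ne pat s a b σ hp, frTag_freImg_ne pat s a b σ' hp] at this
        exact this.symm
    · funext x
      have := congrArg (fun υ => frRaw υ s x.1) h3
      simp only [frRaw_freImg] at this
      rw [if_neg fun h => x.2 h.2, if_neg fun h => x.2 h.2] at this
      exact this.symm
  · rintro ⟨⟨h1, h2⟩, h3, h4⟩
    refine ⟨(h2 s a).trans h4, h4, fre_ext (fun s' x => ?_) fun s' a' => ?_⟩
    · rw [frRaw_freImg, frRaw_freImg]
      split_ifs with hc
      · rfl
      · by_cases hs : s' = s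
        · subst hs
          exact (congrFun h3 ⟨x, fun hx => hc ⟨rfl, hx⟩⟩).symm
        · exact (h1 s' x hs).symm
    · by_cases hp : (s', a') = (s, a)
      · obtain ⟨rfl, rfl⟩ := Prod.mk.inj hp
        rw [frTag_freImg_self, frTag_freImg_self]
      · rw [frTag_freImg_ne pat s a b σ hp, frTag_freImg_ne pat s a b σ' hp, h2]

theorem frEncB_adj_mul_self (s : SH) (a : HI) (b : Fin (pat a).nb) :
    (frEncB pat s a b)ᴴ * frEncB pat s a b
      = frSheet s (emb (io := fun _ : Λ => Fin q) ((pat a).D b) (pureOp ((pat a).v b))) *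
          frNoTag s a := by
  ext σ' σ
  rw [Matrix.mul_apply, Finset.sum_eq_single (freImg pat s a b σ)]
  · have hA : frEncB pat s a b (freImg pat s a b σ) σ = if frTag σ s a = none
        then star ((pat a).v b (fun x => frRaw σ s x.1)) else 0 := by
      rw [frEncB_apply]
      exact if_congr (and_iff_left rfl) rfl rfl
    rw [frNoTag, Matrix.mul_diagonal, conjTranspose_apply, hA, frEncB_apply]
    simp only [frSheet, emb, Matrix.of_apply, pureOp_apply]
    have key := freImg_eq_iff pat s a b σ' σ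
    by_cases hc : frTag σ' s a = none ∧ frTag σ s a = none ∧
        freImg pat s a b σ = freImg pat s a b σ'
    · obtain ⟨k1, k2, k3⟩ := key.1 hc
      rw [if_pos ⟨hc.1, hc.2.2⟩, if_pos hc.2.1, if_pos k1, if_pos k2, if_pos k3, star_star, mul_one]
      rfl
    · by_cases hN : frTag σ s a = none
      · have hc' : ¬ (frTag σ' s a = none ∧ freImg pat s a b σ = freImg pat s a b σ') :=
          fun h => hc ⟨h.1, hN, h.2⟩
        rw [if_neg hc', star_zero, zero_mul, if_pos hN, mul_one]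
        by_cases k1 : (∀ s' x, s' ≠ s → frRaw σ' s' x = frRaw σ s' x) ∧
            (∀ s' a, frTag σ' s' a = frTag σ s' a)
        · rw [if_pos k1, if_neg fun k2 => hc (key.2 ⟨k1, k2, hN⟩)]
        · rw [if_neg k1]
      · rw [if_neg hN, if_neg hN, mul_zero, mul_zero]
  · intro τ _ hτ
    rw [frEncB_apply pat s a b τ σ, if_neg fun h => hτ h.2, mul_zero]
  · simp

/-- eq. (encoder-contraction) -/
theorem fre_enc_adj_mul (s : SH) (a : HI) :
    (frEnc pat s a)ᴴ * frEnc pat s a = frSheet s (frPatP (pat a)) * frNoTag s a := by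
  rw [frEnc_eq_sum, conjTranspose_sum, Finset.sum_mul_sum, frPatP, fre_sheet_sum, Finset.sum_mul]
  refine Finset.sum_congr rfl fun b _ => ?_
  rw [Finset.sum_eq_single b]
  · exact frEncB_adj_mul_self pat s a b
  · intro b' _ hb
    exact frEncB_adj_mul_ne pat s a (Ne.symm hb)
  · simp

theorem fre_noTag_proj {nb : HI → ℕ} (s : SH) (a : HI) :
    frNoTag (SH := SH) (Λ := Λ) (q := q) (nb := nb) s a * frNoTag s a = frNoTag s a ∧
      (frNoTag (SH := SH) (Λ := Λ) (q := q) (nb := nb) s a)ᴴ = frNoTag s a := by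
  constructor
  · unfold frNoTag
    rw [Matrix.diagonal_mul_diagonal]
    congr 1
    funext σ
    split_ifs <;> simp
  · unfold frNoTag
    rw [Matrix.diagonal_conjTranspose]
    congr 1
    funext σ
    simp only [Pi.star_apply]
    split_ifs <;> simp

theorem fre_sheet_noTag_commute {nb : HI → ℕ} (s s' : SH) (a : HI)
    (X : Matrix (Λ → Fin q) (Λ → Fin q) ℂ) :
    Commute (frSheet (nb := nb) s X) (frNoTag s' a) := by
  refine SuppIn.commute ?_ (fre_sheet_suppIn_univ s X) (fre_noTag_suppIn s' a)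
  rw [Finset.disjoint_singleton_right]
  exact inr_notMem_frRS

theorem fre_sheet_proj {nb : HI → ℕ} (s : SH) {P : Matrix (Λ → Fin q) (Λ → Fin q) ℂ}
    (h1 : P * P = P) (h2 : Pᴴ = P) :
    frSheet (nb := nb) s P * frSheet s P = frSheet s P ∧ (frSheet (nb := nb) s P)ᴴ = frSheet s P := by
  rw [← fre_sheet_mul, ← fre_sheet_conjTranspose, h1, h2]
  exact ⟨rfl, rfl⟩

/-- `K^* K` is a projection -/
theorem fre_enc_adj_mul_proj (s : SH) (a : HI) :
    (frSheet (nb := frNb pat) s (frPatP (pat a)) * frNoTag s a) *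
        (frSheet s (frPatP (pat a)) * frNoTag s a) = frSheet s (frPatP (pat a)) * frNoTag s a ∧
      (frSheet (nb := frNb pat) s (frPatP (pat a)) * frNoTag s a)ᴴ
        = frSheet s (frPatP (pat a)) * frNoTag s a :=
  fre_proj_mul (fre_sheet_proj s (fre_patP_proj _).1 (fre_patP_proj _).2).1
    (fre_sheet_proj s (fre_patP_proj _).1 (fre_patP_proj _).2).2 (fre_noTag_proj s a).1
    (fre_noTag_proj s a).2 (fre_sheet_noTag_commute s s a _)

theorem fre_enc_contr (s : SH) (a : HI) : CpContr (frEnc pat s a) :=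
  fre_contr_of_adj_mul (fre_enc_adj_mul pat s a) (fre_enc_adj_mul_proj pat s a).1
    (fre_enc_adj_mul_proj pat s a).2

end Pat

end Claimed.Agent.R296
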