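import Claimed.Agent.R296.P2.FrEncC

/-!
# Row 296, paper 2, Section 5.1: encoders, part D (products of encoders, reference vectors)

Owner: helper19 (leaf `P2-FR-ENC`).
-/

set_option autoImplicit false
set_option linter.unusedSectionVars false
set_option linter.unusedDecidableInType false
set_option linter.unusedFintypeInType false

namespace Claimed.Agent.R296

open Matrix
open scoped ComplexOrder

variable {PP SH Λ HI : Type} [Fintype PP] [DecidableEq PP] [Fintype SH] [DecidableEq SH]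
  [Fintype Λ] [DecidableEq Λ] [Fintype HI] [DecidableEq HI] {q : ℕ} [NeZero q]

theorem fre_list_prod_contr {n : Type} [Fintype n] [DecidableEq n] (l : List (Matrix n n ℂ))
    (h : ∀ A ∈ l, CpContr A) : CpContr l.prod := by
  induction l with
  | nil => simpa using CpContr.one
  | cons A l ih =>
    rw [List.prod_cons]
    exact (h A (List.mem_cons_self)).mul (ih fun B hB => h B (List.mem_cons_of_mem _ hB))

section Pat

variable {Ω : (Λ → Fin q) → ℂ} {ε : ℝ} (pat : HI → FrPatch Ω ε)

theorem fre_encs_empty : frEncs (SH := SH) pat ∅ = 1 := by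
  simp [frEncs]

theorem fre_encs_contr (H : Finset (SH × HI)) : CpContr (frEncs pat H) := by
  unfold frEncs
  refine fre_list_prod_contr _ fun A hA => ?_
  obtain ⟨p, -, rfl⟩ := List.mem_map.1 hA
  exact fre_enc_contr pat p.1 p.2

theorem fre_pairwise_commute (H : Finset (SH × HI))
    (hH : ∀ p' ∈ H, ∀ p'' ∈ H, p' ≠ p'' → FrCompat pat p' p'') :
    (H : Set (SH × HI)).Pairwise (Function.onFun Commute fun p => frEnc pat p.1 p.2) :=
  fun p hp p' hp' hne => fre_enc_commute pat p p' hne (hH p hp p' hp' hne)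

theorem frEncs_eq_noncommProd (H : Finset (SH × HI))
    (comm : (H : Set (SH × HI)).Pairwise (Function.onFun Commute fun p => frEnc pat p.1 p.2)) :
    frEncs pat H = H.noncommProd (fun p => frEnc pat p.1 p.2) comm := by
  have h := Finset.noncommProd_toFinset H.toList (fun p => frEnc pat p.1 p.2)
    (by rw [Finset.toList_toFinset]; exact comm) (Finset.nodup_toList H)
  rw [frEncs, ← h]
  exact Finset.noncommProd_congr (Finset.toList_toFinset H) (fun _ _ => rfl) _

/-- the product of pairwise compatible encoders does not depend on the order -/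
theorem fre_encs_insert (H : Finset (SH × HI)) (p : SH × HI) (hp : p ∉ H)
    (hc : ∀ p' ∈ H, FrCompat pat p p')
    (hH : ∀ p' ∈ H, ∀ p'' ∈ H, p' ≠ p'' → FrCompat pat p' p'') :
    frEncs pat (insert p H) = frEnc pat p.1 p.2 * frEncs pat H := by
  have hI : ∀ p' ∈ insert p H, ∀ p'' ∈ insert p H, p' ≠ p'' → FrCompat pat p' p'' := by
    intro p' h' p'' h'' hne
    rcases Finset.mem_insert.1 h' with e' | g'
    · rcases Finset.mem_insert.1 h'' with e'' | g''
      · exact absurd (e'.trans e''.symm) hne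
      · rw [e']
        exact hc p'' g''
    · rcases Finset.mem_insert.1 h'' with e'' | g''
      · rw [e'']
        exact (hc p' g').symm
      · exact hH p' g' p'' g'' hne
  rw [frEncs_eq_noncommProd pat _ (fre_pairwise_commute pat _ hI),
    frEncs_eq_noncommProd pat _ (fre_pairwise_commute pat _ hH),
    Finset.noncommProd_insert_of_notMem _ _ _ _ hp]

theorem fre_encs_union (H H' : Finset (SH × HI)) (hd : Disjoint H H')
    (hH : ∀ p' ∈ H ∪ H', ∀ p'' ∈ H ∪ H', p' ≠ p'' → FrCompat pat p' p'') :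
    frEncs pat (H ∪ H') = frEncs pat H * frEncs pat H' := by
  rw [frEncs_eq_noncommProd pat _ (fre_pairwise_commute pat _ hH),
    Finset.noncommProd_union_of_disjoint hd,
    ← frEncs_eq_noncommProd, ← frEncs_eq_noncommProd]

/-- an operator which commutes with all encoders of `H` commutes with their product -/
theorem fre_encs_commute (H : Finset (SH × HI))
    (Y : Matrix (FrCfg SH Λ q (frNb pat)) (FrCfg SH Λ q (frNb pat)) ℂ)
    (h : ∀ p ∈ H, Commute Y (frEnc pat p.1 p.2)) : Commute Y (frEncs pat H) := by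
  unfold frEncs
  refine Commute.list_prod_right _ _ fun A hA => ?_
  obtain ⟨p, hp, rfl⟩ := List.mem_map.1 hA
  exact h p (Finset.mem_toList.1 hp)

/-! ### reference vectors: eq. (frame-norm) -/

theorem fre_wf_compat (st : FrState PP SH Λ HI) (h : st.WF pat) :
    ∀ p' ∈ st.hol, ∀ p'' ∈ st.hol, p' ≠ p'' → FrCompat pat p' p'' := by
  intro p' h' p'' h'' hne
  by_cases hs : p'.1 = p''.1
  · right
    refine h p'.1 p'.2 ?_ p''.2 ?_ ?_
    · simp only [FrState.hs, Finset.mem_filter, Finset.mem_univ, true_and]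
      exact h'
    · simp only [FrState.hs, Finset.mem_filter, Finset.mem_univ, true_and]
      rw [hs]
      exact h''
    · intro h2
      exact hne (Prod.ext hs h2)
  · exact Or.inl hs

theorem fre_ref_le (hΩ : star Ω ⬝ᵥ Ω = 1) (st : FrState PP SH Λ HI) : cpNsq (frRef pat st) ≤ 1 := by
  unfold frRef
  exact (fre_encs_contr pat st.hol _).trans (fre_base_nsq _ Ω hΩ).le

theorem fre_noTag_base (nb : HI → ℕ) (s : SH) (a : HI) :
    frNoTag s a *ᵥ frBase (SH := SH) nb Ω = frBase nb Ω := by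
  funext σ
  rw [frNoTag, Matrix.mulVec_diagonal]
  unfold frBase
  by_cases h : ∀ s a, frTag σ s a = none
  · rw [if_pos (h s a), one_mul]
  · rw [if_neg h, mul_zero, mul_zero]

/-- the tag of an absent hole is `none`, operator form -/
theorem fre_noTag_encs (H : Finset (SH × HI)) (p : SH × HI) (hp : p ∉ H) :
    frNoTag p.1 p.2 *ᵥ (frEncs pat H *ᵥ frBase (frNb pat) Ω) = frEncs pat H *ᵥ frBase (frNb pat) Ω := by
  have hc : Commute (frNoTag p.1 p.2) (frEncs pat H) :=
    fre_encs_commute pat H _ fun p' hp' =>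
      (fre_enc_noTag_commute pat p' p fun h => hp (h ▸ hp')).symm
  rw [Matrix.mulVec_mulVec, hc.eq, ← Matrix.mulVec_mulVec, fre_noTag_base]

/-- on the support of the reference vector the tags of absent holes are `none` -/
theorem fre_ref_tag (st : FrState PP SH Λ HI) (σ : FrCfg SH Λ q (frNb pat)) (p : SH × HI)
    (hp : p ∉ st.hol) (hσ : frTag σ p.1 p.2 ≠ none) : frRef pat st σ = 0 := by
  have h := congrFun (fre_noTag_encs pat st.hol p hp) σ
  rw [frNoTag, Matrix.mulVec_diagonal, if_neg hσ, zero_mul] at h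
  exact h.symm

theorem fre_l2n_sq {n : Type} [Fintype n] [DecidableEq n] (v : n → ℂ) : l2n v ^ 2 = cpNsq v := l2n_sq v

theorem fre_l2n_le_of_nsq_le {n : Type} [Fintype n] [DecidableEq n] {v : n → ℂ} {c : ℝ} (hc : 0 ≤ c)
    (h : cpNsq v ≤ c ^ 2) : l2n v ≤ c := by
  rw [← fre_l2n_sq] at h
  exact (pow_le_pow_iff_left₀ (l2n_nonneg v) hc two_ne_zero).1 h

theorem fre_l2n_le_of_contr {n : Type} [Fintype n] [DecidableEq n] {A : Matrix n n ℂ} (hA : CpContr A)
    (v : n → ℂ) : l2n (A *ᵥ v) ≤ l2n v := by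
  have h := hA v
  rw [← fre_l2n_sq, ← fre_l2n_sq] at h
  exact (pow_le_pow_iff_left₀ (l2n_nonneg _) (l2n_nonneg _) two_ne_zero).1 h

/-- eq. (frame-norm), for a set of pairwise compatible holes -/
theorem fre_encs_ge (hΩ : star Ω ⬝ᵥ Ω = 1) (hε : 0 ≤ ε) (H : Finset (SH × HI))
    (hH : ∀ p' ∈ H, ∀ p'' ∈ H, p' ≠ p'' → FrCompat pat p' p'') :
    1 - H.card * ε ≤ l2n (frEncs pat H *ᵥ frBase (frNb pat) Ω) := by
  induction H using Finset.induction_on with
  | empty =>
    rw [fre_encs_empty, Matrix.one_mulVec]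
    have h1 : l2n (frBase (SH := SH) (frNb pat) Ω) ^ 2 = 1 := by
      rw [fre_l2n_sq, fre_base_nsq _ Ω hΩ]
    have h2 := l2n_nonneg (frBase (SH := SH) (frNb pat) Ω)
    have h3 : l2n (frBase (SH := SH) (frNb pat) Ω) = 1 := by nlinarith
    simp [h3]
  | insert p H hp ih =>
    have hH' : ∀ p' ∈ H, ∀ p'' ∈ H, p' ≠ p'' → FrCompat pat p' p'' := fun p' h' p'' h'' =>
      hH p' (Finset.mem_insert_of_mem h') p'' (Finset.mem_insert_of_mem h'')
    have hc : ∀ p' ∈ H, FrCompat pat p p' := fun p' h' =>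
      hH p (Finset.mem_insert_self _ _) p' (Finset.mem_insert_of_mem h') fun h => hp (h ▸ h')
    have ih' := ih hH'
    set w := frEncs pat H *ᵥ frBase (frNb pat) Ω with hw
    set P := frPatP (pat p.2) with hP
    rw [fre_encs_insert pat H p hp hc hH', ← Matrix.mulVec_mulVec, ← hw]
    -- `‖K_p w‖ = ‖P w‖`
    have h1 : l2n (frEnc pat p.1 p.2 *ᵥ w) = l2n (frSheet p.1 P *ᵥ w) := by
      have h2 : cpNsq (frEnc pat p.1 p.2 *ᵥ w) = cpNsq (frSheet p.1 P *ᵥ w) := by
        rw [fre_nsq_of_adj_mul (fre_enc_adj_mul pat p.1 p.2) (fre_enc_adj_mul_proj pat p.1 p.2).1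
          (fre_enc_adj_mul_proj pat p.1 p.2).2, ← Matrix.mulVec_mulVec, hw,
          fre_noTag_encs pat H p hp]
      rw [← fre_l2n_sq, ← fre_l2n_sq] at h2
      exact (pow_left_inj₀ (l2n_nonneg _) (l2n_nonneg _) two_ne_zero).1 h2
    -- `‖(1 - P) w‖ ≤ ε`
    have h3 : l2n (frSheet p.1 (1 - P) *ᵥ w) ≤ ε := by
      have hcm : Commute (frSheet (nb := frNb pat) p.1 (1 - P)) (frEncs pat H) := by
        refine fre_encs_commute pat H _ fun p' hp' => ?_
        refine (SuppIn.commute (frFoot_disjoint_frRS pat p'.1 p.1 p'.2 (pat p.2).out ?_)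
          (fre_enc_suppIn pat p'.1 p'.2) (fre_sheet_suppIn' p.1 ?_)).symm
        · exact (hc p' hp').imp Ne.symm id
        · exact (SuppIn.one _).sub (fre_patP_suppIn _)
      rw [hw, Matrix.mulVec_mulVec, hcm.eq, ← Matrix.mulVec_mulVec]
      refine (fre_l2n_le_of_contr (fre_encs_contr pat H) _).trans ?_
      refine fre_l2n_le_of_nsq_le hε ?_
      rw [fre_sheet_base _ Ω hΩ, Matrix.sub_mulVec, Matrix.one_mulVec]
      exact fre_patP_err _
    have h4 : w = frSheet p.1 P *ᵥ w + frSheet p.1 (1 - P) *ᵥ w := by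
      rw [← Matrix.add_mulVec, ← fre_sheet_add, add_sub_cancel, fre_sheet_one, Matrix.one_mulVec]
    have h5 : l2n w ≤ l2n (frSheet p.1 P *ᵥ w) + l2n (frSheet p.1 (1 - P) *ᵥ w) := by
      conv_lhs => rw [h4]
      exact l2n_add_le _ _
    rw [h1, Finset.card_insert_of_notMem hp]
    push_cast
    linarith

theorem fre_ref_ge (hΩ : star Ω ⬝ᵥ Ω = 1) (hε : 0 ≤ ε) (st : FrState PP SH Λ HI) (h : st.WF pat)
    (h1 : (st.hol.card : ℝ) * ε ≤ 1) : (1 - st.hol.card * ε) ^ 2 ≤ cpNsq (frRef pat st) := by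
  have h2 := fre_encs_ge pat hΩ hε st.hol (fre_wf_compat pat st h)
  rw [← fre_l2n_sq]
  unfold frRef
  exact pow_le_pow_left₀ (by linarith) h2 2

end Pat

end Claimed.Agent.R296
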