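import Claimed.Agent.R296.P2.FrEncD

/-!
# Row 296, paper 2, Section 5.1: encoders, part E (operations preserve well-formedness)

Owner: helper19 (leaf `P2-FR-ENC`).
-/

set_option autoImplicit false
set_option linter.unusedSectionVars false
set_option linter.unusedDecidableInType false
set_option linter.unusedFintypeInType false

namespace Claimed.Agent.R296

open Matrix

variable {PP SH Λ HI : Type} [Fintype PP] [DecidableEq PP] [Fintype SH] [DecidableEq SH]
  [Fintype Λ] [DecidableEq Λ] [Fintype HI] [DecidableEq HI] {q : ℕ} [NeZero q]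

theorem fre_mem_hs (st : FrState PP SH Λ HI) (s : SH) (a : HI) : a ∈ st.hs s ↔ (s, a) ∈ st.hol := by
  simp [FrState.hs]

section Pat

variable {Ω : (Λ → Fin q) → ℂ} {ε : ℝ} (pat : HI → FrPatch Ω ε)

theorem fre_out_subset_frOut {H : Finset HI} {a : HI} (ha : a ∈ H) : (pat a).out ⊆ frOut pat H :=
  Finset.subset_biUnion_of_mem (fun a => (pat a).out) ha

theorem fre_mem_hs_rewrite (st : FrState PP SH Λ HI) (s : SH) (ow' : Λ → PP) (tw' : HI → PP)
    (old new : Finset HI) (pl : List HI) (A : Finset PP) (t : SH) (a : HI) :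
    a ∈ ((FrOp.rewrite s ow' tw' old new pl A).next pat st).hs t ↔
      ((t, a) ∈ st.hol ∧ ¬ (t = s ∧ a ∈ old)) ∨ (t = s ∧ a ∈ new) := by
  rw [fre_mem_hs]
  simp only [FrOp.next, Finset.mem_union, Finset.mem_filter, Finset.mem_image, Prod.mk.injEq]
  constructor
  · rintro (h | ⟨a', ha', rfl, rfl⟩)
    · exact Or.inl h
    · exact Or.inr ⟨rfl, ha'⟩
  · rintro (h | ⟨rfl, ha⟩)
    · exact Or.inl h
    · exact Or.inr ⟨a, ha, rfl, rfl⟩

/-- exchange of two sheets -/
def freSw (s1 s2 : SH) : SH → SH := fun s => if s = s1 then s2 else if s = s2 then s1 else s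

theorem freSw_freSw {s1 s2 : SH} (t : SH) : freSw s1 s2 (freSw s1 s2 t) = t := by
  unfold freSw
  by_cases h1 : t = s1
  · subst h1
    by_cases h2 : s2 = t
    · simp [h2]
    · simp [h2]
  · by_cases h2 : t = s2
    · subst h2
      simp [h1]
    · simp [h1, h2]

theorem freSw_of_ne {s1 s2 t : SH} (h1 : t ≠ s1) (h2 : t ≠ s2) : freSw s1 s2 t = t := by
  simp [freSw, h1, h2]

theorem fre_mem_hs_exch (st : FrState PP SH Λ HI) (s1 s2 : SH) (Y : Finset Λ) (P : PP) (t : SH)
    (a : HI) :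
    a ∈ ((FrOp.exch s1 s2 Y P).next pat st).hs t ↔
      ((t, a) ∈ st.hol ∧ ¬ (pat a).out ⊆ Y) ∨ ((freSw s1 s2 t, a) ∈ st.hol ∧ (pat a).out ⊆ Y) := by
  rw [fre_mem_hs]
  simp only [FrOp.next, Finset.mem_union, Finset.mem_filter, Finset.mem_image, Prod.mk.injEq,
    Prod.exists]
  constructor
  · rintro (h | ⟨t', a', ⟨h1, h2⟩, h3, rfl⟩)
    · exact Or.inl h
    · refine Or.inr ⟨?_, h2⟩
      have : freSw s1 s2 t' = t := h3
      rw [← this, freSw_freSw]
      exact h1
  · rintro (h | ⟨h1, h2⟩)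
    · exact Or.inl h
    · exact Or.inr ⟨freSw s1 s2 t, a, ⟨h1, h2⟩, freSw_freSw t, rfl⟩

/-- admissible operations preserve well-formedness -/
theorem fre_next_wf (δ : ℝ) (m0 h0 b : ℕ) (o : FrOp PP SH Λ HI) (st : FrState PP SH Λ HI)
    (h : st.WF pat) (ho : o.Ok pat δ m0 h0 b st) : (o.next pat st).WF pat := by
  cases o with
  | birth s T P Q => exact h
  | death s T P Q => exact h
  | rewrite s ow' tw' old new pl A =>
    obtain ⟨-, -, hnn, h1, -⟩ := ho
    intro t a ha a' ha' hne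
    rw [fre_mem_hs_rewrite] at ha ha'
    have hkeep : ∀ c, ((t, c) ∈ st.hol ∧ ¬ (t = s ∧ c ∈ old)) → t = s → c ∈ st.hs s \ old := by
      rintro c ⟨hc1, hc2⟩ rfl
      rw [Finset.mem_sdiff, fre_mem_hs]
      exact ⟨hc1, fun hc => hc2 ⟨rfl, hc⟩⟩
    rcases ha with ha | ⟨rfl, ha⟩
    · rcases ha' with ha' | ⟨rfl, ha'⟩
      · exact h t a ((fre_mem_hs _ _ _).2 ha.1) a' ((fre_mem_hs _ _ _).2 ha'.1) hne
      · exact ((h1 a' (Or.inr (Or.inr ha'))).mono_right
          (fre_out_subset_frOut pat (hkeep a ha rfl))).symm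
    · rcases ha' with ha' | ⟨-, ha'⟩
      · exact (h1 a (Or.inr (Or.inr ha))).mono_right (fre_out_subset_frOut pat (hkeep a' ha' rfl))
      · exact hnn a ha a' ha' hne
  | exch s1 s2 Y P =>
    obtain ⟨-, h2, -⟩ := ho
    intro t a ha a' ha' hne
    rw [fre_mem_hs_exch] at ha ha'
    -- a hole which is not inside `Y`, against a hole inside `Y`
    have key : ∀ c c', c ≠ c' → ((t, c) ∈ st.hol ∧ ¬ (pat c).out ⊆ Y) →
        ((freSw s1 s2 t, c') ∈ st.hol ∧ (pat c').out ⊆ Y) → Disjoint (pat c).out (pat c').out := by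
      intro c c' hcc hc hc'
      by_cases ht : t = s1 ∨ t = s2
      · have hm : c ∈ st.hs s1 ∪ st.hs s2 := by
          rw [Finset.mem_union, fre_mem_hs, fre_mem_hs]
          rcases ht with rfl | rfl
          · exact Or.inl hc.1
          · exact Or.inr hc.1
        exact ((h2 c hm).resolve_left hc.2).mono_right hc'.2
      · push Not at ht
        rw [freSw_of_ne ht.1 ht.2] at hc'
        exact h t c ((fre_mem_hs _ _ _).2 hc.1) c' ((fre_mem_hs _ _ _).2 hc'.1) hcc
    rcases ha with ha | ha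
    · rcases ha' with ha' | ha'
      · exact h t a ((fre_mem_hs _ _ _).2 ha.1) a' ((fre_mem_hs _ _ _).2 ha'.1) hne
      · exact key a a' hne ha ha'
    · rcases ha' with ha' | ha'
      · exact (key a' a hne.symm ha' ha).symm
      · exact h _ a ((fre_mem_hs _ _ _).2 ha.1) a' ((fre_mem_hs _ _ _).2 ha'.1) hne

end Pat

end Claimed.Agent.R296
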