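import Claimed.Agent.R296.P2.FrExchA

/-!
# Row 296, paper 2, Lemma 5.7 (`lem:exchange`): two-sheet exchange (LEAF `P2-FR-EXCH`, prefix `frx_`)

Only one-party gates.  `Z`, `T = Z ∩ Y`, `E = Z \ Y`, `U = Zᶜ` as in `FrOp.Ok`; `V, s, s'` from `frb_split_sites`.
 1. RENAMING: EVERY party swaps its slots `(s1,x) ↔ (s2,x)`, `x ∈ T`, and its tag slots `(s1,a) ↔ (s2,a)` for
    `(pat a).out ⊆ Y` (one one-party gate per party: `card PP` gates; `frx_tprod_all`, `frx_glob_rename`).  For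
    `x ∈ Y \ Z` both registers belong to `P`, so the owners after the renaming are those of `FrOp.next` (`frx_next_own`).
    Intertwining (eq. (exchange-intertwining)): `F * frEncs hol = frEncs hol' * F` (`frx_ren_encs`).
 2. at `P`: `D_U = (V ⊗ V)† F_{bT} (V ⊗ V)` on the two copies of `U` (`frxDU`, a contraction supported on registers
    owned by `P`; `frs_lift_priv`); it commutes with the encoders (`frx_DU_comm`).
 3. `D_U F = (𝒱 ⊗ 𝒱)† F_{T bT} (𝒱 ⊗ 𝒱)` moves `Ω ⊗ Ω` by at most `4 √δ` (`frx_two_est` of `FrExchA.lean`).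

STATUS: PROVED (helper101), statement verbatim; `card PP + 1` gates.
-/

set_option autoImplicit false
set_option linter.unusedSectionVars false
set_option linter.unusedDecidableInType false
set_option linter.unusedVariables false

namespace Claimed.Agent.R296

open Matrix

/-! ### the renaming in the slot memory -/

section Ren

variable {PP SH Λ HI : Type} [Fintype PP] [DecidableEq PP] [Fintype SH] [DecidableEq SH]
  [Fintype Λ] [DecidableEq Λ] [Fintype HI] [DecidableEq HI] {q : ℕ} [NeZero q] {nb : HI → ℕ}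

theorem frx_sc_two (Ω : (Λ → Fin q) → ℂ) (s1 s2 : SH) (T : Finset Λ) (HY : Finset HI)
    (Φ : (Λ → Fin q) × (Λ → Fin q) → ℂ) (σ : FrCfg SH Λ q nb) :
    frxTwo nb Ω s1 s2 Φ (frxSc s1 s2 T HY σ) = frxTwo nb Ω s1 s2 (frxF2 T Φ) σ := by
  have e1 : frRaw (frxSc s1 s2 T HY σ) s1 = frxSwT T (frRaw σ s1) (frRaw σ s2) := by
    funext x
    rw [frxSc_raw, frxSw_left]
    rfl
  have e2 : frRaw (frxSc s1 s2 T HY σ) s2 = frxSwT T (frRaw σ s2) (frRaw σ s1) := by
    funext x
    rw [frxSc_raw, frxSw_right]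
    rfl
  have e3 : ∏ s ∈ (Finset.univ.erase s1).erase s2, Ω (frRaw (frxSc s1 s2 T HY σ) s) =
      ∏ s ∈ (Finset.univ.erase s1).erase s2, Ω (frRaw σ s) := by
    refine Finset.prod_congr rfl fun s hs => ?_
    rw [Finset.mem_erase, Finset.mem_erase] at hs
    congr 1
    funext x
    rw [frxSc_raw, frxSw_other hs.2.1 hs.1, ite_self]
  have e4 : (∀ s a, frTag (frxSc s1 s2 T HY σ) s a = none) ↔ ∀ s a, frTag σ s a = none := by
    constructor
    · intro h s a
      by_cases ha : a ∈ HY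
      · have := h (frxSw s1 s2 s) a
        rwa [frxSc_tag, if_pos ha, frxSw_sw] at this
      · have := h s a
        rwa [frxSc_tag, if_neg ha] at this
    · intro h s a
      rw [frxSc_tag]
      split_ifs
      · exact h _ a
      · exact h s a
  unfold frxTwo frxF2
  rw [e1, e2, e3]
  congr 1
  exact if_congr e4 rfl rfl

/-- the owners after the renaming -/
def frxOwn (s1 s2 : SH) (T : Finset Λ) (HY : Finset HI) (own : FrReg SH Λ HI → PP) :
    FrReg SH Λ HI → PP :=
  fun r => match r with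
    | .inl p => if p.2 ∈ T then own (.inl (frxSw s1 s2 p.1, p.2)) else own (.inl p)
    | .inr p => if p.2 ∈ HY then own (.inr (frxSw s1 s2 p.1, p.2)) else own (.inr p)

theorem frx_glob_rename (s1 s2 : SH) (T : Finset Λ) (HY : Finset HI) (own : FrReg SH Λ HI → PP)
    (ψ : FrCfg SH Λ q nb → ℂ) (m : Cfg (FrMem PP SH Λ q nb)) :
    frGlob own ψ (fun P => frxSc s1 s2 T HY (m P)) =
      frGlob (frxOwn s1 s2 T HY own) (fun σ => ψ (frxSc s1 s2 T HY σ)) m := by
  have hc : (∀ P r, own r ≠ P → frxSc s1 s2 T HY (m P) r = fr0 q nb r) ↔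
      ∀ P r, frxOwn s1 s2 T HY own r ≠ P → m P r = fr0 q nb r := by
    constructor
    · intro h P r hr
      rcases r with ⟨s, x⟩ | ⟨s, a⟩
      · by_cases hx : x ∈ T
        · have h1 : frRaw (frxSc s1 s2 T HY (m P)) (frxSw s1 s2 s) x = 0 :=
            h P (.inl (frxSw s1 s2 s, x)) (by simpa [frxOwn, hx] using hr)
          rw [frxSc_raw, if_pos hx, frxSw_sw] at h1
          exact h1
        · have h1 : frRaw (frxSc s1 s2 T HY (m P)) s x = 0 :=
            h P (.inl (s, x)) (by simpa [frxOwn, hx] using hr)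
          rw [frxSc_raw, if_neg hx] at h1
          exact h1
      · by_cases ha : a ∈ HY
        · have h1 : frTag (frxSc s1 s2 T HY (m P)) (frxSw s1 s2 s) a = none :=
            h P (.inr (frxSw s1 s2 s, a)) (by simpa [frxOwn, ha] using hr)
          rw [frxSc_tag, if_pos ha, frxSw_sw] at h1
          exact h1
        · have h1 : frTag (frxSc s1 s2 T HY (m P)) s a = none :=
            h P (.inr (s, a)) (by simpa [frxOwn, ha] using hr)
          rw [frxSc_tag, if_neg ha] at h1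
          exact h1
    · intro h P r hr
      rcases r with ⟨s, x⟩ | ⟨s, a⟩
      · show frRaw (frxSc s1 s2 T HY (m P)) s x = 0
        rw [frxSc_raw]
        by_cases hx : x ∈ T
        · rw [if_pos hx]
          exact h P (.inl (frxSw s1 s2 s, x)) (by simpa [frxOwn, hx, frxSw_sw] using hr)
        · rw [if_neg hx]
          exact h P (.inl (s, x)) (by simpa [frxOwn, hx] using hr)
      · show frTag (frxSc s1 s2 T HY (m P)) s a = none
        rw [frxSc_tag]
        by_cases ha : a ∈ HY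
        · rw [if_pos ha]
          exact h P (.inr (frxSw s1 s2 s, a)) (by simpa [frxOwn, ha, frxSw_sw] using hr)
        · rw [if_neg ha]
          exact h P (.inr (s, a)) (by simpa [frxOwn, ha] using hr)
  have hv : (fun r => frxSc s1 s2 T HY (m (own r)) r) =
      frxSc s1 s2 T HY (fun r => m (frxOwn s1 s2 T HY own r) r) := by
    refine frx_cfg_ext (fun s x => ?_) (fun s a => ?_)
    · rw [frxSc_raw]
      show frRaw (frxSc s1 s2 T HY (m (own (.inl (s, x))))) s x = _
      rw [frxSc_raw]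
      by_cases hx : x ∈ T
      · rw [if_pos hx, if_pos hx]
        show _ = m (frxOwn s1 s2 T HY own (.inl (frxSw s1 s2 s, x))) (.inl (frxSw s1 s2 s, x))
        have : frxOwn s1 s2 T HY own (.inl (frxSw s1 s2 s, x)) = own (.inl (s, x)) := by
          simp [frxOwn, hx, frxSw_sw]
        rw [this]
        rfl
      · rw [if_neg hx, if_neg hx]
        show _ = m (frxOwn s1 s2 T HY own (.inl (s, x))) (.inl (s, x))
        have : frxOwn s1 s2 T HY own (.inl (s, x)) = own (.inl (s, x)) := by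
          simp [frxOwn, hx]
        rw [this]
        rfl
    · rw [frxSc_tag]
      show frTag (frxSc s1 s2 T HY (m (own (.inr (s, a))))) s a = _
      rw [frxSc_tag]
      by_cases ha : a ∈ HY
      · rw [if_pos ha, if_pos ha]
        show _ = m (frxOwn s1 s2 T HY own (.inr (frxSw s1 s2 s, a))) (.inr (frxSw s1 s2 s, a))
        have : frxOwn s1 s2 T HY own (.inr (frxSw s1 s2 s, a)) = own (.inr (s, a)) := by
          simp [frxOwn, ha, frxSw_sw]
        rw [this]
        rfl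
      · rw [if_neg ha, if_neg ha]
        show _ = m (frxOwn s1 s2 T HY own (.inr (s, a))) (.inr (s, a))
        have : frxOwn s1 s2 T HY own (.inr (s, a)) = own (.inr (s, a)) := by
          simp [frxOwn, ha]
        rw [this]
        rfl
  unfold frGlob
  exact if_congr hc (congrArg ψ hv) rfl

end Ren

/-! ### all parties apply the same function to their memories -/

section AllLoc

variable {PP M : Type} [Fintype PP] [DecidableEq PP] [Fintype M] [DecidableEq M]

theorem frx_tprod_loc (g : M → M) : ∀ (n : ℕ) (f : Fin n → PP), Function.Injective f →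
    cpTprod n (fun i => cpLoc (Mem := fun _ : PP => M) (f i) (frsPm g (fun _ => 1))) =
      frsPm (fun (m : Cfg (fun _ : PP => M)) P =>
        if P ∈ Finset.univ.image f then g (m P) else m P) (fun _ => 1) := by
  intro n
  induction n with
  | zero =>
    intro f _
    rw [cpTprod_zero, ← frsPm_id]
    refine frsPm_congr (fun m => ?_) (fun _ => rfl)
    funext P
    simp
  | succ n ih =>
    intro f hf
    have hf' : Function.Injective fun i : Fin n => f i.castSucc :=
      fun i j h => Fin.castSucc_injective n (hf h)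
    rw [cpTprod_succ, ih (fun i => f i.castSucc) hf', frsPm_loc, frsPm_mul]
    refine frsPm_congr (fun m => ?_) (fun _ => by simp)
    have hlast : f (Fin.last n) ∉ Finset.univ.image fun i : Fin n => f i.castSucc := by
      intro h
      obtain ⟨i, _, hi⟩ := Finset.mem_image.1 h
      exact (Fin.castSucc_lt_last i).ne (hf hi)
    funext P
    by_cases hP : P = f (Fin.last n)
    · subst hP
      rw [Function.update_self]
      beta_reduce
      rw [if_neg hlast, if_pos (Finset.mem_image_of_mem f (Finset.mem_univ _))]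
    · rw [Function.update_of_ne hP]
      have : P ∈ Finset.univ.image (fun i : Fin n => f i.castSucc) ↔ P ∈ Finset.univ.image f := by
        constructor
        · intro h
          obtain ⟨i, _, hi⟩ := Finset.mem_image.1 h
          exact Finset.mem_image.2 ⟨i.castSucc, Finset.mem_univ _, hi⟩
        · intro h
          obtain ⟨i, _, hi⟩ := Finset.mem_image.1 h
          refine Fin.lastCases (fun hi => absurd hi.symm hP) (fun j hj => ?_) i hi
          exact Finset.mem_image.2 ⟨j, Finset.mem_univ _, hj⟩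
      exact if_congr this rfl rfl

theorem frx_tprod_all (g : M → M) (hg : ∀ a, g (g a) = a) (Φ : Cfg (fun _ : PP => M) → ℂ) :
    cpTprod (Fintype.card PP) (fun i => cpLoc (Mem := fun _ : PP => M)
      ((Fintype.equivFin PP).symm i) (frsPm g (fun _ => 1))) *ᵥ Φ = fun m => Φ fun P => g (m P) := by
  rw [frx_tprod_loc g _ _ (Fintype.equivFin PP).symm.injective]
  have e : (fun (m : Cfg (fun _ : PP => M)) P =>
      if P ∈ Finset.univ.image (Fintype.equivFin PP).symm then g (m P) else m P) =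
      fun m P => g (m P) := by
    funext m P
    rw [if_pos]
    exact Finset.mem_image.2 ⟨Fintype.equivFin PP P, Finset.mem_univ _, by simp⟩
  rw [e, frx_pm_mulVec _ (fun m => funext fun P => hg (m P))]

end AllLoc

/-! ### the renaming and the encoders -/

section Enc

variable {SH Λ HI : Type} [Fintype SH] [DecidableEq SH]
  [Fintype Λ] [DecidableEq Λ] [Fintype HI] [DecidableEq HI] {q : ℕ} [NeZero q]
  {Ω : (Λ → Fin q) → ℂ} {ε : ℝ} (pat : HI → FrPatch Ω ε)

/-- the condition in the definition of the encoder -/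
def frxCond (s : SH) (a : HI) (b : Fin (pat a).nb) (σ' σ : FrCfg SH Λ q (frNb pat)) : Prop :=
  frTag σ s a = none ∧ frTag σ' s a = some b ∧ (∀ x ∈ (pat a).D b, frRaw σ' s x = 0) ∧
    (∀ x, x ∉ (pat a).D b → frRaw σ' s x = frRaw σ s x) ∧
    (∀ s' x, s' ≠ s → frRaw σ' s' x = frRaw σ s' x) ∧
    (∀ s' a', (s', a') ≠ (s, a) → frTag σ' s' a' = frTag σ s' a')

open Classical in
theorem frx_enc_apply (s : SH) (a : HI) (σ' σ : FrCfg SH Λ q (frNb pat)) :
    frEnc pat s a σ' σ = ∑ b : Fin (pat a).nb,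
      if frxCond pat s a b σ' σ then star ((pat a).v b (fun x => frRaw σ s x.1)) else 0 := by
  simp only [frEnc, Matrix.of_apply]
  exact Finset.sum_congr rfl fun b _ => if_congr Iff.rfl rfl rfl

theorem frx_cond_sc (s1 s2 : SH) (T : Finset Λ) (HY : Finset HI) (s t : SH) (a : HI)
    (hraw : ∀ x ∈ (pat a).out, (if x ∈ T then frxSw s1 s2 s else s) = t)
    (htag : (if a ∈ HY then frxSw s1 s2 s else s) = t) (b : Fin (pat a).nb)
    (σ' σ : FrCfg SH Λ q (frNb pat))
    (h : frxCond pat s a b (frxSc s1 s2 T HY σ') (frxSc s1 s2 T HY σ)) :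
    frxCond pat t a b σ' σ := by
  let κ : Λ → SH → SH := fun x s' => if x ∈ T then frxSw s1 s2 s' else s'
  let κt : HI → SH → SH := fun a' s' => if a' ∈ HY then frxSw s1 s2 s' else s'
  have hκ : ∀ x s', κ x (κ x s') = s' := by
    intro x s'
    simp only [κ]
    split_ifs
    · exact frxSw_sw s1 s2 s'
    · rfl
  have hκt : ∀ a' s', κt a' (κt a' s') = s' := by
    intro a' s'
    simp only [κt]
    split_ifs
    · exact frxSw_sw s1 s2 s'
    · rfl
  have hr : ∀ (υ : FrCfg SH Λ q (frNb pat)) s' x,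
      frRaw (frxSc s1 s2 T HY υ) s' x = frRaw υ (κ x s') x := by
    intro υ s' x
    rw [frxSc_raw]
    simp only [κ]
    split_ifs <;> rfl
  have ht : ∀ (υ : FrCfg SH Λ q (frNb pat)) s' a',
      frTag (frxSc s1 s2 T HY υ) s' a' = frTag υ (κt a' s') a' := by
    intro υ s' a'
    rw [frxSc_tag]
    simp only [κt]
    split_ifs <;> rfl
  have hD : ∀ x ∈ (pat a).D b, κ x s = t := fun x hx => hraw x ((pat a).sub_out b hx)
  have htag' : κt a s = t := htag
  obtain ⟨A1, A2, A3, A4, A5, A6⟩ := h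
  refine ⟨?_, ?_, ?_, ?_, ?_, ?_⟩
  · rwa [ht, htag'] at A1
  · rwa [ht, htag'] at A2
  · intro x hx
    have := A3 x hx
    rwa [hr, hD x hx] at this
  · intro x hx
    by_cases hs : κ x t = s
    · have := A4 x hx
      rwa [hr, hr, ← hs, hκ] at this
    · have := A5 (κ x t) x hs
      rwa [hr, hr, hκ] at this
  · intro s' x hs'
    by_cases hs : κ x s' = s
    · have hx : x ∉ (pat a).D b := by
        intro hx
        apply hs'
        rw [← hD x hx, ← hs, hκ]
      have := A4 x hx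
      rwa [hr, hr, ← hs, hκ] at this
    · have := A5 (κ x s') x hs
      rwa [hr, hr, hκ] at this
  · intro s' a' hne
    have hne' : (κt a' s', a') ≠ (s, a) := by
      intro h
      rw [Prod.mk.injEq] at h
      obtain ⟨h1, rfl⟩ := h
      apply hne
      rw [← htag', ← h1, hκt]
    have := A6 (κt a' s') a' hne'
    rwa [ht, ht, hκt] at this

open Classical in
theorem frx_enc_sc (s1 s2 : SH) (T : Finset Λ) (HY : Finset HI) (s t : SH) (a : HI)
    (hraw : ∀ x ∈ (pat a).out, (if x ∈ T then frxSw s1 s2 s else s) = t)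
    (htag : (if a ∈ HY then frxSw s1 s2 s else s) = t) (σ' σ : FrCfg SH Λ q (frNb pat)) :
    frEnc pat s a (frxSc s1 s2 T HY σ') (frxSc s1 s2 T HY σ) = frEnc pat t a σ' σ := by
  have hraw' : ∀ x ∈ (pat a).out, (if x ∈ T then frxSw s1 s2 t else t) = s := by
    intro x hx
    rw [← hraw x hx]
    split_ifs
    · exact frxSw_sw s1 s2 s
    · rfl
  have htag' : (if a ∈ HY then frxSw s1 s2 t else t) = s := by
    rw [← htag]
    split_ifs
    · exact frxSw_sw s1 s2 s
    · rfl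
  rw [frx_enc_apply, frx_enc_apply]
  refine Finset.sum_congr rfl fun b _ => ?_
  have hval : (fun x : {x // x ∈ (pat a).D b} => frRaw (frxSc s1 s2 T HY σ) s x.1) =
      fun x => frRaw σ t x.1 := by
    funext x
    rw [frxSc_raw, ← hraw x.1 ((pat a).sub_out b x.2)]
    split_ifs <;> rfl
  refine if_congr ⟨frx_cond_sc pat s1 s2 T HY s t a hraw htag b σ' σ, fun h => ?_⟩
    (by rw [hval]) rfl
  refine frx_cond_sc pat s1 s2 T HY t s a hraw' htag' b _ _ ?_
  rwa [frxSc_sc, frxSc_sc]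

/-- intertwining of the renaming with one encoder -/
theorem frx_ren_enc (s1 s2 : SH) (T : Finset Λ) (HY : Finset HI) (s t : SH) (a : HI)
    (hraw : ∀ x ∈ (pat a).out, (if x ∈ T then frxSw s1 s2 s else s) = t)
    (htag : (if a ∈ HY then frxSw s1 s2 s else s) = t) :
    frsPm (frxSc (nb := frNb pat) (q := q) s1 s2 T HY) (fun _ => 1) * frEnc pat s a =
      frEnc pat t a * frsPm (frxSc (nb := frNb pat) (q := q) s1 s2 T HY) (fun _ => 1) := by
  ext σ' σ
  rw [frx_pm_mul_apply _ (frxSc_sc s1 s2 T HY), frx_mul_pm_apply,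
    ← frx_enc_sc pat s1 s2 T HY s t a hraw htag, frxSc_sc]

/-- the renaming of the holes -/
def frxPh (s1 s2 : SH) (HY : Finset HI) (p : SH × HI) : SH × HI :=
  (if p.2 ∈ HY then frxSw s1 s2 p.1 else p.1, p.2)

theorem frxPh_injective (s1 s2 : SH) (HY : Finset HI) : Function.Injective (frxPh s1 s2 HY) := by
  have h : ∀ p, frxPh s1 s2 HY (frxPh s1 s2 HY p) = p := by
    rintro ⟨s, a⟩
    simp only [frxPh]
    split_ifs
    · rw [frxSw_sw]
    · rfl
  exact Function.LeftInverse.injective h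

/-- intertwining of the renaming with a product of encoders (eq. (exchange-intertwining)) -/
theorem frx_ren_encs (s1 s2 : SH) (T : Finset Λ) (HY : Finset HI) (H : Finset (SH × HI)) :
    (∀ p ∈ H, ∀ x ∈ (pat p.2).out, (if x ∈ T then frxSw s1 s2 p.1 else p.1) =
      (frxPh s1 s2 HY p).1) →
    (∀ p' ∈ H, ∀ p'' ∈ H, p' ≠ p'' → FrCompat pat p' p'') →
    (∀ p' ∈ H.image (frxPh s1 s2 HY), ∀ p'' ∈ H.image (frxPh s1 s2 HY), p' ≠ p'' →
      FrCompat pat p' p'') →
    frsPm (frxSc (nb := frNb pat) (q := q) s1 s2 T HY) (fun _ => 1) * frEncs pat H =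
      frEncs pat (H.image (frxPh s1 s2 HY)) *
        frsPm (frxSc (nb := frNb pat) (q := q) s1 s2 T HY) (fun _ => 1) := by
  induction H using Finset.induction_on with
  | empty =>
    intro _ _ _
    rw [Finset.image_empty, fre_encs_empty, Matrix.mul_one, Matrix.one_mul]
  | insert p H hp ih =>
    intro h1 h2 h3
    have hp' : frxPh s1 s2 HY p ∉ H.image (frxPh s1 s2 HY) := by
      intro h
      obtain ⟨p0, hp0, he⟩ := Finset.mem_image.1 h
      rw [frxPh_injective s1 s2 HY he] at hp0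
      exact hp hp0
    rw [Finset.image_insert] at h3 ⊢
    rw [fre_encs_insert pat H p hp
        (fun p' hp' => h2 p (Finset.mem_insert_self _ _) p' (Finset.mem_insert_of_mem hp')
          (fun h => hp (h ▸ hp')))
        (fun p' hp' p'' hp'' => h2 p' (Finset.mem_insert_of_mem hp') p''
          (Finset.mem_insert_of_mem hp'')),
      fre_encs_insert pat _ _ hp'
        (fun p' hq => h3 _ (Finset.mem_insert_self _ _) p' (Finset.mem_insert_of_mem hq)
          (fun h => hp' (h ▸ hq)))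
        (fun p' hq p'' hq' => h3 p' (Finset.mem_insert_of_mem hq) p''
          (Finset.mem_insert_of_mem hq')),
      ← Matrix.mul_assoc,
      frx_ren_enc pat s1 s2 T HY p.1 (frxPh s1 s2 HY p).1 p.2
        (h1 p (Finset.mem_insert_self _ _)) rfl,
      Matrix.mul_assoc,
      ih (fun p' hp' => h1 p' (Finset.mem_insert_of_mem hp'))
        (fun p' hp' p'' hp'' => h2 p' (Finset.mem_insert_of_mem hp') p''
          (Finset.mem_insert_of_mem hp''))
        (fun p' hq p'' hq' => h3 p' (Finset.mem_insert_of_mem hq) p''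
          (Finset.mem_insert_of_mem hq')),
      ← Matrix.mul_assoc]
    rfl

end Enc

/-! ### the buffer correction -/

section DU

variable {SH Λ HI : Type} [Fintype SH] [DecidableEq SH]
  [Fintype Λ] [DecidableEq Λ] [Fintype HI] [DecidableEq HI] {q : ℕ} [NeZero q] {nb : HI → ℕ}

/-- the raw registers of the two sheets off `Z` -/
def frxD (s1 s2 : SH) (Z : Finset Λ) : Finset (FrReg SH Λ HI) := frRS s1 Zᶜ ∪ frRS s2 Zᶜ

theorem frx_inl_mem_D {s1 s2 s : SH} {Z : Finset Λ} {x : Λ} :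
    (Sum.inl (s, x) : FrReg SH Λ HI) ∈ frxD s1 s2 Z ↔ (s = s1 ∨ s = s2) ∧ x ∉ Z := by
  rw [frxD, Finset.mem_union, inl_mem_frRS, inl_mem_frRS, Finset.mem_compl]
  tauto

theorem frx_inr_notMem_D {s1 s2 : SH} {Z : Finset Λ} {p : SH × HI} :
    (Sum.inr p : FrReg SH Λ HI) ∉ frxD s1 s2 Z := by
  rw [frxD, Finset.mem_union]
  rintro (h | h) <;> exact inr_notMem_frRS h

/-- overwrite the raw registers of the two sheets off `Z` -/
def frxPut (s1 s2 : SH) (Z : Finset Λ)
    (w : CfgOff (fun _ : Λ => Fin q) Z × CfgOff (fun _ : Λ => Fin q) Z)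
    (σ : FrCfg SH Λ q nb) : FrCfg SH Λ q nb :=
  fun r => match r with
    | .inl p => if h : p.2 ∈ Z then frRaw σ p.1 p.2 else
        if p.1 = s1 then w.1 ⟨p.2, h⟩ else if p.1 = s2 then w.2 ⟨p.2, h⟩ else frRaw σ p.1 p.2
    | .inr p => frTag σ p.1 p.2

theorem frxPut_raw (s1 s2 : SH) (Z : Finset Λ)
    (w : CfgOff (fun _ : Λ => Fin q) Z × CfgOff (fun _ : Λ => Fin q) Z)
    (σ : FrCfg SH Λ q nb) (s : SH) (x : Λ) :
    frRaw (frxPut s1 s2 Z w σ) s x = if h : x ∈ Z then frRaw σ s x else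
        if s = s1 then w.1 ⟨x, h⟩ else if s = s2 then w.2 ⟨x, h⟩ else frRaw σ s x := rfl

theorem frxPut_tag (s1 s2 : SH) (Z : Finset Λ)
    (w : CfgOff (fun _ : Λ => Fin q) Z × CfgOff (fun _ : Λ => Fin q) Z)
    (σ : FrCfg SH Λ q nb) (s : SH) (a : HI) :
    frTag (frxPut s1 s2 Z w σ) s a = frTag σ s a := rfl

theorem frxPut_raw1 (s1 s2 : SH) (Z : Finset Λ)
    (w : CfgOff (fun _ : Λ => Fin q) Z × CfgOff (fun _ : Λ => Fin q) Z)
    (σ : FrCfg SH Λ q nb) :
    frRaw (frxPut s1 s2 Z w σ) s1 = cglue Z (crOn Z (frRaw σ s1)) w.1 := by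
  funext x
  rw [frxPut_raw]
  by_cases h : x ∈ Z
  · simp [cglue, crOn, h]
  · simp [cglue, h]

theorem frxPut_raw2 {s1 s2 : SH} (h12 : s1 ≠ s2) (Z : Finset Λ)
    (w : CfgOff (fun _ : Λ => Fin q) Z × CfgOff (fun _ : Λ => Fin q) Z)
    (σ : FrCfg SH Λ q nb) :
    frRaw (frxPut s1 s2 Z w σ) s2 = cglue Z (crOn Z (frRaw σ s2)) w.2 := by
  funext x
  rw [frxPut_raw]
  by_cases h : x ∈ Z
  · simp [cglue, crOn, h]
  · simp [cglue, h, h12.symm]

theorem frxPut_raw3 {s1 s2 s : SH} (h1 : s ≠ s1) (h2 : s ≠ s2) (Z : Finset Λ)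
    (w : CfgOff (fun _ : Λ => Fin q) Z × CfgOff (fun _ : Λ => Fin q) Z)
    (σ : FrCfg SH Λ q nb) :
    frRaw (frxPut s1 s2 Z w σ) s = frRaw σ s := by
  funext x
  rw [frxPut_raw]
  simp [h1, h2]

/-- the registers of `frxD` are two copies of the sites off `Z` -/
def frxE (nb : HI → ℕ) {s1 s2 : SH} (h12 : s1 ≠ s2) (Z : Finset Λ) :
    CfgOn (frIo (SH := SH) (Λ := Λ) q nb) (frxD s1 s2 Z) ≃
      CfgOff (fun _ : Λ => Fin q) Z × CfgOff (fun _ : Λ => Fin q) Z where
  toFun c := (fun x => c ⟨.inl (s1, x.1), frx_inl_mem_D.2 ⟨Or.inl rfl, x.2⟩⟩,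
    fun x => c ⟨.inl (s2, x.1), frx_inl_mem_D.2 ⟨Or.inr rfl, x.2⟩⟩)
  invFun w := crOn (frxD s1 s2 Z) (frxPut s1 s2 Z w (fr0 q nb))
  left_inv c := by
    funext r
    obtain ⟨r, hr⟩ := r
    rcases r with ⟨s, x⟩ | p
    · have hr' := frx_inl_mem_D.1 hr
      show frRaw (frxPut s1 s2 Z _ (fr0 q nb)) s x = _
      rw [frxPut_raw, dif_neg hr'.2]
      rcases hr'.1 with rfl | rfl
      · rw [if_pos rfl]
      · rw [if_neg h12.symm, if_pos rfl]
    · exact absurd hr frx_inr_notMem_D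
  right_inv w := by
    refine Prod.ext ?_ ?_
    · funext x
      show frRaw (frxPut s1 s2 Z w (fr0 q nb)) s1 x.1 = _
      rw [frxPut_raw, dif_neg x.2, if_pos rfl]
    · funext x
      show frRaw (frxPut s1 s2 Z w (fr0 q nb)) s2 x.1 = _
      rw [frxPut_raw, dif_neg x.2, if_neg h12.symm, if_pos rfl]

theorem frxE_crOn {s1 s2 : SH} (h12 : s1 ≠ s2) (Z : Finset Λ) (σ : FrCfg SH Λ q nb) :
    frxE nb h12 Z (crOn (frxD s1 s2 Z) σ) = (crOff Z (frRaw σ s1), crOff Z (frRaw σ s2)) := rfl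

theorem frxE_glue {s1 s2 : SH} (h12 : s1 ≠ s2) (Z : Finset Λ)
    (w : CfgOff (fun _ : Λ => Fin q) Z × CfgOff (fun _ : Λ => Fin q) Z) (σ : FrCfg SH Λ q nb) :
    cglue (frxD s1 s2 Z) ((frxE nb h12 Z).symm w) (crOff (frxD s1 s2 Z) σ) =
      frxPut s1 s2 Z w σ := by
  funext r
  by_cases hr : r ∈ frxD s1 s2 Z
  · rw [cglue, dif_pos hr]
    show frxPut s1 s2 Z w (fr0 q nb) r = _
    rcases r with ⟨s, x⟩ | p
    · have hr' := frx_inl_mem_D.1 hr
      show frRaw (frxPut s1 s2 Z w (fr0 q nb)) s x = frRaw (frxPut s1 s2 Z w σ) s x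
      rw [frxPut_raw, frxPut_raw, dif_neg hr'.2, dif_neg hr'.2]
      rcases hr'.1 with rfl | rfl
      · rw [if_pos rfl, if_pos rfl]
      · rw [if_neg h12.symm, if_pos rfl, if_neg h12.symm, if_pos rfl]
    · exact absurd hr frx_inr_notMem_D
  · rw [cglue, dif_neg hr]
    show σ r = _
    rcases r with ⟨s, x⟩ | p
    · show frRaw σ s x = frRaw (frxPut s1 s2 Z w σ) s x
      rw [frxPut_raw]
      by_cases hx : x ∈ Z
      · rw [dif_pos hx]
      · rw [dif_neg hx]
        have h1 : s ≠ s1 := fun h => hr (frx_inl_mem_D.2 ⟨Or.inl h, hx⟩)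
        have h2 : s ≠ s2 := fun h => hr (frx_inl_mem_D.2 ⟨Or.inr h, hx⟩)
        rw [if_neg h1, if_neg h2]
    · rfl

/-- a two-copy operator off `Z` as a canonical operator -/
def frxDU (nb : HI → ℕ) {s1 s2 : SH} (h12 : s1 ≠ s2) (Z : Finset Λ)
    (K : Matrix (CfgOff (fun _ : Λ => Fin q) Z × CfgOff (fun _ : Λ => Fin q) Z)
      (CfgOff (fun _ : Λ => Fin q) Z × CfgOff (fun _ : Λ => Fin q) Z) ℂ) :
    Matrix (CfgOn (frIo (SH := SH) (Λ := Λ) q nb) (frxD s1 s2 Z))
      (CfgOn (frIo (SH := SH) (Λ := Λ) q nb) (frxD s1 s2 Z)) ℂ :=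
  K.submatrix (frxE nb h12 Z) (frxE nb h12 Z)

theorem frxDU_contr {s1 s2 : SH} (h12 : s1 ≠ s2) (Z : Finset Λ)
    (K : Matrix (CfgOff (fun _ : Λ => Fin q) Z × CfgOff (fun _ : Λ => Fin q) Z)
      (CfgOff (fun _ : Λ => Fin q) Z × CfgOff (fun _ : Λ => Fin q) Z) ℂ) (hK : CpContr K) :
    CpContr (emb (io := frIo (SH := SH) (Λ := Λ) q nb) (frxD s1 s2 Z) (frxDU nb h12 Z K)) := by
  have h1 : CpContr (frxDU nb h12 Z K) := by
    intro v
    unfold frxDU
    rw [Matrix.submatrix_mulVec_equiv]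
    have e1 : ∀ f : CfgOff (fun _ : Λ => Fin q) Z × CfgOff (fun _ : Λ => Fin q) Z → ℂ,
        cpNsq (f ∘ frxE nb h12 Z) = cpNsq f := fun f =>
      Equiv.sum_comp (frxE nb h12 Z) (fun x => ‖f x‖ ^ 2)
    have e2 : cpNsq v = cpNsq (v ∘ (frxE nb h12 Z).symm) :=
      (Equiv.sum_comp (frxE nb h12 Z).symm (fun x => ‖v x‖ ^ 2)).symm
    rw [e1, e2]
    exact hK _
  rw [cpContr_iff_norm_le_one] at h1 ⊢
  exact (norm_emb_le _ _).trans h1

theorem frxDU_two (Ω : (Λ → Fin q) → ℂ) {s1 s2 : SH} (h12 : s1 ≠ s2) (Z : Finset Λ)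
    (K : Matrix (CfgOff (fun _ : Λ => Fin q) Z × CfgOff (fun _ : Λ => Fin q) Z)
      (CfgOff (fun _ : Λ => Fin q) Z × CfgOff (fun _ : Λ => Fin q) Z) ℂ)
    (Φ : (Λ → Fin q) × (Λ → Fin q) → ℂ) :
    emb (io := frIo (SH := SH) (Λ := Λ) q nb) (frxD s1 s2 Z) (frxDU nb h12 Z K) *ᵥ
      frxTwo nb Ω s1 s2 Φ = frxTwo nb Ω s1 s2 (frxK2 Z K Φ) := by
  funext σ
  rw [sp_emb_mulVec, ← Equiv.sum_comp (frxE nb h12 Z).symm]
  have h : ∀ w, frxDU nb h12 Z K (crOn (frxD s1 s2 Z) σ) ((frxE nb h12 Z).symm w) *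
      frxTwo nb Ω s1 s2 Φ (cglue (frxD s1 s2 Z) ((frxE nb h12 Z).symm w)
        (crOff (frxD s1 s2 Z) σ)) =
      (K (crOff Z (frRaw σ s1), crOff Z (frRaw σ s2)) w *
        Φ (cglue Z (crOn Z (frRaw σ s1)) w.1, cglue Z (crOn Z (frRaw σ s2)) w.2)) *
      ((∏ s ∈ (Finset.univ.erase s1).erase s2, Ω (frRaw σ s)) *
        if ∀ s a, frTag σ s a = none then 1 else 0) := by
    intro w
    rw [frxE_glue]
    unfold frxDU frxTwo
    rw [Matrix.submatrix_apply, frxE_crOn, Equiv.apply_symm_apply, frxPut_raw1,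
      frxPut_raw2 h12]
    have e3 : ∏ s ∈ (Finset.univ.erase s1).erase s2, Ω (frRaw (frxPut s1 s2 Z w σ) s) =
        ∏ s ∈ (Finset.univ.erase s1).erase s2, Ω (frRaw σ s) := by
      refine Finset.prod_congr rfl fun s hs => ?_
      rw [Finset.mem_erase, Finset.mem_erase] at hs
      rw [frxPut_raw3 hs.2.1 hs.1]
    have e4 : (if ∀ s a, frTag (frxPut s1 s2 Z w σ) s a = none then (1 : ℂ) else 0) =
        if ∀ s a, frTag σ s a = none then 1 else 0 := if_congr Iff.rfl rfl rfl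
    rw [e3, e4]
    ring
  simp only [h]
  rw [← Finset.sum_mul]
  unfold frxTwo frxK2
  ring

end DU

section Comm

variable {SH Λ HI : Type} [Fintype SH] [DecidableEq SH]
  [Fintype Λ] [DecidableEq Λ] [Fintype HI] [DecidableEq HI] {q : ℕ} [NeZero q]
  {Ω : (Λ → Fin q) → ℂ} {ε : ℝ} (pat : HI → FrPatch Ω ε)

theorem frx_DU_comm (s1 s2 : SH) (Z : Finset Λ) (H : Finset (SH × HI))
    (hH : ∀ p ∈ H, (p.1 = s1 ∨ p.1 = s2) → (pat p.2).out ⊆ Z)
    (K : Matrix (CfgOn (frIo (SH := SH) (Λ := Λ) q (frNb pat)) (frxD s1 s2 Z))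
      (CfgOn (frIo (SH := SH) (Λ := Λ) q (frNb pat)) (frxD s1 s2 Z)) ℂ) :
    Commute (emb (io := frIo (SH := SH) (Λ := Λ) q (frNb pat)) (frxD s1 s2 Z) K)
      (frEncs pat H) := by
  refine fre_encs_commute pat H _ fun p hp => ?_
  refine (SuppIn.commute ?_ (fre_enc_suppIn pat p.1 p.2) ⟨K, rfl⟩).symm
  unfold frxD
  rw [Finset.disjoint_union_right]
  constructor
  · refine frFoot_disjoint_frRS pat p.1 s1 p.2 _ ?_
    by_cases h : p.1 = s1
    · right
      rw [Finset.disjoint_left]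
      intro x hx hx'
      exact (Finset.mem_compl.1 hx) (hH p hp (Or.inl h) hx')
    · exact Or.inl h
  · refine frFoot_disjoint_frRS pat p.1 s2 p.2 _ ?_
    by_cases h : p.1 = s2
    · right
      rw [Finset.disjoint_left]
      intro x hx hx'
      exact (Finset.mem_compl.1 hx) (hH p hp (Or.inr h) hx')
    · exact Or.inl h

end Comm

/-! ### assembly -/

section Main

variable {PP SH Λ HI : Type} [Fintype PP] [DecidableEq PP] [Fintype SH] [DecidableEq SH]
  [Fintype Λ] [DecidableEq Λ] [Fintype HI] [DecidableEq HI] {q : ℕ} [NeZero q]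
  {Ω : (Λ → Fin q) → ℂ} {ε : ℝ} (pat : HI → FrPatch Ω ε)

theorem frxSw_mem {s1 s2 s : SH} (h : frxSw s1 s2 s = s1 ∨ frxSw s1 s2 s = s2) :
    s = s1 ∨ s = s2 := by
  by_contra hc
  push Not at hc
  rw [frxSw_other hc.1 hc.2] at h
  exact h.elim hc.1 hc.2

theorem frx_next_hol (st : FrState PP SH Λ HI) (s1 s2 : SH) (Y : Finset Λ) (P : PP) :
    ((FrOp.exch s1 s2 Y P).next pat st).hol =
      st.hol.image (frxPh s1 s2 (Finset.univ.filter fun a => (pat a).out ⊆ Y)) := by
  ext p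
  simp only [FrOp.next, Finset.mem_union, Finset.mem_filter, Finset.mem_image]
  constructor
  · rintro (⟨h1, h2⟩ | ⟨p0, ⟨h1, h2⟩, rfl⟩)
    · exact ⟨p, h1, by simp [frxPh, h2]⟩
    · exact ⟨p0, h1, by simp [frxPh, h2, frxSw]⟩
  · rintro ⟨p0, h1, rfl⟩
    by_cases h2 : (pat p0.2).out ⊆ Y
    · right
      exact ⟨p0, ⟨h1, h2⟩, by simp [frxPh, h2, frxSw]⟩
    · left
      simp [frxPh, h2, h1]

theorem frx_next_own (st : FrState PP SH Λ HI) (s1 s2 : SH) (Y Z : Finset Λ) (P : PP)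
    (hZ : ∀ x, x ∉ Z → st.own (.inl (s1, x)) = P ∧ st.own (.inl (s2, x)) = P) :
    ((FrOp.exch s1 s2 Y P).next pat st).own =
      frxOwn s1 s2 (Z ∩ Y) (Finset.univ.filter fun a => (pat a).out ⊆ Y) st.own := by
  funext r
  rcases r with ⟨s, x⟩ | ⟨s, a⟩
  · show (if x ∈ Y then st.own (.inl (frxSw s1 s2 s, x)) else st.own (.inl (s, x))) =
      if x ∈ Z ∩ Y then st.own (.inl (frxSw s1 s2 s, x)) else st.own (.inl (s, x))
    by_cases hY : x ∈ Y
    · by_cases hx : x ∈ Z
      · rw [if_pos hY, if_pos (Finset.mem_inter.2 ⟨hx, hY⟩)]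
      · rw [if_pos hY, if_neg fun h => hx (Finset.mem_inter.1 h).1]
        by_cases h1 : s = s1
        · subst h1
          rw [frxSw_left, (hZ x hx).1, (hZ x hx).2]
        · by_cases h2 : s = s2
          · subst h2
            rw [frxSw_right, (hZ x hx).1, (hZ x hx).2]
          · rw [frxSw_other h1 h2]
    · rw [if_neg hY, if_neg fun h => hY (Finset.mem_inter.1 h).2]
  · show (if (pat a).out ⊆ Y then st.own (.inr (frxSw s1 s2 s, a)) else st.own (.inr (s, a))) =
      if a ∈ Finset.univ.filter (fun a => (pat a).out ⊆ Y) then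
        st.own (.inr (frxSw s1 s2 s, a)) else st.own (.inr (s, a))
    exact if_congr (by simp) rfl rfl

/-- the exchange for general data -/
theorem frx_core (hΩ : star Ω ⬝ᵥ Ω = 1) (δ : ℝ) (T E : Finset Λ) (hTE : Disjoint T E)
    (hinfo : minfo (io := fun _ : Λ => Fin q) (pureOp Ω) T E ≤ δ) {s1 s2 : SH} (h12 : s1 ≠ s2)
    (HY : Finset HI) (own : FrReg SH Λ HI → PP) (hol : Finset (SH × HI)) (P : PP)
    (hP : ∀ x, x ∉ T ∪ E → own (.inl (s1, x)) = P ∧ own (.inl (s2, x)) = P)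
    (h1 : ∀ p ∈ hol, ∀ x ∈ (pat p.2).out, (if x ∈ T then frxSw s1 s2 p.1 else p.1) =
      (frxPh s1 s2 HY p).1)
    (h2 : ∀ p' ∈ hol, ∀ p'' ∈ hol, p' ≠ p'' → FrCompat pat p' p'')
    (h3 : ∀ p' ∈ hol.image (frxPh s1 s2 HY), ∀ p'' ∈ hol.image (frxPh s1 s2 HY), p' ≠ p'' →
      FrCompat pat p' p'')
    (h4 : ∀ p ∈ hol, (p.1 = s1 ∨ p.1 = s2) → (pat p.2).out ⊆ T ∪ E) :
    FrImpl (frGlob own (frEncs pat hol *ᵥ frBase (frNb pat) Ω))
      (frGlob (frxOwn s1 s2 T HY own)
        (frEncs pat (hol.image (frxPh s1 s2 HY)) *ᵥ frBase (frNb pat) Ω))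
      (4 * Real.sqrt δ) ∅ 1 1 1 (Fintype.card PP + 2) := by
  obtain ⟨bT, bE, i1, i2, i3, i4, V, s, s', hV, hs, hs', hd⟩ :=
    frb_split_sites Ω hΩ T E hTE δ hinfo
  have hδ : 0 ≤ δ := le_trans (Finset.sum_nonneg fun _ _ => Finset.sum_nonneg fun _ _ =>
    Finset.sum_nonneg fun _ _ => Finset.sum_nonneg fun _ _ => sq_nonneg _) hd
  have hest := frx_two_est Ω hΩ T E hTE V s s' hV hs hs' δ hd
  set g : FrCfg SH Λ q (frNb pat) → FrCfg SH Λ q (frNb pat) := frxSc s1 s2 T HY with hg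
  have hgg : ∀ σ, g (g σ) = σ := frxSc_sc s1 s2 T HY
  set F : Matrix (FrCfg SH Λ q (frNb pat)) (FrCfg SH Λ q (frNb pat)) ℂ :=
    frsPm g (fun _ => 1) with hFdef
  have hF : CpContr F := frx_pm_contr g hgg
  set KD := frxDU (SH := SH) (frNb pat) h12 (T ∪ E) (frxK V) with hKD
  set DU : Matrix (FrCfg SH Λ q (frNb pat)) (FrCfg SH Λ q (frNb pat)) ℂ :=
    emb (io := frIo (SH := SH) (Λ := Λ) q (frNb pat)) (frxD s1 s2 (T ∪ E)) KD with hDUdef
  have hDU : CpContr DU := frxDU_contr h12 _ _ (frxK_contr hV)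
  set own' := frxOwn s1 s2 T HY own with hown'
  set hol' := hol.image (frxPh s1 s2 HY) with hhol'
  have hownD : ∀ r ∈ frxD (HI := HI) s1 s2 (T ∪ E), own' r = P := by
    intro r hr
    rcases r with ⟨t, x⟩ | p
    · obtain ⟨ht, hx⟩ := frx_inl_mem_D.1 hr
      have hxT : x ∉ T := fun h => hx (Finset.mem_union_left _ h)
      have e : own' (.inl (t, x)) = own (.inl (t, x)) := by
        simp [hown', frxOwn, hxT]
      rw [e]
      rcases ht with rfl | rfl
      · exact (hP x hx).1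
      · exact (hP x hx).2
    · exact absurd hr frx_inr_notMem_D
  have hcomm : Commute DU (frEncs pat hol') := by
    refine frx_DU_comm pat s1 s2 (T ∪ E) hol' ?_ KD
    intro p hp hp1
    obtain ⟨p0, hp0, rfl⟩ := Finset.mem_image.1 hp
    refine h4 p0 hp0 ?_
    simp only [frxPh] at hp1
    split_ifs at hp1
    · exact frxSw_mem hp1
    · exact hp1
  -- the canonical computation
  have hcan : DU *ᵥ (F *ᵥ (frEncs pat hol *ᵥ frBase (frNb pat) Ω)) =
      frEncs pat hol' *ᵥ frxTwo (frNb pat) Ω s1 s2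
        (frxK2 (T ∪ E) (frxK V) (frxF2 T (frxOO Ω))) := by
    have e1 : F *ᵥ frBase (SH := SH) (frNb pat) Ω =
        frxTwo (frNb pat) Ω s1 s2 (frxF2 T (frxOO Ω)) := by
      rw [hFdef, frx_pm_mulVec g hgg, frx_base_eq (frNb pat) Ω h12]
      funext σ
      exact frx_sc_two Ω s1 s2 T HY (frxOO Ω) σ
    have e2 : F * frEncs pat hol = frEncs pat hol' * F :=
      frx_ren_encs pat s1 s2 T HY hol h1 h2 h3
    calc DU *ᵥ (F *ᵥ (frEncs pat hol *ᵥ frBase (frNb pat) Ω))
        = DU *ᵥ (frEncs pat hol' *ᵥ (F *ᵥ frBase (frNb pat) Ω)) := by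
          rw [mulVec_mulVec _ F, e2, ← mulVec_mulVec]
      _ = frEncs pat hol' *ᵥ (DU *ᵥ (F *ᵥ frBase (frNb pat) Ω)) := by
          rw [mulVec_mulVec _ DU, hcomm.eq, ← mulVec_mulVec]
      _ = _ := by rw [e1, hDUdef, hKD, frxDU_two]
  -- the gates
  choose gF hgF using fun P' : PP =>
    frs_gate_priv (SH := SH) (Λ := Λ) (q := q) (nb := frNb pat) P' F hF
  obtain ⟨gD, hgD⟩ := frs_gate_priv (SH := SH) (Λ := Λ) (q := q) (nb := frNb pat) P DU hDU
  let G : Fin (Fintype.card PP + 1) → CpGate (FrMem PP SH Λ q (frNb pat)) :=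
    Fin.snoc (α := fun _ => CpGate (FrMem PP SH Λ q (frNb pat)))
      (fun i => gF ((Fintype.equivFin PP).symm i)) gD
  have hGl : G (Fin.last _) = gD := Fin.snoc_last _ _
  have hGc : ∀ i : Fin (Fintype.card PP), G i.castSucc = gF ((Fintype.equivFin PP).symm i) :=
    fun i => Fin.snoc_castSucc _ _ _
  have hall : ∀ i, (G i).Valid ∧ (G i).r = 1 ∧ Fintype.card (G i).Ξ = 1 ∧
      (G i).part.card ≤ 1 ∧ (G i).cost = 1 := by
    intro i
    refine Fin.lastCases ?_ (fun j => ?_) i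
    · rw [hGl]
      obtain ⟨a1, a2, a3, a4, a5, a6⟩ := hgD
      exact ⟨a1, a5, a6, by rw [a3]; simp, a4⟩
    · rw [hGc]
      obtain ⟨a1, a2, a3, a4, a5, a6⟩ := hgF ((Fintype.equivFin PP).symm j)
      exact ⟨a1, a5, a6, by rw [a3]; simp, a4⟩
  have hop : (cpTprod (Fintype.card PP + 1) fun i => (G i).op) *ᵥ
      frGlob own (frEncs pat hol *ᵥ frBase (frNb pat) Ω) =
      frGlob own' (frEncs pat hol' *ᵥ frxTwo (frNb pat) Ω s1 s2
        (frxK2 (T ∪ E) (frxK V) (frxF2 T (frxOO Ω)))) := by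
    rw [cpTprod_succ, hGl, hgD.2.1]
    have e1 : (fun i : Fin (Fintype.card PP) => (G i.castSucc).op) =
        fun i => cpLoc (Mem := FrMem PP SH Λ q (frNb pat)) ((Fintype.equivFin PP).symm i) F := by
      funext i
      rw [hGc, (hgF _).2.1]
    rw [e1, ← mulVec_mulVec, hFdef, frx_tprod_all g hgg]
    have e2 : (fun m : Cfg (FrMem PP SH Λ q (frNb pat)) =>
        frGlob own (frEncs pat hol *ᵥ frBase (frNb pat) Ω) fun P' => g (m P')) =
        frGlob own' (F *ᵥ (frEncs pat hol *ᵥ frBase (frNb pat) Ω)) := by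
      funext m
      rw [hg, frx_glob_rename, ← hg, hFdef, frx_pm_mulVec g hgg]
    rw [e2, hDUdef, ← frs_lift_priv own' P _ hownD KD, frs_lift_glob, ← hDUdef, hcan]
  refine ⟨Fintype.card PP + 1, G, by omega, fun i => (hall i).1, fun i => (hall i).2.1.le,
    fun i => (hall i).2.2.1.le, ?_, ∅, by simp, by simp,
    fun i _ => ⟨(hall i).2.2.2.1, (hall i).2.2.2.2⟩⟩
  rw [hop, ← frs_glob_sub, frs_glob_nsq, ← mulVec_sub]
  refine (fre_encs_contr pat hol' _).trans ?_
  rw [frx_base_eq (frNb pat) Ω h12, ← frx_two_sub, frx_two_nsq (frNb pat) Ω hΩ h12]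
  refine hest.trans (le_of_eq ?_)
  rw [mul_pow, Real.sq_sqrt hδ]
  norm_num

theorem frx_impl_exch (hΩ : star Ω ⬝ᵥ Ω = 1) (δ : ℝ) (m0 h0 b : ℕ) (st : FrState PP SH Λ HI)
    (hst : st.WF pat) (s1 s2 : SH) (Y : Finset Λ) (P : PP)
    (ho : (FrOp.exch s1 s2 Y P).Ok pat δ m0 h0 b st) :
    FrImpl (frVec pat st) (frVec pat ((FrOp.exch s1 s2 Y P).next pat st)) (4 * Real.sqrt δ) ∅ 1 1 1
      (Fintype.card PP + 2) := by
  have hwf' := fre_next_wf pat δ m0 h0 b _ st hst ho
  obtain ⟨h12, hdich, hinfo⟩ := ho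
  set Z : Finset Λ := (Finset.univ.filter fun x => ¬ (st.ow s1 x = P ∧ st.ow s2 x = P)) ∪
    frOut pat (st.hs s1) ∪ frOut pat (st.hs s2) with hZ
  have hinfo' : minfo (io := fun _ : Λ => Fin q) (pureOp Ω) (Z ∩ Y) (Z \ Y) ≤ δ := hinfo
  have hTE : Disjoint (Z ∩ Y) (Z \ Y) := by
    rw [Finset.disjoint_left]
    intro x hx hx'
    exact (Finset.mem_sdiff.1 hx').2 (Finset.mem_inter.1 hx).2
  have hU : (Z ∩ Y) ∪ (Z \ Y) = Z := by
    ext x
    simp only [Finset.mem_union, Finset.mem_inter, Finset.mem_sdiff]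
    tauto
  have hZP : ∀ x, x ∉ Z → st.own (.inl (s1, x)) = P ∧ st.own (.inl (s2, x)) = P := by
    intro x hx
    by_contra hc
    apply hx
    rw [hZ]
    exact Finset.mem_union_left _ (Finset.mem_union_left _
      (Finset.mem_filter.2 ⟨Finset.mem_univ _, hc⟩))
  have hZout : ∀ p ∈ st.hol, (p.1 = s1 ∨ p.1 = s2) → (pat p.2).out ⊆ Z := by
    rintro ⟨t, a⟩ hp (rfl | rfl)
    · exact (fre_out_subset_frOut pat ((fre_mem_hs st _ a).2 hp)).trans
        (Finset.subset_union_left.trans' Finset.subset_union_right)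
    · exact (fre_out_subset_frOut pat ((fre_mem_hs st _ a).2 hp)).trans Finset.subset_union_right
  set HY : Finset HI := Finset.univ.filter fun a => (pat a).out ⊆ Y with hHY
  have hcore := frx_core pat hΩ δ (Z ∩ Y) (Z \ Y) hTE hinfo' h12 HY st.own st.hol P
    (by rw [hU]; exact hZP) ?_ (fre_wf_compat pat st hst) ?_ (by rw [hU]; exact hZout)
  · unfold frVec frRef
    rw [frx_next_hol, frx_next_own pat st s1 s2 Y Z P hZP]
    exact hcore
  · rintro ⟨t, a⟩ hp x hx
    simp only [frxPh]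
    by_cases ht : t = s1 ∨ t = s2
    · have hxZ : x ∈ Z := hZout _ hp ht hx
      by_cases ha : a ∈ HY
      · have hxY : x ∈ Y := (Finset.mem_filter.1 ha).2 hx
        rw [if_pos ha, if_pos (Finset.mem_inter.2 ⟨hxZ, hxY⟩)]
      · have hm : a ∈ st.hs s1 ∪ st.hs s2 := by
          rw [Finset.mem_union, fre_mem_hs, fre_mem_hs]
          rcases ht with rfl | rfl
          · exact Or.inl hp
          · exact Or.inr hp
        have hd := (hdich a hm).resolve_left
          fun h => ha (Finset.mem_filter.2 ⟨Finset.mem_univ _, h⟩)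
        rw [if_neg ha, if_neg fun h => Finset.disjoint_left.1 hd hx (Finset.mem_inter.1 h).2]
    · push Not at ht
      rw [frxSw_other ht.1 ht.2, ite_self, ite_self]
  · rw [← frx_next_hol pat st s1 s2 Y P]
    exact fre_wf_compat pat _ hwf'

end Main

end Claimed.Agent.R296
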