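import Claimed.Agent.R296.P2.FrBirth

/-!
# Row 296, paper 2, Lemma 5.7 (`lem:exchange`), part A (LEAF `P2-FR-EXCH`, prefix `frx`)

Owner-free part: isometry helpers, matrices of involutions, the pure inequality `frx_pure`, the abstract two-copy estimate
`frx_abs` (`‖(V ⊗ V)† F_{bT} (V ⊗ V) F_T (Ω ⊗ Ω) - Ω ⊗ Ω‖² ≤ 16 δ`), its form on sites `frx_two_est`, the renaming `frxSc` of
canonical configurations and the vectors `frxTwo` (a two-copy vector on two sheets, `Ω` on the others).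
-/

set_option autoImplicit false
set_option linter.unusedSectionVars false
set_option linter.unusedDecidableInType false
set_option linter.unusedVariables false

namespace Claimed.Agent.R296

open Matrix

/-! ### general helpers -/

section Helpers

theorem frx_iso_nsq {m n : Type} [Fintype m] [Fintype n] [DecidableEq n] (W : Matrix m n ℂ)
    (hW : Wᴴ * W = 1) (v : n → ℂ) : cpNsq (W *ᵥ v) = cpNsq v := by
  have h : cpIp (W *ᵥ v) (W *ᵥ v) = cpIp v v := by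
    rw [cpIp_mulVec, mulVec_mulVec, hW, one_mulVec]
  rw [cpIp_self, cpIp_self] at h
  exact_mod_cast h

theorem frx_iso_adj_le {m n : Type} [Fintype m] [Fintype n] [DecidableEq n] (W : Matrix m n ℂ)
    (hW : Wᴴ * W = 1) (w : m → ℂ) : cpNsq (Wᴴ *ᵥ w) ≤ cpNsq w := by
  have h : cpIp (Wᴴ *ᵥ w) (Wᴴ *ᵥ w) = cpIp (W *ᵥ (Wᴴ *ᵥ w)) w := by
    rw [cpIp_mulVec, conjTranspose_conjTranspose]
  have h1 := cpIp_norm_sq_le (W *ᵥ (Wᴴ *ᵥ w)) w
  rw [← h, cpIp_self, Complex.norm_real, Real.norm_of_nonneg (cpNsq_nonneg _),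
    frx_iso_nsq W hW] at h1
  refine cp_le_of_sq_le_mul (cpNsq_nonneg _) (cpNsq_nonneg _) ?_
  rw [mul_comm]
  exact h1

theorem frx_norm_add_sq (x y : ℂ) : ‖x + y‖ ^ 2 ≤ 2 * ‖x‖ ^ 2 + 2 * ‖y‖ ^ 2 := by
  have h1 : ‖x + y‖ ≤ ‖x‖ + ‖y‖ := norm_add_le _ _
  have h2 : ‖x + y‖ ^ 2 ≤ (‖x‖ + ‖y‖) ^ 2 := pow_le_pow_left₀ (norm_nonneg _) h1 2
  nlinarith [sq_nonneg (‖x‖ - ‖y‖)]

/-- the matrix of an involution acts by composition -/
theorem frx_pm_mulVec {A : Type} [Fintype A] [DecidableEq A] (g : A → A)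
    (hg : ∀ a, g (g a) = a) (v : A → ℂ) : frsPm g (fun _ => 1) *ᵥ v = fun a => v (g a) := by
  funext b
  rw [frsPm_mulVec, Finset.sum_eq_single (g b)]
  · simp [hg]
  · intro a _ ha
    rw [if_neg]
    rintro rfl
    exact ha (hg a).symm
  · intro h
    exact absurd (Finset.mem_univ _) h

theorem frx_pm_mul_apply {A : Type} [Fintype A] [DecidableEq A] (g : A → A)
    (hg : ∀ a, g (g a) = a) (M : Matrix A A ℂ) (b a : A) :
    (frsPm g (fun _ => 1) * M) b a = M (g b) a := by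
  rw [Matrix.mul_apply, Finset.sum_eq_single (g b)]
  · simp [frsPm_apply, hg]
  · intro c _ hc
    rw [frsPm_apply, if_neg, zero_mul]
    rintro rfl
    exact hc (hg c).symm
  · intro h
    exact absurd (Finset.mem_univ _) h

theorem frx_mul_pm_apply {A : Type} [Fintype A] [DecidableEq A] (g : A → A)
    (M : Matrix A A ℂ) (b a : A) : (M * frsPm g (fun _ => 1)) b a = M b (g a) := by
  rw [Matrix.mul_apply, Finset.sum_eq_single (g a)]
  · simp [frsPm_apply]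
  · intro c _ hc
    rw [frsPm_apply, if_neg hc, mul_zero]
  · intro h
    exact absurd (Finset.mem_univ _) h

theorem frx_nsq_comp {A : Type} [Fintype A] (g : A → A) (hg : ∀ a, g (g a) = a) (v : A → ℂ) :
    cpNsq (fun a => v (g a)) = cpNsq v := by
  have hinv : Function.Involutive g := hg
  exact Equiv.sum_comp hinv.toPerm (fun a => ‖v a‖ ^ 2)

theorem frx_pm_contr {A : Type} [Fintype A] [DecidableEq A] (g : A → A)
    (hg : ∀ a, g (g a) = a) : CpContr (frsPm g (fun _ => 1)) := by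
  intro v
  rw [frx_pm_mulVec g hg, frx_nsq_comp g hg]

end Helpers

/-! ### the pure inequality -/

section Pure

variable {I J : Type} [Fintype I] [Fintype J]

theorem frx_nsq_prod {A B : Type} [Fintype A] [Fintype B] (f : A → ℂ) (g : B → ℂ) :
    ∑ P : A × B, ‖f P.1‖ ^ 2 * ‖g P.2‖ ^ 2 = cpNsq f * cpNsq g := by
  rw [Fintype.sum_prod_type, cpNsq, cpNsq, Finset.sum_mul_sum]

theorem frx_pure_aux (G z : I × J → ℂ) {δ : ℝ} (hG : cpNsq G ≤ 1) (hz : cpNsq z ≤ 1)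
    (h : cpNsq (fun p => G p - z p) ≤ δ) :
    ∑ P : (I × J) × (I × J), ‖G P.1 * G P.2 - z P.1 * z P.2‖ ^ 2 ≤ 4 * δ := by
  have hδ : 0 ≤ cpNsq (fun p => G p - z p) := cpNsq_nonneg _
  have h1 : ∀ P : (I × J) × (I × J), ‖G P.1 * G P.2 - z P.1 * z P.2‖ ^ 2 ≤
      2 * (‖G P.1‖ ^ 2 * ‖(fun p => G p - z p) P.2‖ ^ 2) +
        2 * (‖(fun p => G p - z p) P.1‖ ^ 2 * ‖z P.2‖ ^ 2) := by
    intro P
    have e : G P.1 * G P.2 - z P.1 * z P.2 =
        G P.1 * (G P.2 - z P.2) + (G P.1 - z P.1) * z P.2 := by ring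
    rw [e]
    refine (frx_norm_add_sq _ _).trans (le_of_eq ?_)
    rw [norm_mul, norm_mul, mul_pow, mul_pow]
  refine (Finset.sum_le_sum fun P _ => h1 P).trans ?_
  rw [Finset.sum_add_distrib, ← Finset.mul_sum, ← Finset.mul_sum,
    frx_nsq_prod G (fun p => G p - z p), frx_nsq_prod (fun p => G p - z p) z]
  nlinarith [cpNsq_nonneg G, cpNsq_nonneg z]

theorem frx_pure (G : I × J → ℂ) (s : I → ℂ) (s' : J → ℂ) {δ : ℝ} (hG : cpNsq G ≤ 1)
    (hs : cpNsq s = 1) (hs' : cpNsq s' = 1) (h : cpNsq (fun p => G p - s p.1 * s' p.2) ≤ δ) :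
    ∑ P : (I × J) × (I × J),
      ‖G (P.2.1, P.1.2) * G (P.1.1, P.2.2) - G P.1 * G P.2‖ ^ 2 ≤ 16 * δ := by
  set z : I × J → ℂ := fun p => s p.1 * s' p.2 with hzdef
  have hz : cpNsq z ≤ 1 := by
    have : cpNsq z = cpNsq s * cpNsq s' := by
      rw [← frx_nsq_prod]
      refine Finset.sum_congr rfl fun p _ => ?_
      rw [hzdef]
      simp only [norm_mul, mul_pow]
    rw [this, hs, hs', one_mul]
  have h0 := frx_pure_aux G z hG hz h
  -- the relabelling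
  let ι : (I × J) × (I × J) → (I × J) × (I × J) := fun P => ((P.2.1, P.1.2), (P.1.1, P.2.2))
  have hι : Function.Involutive ι := fun P => rfl
  have h1 : ∑ P : (I × J) × (I × J), ‖G (ι P).1 * G (ι P).2 - z (ι P).1 * z (ι P).2‖ ^ 2 ≤
      4 * δ :=
    le_of_eq_of_le (Equiv.sum_comp hι.toPerm (fun P => ‖G P.1 * G P.2 - z P.1 * z P.2‖ ^ 2)) h0
  have h2 : ∀ P : (I × J) × (I × J),
      ‖G (P.2.1, P.1.2) * G (P.1.1, P.2.2) - G P.1 * G P.2‖ ^ 2 ≤
      2 * ‖G (ι P).1 * G (ι P).2 - z (ι P).1 * z (ι P).2‖ ^ 2 +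
        2 * ‖G P.1 * G P.2 - z P.1 * z P.2‖ ^ 2 := by
    intro P
    have e : G (P.2.1, P.1.2) * G (P.1.1, P.2.2) - G P.1 * G P.2 =
        (G (ι P).1 * G (ι P).2 - z (ι P).1 * z (ι P).2) +
          (-(G P.1 * G P.2 - z P.1 * z P.2)) := by
      simp only [ι, hzdef]
      ring
    rw [e]
    refine (frx_norm_add_sq _ _).trans (le_of_eq ?_)
    rw [norm_neg]
  refine (Finset.sum_le_sum fun P _ => h2 P).trans ?_
  rw [Finset.sum_add_distrib, ← Finset.mul_sum, ← Finset.mul_sum]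
  linarith

end Pure

/-! ### the abstract two-copy estimate -/

section Abs

open scoped Kronecker

variable {a c u bT bE : Type} [Fintype a] [Fintype c] [Fintype u] [DecidableEq u] [Fintype bT]
  [DecidableEq bT] [Fintype bE] [DecidableEq bE]

/-- swap of the `bT` factors -/
def frxSwB : (bT × bE) × (bT × bE) → (bT × bE) × (bT × bE) :=
  fun b => ((b.2.1, b.1.2), (b.1.1, b.2.2))

/-- the buffer correction on two copies of `u` -/
noncomputable def frxK (V : Matrix (bT × bE) u ℂ) : Matrix (u × u) (u × u) ℂ :=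
  (V ⊗ₖ V)ᴴ * frsPm (frxSwB (bT := bT) (bE := bE)) (fun _ => 1) * (V ⊗ₖ V)

theorem frx_kron_iso {V : Matrix (bT × bE) u ℂ} (hV : Vᴴ * V = 1) :
    (V ⊗ₖ V)ᴴ * (V ⊗ₖ V) = 1 := by
  rw [conjTranspose_kronecker, ← mul_kronecker_mul, hV, one_kronecker_one]

theorem frx_kron_mulVec (V : Matrix (bT × bE) u ℂ) (f g : u → ℂ) :
    (V ⊗ₖ V) *ᵥ (fun w : u × u => f w.1 * g w.2) = fun b => (V *ᵥ f) b.1 * (V *ᵥ g) b.2 := by
  funext b
  simp only [mulVec, dotProduct, kroneckerMap_apply]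
  rw [Fintype.sum_prod_type, Finset.sum_mul_sum]
  exact Finset.sum_congr rfl fun i _ => Finset.sum_congr rfl fun j _ => by ring

theorem frxK_contr {V : Matrix (bT × bE) u ℂ} (hV : Vᴴ * V = 1) : CpContr (frxK V) := by
  intro v
  unfold frxK
  rw [← mulVec_mulVec, ← mulVec_mulVec]
  refine (frx_iso_adj_le _ (frx_kron_iso hV) _).trans ?_
  refine (frx_pm_contr frxSwB (fun _ => rfl) _).trans ?_
  rw [frx_iso_nsq _ (frx_kron_iso hV)]

theorem frx_sum4 (f : a → bT → c → bE → ℝ) :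
    ∑ p : (a × bT) × (c × bE), f p.1.1 p.1.2 p.2.1 p.2.2 = ∑ τ, ∑ e, ∑ β, ∑ γ, f τ β e γ := by
  simp only [Fintype.sum_prod_type]
  exact Finset.sum_congr rfl fun τ _ => Finset.sum_comm

theorem frx_abs (Ω3 : a → c → u → ℂ) (hΩ : ∑ τ, ∑ e, cpNsq (Ω3 τ e) = 1)
    (V : Matrix (bT × bE) u ℂ) (hV : Vᴴ * V = 1) (s : a × bT → ℂ) (s' : c × bE → ℂ)
    (hs : cpNsq s = 1) (hs' : cpNsq s' = 1) (δ : ℝ)
    (h : ∑ τ, ∑ e, ∑ β, ∑ γ,
      ‖(∑ w, V (β, γ) w * Ω3 τ e w) - s (τ, β) * s' (e, γ)‖ ^ 2 ≤ δ) :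
    ∑ θ : (a × c) × (a × c),
      cpNsq (frxK V *ᵥ (fun w : u × u => Ω3 θ.2.1 θ.1.2 w.1 * Ω3 θ.1.1 θ.2.2 w.2) -
        fun w : u × u => Ω3 θ.1.1 θ.1.2 w.1 * Ω3 θ.2.1 θ.2.2 w.2) ≤ 16 * δ := by
  set G : (a × bT) × (c × bE) → ℂ := fun p => (V *ᵥ Ω3 p.1.1 p.2.1) (p.1.2, p.2.2) with hGdef
  have hG : cpNsq G ≤ 1 := by
    have e1 : cpNsq G = ∑ τ, ∑ e, cpNsq (V *ᵥ Ω3 τ e) := by
      unfold cpNsq
      rw [frx_sum4 (fun τ β e γ => ‖(V *ᵥ Ω3 τ e) (β, γ)‖ ^ 2)]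
      simp only [Fintype.sum_prod_type]
    rw [e1]
    simp only [frx_iso_nsq V hV]
    exact hΩ.le
  have hD : cpNsq (fun p => G p - s p.1 * s' p.2) ≤ δ := by
    unfold cpNsq
    rw [frx_sum4 (fun τ β e γ => ‖(V *ᵥ Ω3 τ e) (β, γ) - s (τ, β) * s' (e, γ)‖ ^ 2)]
    exact h
  have hP := frx_pure G s s' hG hs hs' hD
  -- one fibre
  have hfib : ∀ θ : (a × c) × (a × c),
      cpNsq (frxK V *ᵥ (fun w : u × u => Ω3 θ.2.1 θ.1.2 w.1 * Ω3 θ.1.1 θ.2.2 w.2) -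
        fun w : u × u => Ω3 θ.1.1 θ.1.2 w.1 * Ω3 θ.2.1 θ.2.2 w.2) ≤
      ∑ b : (bT × bE) × (bT × bE),
        ‖G ((θ.2.1, b.2.1), (θ.1.2, b.1.2)) * G ((θ.1.1, b.1.1), (θ.2.2, b.2.2)) -
          G ((θ.1.1, b.1.1), (θ.1.2, b.1.2)) * G ((θ.2.1, b.2.1), (θ.2.2, b.2.2))‖ ^ 2 := by
    intro θ
    have e1 : frxK V *ᵥ (fun w : u × u => Ω3 θ.2.1 θ.1.2 w.1 * Ω3 θ.1.1 θ.2.2 w.2) -
        (fun w : u × u => Ω3 θ.1.1 θ.1.2 w.1 * Ω3 θ.2.1 θ.2.2 w.2) =
        (V ⊗ₖ V)ᴴ *ᵥ (frsPm (frxSwB (bT := bT) (bE := bE)) (fun _ => 1) *ᵥ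
          ((V ⊗ₖ V) *ᵥ (fun w : u × u => Ω3 θ.2.1 θ.1.2 w.1 * Ω3 θ.1.1 θ.2.2 w.2)) -
          (V ⊗ₖ V) *ᵥ (fun w : u × u => Ω3 θ.1.1 θ.1.2 w.1 * Ω3 θ.2.1 θ.2.2 w.2)) := by
      rw [mulVec_sub, mulVec_mulVec _ (V ⊗ₖ V)ᴴ (V ⊗ₖ V), frx_kron_iso hV, one_mulVec]
      unfold frxK
      rw [← mulVec_mulVec, ← mulVec_mulVec]
    rw [e1]
    refine (frx_iso_adj_le _ (frx_kron_iso hV) _).trans (le_of_eq ?_)
    rw [frx_kron_mulVec, frx_kron_mulVec, frx_pm_mulVec frxSwB (fun _ => rfl)]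
    rfl
  refine (Finset.sum_le_sum fun θ _ => hfib θ).trans ?_
  refine le_trans (le_of_eq ?_) hP
  rw [← Fintype.sum_prod_type']
  let Eq : ((a × c) × (a × c)) × ((bT × bE) × (bT × bE)) ≃
      ((a × bT) × (c × bE)) × ((a × bT) × (c × bE)) :=
    { toFun := fun x => (((x.1.1.1, x.2.1.1), (x.1.1.2, x.2.1.2)),
        ((x.1.2.1, x.2.2.1), (x.1.2.2, x.2.2.2)))
      invFun := fun P => (((P.1.1.1, P.1.2.1), (P.2.1.1, P.2.2.1)),
        ((P.1.1.2, P.1.2.2), (P.2.1.2, P.2.2.2)))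
      left_inv := fun _ => rfl
      right_inv := fun _ => rfl }
  exact Fintype.sum_equiv Eq _ _ fun x => rfl

end Abs

/-! ### two copies of the one-sheet space -/

section TwoCopy

variable {Λ : Type} [Fintype Λ] [DecidableEq Λ] {q : ℕ}

theorem frx_nsq_of_unit {n : Type} [Fintype n] {Ω : n → ℂ} (hΩ : star Ω ⬝ᵥ Ω = 1) :
    cpNsq Ω = 1 := by
  classical
  rw [star_dotProduct_self_eq] at hΩ
  exact_mod_cast hΩ

/-- sites split into `T`, `E` and the rest -/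
def frxG3 (T E : Finset Λ) (hTE : Disjoint T E) :
    (CfgOn (fun _ : Λ => Fin q) T × CfgOn (fun _ : Λ => Fin q) E) ×
      CfgOff (fun _ : Λ => Fin q) (T ∪ E) ≃ (Λ → Fin q) where
  toFun p := frGlue3 T E p.1.1 p.1.2 p.2
  invFun x := ((crOn T x, crOn E x), crOff (T ∪ E) x)
  left_inv p := by
    refine Prod.ext (Prod.ext ?_ ?_) ?_
    · funext x
      simp [crOn, frGlue3, x.2]
    · funext x
      have hx : x.1 ∉ T := fun h => (Finset.disjoint_left.1 hTE h) x.2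
      simp [crOn, frGlue3, x.2, hx]
    · funext x
      have hx := x.2
      rw [Finset.mem_union, not_or] at hx
      simp [crOff, frGlue3, hx.1, hx.2]
  right_inv x := by
    funext y
    show frGlue3 T E (crOn T x) (crOn E x) (crOff (T ∪ E) x) y = x y
    unfold frGlue3
    split_ifs <;> rfl

/-- take the values of `y` on `T` -/
def frxSwT (T : Finset Λ) (x y : Λ → Fin q) : Λ → Fin q := fun t => if t ∈ T then y t else x t

/-- the swap of the two copies on `T` -/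
def frxF2 (T : Finset Λ) (Φ : (Λ → Fin q) × (Λ → Fin q) → ℂ) : (Λ → Fin q) × (Λ → Fin q) → ℂ :=
  fun p => Φ (frxSwT T p.1 p.2, frxSwT T p.2 p.1)

/-- a two-copy operator off `Z` -/
def frxK2 (Z : Finset Λ)
    (K : Matrix (CfgOff (fun _ : Λ => Fin q) Z × CfgOff (fun _ : Λ => Fin q) Z)
      (CfgOff (fun _ : Λ => Fin q) Z × CfgOff (fun _ : Λ => Fin q) Z) ℂ)
    (Φ : (Λ → Fin q) × (Λ → Fin q) → ℂ) : (Λ → Fin q) × (Λ → Fin q) → ℂ :=
  fun p => ∑ w, K (crOff Z p.1, crOff Z p.2) w *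
    Φ (cglue Z (crOn Z p.1) w.1, cglue Z (crOn Z p.2) w.2)

/-- two copies of a vector -/
def frxOO (Ω : (Λ → Fin q) → ℂ) : (Λ → Fin q) × (Λ → Fin q) → ℂ := fun p => Ω p.1 * Ω p.2

theorem frx_glue3_off (T E : Finset Λ) (τ : CfgOn (fun _ : Λ => Fin q) T)
    (e : CfgOn (fun _ : Λ => Fin q) E) (w : CfgOff (fun _ : Λ => Fin q) (T ∪ E)) :
    crOff (T ∪ E) (frGlue3 T E τ e w) = w := by
  funext x
  have hx := x.2
  rw [Finset.mem_union, not_or] at hx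
  simp [crOff, frGlue3, hx.1, hx.2]

theorem frx_glue3_replace (T E : Finset Λ) (τ : CfgOn (fun _ : Λ => Fin q) T)
    (e : CfgOn (fun _ : Λ => Fin q) E) (w w' : CfgOff (fun _ : Λ => Fin q) (T ∪ E)) :
    cglue (T ∪ E) (crOn (T ∪ E) (frGlue3 T E τ e w)) w' = frGlue3 T E τ e w' := by
  funext y
  by_cases h1 : y ∈ T
  · simp [cglue, crOn, frGlue3, h1]
  · by_cases h2 : y ∈ E
    · simp [cglue, crOn, frGlue3, h1, h2]
    · simp [cglue, frGlue3, h1, h2]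

theorem frx_glue3_swT (T E : Finset Λ) (τ τ' : CfgOn (fun _ : Λ => Fin q) T)
    (e e' : CfgOn (fun _ : Λ => Fin q) E) (w w' : CfgOff (fun _ : Λ => Fin q) (T ∪ E)) :
    frxSwT T (frGlue3 T E τ e w) (frGlue3 T E τ' e' w') = frGlue3 T E τ' e w := by
  funext y
  by_cases h1 : y ∈ T
  · simp [frxSwT, frGlue3, h1]
  · simp [frxSwT, frGlue3, h1]

theorem frx_two_est (Ω : (Λ → Fin q) → ℂ) (hΩ : star Ω ⬝ᵥ Ω = 1) (T E : Finset Λ)
    (hTE : Disjoint T E) {bT bE : Type} [Fintype bT] [DecidableEq bT] [Fintype bE]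
    [DecidableEq bE] (V : Matrix (bT × bE) (CfgOff (fun _ : Λ => Fin q) (T ∪ E)) ℂ)
    (s : CfgOn (fun _ : Λ => Fin q) T × bT → ℂ) (s' : CfgOn (fun _ : Λ => Fin q) E × bE → ℂ)
    (hV : Vᴴ * V = 1) (hs : cpNsq s = 1) (hs' : cpNsq s' = 1) (δ : ℝ)
    (h : ∑ τ, ∑ e, ∑ β, ∑ γ,
        ‖(∑ u, V (β, γ) u * Ω (frGlue3 T E τ e u)) - s (τ, β) * s' (e, γ)‖ ^ 2 ≤ δ) :
    cpNsq (frxK2 (T ∪ E) (frxK V) (frxF2 T (frxOO Ω)) - frxOO Ω) ≤ 16 * δ := by
  have hΩ1 : ∑ τ, ∑ e, cpNsq (fun w => Ω (frGlue3 T E τ e w)) = 1 := by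
    rw [← frx_nsq_of_unit hΩ]
    unfold cpNsq
    rw [← Equiv.sum_comp (frxG3 T E hTE) (fun x => ‖Ω x‖ ^ 2)]
    simp only [Fintype.sum_prod_type]
    rfl
  have h0 := frx_abs (fun τ e w => Ω (frGlue3 T E τ e w)) hΩ1 V hV s s' hs hs' δ h
  refine le_trans (le_of_eq ?_) h0
  unfold cpNsq
  refine ((Equiv.sum_comp ((Equiv.prodProdProdComm
    (CfgOn (fun _ : Λ => Fin q) T × CfgOn (fun _ : Λ => Fin q) E)
    (CfgOn (fun _ : Λ => Fin q) T × CfgOn (fun _ : Λ => Fin q) E)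
    (CfgOff (fun _ : Λ => Fin q) (T ∪ E)) (CfgOff (fun _ : Λ => Fin q) (T ∪ E))).trans
    ((frxG3 T E hTE).prodCongr (frxG3 T E hTE)))
    (fun p => ‖(frxK2 (T ∪ E) (frxK V) (frxF2 T (frxOO Ω)) - frxOO Ω) p‖ ^ 2)).symm).trans ?_
  rw [Fintype.sum_prod_type]
  refine Finset.sum_congr rfl fun θ _ => Finset.sum_congr rfl fun w _ => ?_
  congr 2
  simp only [Pi.sub_apply, Equiv.trans_apply, Equiv.prodProdProdComm_apply, Equiv.prodCongr_apply,
    Prod.map_apply, frxG3, Equiv.coe_fn_mk, frxK2, frxF2, frxOO, frx_glue3_off, frx_glue3_replace,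
    frx_glue3_swT, mulVec, dotProduct]

end TwoCopy

/-! ### a combinatorial identity -/

section Comb

theorem frx_sum_two {S X : Type} [Fintype S] [DecidableEq S] [Fintype X] [DecidableEq X]
    {s1 s2 : S} (h12 : s1 ≠ s2) (f : X × X → ℝ) (w : X → ℝ) (hw : ∑ x, w x = 1) :
    ∑ R : S → X, f (R s1, R s2) * ∏ s ∈ (Finset.univ.erase s1).erase s2, w (R s) =
      ∑ y, f y := by
  let hh : X × X → S → X → ℝ := fun y s x =>
    if s = s1 then (if x = y.1 then 1 else 0) else if s = s2 then (if x = y.2 then 1 else 0)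
    else w x
  have h1 : ∀ (y : X × X) (R : S → X), ∏ s, hh y s (R s) =
      (if R s1 = y.1 then 1 else 0) * ((if R s2 = y.2 then 1 else 0) *
        ∏ s ∈ (Finset.univ.erase s1).erase s2, w (R s)) := by
    intro y R
    rw [← Finset.mul_prod_erase Finset.univ _ (Finset.mem_univ s1),
      ← Finset.mul_prod_erase (Finset.univ.erase s1) _
        (Finset.mem_erase.2 ⟨h12.symm, Finset.mem_univ s2⟩)]
    have e1 : hh y s1 (R s1) = if R s1 = y.1 then 1 else 0 := by simp [hh]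
    have e2 : hh y s2 (R s2) = if R s2 = y.2 then 1 else 0 := by simp [hh, h12.symm]
    rw [e1, e2]
    congr 2
    refine Finset.prod_congr rfl fun s hs => ?_
    rw [Finset.mem_erase, Finset.mem_erase] at hs
    simp [hh, hs.1, hs.2.1]
  have h2 : ∀ y : X × X, ∑ R : S → X, ∏ s, hh y s (R s) = 1 := by
    intro y
    have := (Finset.prod_univ_sum (fun _ : S => (Finset.univ : Finset X)) (fun s x => hh y s x)).symm
    rw [Fintype.piFinset_univ] at this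
    rw [this]
    refine Finset.prod_eq_one fun s _ => ?_
    by_cases hs1 : s = s1
    · simp [hh, hs1]
    · by_cases hs2 : s = s2
      · simp [hh, hs2, h12.symm]
      · simp [hh, hs1, hs2, hw]
  have h3 : ∀ R : S → X, f (R s1, R s2) * ∏ s ∈ (Finset.univ.erase s1).erase s2, w (R s) =
      ∑ y, f y * ∏ s, hh y s (R s) := by
    intro R
    rw [Finset.sum_eq_single (R s1, R s2)]
    · rw [h1]; simp
    · intro y _ hy
      rw [h1]
      by_cases e1 : R s1 = y.1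
      · by_cases e2 : R s2 = y.2
        · exact absurd (Prod.ext e1.symm e2.symm) hy
        · simp [e2]
      · simp [e1]
    · intro h
      exact absurd (Finset.mem_univ _) h
  simp only [h3]
  rw [Finset.sum_comm]
  refine Finset.sum_congr rfl fun y _ => ?_
  rw [← Finset.mul_sum, h2, mul_one]

end Comb

/-! ### canonical configurations -/

section Cfg

variable {SH Λ HI : Type} [Fintype SH] [DecidableEq SH]
  [Fintype Λ] [DecidableEq Λ] [Fintype HI] [DecidableEq HI] {q : ℕ} [NeZero q] {nb : HI → ℕ}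

theorem frx_cfg_ext {σ σ' : FrCfg SH Λ q nb} (h1 : ∀ s x, frRaw σ s x = frRaw σ' s x)
    (h2 : ∀ s a, frTag σ s a = frTag σ' s a) : σ = σ' := by
  funext r
  rcases r with ⟨s, x⟩ | ⟨s, a⟩
  · exact h1 s x
  · exact h2 s a

/-- raw part and tags -/
def frxE1 (nb : HI → ℕ) :
    FrCfg SH Λ q nb ≃ (SH → Λ → Fin q) × (∀ p : SH × HI, Option (Fin (nb p.2))) where
  toFun σ := (fun s => frRaw σ s, fun p => frTag σ p.1 p.2)
  invFun R := fun r => match r with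
    | .inl p => R.1 p.1 p.2
    | .inr p => R.2 p
  left_inv σ := by
    funext r
    rcases r with ⟨s, x⟩ | ⟨s, a⟩ <;> rfl
  right_inv R := rfl

/-- exchange of two sheet names -/
def frxSw (s1 s2 : SH) (s : SH) : SH := if s = s1 then s2 else if s = s2 then s1 else s

theorem frxSw_sw (s1 s2 s : SH) : frxSw s1 s2 (frxSw s1 s2 s) = s := by
  unfold frxSw
  by_cases h1 : s = s1
  · subst h1
    by_cases h2 : s2 = s <;> simp [h2]
  · by_cases h2 : s = s2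
    · subst h2
      simp [h1]
    · simp [h1, h2]

theorem frxSw_left (s1 s2 : SH) : frxSw s1 s2 s1 = s2 := by simp [frxSw]

theorem frxSw_right (s1 s2 : SH) : frxSw s1 s2 s2 = s1 := by
  unfold frxSw
  by_cases h : s2 = s1 <;> simp [h]

theorem frxSw_other {s1 s2 s : SH} (h1 : s ≠ s1) (h2 : s ≠ s2) : frxSw s1 s2 s = s := by
  simp [frxSw, h1, h2]

/-- renaming of the registers: the raw registers over `T` and the tags in `HY` change sheet -/
def frxSc (s1 s2 : SH) (T : Finset Λ) (HY : Finset HI) (σ : FrCfg SH Λ q nb) : FrCfg SH Λ q nb :=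
  fun r => match r with
    | .inl p => if p.2 ∈ T then frRaw σ (frxSw s1 s2 p.1) p.2 else frRaw σ p.1 p.2
    | .inr p => if p.2 ∈ HY then frTag σ (frxSw s1 s2 p.1) p.2 else frTag σ p.1 p.2

theorem frxSc_raw (s1 s2 : SH) (T : Finset Λ) (HY : Finset HI) (σ : FrCfg SH Λ q nb) (s : SH)
    (x : Λ) : frRaw (frxSc s1 s2 T HY σ) s x =
      if x ∈ T then frRaw σ (frxSw s1 s2 s) x else frRaw σ s x := rfl

theorem frxSc_tag (s1 s2 : SH) (T : Finset Λ) (HY : Finset HI) (σ : FrCfg SH Λ q nb) (s : SH)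
    (a : HI) : frTag (frxSc s1 s2 T HY σ) s a =
      if a ∈ HY then frTag σ (frxSw s1 s2 s) a else frTag σ s a := rfl

theorem frxSc_sc (s1 s2 : SH) (T : Finset Λ) (HY : Finset HI) (σ : FrCfg SH Λ q nb) :
    frxSc s1 s2 T HY (frxSc s1 s2 T HY σ) = σ := by
  refine frx_cfg_ext (fun s x => ?_) (fun s a => ?_)
  · rw [frxSc_raw, frxSc_raw, frxSc_raw]
    split_ifs
    · rw [frxSw_sw]
    · rfl
  · rw [frxSc_tag, frxSc_tag, frxSc_tag]
    split_ifs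
    · rw [frxSw_sw]
    · rfl

/-- a two-copy vector on the sheets `s1`, `s2`, copies of `Ω` on the other sheets, no tags -/
def frxTwo (nb : HI → ℕ) (Ω : (Λ → Fin q) → ℂ) (s1 s2 : SH)
    (Φ : (Λ → Fin q) × (Λ → Fin q) → ℂ) : FrCfg SH Λ q nb → ℂ :=
  fun σ => Φ (frRaw σ s1, frRaw σ s2) *
    (∏ s ∈ (Finset.univ.erase s1).erase s2, Ω (frRaw σ s)) *
    if ∀ s a, frTag σ s a = none then 1 else 0

theorem frx_base_eq (nb : HI → ℕ) (Ω : (Λ → Fin q) → ℂ) {s1 s2 : SH} (h12 : s1 ≠ s2) :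
    frBase (SH := SH) nb Ω = frxTwo nb Ω s1 s2 (frxOO Ω) := by
  funext σ
  unfold frBase frxTwo frxOO
  rw [← Finset.mul_prod_erase Finset.univ _ (Finset.mem_univ s1),
    ← Finset.mul_prod_erase (Finset.univ.erase s1) _
      (Finset.mem_erase.2 ⟨h12.symm, Finset.mem_univ s2⟩)]
  simp only [mul_assoc]

theorem frx_two_sub (nb : HI → ℕ) (Ω : (Λ → Fin q) → ℂ) (s1 s2 : SH)
    (Φ Φ' : (Λ → Fin q) × (Λ → Fin q) → ℂ) :
    frxTwo (SH := SH) nb Ω s1 s2 (Φ - Φ') = frxTwo nb Ω s1 s2 Φ - frxTwo nb Ω s1 s2 Φ' := by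
  funext σ
  simp only [frxTwo, Pi.sub_apply]
  ring

theorem frx_two_nsq (nb : HI → ℕ) (Ω : (Λ → Fin q) → ℂ) (hΩ : star Ω ⬝ᵥ Ω = 1) {s1 s2 : SH}
    (h12 : s1 ≠ s2) (Φ : (Λ → Fin q) × (Λ → Fin q) → ℂ) :
    cpNsq (frxTwo (SH := SH) nb Ω s1 s2 Φ) = cpNsq Φ := by
  have hw : ∑ x, ‖Ω x‖ ^ 2 = 1 := frx_nsq_of_unit hΩ
  unfold cpNsq
  rw [← Equiv.sum_comp (frxE1 (SH := SH) (Λ := Λ) (q := q) nb).symm, Fintype.sum_prod_type,
    ← frx_sum_two h12 (fun y => ‖Φ y‖ ^ 2) (fun x => ‖Ω x‖ ^ 2) hw]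
  refine Finset.sum_congr rfl fun R _ => ?_
  have h1 : ∀ t : (∀ p : SH × HI, Option (Fin (nb p.2))),
      ‖frxTwo nb Ω s1 s2 Φ ((frxE1 (SH := SH) (Λ := Λ) (q := q) nb).symm (R, t))‖ ^ 2 =
      (‖Φ (R s1, R s2)‖ ^ 2 * ∏ s ∈ (Finset.univ.erase s1).erase s2, ‖Ω (R s)‖ ^ 2) *
        if t = fun _ => none then 1 else 0 := by
    intro t
    have e : frxTwo nb Ω s1 s2 Φ ((frxE1 (SH := SH) (Λ := Λ) (q := q) nb).symm (R, t)) =
        Φ (R s1, R s2) * (∏ s ∈ (Finset.univ.erase s1).erase s2, Ω (R s)) *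
          if ∀ s a, t (s, a) = none then 1 else 0 := rfl
    rw [e, norm_mul, norm_mul, mul_pow, mul_pow, norm_prod, Finset.prod_pow]
    congr 1
    by_cases ht : t = fun _ => none
    · subst ht
      simp
    · rw [if_neg ht, if_neg]
      · simp
      · intro hcon
        exact ht (funext fun p => hcon p.1 p.2)
  simp only [h1]
  rw [← Finset.mul_sum, Finset.sum_ite_eq' Finset.univ]
  simp

end Cfg

end Claimed.Agent.R296
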