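import Claimed.Agent.R296.P2.FrEnc
import Claimed.Agent.R296.HS

/-!
# Row 296, paper 2, Section 7.1: input and output of the protocol (LEAF `P2-FR-IO`, prefix `frio_`; helper135)

* `frio_init_prod`  = statement of `frm_init_prod`  (FrMain.lean): the reference vector of an initial state is a
  product of unit vectors, one per party;
* `frio_final_read` = statement of `frm_final_read` (FrMain.lean): read-out of the main sheet and the
  Hilbert-Schmidt estimate of the output density.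
-/

set_option autoImplicit false
set_option linter.unusedSectionVars false

namespace Claimed.Agent.R296

open Matrix

/-! ### products of vectors -/

section Prod

variable {PP : Type} [Fintype PP] [DecidableEq PP] {Mem : PP → Type} [∀ P, Fintype (Mem P)]
  [∀ P, DecidableEq (Mem P)]

theorem frio_prod_nsq (ψ : ∀ P, Mem P → ℂ) :
    cpNsq (fun σ : Cfg Mem => ∏ P, ψ P (σ P)) = ∏ P, cpNsq (ψ P) := by
  simp only [cpNsq]
  rw [Finset.prod_univ_sum, Fintype.piFinset_univ]
  refine Finset.sum_congr rfl fun σ _ => ?_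
  rw [norm_prod, Finset.prod_pow]

/-- a product vector of norm one is a product of unit vectors -/
theorem frio_normalise (ψ : ∀ P, Mem P → ℂ)
    (h : cpNsq (fun σ : Cfg Mem => ∏ P, ψ P (σ P)) = 1) :
    ∃ ψ' : ∀ P, Mem P → ℂ, (∀ P, cpNsq (ψ' P) = 1) ∧
      (fun σ : Cfg Mem => ∏ P, ψ P (σ P)) = fun σ => ∏ P, ψ' P (σ P) := by
  rw [frio_prod_nsq] at h
  have hne : ∀ P, cpNsq (ψ P) ≠ 0 := by
    intro P hP
    rw [Finset.prod_eq_zero (Finset.mem_univ P) hP] at h
    exact zero_ne_one h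
  have hpos : ∀ P, 0 < cpNsq (ψ P) := fun P => lt_of_le_of_ne (cpNsq_nonneg _) (hne P).symm
  refine ⟨fun P => (((Real.sqrt (cpNsq (ψ P)))⁻¹ : ℝ) : ℂ) • ψ P, fun P => ?_, ?_⟩
  · rw [cpNsq_smul, Complex.norm_real, Real.norm_eq_abs, sq_abs, inv_pow,
      Real.sq_sqrt (hpos P).le, inv_mul_cancel₀ (hne P)]
  · funext σ
    simp only [Pi.smul_apply, smul_eq_mul]
    rw [Finset.prod_mul_distrib]
    have h1 : ∏ P, (((Real.sqrt (cpNsq (ψ P)))⁻¹ : ℝ) : ℂ) = 1 := by
      rw [← Complex.ofReal_prod, Finset.prod_inv_distrib,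
        ← Real.sqrt_prod _ (fun P _ => (hpos P).le), h]
      simp
    rw [h1, one_mul]

end Prod

/-! ### the read-out of a rank one operator -/

section Read

variable {PP : Type} [Fintype PP] [DecidableEq PP] {Mem : PP → Type} [∀ P, Fintype (Mem P)]
  [∀ P, DecidableEq (Mem P)] {Phys : PP → Type} [∀ P, Fintype (Phys P)]
  [∀ P, DecidableEq (Phys P)]

theorem frio_out_add (rd : CpRead Mem Phys) (R R' : Matrix (Cfg Mem) (Cfg Mem) ℂ) :
    rd.out (R + R') = rd.out R + rd.out R' := by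
  ext x y
  simp only [CpRead.out, Matrix.of_apply, Matrix.add_apply, ← Finset.sum_add_distrib]
  refine Finset.sum_congr rfl fun σ _ => Finset.sum_congr rfl fun τ _ => ?_
  split_ifs <;> simp

theorem frio_sum_ph (rd : CpRead Mem Phys) (f : Cfg Mem → ℝ) :
    ∑ x : Cfg Phys, ∑ σ, (if ∀ P, rd.ph P (σ P) = x P then f σ else 0) = ∑ σ, f σ := by
  rw [Finset.sum_comm]
  refine Finset.sum_congr rfl fun σ _ => ?_
  rw [Finset.sum_eq_single (fun P => rd.ph P (σ P))]
  · rw [if_pos fun _ => rfl]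
  · intro x _ hx
    rw [if_neg fun h => hx (funext fun P => (h P).symm)]
  · simp

/-- `‖Tr_garbage |u⟩⟨v|‖₂ ≤ ‖u‖ ‖v‖` -/
theorem frio_out_hs (rd : CpRead Mem Phys) (u v : Cfg Mem → ℂ) :
    ∑ x, ∑ y, ‖rd.out (vecMulVec u (star v)) x y‖ ^ 2 ≤ cpNsq u * cpNsq v := by
  classical
  let c : Cfg Phys → Cfg Phys → Cfg Mem × Cfg Mem → Prop := fun x y p =>
    (∀ P, rd.ph P (p.1 P) = x P) ∧ (∀ P, rd.ph P (p.2 P) = y P) ∧
      (∀ P, rd.gb P (p.1 P) = rd.gb P (p.2 P))
  let A : Cfg Phys → ℝ := fun x => ∑ σ, if ∀ P, rd.ph P (σ P) = x P then ‖u σ‖ ^ 2 else 0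
  let B : Cfg Phys → ℝ := fun y => ∑ τ, if ∀ P, rd.ph P (τ P) = y P then ‖v τ‖ ^ 2 else 0
  have hA : ∑ x, A x = cpNsq u := frio_sum_ph rd fun σ => ‖u σ‖ ^ 2
  have hB : ∑ y, B y = cpNsq v := frio_sum_ph rd fun τ => ‖v τ‖ ^ 2
  have key : ∀ x y, ‖rd.out (vecMulVec u (star v)) x y‖ ^ 2 ≤ A x * B y := by
    intro x y
    have e1 : rd.out (vecMulVec u (star v)) x y =
        ∑ p : Cfg Mem × Cfg Mem, if c x y p then u p.1 * star (v p.2) else 0 := by
      rw [Fintype.sum_prod_type]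
      simp only [CpRead.out, Matrix.of_apply, vecMulVec_apply, Pi.star_apply]
      exact Finset.sum_congr rfl fun σ _ => Finset.sum_congr rfl fun τ _ =>
        if_congr Iff.rfl rfl rfl
    have e2 : ‖rd.out (vecMulVec u (star v)) x y‖ ≤
        ∑ p : Cfg Mem × Cfg Mem, (if c x y p then ‖u p.1‖ else 0) *
          (if c x y p then ‖v p.2‖ else 0) := by
      rw [e1]
      refine (norm_sum_le _ _).trans (Finset.sum_le_sum fun p _ => ?_)
      split_ifs
      · rw [norm_mul, norm_star]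
      · simp
    have e3 : ∑ p : Cfg Mem × Cfg Mem, (if c x y p then ‖u p.1‖ else 0) ^ 2 ≤ A x := by
      rw [Fintype.sum_prod_type]
      refine Finset.sum_le_sum fun σ _ => ?_
      by_cases hσ : ∀ P, rd.ph P (σ P) = x P
      · rw [if_pos hσ]
        have : ∀ τ, (if c x y (σ, τ) then ‖u σ‖ else 0) ^ 2 =
            if c x y (σ, τ) then ‖u σ‖ ^ 2 else 0 := by
          intro τ; split_ifs <;> simp
        simp only [this]
        refine cp_sum_unique_le Finset.univ (fun τ => c x y (σ, τ)) ?_ (by positivity)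
        intro τ _ τ' _ h h'
        funext P
        apply rd.inj P
        exact Prod.ext ((h.2.1 P).trans (h'.2.1 P).symm) ((h.2.2 P).symm.trans (h'.2.2 P))
      · rw [if_neg hσ]
        refine le_of_eq (Finset.sum_eq_zero fun τ _ => ?_)
        rw [if_neg fun h => hσ h.1]
        simp
    have e4 : ∑ p : Cfg Mem × Cfg Mem, (if c x y p then ‖v p.2‖ else 0) ^ 2 ≤ B y := by
      rw [Fintype.sum_prod_type_right]
      refine Finset.sum_le_sum fun τ _ => ?_
      by_cases hτ : ∀ P, rd.ph P (τ P) = y P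
      · rw [if_pos hτ]
        have : ∀ σ, (if c x y (σ, τ) then ‖v τ‖ else 0) ^ 2 =
            if c x y (σ, τ) then ‖v τ‖ ^ 2 else 0 := by
          intro σ; split_ifs <;> simp
        simp only [this]
        refine cp_sum_unique_le Finset.univ (fun σ => c x y (σ, τ)) ?_ (by positivity)
        intro σ _ σ' _ h h'
        funext P
        apply rd.inj P
        exact Prod.ext ((h.1 P).trans (h'.1 P).symm) ((h.2.2 P).trans (h'.2.2 P).symm)
      · rw [if_neg hτ]
        refine le_of_eq (Finset.sum_eq_zero fun σ _ => ?_)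
        rw [if_neg fun h => hτ h.2.1]
        simp
    have hA0 : 0 ≤ A x := Finset.sum_nonneg fun σ _ => by split_ifs <;> positivity
    calc ‖rd.out (vecMulVec u (star v)) x y‖ ^ 2
        ≤ (∑ p : Cfg Mem × Cfg Mem, (if c x y p then ‖u p.1‖ else 0) *
          (if c x y p then ‖v p.2‖ else 0)) ^ 2 := pow_le_pow_left₀ (norm_nonneg _) e2 2
      _ ≤ (∑ p : Cfg Mem × Cfg Mem, (if c x y p then ‖u p.1‖ else 0) ^ 2) *
          ∑ p : Cfg Mem × Cfg Mem, (if c x y p then ‖v p.2‖ else 0) ^ 2 :=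
          Finset.sum_mul_sq_le_sq_mul_sq _ _ _
      _ ≤ A x * B y := mul_le_mul e3 e4 (Finset.sum_nonneg fun p _ => by positivity) hA0
  calc ∑ x, ∑ y, ‖rd.out (vecMulVec u (star v)) x y‖ ^ 2
      ≤ ∑ x, ∑ y, A x * B y :=
        Finset.sum_le_sum fun x _ => Finset.sum_le_sum fun y _ => key x y
    _ = (∑ x, A x) * ∑ y, B y := by rw [Finset.sum_mul_sum]
    _ = cpNsq u * cpNsq v := by rw [hA, hB]

end Read

section Abstract

variable {PP SH Λ HI : Type} [Fintype PP] [DecidableEq PP] [Fintype SH] [DecidableEq SH]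
  [Fintype Λ] [DecidableEq Λ] [Fintype HI] [DecidableEq HI] {q : ℕ} [NeZero q]
  {Ω : (Λ → Fin q) → ℂ} {ε : ℝ} (pat : HI → FrPatch Ω ε)

/-- the factor of the party `P` of an initial reference vector; `π s` is the owner of the sheet `s` -/
def frioIni (nb : HI → ℕ) (Ω : (Λ → Fin q) → ℂ) (π : SH → PP) (P : PP) : FrCfg SH Λ q nb → ℂ :=
  fun σ => (∏ s, if π s = P then Ω (frRaw σ s) else if ∀ x, frRaw σ s x = 0 then 1 else 0) *
    if ∀ s a, frTag σ s a = none then 1 else 0

theorem frio_glob_base (nb : HI → ℕ) (own : FrReg SH Λ HI → PP) (π : SH → PP)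
    (hπ : ∀ s x, own (.inl (s, x)) = π s) :
    frGlob own (frBase nb Ω) = fun m => ∏ P, frioIni nb Ω π P (m P) := by
  funext m
  by_cases hB : (∀ s P, π s ≠ P → ∀ x, frRaw (m P) s x = 0) ∧ ∀ P s a, frTag (m P) s a = none
  · obtain ⟨hB1, hB2⟩ := hB
    have hc : ∀ P r, own r ≠ P → m P r = fr0 q nb r := by
      intro P r hr
      rcases r with ⟨s, x⟩ | ⟨s, a⟩
      · exact hB1 s P (by rw [← hπ s x]; exact hr) x
      · exact hB2 P s a
    have ht : ∀ s a, frTag (fun r => m (own r) r) s a = none := fun s a => hB2 _ s a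
    rw [frGlob, if_pos hc, frBase, if_pos ht, mul_one]
    have h1 : ∀ P, frioIni nb Ω π P (m P) = ∏ s, if π s = P then Ω (frRaw (m P) s) else 1 := by
      intro P
      rw [frioIni, if_pos (hB2 P), mul_one]
      refine Finset.prod_congr rfl fun s _ => ?_
      by_cases hs : π s = P
      · rw [if_pos hs, if_pos hs]
      · rw [if_neg hs, if_neg hs, if_pos (hB1 s P hs)]
    simp only [h1]
    rw [Finset.prod_comm]
    refine Finset.prod_congr rfl fun s _ => ?_
    rw [Finset.prod_ite_eq]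
    simp only [Finset.mem_univ, if_true]
    congr 1
    funext x
    show m (own (.inl (s, x))) (.inl (s, x)) = m (π s) (.inl (s, x))
    rw [hπ]
  · have hR : ∏ P, frioIni nb Ω π P (m P) = 0 := by
      rw [not_and_or] at hB
      rcases hB with hB | hB
      · push Not at hB
        obtain ⟨s, P, hs, x, hx⟩ := hB
        refine Finset.prod_eq_zero (Finset.mem_univ P) ?_
        rw [frioIni, Finset.prod_eq_zero (Finset.mem_univ s), zero_mul]
        rw [if_neg hs, if_neg (fun h => hx (h x))]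
      · push Not at hB
        obtain ⟨P, s, a, ha⟩ := hB
        refine Finset.prod_eq_zero (Finset.mem_univ P) ?_
        rw [frioIni, if_neg (fun h => ha (h s a)), mul_zero]
    rw [hR, frGlob]
    split_ifs with hc
    · rw [frBase]
      by_cases ht : ∀ s a, frTag (fun r => m (own r) r) s a = none
      · exfalso
        apply hB
        refine ⟨fun s P hs x => ?_, fun P s a => ?_⟩
        · exact hc P (.inl (s, x)) (by rw [hπ]; exact hs)
        · by_cases hP : own (.inr (s, a)) = P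
          · have := ht s a
            simp only [frTag] at this
            rw [hP] at this
            exact this
          · exact hc P (.inr (s, a)) hP
      · rw [if_neg ht, mul_zero]
    · rfl

/-- the reference vector of an initial state is a product of unit vectors, one per party
(statement of `frm_init_prod`) -/
theorem frio_init_prod (hΩ : star Ω ⬝ᵥ Ω = 1) (st : FrState PP SH Λ HI) (h : st.Init) :
    ∃ ψ : ∀ _ : PP, FrCfg SH Λ q (frNb pat) → ℂ, (∀ P, cpNsq (ψ P) = 1) ∧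
      frVec pat st = fun m => ∏ P, ψ P (m P) := by
  obtain ⟨h0, h1⟩ := h
  choose π hπ using h1
  have hv : frVec pat st = fun m => ∏ P, frioIni (frNb pat) Ω π P (m P) := by
    rw [frVec, frRef, h0, fre_encs_empty, Matrix.one_mulVec]
    exact frio_glob_base (frNb pat) st.own π hπ
  have hn : cpNsq (frVec pat st) = 1 := by
    rw [frVec, frs_glob_nsq, frRef, h0, fre_encs_empty, Matrix.one_mulVec, fre_base_nsq _ _ hΩ]
  rw [hv] at hn
  obtain ⟨ψ', h1, h2⟩ := frio_normalise (Mem := FrMem PP SH Λ q (frNb pat)) _ hn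
  exact ⟨ψ', h1, hv.trans h2⟩

/-- the reference vector of an initial state is a product of unit vectors, one per party -/
theorem frm_init_prod (hΩ : star Ω ⬝ᵥ Ω = 1) (st : FrState PP SH Λ HI) (h : st.Init) :
    ∃ ψ : ∀ _ : PP, FrCfg SH Λ q (frNb pat) → ℂ, (∀ P, cpNsq (ψ P) = 1) ∧
      frVec pat st = fun m => ∏ P, ψ P (m P) :=
  frio_init_prod pat hΩ st h

/-! ### the main sheet of a final state is an untouched copy of `Ω` -/

/-- replace the raw registers of the sheet `s0` -/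
def frioSet {nb : HI → ℕ} (s0 : SH) (σ : FrCfg SH Λ q nb) (τ : Λ → Fin q) : FrCfg SH Λ q nb :=
  fun r => match r with
    | .inl p => if p.1 = s0 then τ p.2 else frRaw σ p.1 p.2
    | .inr p => σ (.inr p)

theorem frio_raw_set {nb : HI → ℕ} (s0 : SH) (σ : FrCfg SH Λ q nb) (τ : Λ → Fin q) (s : SH)
    (x : Λ) : frRaw (frioSet s0 σ τ) s x = if s = s0 then τ x else frRaw σ s x := rfl

theorem frio_raw_set_self {nb : HI → ℕ} (s0 : SH) (σ : FrCfg SH Λ q nb) (τ : Λ → Fin q) :
    frRaw (frioSet s0 σ τ) s0 = τ := by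
  funext x
  rw [frio_raw_set, if_pos rfl]

theorem frio_raw_set_ne {nb : HI → ℕ} {s0 s : SH} (h : s ≠ s0) (σ : FrCfg SH Λ q nb)
    (τ : Λ → Fin q) : frRaw (frioSet s0 σ τ) s = frRaw σ s := by
  funext x
  rw [frio_raw_set, if_neg h]

theorem frio_tag_set {nb : HI → ℕ} (s0 : SH) (σ : FrCfg SH Λ q nb) (τ : Λ → Fin q) (s : SH)
    (a : HI) : frTag (frioSet s0 σ τ) s a = frTag σ s a := rfl

theorem frio_set_injective {nb : HI → ℕ} (s0 : SH) (σ : FrCfg SH Λ q nb) :
    Function.Injective (frioSet s0 σ) := fun τ τ' h => by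
  rw [← frio_raw_set_self s0 σ τ, h, frio_raw_set_self]

theorem frio_sheet_cond_iff {nb : HI → ℕ} (s0 : SH) (σ' σ : FrCfg SH Λ q nb) :
    ((∀ s' x, s' ≠ s0 → frRaw σ' s' x = frRaw σ s' x) ∧ (∀ s' a, frTag σ' s' a = frTag σ s' a)) ↔
      σ = frioSet s0 σ' (frRaw σ s0) := by
  constructor
  · rintro ⟨h1, h2⟩
    funext r
    rcases r with ⟨s, x⟩ | ⟨s, a⟩
    · show frRaw σ s x = frRaw (frioSet s0 σ' (frRaw σ s0)) s x
      rw [frio_raw_set]
      by_cases hs : s = s0
      · subst hs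
        rw [if_pos rfl]
      · rw [if_neg hs]
        exact (h1 s x hs).symm
    · exact (h2 s a).symm
  · intro h
    refine ⟨fun s' x hs => ?_, fun s' a => ?_⟩
    · rw [h, frio_raw_set_ne hs]
    · rw [h, frio_tag_set]

theorem frio_sheet_mulVec {nb : HI → ℕ} (s0 : SH) (X : Matrix (Λ → Fin q) (Λ → Fin q) ℂ)
    (ψ : FrCfg SH Λ q nb → ℂ) (σ' : FrCfg SH Λ q nb) :
    (frSheet s0 X *ᵥ ψ) σ' = ∑ τ, X (frRaw σ' s0) τ * ψ (frioSet s0 σ' τ) := by
  classical
  simp only [Matrix.mulVec, dotProduct, frSheet, Matrix.of_apply, ite_mul, zero_mul]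
  rw [← Finset.sum_filter]
  have hf : Finset.univ.filter (fun σ : FrCfg SH Λ q nb =>
      (∀ s' x, s' ≠ s0 → frRaw σ' s' x = frRaw σ s' x) ∧
        (∀ s' a, frTag σ' s' a = frTag σ s' a)) = Finset.univ.image (frioSet s0 σ') := by
    ext σ
    simp only [Finset.mem_filter, Finset.mem_univ, true_and, Finset.mem_image]
    rw [frio_sheet_cond_iff]
    constructor
    · intro h
      exact ⟨_, h.symm⟩
    · rintro ⟨τ, rfl⟩
      rw [frio_raw_set_self]
  rw [hf, Finset.sum_image (fun a _ b _ h => frio_set_injective s0 σ' h)]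
  simp only [frio_raw_set_self]

theorem frio_base_set (nb : HI → ℕ) (Ω : (Λ → Fin q) → ℂ) (s0 : SH) (σ : FrCfg SH Λ q nb)
    (τ : Λ → Fin q) :
    frBase nb Ω (frioSet s0 σ τ) * Ω (frRaw σ s0) = frBase nb Ω σ * Ω τ := by
  have ht : (if ∀ s a, frTag (frioSet s0 σ τ) s a = none then (1 : ℂ) else 0) =
      if ∀ s a, frTag σ s a = none then 1 else 0 := rfl
  rw [frBase, frBase, ht,
    ← Finset.mul_prod_erase Finset.univ (fun s => Ω (frRaw (frioSet s0 σ τ) s))
      (Finset.mem_univ s0),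
    ← Finset.mul_prod_erase Finset.univ (fun s => Ω (frRaw σ s)) (Finset.mem_univ s0),
    frio_raw_set_self]
  have : ∏ s ∈ Finset.univ.erase s0, Ω (frRaw (frioSet s0 σ τ) s) =
      ∏ s ∈ Finset.univ.erase s0, Ω (frRaw σ s) := by
    refine Finset.prod_congr rfl fun s hs => ?_
    rw [frio_raw_set_ne (Finset.ne_of_mem_erase hs)]
  rw [this]
  ring

theorem frio_base_fix (nb : HI → ℕ) (hΩ : star Ω ⬝ᵥ Ω = 1) (s0 : SH) :
    frSheet s0 (pureOp Ω) *ᵥ frBase (SH := SH) nb Ω = frBase nb Ω := by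
  funext σ
  rw [frio_sheet_mulVec]
  have h1 : ∀ τ, pureOp Ω (frRaw σ s0) τ * frBase nb Ω (frioSet s0 σ τ) =
      frBase nb Ω σ * (star (Ω τ) * Ω τ) := by
    intro τ
    rw [pureOp, vecMulVec_apply, Pi.star_apply]
    linear_combination star (Ω τ) * frio_base_set nb Ω s0 σ τ
  simp only [h1]
  rw [← Finset.mul_sum]
  have h2 : ∑ τ, star (Ω τ) * Ω τ = 1 := hΩ
  rw [h2, mul_one]

theorem frio_ref_fix (hΩ : star Ω ⬝ᵥ Ω = 1) (s0 : SH) (st : FrState PP SH Λ HI)
    (h : ∀ p ∈ st.hol, p.1 ≠ s0) :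
    frSheet s0 (pureOp Ω) *ᵥ frRef pat st = frRef pat st := by
  have hc : Commute (frEncs pat st.hol) (frSheet s0 (pureOp Ω)) := by
    rw [frEncs]
    refine Commute.list_prod_left _ _ fun X hX => ?_
    obtain ⟨p, hp, rfl⟩ := List.mem_map.mp hX
    exact fre_enc_sheet_commute' pat (h p (Finset.mem_toList.mp hp)) p.2 _
  rw [frRef, Matrix.mulVec_mulVec, ← hc.eq, ← Matrix.mulVec_mulVec, frio_base_fix _ hΩ]

/-- product form of the canonical reference vector -/
theorem frio_ref_prod (hΩ : star Ω ⬝ᵥ Ω = 1) (s0 : SH) (st : FrState PP SH Λ HI)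
    (h : ∀ p ∈ st.hol, p.1 ≠ s0) (σ : FrCfg SH Λ q (frNb pat)) :
    frRef pat st σ = Ω (frRaw σ s0) * ∑ τ, star (Ω τ) * frRef pat st (frioSet s0 σ τ) := by
  conv_lhs => rw [← frio_ref_fix pat hΩ s0 st h]
  rw [frio_sheet_mulVec, Finset.mul_sum]
  refine Finset.sum_congr rfl fun τ _ => ?_
  rw [pureOp, vecMulVec_apply, Pi.star_apply, mul_assoc]

/-- overwrite one raw register -/
def frioUpd {nb : HI → ℕ} (s0 : SH) (y : Λ) (σ : FrCfg SH Λ q nb) (v : Fin q) : FrCfg SH Λ q nb :=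
  Function.update σ (.inl (s0, y)) v

theorem frio_upd_raw {nb : HI → ℕ} (s0 : SH) (y : Λ) (σ : FrCfg SH Λ q nb) (v : Fin q) :
    frRaw (frioUpd s0 y σ v) s0 y = v := by
  unfold frRaw frioUpd
  exact Function.update_self _ _ _

theorem frio_upd_upd {nb : HI → ℕ} (s0 : SH) (y : Λ) (σ : FrCfg SH Λ q nb) (v w : Fin q) :
    frioUpd s0 y (frioUpd s0 y σ v) w = frioUpd s0 y σ w := by
  unfold frioUpd
  exact Function.update_idem _ _ _

theorem frio_upd_self {nb : HI → ℕ} (s0 : SH) (y : Λ) (σ : FrCfg SH Λ q nb) :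
    frioUpd s0 y σ (frRaw σ s0 y) = σ := by
  unfold frioUpd frRaw
  exact Function.update_eq_self _ _

theorem frio_upd_of_ne {nb : HI → ℕ} (s0 : SH) (y : Λ) (σ : FrCfg SH Λ q nb) (v : Fin q)
    {r : FrReg SH Λ HI} (h : r ≠ .inl (s0, y)) : frioUpd s0 y σ v r = σ r := by
  unfold frioUpd
  exact Function.update_of_ne h _ _

end Abstract

/-! ### the read-out of the main sheet -/

section Grid

variable {L q : ℕ} [NeZero q] {Aux SH HI : Type} [Fintype Aux] [DecidableEq Aux] [Fintype SH]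
  [DecidableEq SH] [Fintype HI] [DecidableEq HI]

/-- the content of the physical slots -/
def frioPhy {nb : HI → ℕ} (s0 : SH) (m : Cfg (FrMem (APty L Aux) SH (GSite L) q nb)) : GCfg q L :=
  fun y => frRaw (m (.inl y)) s0 y

/-- overwrite the physical slots -/
def frioPut {nb : HI → ℕ} (s0 : SH) (x : GCfg q L)
    (m : Cfg (FrMem (APty L Aux) SH (GSite L) q nb)) : Cfg (FrMem (APty L Aux) SH (GSite L) q nb) :=
  fun P => match P with
    | .inl y => frioUpd s0 y (m (.inl y)) (x y)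
    | .inr a => m (.inr a)

theorem frio_phy_put {nb : HI → ℕ} (s0 : SH) (x : GCfg q L)
    (m : Cfg (FrMem (APty L Aux) SH (GSite L) q nb)) : frioPhy s0 (frioPut s0 x m) = x := by
  funext y
  exact frio_upd_raw s0 y _ _

theorem frio_put_put {nb : HI → ℕ} (s0 : SH) (x x' : GCfg q L)
    (m : Cfg (FrMem (APty L Aux) SH (GSite L) q nb)) :
    frioPut s0 x (frioPut s0 x' m) = frioPut s0 x m := by
  funext P
  rcases P with y | a
  · exact frio_upd_upd s0 y _ _ _
  · rfl

theorem frio_put_phy {nb : HI → ℕ} (s0 : SH) (m : Cfg (FrMem (APty L Aux) SH (GSite L) q nb)) :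
    frioPut s0 (frioPhy s0 m) m = m := by
  funext P
  rcases P with y | a
  · exact frio_upd_self s0 y _
  · rfl

theorem frio_put_of_ne {nb : HI → ℕ} (s0 : SH) (x : GCfg q L)
    (m : Cfg (FrMem (APty L Aux) SH (GSite L) q nb)) (P : APty L Aux)
    (r : FrReg SH (GSite L) HI) (h : ∀ y, P = .inl y → r ≠ .inl (s0, y)) :
    frioPut s0 x m P r = m P r := by
  rcases P with y | a
  · exact frio_upd_of_ne s0 y _ _ (h y rfl)
  · rfl

/-- the read-out: the party `inl y` reads its slot of the raw register `(s0, y)` -/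
def frioRd (nb : HI → ℕ) (s0 : SH) :
    CpRead (FrMem (APty L Aux) SH (GSite L) q nb) (aPhys q L Aux) where
  Garb := fun _ => FrCfg SH (GSite L) q nb
  ph := fun P m => match P with
    | .inl y => frRaw m s0 y
    | .inr _ => ()
  gb := fun P m => match P with
    | .inl y => frioUpd s0 y m 0
    | .inr _ => m
  inj := by
    intro P m m' h
    rcases P with y | a
    · have h1 : frRaw m s0 y = frRaw m' s0 y := congrArg Prod.fst h
      have h2 : frioUpd s0 y m 0 = frioUpd s0 y m' 0 := congrArg Prod.snd h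
      rw [← frio_upd_self s0 y m, ← frio_upd_self s0 y m', ← frio_upd_upd s0 y m 0,
        ← frio_upd_upd s0 y m' 0, h1, h2]
    · exact congrArg Prod.snd h

theorem frio_ph_iff (nb : HI → ℕ) (s0 : SH) (σ : Cfg (FrMem (APty L Aux) SH (GSite L) q nb))
    (x : GCfg q L) :
    (∀ P, (frioRd nb s0).ph P (σ P) = aCfg Aux x P) ↔ frioPhy s0 σ = x := by
  constructor
  · intro h
    funext y
    exact h (.inl y)
  · intro h P
    rcases P with y | a
    · exact congrFun h y
    · rfl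

theorem frio_gb_iff (nb : HI → ℕ) (s0 : SH) (σ τ : Cfg (FrMem (APty L Aux) SH (GSite L) q nb)) :
    (∀ P, (frioRd nb s0).gb P (σ P) = (frioRd nb s0).gb P (τ P)) ↔
      frioPut s0 (fun _ => 0) σ = frioPut s0 (fun _ => 0) τ := by
  constructor
  · intro h
    funext P
    rcases P with y | a
    · exact h (.inl y)
    · exact h (.inr a)
  · intro h P
    rcases P with y | a
    · exact congrFun h (.inl y)
    · exact congrFun h (.inr a)

/-- the mass of a fibre of the physical slots does not depend on the fibre -/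
theorem frio_fibre {nb : HI → ℕ} (s0 : SH)
    (F : Cfg (FrMem (APty L Aux) SH (GSite L) q nb) → ℝ) (hF : ∀ x m, F (frioPut s0 x m) = F m)
    (x x' : GCfg q L) :
    ∑ σ, (if frioPhy s0 σ = x then F σ else 0) = ∑ σ, if frioPhy s0 σ = x' then F σ else 0 := by
  rw [← Finset.sum_filter, ← Finset.sum_filter]
  refine Finset.sum_nbij' (frioPut s0 x') (frioPut s0 x) ?_ ?_ ?_ ?_ ?_
  · intro σ _
    simp [frio_phy_put]
  · intro σ _
    simp [frio_phy_put]
  · intro σ hσ
    have h : frioPhy s0 σ = x := (Finset.mem_filter.mp hσ).2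
    rw [frio_put_put, ← h, frio_put_phy]
  · intro σ hσ
    have h : frioPhy s0 σ = x' := (Finset.mem_filter.mp hσ).2
    rw [frio_put_put, ← h, frio_put_phy]
  · intro σ _
    rw [hF]

/-- read-out of a vector of the form `Ω ⊗ Ξ` -/
theorem frio_out_prod {nb : HI → ℕ} (s0 : SH) {Ω : GCfg q L → ℂ} (hΩ : star Ω ⬝ᵥ Ω = 1)
    (Φ G : Cfg (FrMem (APty L Aux) SH (GSite L) q nb) → ℂ)
    (hΦ : ∀ m, Φ m = Ω (frioPhy s0 m) * G m) (hG : ∀ x m, G (frioPut s0 x m) = G m)
    (x y : GCfg q L) :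
    (frioRd nb s0).out (vecMulVec Φ (star Φ)) (aCfg Aux x) (aCfg Aux y) =
      ((cpNsq Φ : ℝ) : ℂ) * (Ω x * star (Ω y)) := by
  classical
  have hΩ' : ∑ z, ‖Ω z‖ ^ 2 = 1 := by
    have h1 : star Ω ⬝ᵥ Ω = ((∑ i, ‖Ω i‖ ^ 2 : ℝ) : ℂ) := by
      simp only [dotProduct, Pi.star_apply, Complex.ofReal_sum]
      refine Finset.sum_congr rfl fun i _ => ?_
      rw [Complex.star_def, Complex.conj_mul', Complex.ofReal_pow]
    rw [h1] at hΩ
    exact_mod_cast hΩ
  -- the inner sum
  have h1 : ∀ σ, ∑ τ, (if (∀ P, (frioRd nb s0).ph P (σ P) = aCfg Aux x P) ∧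
      (∀ P, (frioRd nb s0).ph P (τ P) = aCfg Aux y P) ∧
      (∀ P, (frioRd nb s0).gb P (σ P) = (frioRd nb s0).gb P (τ P))
      then vecMulVec Φ (star Φ) σ τ else 0) =
      (Ω x * star (Ω y)) * (((if frioPhy s0 σ = x then ‖G σ‖ ^ 2 else 0 : ℝ)) : ℂ) := by
    intro σ
    simp only [frio_ph_iff, frio_gb_iff]
    by_cases hσ : frioPhy s0 σ = x
    · rw [Finset.sum_eq_single (frioPut s0 y σ)]
      · rw [if_pos ⟨hσ, frio_phy_put _ _ _, (frio_put_put _ _ _ _).symm⟩, if_pos hσ,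
          vecMulVec_apply, Pi.star_apply, hΦ σ, hΦ (frioPut s0 y σ), frio_phy_put, hG, hσ,
          star_mul', Complex.ofReal_pow, ← Complex.mul_conj', Complex.star_def]
        ring
      · intro τ _ hτ
        rw [if_neg]
        rintro ⟨_, h2, h3⟩
        apply hτ
        rw [← frio_put_phy s0 τ, h2, ← frio_put_put s0 y (fun _ => 0) τ, ← h3, frio_put_put]
      · simp
    · rw [if_neg hσ, Finset.sum_eq_zero]
      · simp
      · intro τ _
        rw [if_neg fun h => hσ h.1]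
  -- the mass of one fibre
  have h2 : ∑ σ, (if frioPhy s0 σ = x then ‖G σ‖ ^ 2 else 0) = cpNsq Φ := by
    have e1 : cpNsq Φ = ∑ z : GCfg q L, ‖Ω z‖ ^ 2 *
        ∑ σ, (if frioPhy s0 σ = z then ‖G σ‖ ^ 2 else 0) := by
      simp only [Finset.mul_sum]
      rw [Finset.sum_comm, cpNsq]
      refine Finset.sum_congr rfl fun σ _ => ?_
      rw [Finset.sum_eq_single (frioPhy s0 σ)]
      · rw [if_pos rfl, hΦ σ, norm_mul, mul_pow]
      · intro z _ hz
        rw [if_neg (Ne.symm hz), mul_zero]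
      · simp
    rw [e1]
    have e2 : ∀ z : GCfg q L, ∑ σ, (if frioPhy s0 σ = z then ‖G σ‖ ^ 2 else 0) =
        ∑ σ, (if frioPhy s0 σ = x then ‖G σ‖ ^ 2 else 0) := fun z =>
      frio_fibre s0 (fun σ => ‖G σ‖ ^ 2) (fun x m => by simp only [hG]) z x
    simp only [e2]
    rw [← Finset.sum_mul, hΩ', one_mul]
  simp only [CpRead.out, Matrix.of_apply]
  simp only [h1]
  rw [← Finset.mul_sum, ← Complex.ofReal_sum, h2, mul_comm]

variable {Ω : GCfg q L → ℂ} {ε : ℝ} (pat : HI → FrPatch Ω ε)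

theorem frio_vec_put (s0 : SH) (st : FrState (APty L Aux) SH (GSite L) HI)
    (hown : ∀ x, st.own (.inl (s0, x)) = .inl x) (τ : GCfg q L)
    (m : Cfg (FrMem (APty L Aux) SH (GSite L) q (frNb pat))) :
    frVec pat st (frioPut s0 τ m) =
      if ∀ P r, st.own r ≠ P → m P r = fr0 q (frNb pat) r then
        frRef pat st (frioSet s0 (fun r => m (st.own r) r) τ) else 0 := by
  have h1 : ∀ P r, st.own r ≠ P → frioPut s0 τ m P r = m P r := by
    intro P r hr
    refine frio_put_of_ne s0 τ m P r ?_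
    rintro y rfl rfl
    exact hr (hown y)
  have h2 : (fun r => frioPut s0 τ m (st.own r) r) =
      frioSet s0 (fun r => m (st.own r) r) τ := by
    funext r
    rcases r with ⟨s, x⟩ | p
    · show frioPut s0 τ m (st.own (.inl (s, x))) (.inl (s, x)) =
        frRaw (frioSet s0 (fun r => m (st.own r) r) τ) s x
      rw [frio_raw_set]
      by_cases hs : s = s0
      · subst hs
        rw [if_pos rfl, hown]
        exact frio_upd_raw s x _ _
      · rw [if_neg hs]
        refine frio_put_of_ne s0 τ m _ _ fun y _ h => hs ?_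
        have := Sum.inl.inj h
        exact congrArg Prod.fst this
    · exact frio_put_of_ne s0 τ m _ _ fun y _ h => by cases h
  rw [frVec, frGlob, h2]
  refine if_congr ?_ rfl rfl
  constructor
  · intro h P r hr
    rw [← h1 P r hr]
    exact h P r hr
  · intro h P r hr
    rw [h1 P r hr]
    exact h P r hr

/-- the reference vector of a final state is `Ω` on the physical slots times a vector on the rest -/
theorem frio_vec_prod (hΩ : star Ω ⬝ᵥ Ω = 1) (s0 : SH)
    (st : FrState (APty L Aux) SH (GSite L) HI) (hfin : st.Final s0 Sum.inl)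
    (m : Cfg (FrMem (APty L Aux) SH (GSite L) q (frNb pat))) :
    frVec pat st m = Ω (frioPhy s0 m) * ∑ τ, star (Ω τ) * frVec pat st (frioPut s0 τ m) := by
  have hown : ∀ x, st.own (.inl (s0, x)) = .inl x := hfin.1
  have hhol : ∀ p ∈ st.hol, p.1 ≠ s0 := by
    rintro ⟨s, a⟩ hp rfl
    have : a ∈ st.hs s := by
      rw [FrState.hs]
      exact Finset.mem_filter.mpr ⟨Finset.mem_univ _, hp⟩
    rw [hfin.2] at this
    exact absurd this (Finset.notMem_empty a)
  simp only [frio_vec_put pat s0 st hown]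
  by_cases hc : ∀ P r, st.own r ≠ P → m P r = fr0 q (frNb pat) r
  · simp only [if_pos hc]
    rw [frVec, frGlob, if_pos hc, frio_ref_prod pat hΩ s0 st hhol]
    congr 2
    funext x
    show m (st.own (.inl (s0, x))) (.inl (s0, x)) = m (.inl x) (.inl (s0, x))
    rw [hown]
  · simp only [if_neg hc]
    rw [frVec, frGlob, if_neg hc]
    simp

theorem frio_aCfg_injective : Function.Injective (aCfg (q := q) (L := L) Aux) := by
  intro x y h
  funext z
  exact congrFun h (.inl z)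

theorem frio_sum_aCfg_le (f : Cfg (aPhys q L Aux) → ℝ) (hf : ∀ x, 0 ≤ f x) :
    ∑ x : GCfg q L, f (aCfg Aux x) ≤ ∑ x, f x := by
  classical
  rw [← Finset.sum_image (f := f) (g := aCfg Aux) (s := Finset.univ)
    (fun a _ b _ h => frio_aCfg_injective h)]
  exact Finset.sum_le_univ_sum_of_nonneg hf

/-- read-out of the main sheet: existence and the density estimate (statement of `frm_final_read`) -/
theorem frio_final_read (hΩ : star Ω ⬝ᵥ Ω = 1) (hε : 0 ≤ ε) (s0 : SH) :
    ∃ rd : CpRead (FrMem (APty L Aux) SH (GSite L) q (frNb pat)) (aPhys q L Aux),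
      ∀ (st : FrState (APty L Aux) SH (GSite L) HI), st.WF pat → st.Final s0 Sum.inl →
      ∀ (Ψ : Cfg (FrMem (APty L Aux) SH (GSite L) q (frNb pat)) → ℂ) (E : ℝ), 0 ≤ E →
        cpNsq Ψ ≤ 1 → cpNsq (Ψ - frVec pat st) ≤ E ^ 2 →
        ∑ x : GCfg q L, ∑ y : GCfg q L,
          ‖rd.out (vecMulVec Ψ (star Ψ)) (aCfg Aux x) (aCfg Aux y) - Ω x * star (Ω y)‖ ^ 2 ≤
            (2 * E + 2 * (Fintype.card (SH × HI) : ℝ) * ε) ^ 2 := by
  refine ⟨frioRd (frNb pat) s0, fun st hwf hfin Ψ E hE hΨ hdist => ?_⟩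
  set Φ := frVec pat st with hΦdef
  set rd : CpRead (FrMem (APty L Aux) SH (GSite L) q (frNb pat)) (aPhys q L Aux) :=
    frioRd (frNb pat) s0 with hrd
  let A : (Cfg (FrMem (APty L Aux) SH (GSite L) q (frNb pat)) → ℂ) →
      (Cfg (FrMem (APty L Aux) SH (GSite L) q (frNb pat)) → ℂ) →
      Matrix (GCfg q L) (GCfg q L) ℂ := fun u v =>
    Matrix.of fun x y => rd.out (vecMulVec u (star v)) (aCfg Aux x) (aCfg Aux y)
  have hA : ∀ u v, hsn (A u v) ≤ Real.sqrt (cpNsq u) * Real.sqrt (cpNsq v) := by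
    intro u v
    rw [hsn, ← Real.sqrt_mul (cpNsq_nonneg u)]
    refine Real.sqrt_le_sqrt ?_
    refine le_trans ?_ (frio_out_hs rd u v)
    unfold hsSq
    calc ∑ x : GCfg q L, ∑ y : GCfg q L, ‖A u v x y‖ ^ 2
        ≤ ∑ x : GCfg q L, ∑ y', ‖rd.out (vecMulVec u (star v)) (aCfg Aux x) y'‖ ^ 2 :=
          Finset.sum_le_sum fun x _ => frio_sum_aCfg_le
            (fun y' => ‖rd.out (vecMulVec u (star v)) (aCfg Aux x) y'‖ ^ 2) fun _ => by positivity
      _ ≤ ∑ x', ∑ y', ‖rd.out (vecMulVec u (star v)) x' y'‖ ^ 2 :=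
          frio_sum_aCfg_le (fun x' => ∑ y', ‖rd.out (vecMulVec u (star v)) x' y'‖ ^ 2)
            fun _ => Finset.sum_nonneg fun _ _ => by positivity
  -- the norm of the reference vector
  set N := cpNsq Φ with hN
  have hNref : N = cpNsq (frRef pat st) := by rw [hN, hΦdef, frVec, frs_glob_nsq]
  have hN1 : N ≤ 1 := by rw [hNref]; exact fre_ref_le pat hΩ st
  have hN0 : 0 ≤ N := cpNsq_nonneg _
  set c : ℝ := (Fintype.card (SH × HI) : ℝ) with hc
  have hrc : (st.hol.card : ℝ) ≤ c := by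
    rw [hc]
    exact_mod_cast Finset.card_le_univ st.hol
  have hr0 : (0 : ℝ) ≤ st.hol.card := Nat.cast_nonneg _
  have hNlow : 1 - N ≤ 2 * c * ε := by
    have h1 : (st.hol.card : ℝ) * ε ≤ c * ε := mul_le_mul_of_nonneg_right hrc hε
    by_cases hsm : (st.hol.card : ℝ) * ε ≤ 1
    · have := fre_ref_ge pat hΩ hε st hwf hsm
      rw [← hNref] at this
      nlinarith [sq_nonneg ((st.hol.card : ℝ) * ε)]
    · push Not at hsm
      nlinarith
  -- product form
  have hAΦ : A Φ Φ = ((N : ℝ) : ℂ) • pureOp Ω := by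
    ext x y
    have := frio_out_prod (Aux := Aux) (nb := frNb pat) s0 hΩ Φ
      (fun m => ∑ τ, star (Ω τ) * Φ (frioPut s0 τ m))
      (fun m => frio_vec_prod pat hΩ s0 st hfin m)
      (fun x m => by simp only [frio_put_put]) x y
    simp only [A, Matrix.of_apply, Matrix.smul_apply, pureOp, vecMulVec_apply, Pi.star_apply,
      smul_eq_mul]
    exact this
  have hdec : A Ψ Ψ - pureOp Ω =
      A (Ψ - Φ) Ψ + A Φ (Ψ - Φ) + (((N : ℝ) : ℂ) - 1) • pureOp Ω := by
    have e1 : vecMulVec Ψ (star Ψ) =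
        vecMulVec (Ψ - Φ) (star Ψ) + vecMulVec Φ (star (Ψ - Φ)) + vecMulVec Φ (star Φ) := by
      ext σ τ
      simp only [Matrix.add_apply, vecMulVec_apply, Pi.sub_apply, Pi.star_apply, star_sub]
      ring
    have e2 : A Ψ Ψ = A (Ψ - Φ) Ψ + A Φ (Ψ - Φ) + A Φ Φ := by
      ext x y
      simp only [A, Matrix.of_apply, Matrix.add_apply]
      rw [e1, frio_out_add, frio_out_add]
      rfl
    rw [e2, hAΦ, sub_smul, one_smul]
    abel
  have hpure : hsn (pureOp Ω) = 1 := by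
    rw [pureOp, hsn_vecMulVec]
    have h1 : l2n Ω = 1 := (l2n_eq_one_iff Ω).mpr hΩ
    have h2 : l2n (star Ω) = 1 := by
      have : l2n (star Ω) ^ 2 = l2n Ω ^ 2 := by
        rw [l2n_sq, l2n_sq]
        simp
      rw [h1] at this
      nlinarith [l2n_nonneg (star Ω)]
    rw [h1, h2, one_mul]
  have hs1 : Real.sqrt (cpNsq (Ψ - Φ)) ≤ E := by
    rw [← Real.sqrt_sq hE]
    exact Real.sqrt_le_sqrt hdist
  have hs2 : Real.sqrt (cpNsq Ψ) ≤ 1 := Real.sqrt_le_one.mpr hΨ
  have hs3 : Real.sqrt N ≤ 1 := Real.sqrt_le_one.mpr hN1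
  have hb1 : hsn (A (Ψ - Φ) Ψ) ≤ E :=
    (hA _ _).trans (by nlinarith [Real.sqrt_nonneg (cpNsq (Ψ - Φ)), Real.sqrt_nonneg (cpNsq Ψ)])
  have hb2 : hsn (A Φ (Ψ - Φ)) ≤ E :=
    (hA _ _).trans (by nlinarith [Real.sqrt_nonneg (cpNsq (Ψ - Φ)), Real.sqrt_nonneg N])
  have hb3 : hsn ((((N : ℝ) : ℂ) - 1) • pureOp Ω) ≤ 2 * c * ε := by
    rw [hsn_smul, hpure, mul_one, ← Complex.ofReal_one, ← Complex.ofReal_sub, Complex.norm_real,
      Real.norm_eq_abs, abs_sub_comm, abs_of_nonneg (by linarith)]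
    exact hNlow
  have hfinal : hsn (A Ψ Ψ - pureOp Ω) ≤ 2 * E + 2 * c * ε := by
    rw [hdec]
    refine (hsn_add_le _ _).trans ?_
    have := hsn_add_le (A (Ψ - Φ) Ψ) (A Φ (Ψ - Φ))
    linarith
  have hgoal : ∑ x : GCfg q L, ∑ y : GCfg q L,
      ‖rd.out (vecMulVec Ψ (star Ψ)) (aCfg Aux x) (aCfg Aux y) - Ω x * star (Ω y)‖ ^ 2 =
      hsn (A Ψ Ψ - pureOp Ω) ^ 2 := by
    rw [hsn_sq]
    rfl
  rw [hgoal]
  exact pow_le_pow_left₀ (hsn_nonneg _) hfinal 2

/-- read-out of the main sheet: existence and the density estimate -/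
theorem frm_final_read (hΩ : star Ω ⬝ᵥ Ω = 1) (hε : 0 ≤ ε) (s0 : SH) :
    ∃ rd : CpRead (FrMem (APty L Aux) SH (GSite L) q (frNb pat)) (aPhys q L Aux),
      ∀ (st : FrState (APty L Aux) SH (GSite L) HI), st.WF pat → st.Final s0 Sum.inl →
      ∀ (Ψ : Cfg (FrMem (APty L Aux) SH (GSite L) q (frNb pat)) → ℂ) (E : ℝ), 0 ≤ E →
        cpNsq Ψ ≤ 1 → cpNsq (Ψ - frVec pat st) ≤ E ^ 2 →
        ∑ x : GCfg q L, ∑ y : GCfg q L,
          ‖rd.out (vecMulVec Ψ (star Ψ)) (aCfg Aux x) (aCfg Aux y) - Ω x * star (Ω y)‖ ^ 2 ≤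
            (2 * E + 2 * (Fintype.card (SH × HI) : ℝ) * ε) ^ 2 :=
  frio_final_read pat hΩ hε s0

end Grid

end Claimed.Agent.R296
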