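import Claimed.Agent.R296.P2.FrRewC

/-!
# Row 296, paper 2, Lemma 5.4 (`lem:small-rewrite`): assembly (prefix `frw_`)

`frw_impl` is PROVED here from the packages
 * `FrRewA` (`frwa_gate`: abstract gate lemma for cylinder systems; uses `frc_expand`, `frs_lift_prodOp`, `frs_step_rd/wr`, `frs_rd_prod/wr_prod`),
 * `FrRewB` (`frwb_fac`: encoders and patch projectors as sums of rank-one cylinders, the tag stays inside the hole cylinder),
 * `FrRewC` (`frwcSys`, `frwc_op`, tameness of all open legs from conditions (1)-(4), owners of absent tags, corner case `A = ∅`),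
 * `FrRewD` (`frwMap`, `frw_contr`, `frw_ref`: reference error `(m + r_old) ε`),
 * `FrNorm` (calculus of `cpNsq`, `FrBd`).
`J = old.card + pl.length + new.card ≤ m0 + 2 h0` cylinders.
-/

set_option autoImplicit false

namespace Claimed.Agent.R296

open Matrix

/-- bound for the number of labels (and for the cost) of a rewrite gate -/
def frLab (R m0 h0 kk : ℕ) : ℕ := R ^ (m0 + 2 * h0) * kk ^ (2 * (m0 + 2 * h0))

/-- bound for the number of steps of a gate -/
def frSteps (m0 h0 b : ℕ) : ℕ := 2 * (m0 + 4 * h0) * (b + 1) + 3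

variable {PP SH Λ HI : Type} [Fintype PP] [DecidableEq PP] [Fintype SH] [DecidableEq SH]
  [Fintype Λ] [DecidableEq Λ] [Fintype HI] [DecidableEq HI] {q : ℕ} [NeZero q]
  {Ω : (Λ → Fin q) → ℂ} {ε : ℝ} (pat : HI → FrPatch Ω ε)

/-- Lemma 5.4 -/
theorem frw_impl (hΩ : star Ω ⬝ᵥ Ω = 1) (hε : 0 ≤ ε) (δ η : ℝ) (hη : 0 < η) (R m0 h0 b kk : ℕ)
    (hR : ∀ a, (pat a).nb ≤ R) (hR1 : 1 ≤ R) (hkk1 : 1 ≤ kk)
    (hkk : ((R ^ (m0 + 2 * h0) * (4 * (m0 + 4 * h0)) : ℕ) : ℝ) ^ 2 ≤ η ^ 2 * kk)
    (st : FrState PP SH Λ HI) (hst : st.WF pat) (s : SH) (ow' : Λ → PP) (tw' : HI → PP)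
    (old new : Finset HI) (pl : List HI) (A : Finset PP)
    (ho : (FrOp.rewrite s ow' tw' old new pl A).Ok pat δ m0 h0 b st) :
    FrImpl (frVec pat st) (frVec pat ((FrOp.rewrite s ow' tw' old new pl A).next pat st))
      ((m0 + h0 : ℕ) * ε + η) A (frLab R m0 (2 * h0) kk) (frLab R m0 (2 * h0) kk) (frSteps m0 h0 b) 1 := by
  classical
  by_cases hA : A = ∅
  · -- no participants: nothing changes
    refine ⟨0, fun i => i.elim0, Nat.zero_le _, fun i => i.elim0, fun i => i.elim0,
      fun i => i.elim0, ?_, ∅, by simp, by simp, fun i => i.elim0⟩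
    rw [frwc_empty pat δ m0 h0 b st hst s ow' tw' old new pl A ho hA]
    simp only [cpTprod, Matrix.one_mulVec, sub_self, cpNsq_zero]
    positivity
  obtain ⟨lead, hlead⟩ := Finset.nonempty_iff_ne_empty.mpr hA
  have hne : A.Nonempty := ⟨lead, hlead⟩
  have ho' := ho
  obtain ⟨h_old, -, h_new, -, -, -, -, -, -, -, hm, hoc, hnc, hAb⟩ := ho'
  have hold : ∀ a ∈ old, ∀ a' ∈ old, a ≠ a' → Disjoint (pat a).out (pat a').out :=
    fun a ha a' ha' hne => hst s a (h_old ha) a' (h_old ha') hne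
  set dl := frwcList old new pl with hdl
  have hJ : dl.length ≤ m0 + 2 * h0 := by
    rw [hdl, frwc_length]; omega
  have hop : (frwcSys pat s dl).op = frwMap pat s old new pl := frwc_op pat s old new pl hold h_new
  have hkk' : ((R ^ dl.length * (4 * dl.length) : ℕ) : ℝ) ^ 2 ≤ η ^ 2 * kk := by
    refine le_trans ?_ hkk
    refine pow_le_pow_left₀ (Nat.cast_nonneg _) ?_ 2
    exact_mod_cast Nat.mul_le_mul (Nat.pow_le_pow_right hR1 hJ) (by omega)
  obtain ⟨g, hgv, hgp, hgc, hgΞ, hgr, hgb⟩ := frwa_gate (PP := PP) (frwcSys pat s dl)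
    (fun j b => frwb_ket_nsq pat s _ _ b) (fun j b => frwb_bra_nsq pat s _ _ b)
    (by rw [hop]; exact frw_contr pat s old new pl) R b kk hR1 (fun j => hR _) η hη hkk1 hkk'
    (frwcOwn0 st s tw' old new) (frwcOwn1 st s ow' tw' new) A hAb lead hlead
    (frwc_hown pat δ m0 h0 b st hst s ow' tw' old new pl A ho)
    (frwc_hin pat δ m0 h0 b st hst s ow' tw' old new pl A ho hne)
    (frwc_hout pat δ m0 h0 b st hst s ow' tw' old new pl A ho hne)
  have hlab : R ^ dl.length * kk ^ (2 * dl.length) ≤ frLab R m0 (2 * h0) kk := by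
    unfold frLab
    exact Nat.mul_le_mul (Nat.pow_le_pow_right hR1 (by omega)) (Nat.pow_le_pow_right hkk1 (by omega))
  refine ⟨1, fun _ => g, le_rfl, fun _ => hgv, fun _ => ?_, fun _ => hgΞ.trans hlab, ?_,
    {0}, by simp, fun _ _ => ⟨hgp, hgc.trans (by exact_mod_cast hlab)⟩, fun i hi => ?_⟩
  · refine hgr.trans ?_
    unfold frSteps
    have : 2 * dl.length * (b + 1) ≤ 2 * (m0 + 4 * h0) * (b + 1) :=
      Nat.mul_le_mul_right _ (by omega)
    omega
  · -- the error
    have hu : frVec pat st = frGlob (frwcOwn0 st s tw' old new) (frRef pat st) :=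
      frwc_glob0 pat δ m0 h0 b st hst s ow' tw' old new pl A ho
    have hv := frwc_glob1 pat δ m0 h0 b st hst s ow' tw' old new pl A ho
    have e1 : (cpTprod 1 fun _ : Fin 1 => g.op) = g.op := by simp [cpTprod]
    rw [e1, ← hv, hu]
    set u := frGlob (PP := PP) (frwcOwn0 st s tw' old new) (frRef pat st) with hu'
    have hun : cpNsq u ≤ 1 ^ 2 := by
      rw [hu', frs_glob_nsq, one_pow]
      exact fre_ref_le pat hΩ st
    have t1 := hgb.apply u hun
    have t2 : cpNsq (frLift (frwcOwn0 st s tw' old new) (frwcOwn1 st s ow' tw' new)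
        (frwcSys pat s dl).op *ᵥ u - frGlob (frwcOwn1 st s ow' tw' new)
        (frRef pat ((FrOp.rewrite s ow' tw' old new pl A).next pat st))) ≤
        ((m0 + h0 : ℕ) * ε) ^ 2 := by
      rw [hu', frs_lift_glob, ← frs_glob_sub, frs_glob_nsq, hop]
      exact frw_ref pat hΩ hε δ m0 h0 b st hst s ow' tw' old new pl A ho
    have t3 := frn_nsq_add_le _ _ (by positivity) (by positivity) t1 t2
    rw [Matrix.sub_mulVec, sub_add_sub_cancel] at t3
    refine t3.trans (le_of_eq ?_)
    ring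
  · exact absurd (Finset.mem_singleton.mpr (Subsingleton.elim i 0)) hi

end Claimed.Agent.R296
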