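import Claimed.Agent.R296.P2.FrExch
import Claimed.Agent.R296.P2.FrRew
import Claimed.Agent.R296.P2.FrIO
import Claimed.Agent.R296.P2.CompCons

/-!
# Row 296, paper 2, Sections 5 + 7.1: an admissible schedule gives a distributed construction
(LEAF `P2-FR-MAIN` = `frm_impl_op`, `frm_chain`, `fr_main`;  `P2-FR-IO` = `frm_init_prod`, `frm_final_read` now in `FrIO.lean`; prefix `frm_`)
Proofs of this file: helper142.

`fr_main` is the geometry-free half of `ProtocolStmt`: sites `GSite L`, parties `APty L Aux`.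
 * gates: concatenation of the lists of `FrImpl` of the operations (`frm_impl_op`);
 * error: products of contractions telescope: `‖G_n ⋯ G_1 u_0 - u_n‖ ≤ ∑ err_i`;
 * costs: only rewrite gates have a cost `> 1`: `pcost P ≤ frLab ^ (number of rewrites with P ∈ A)`;
 * carriers: the linked gate of the operation `i` gets `carO i`, a one-party gate at `P` gets `{pos P}` (no edge);
 * read-out: `ph (inl x) m = m (inl (s0, x))`, garbage = all other slots.  `frVec final = placement of Ω_{s0} ⊗ Ξ`,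
   `1 - r ε ≤ ‖Ξ‖ ≤ 1`;  `Tr_garbage |u⟩⟨v|` has Hilbert-Schmidt norm `≤ ‖u‖‖v‖` (`hsn_mul_le`), hence
   `‖ρ_Ψ - |Ω⟩⟨Ω|‖₂ ≤ 2 ‖Ψ - Φ‖ + (1 - ‖Ξ‖²)`.
-/

set_option autoImplicit false
set_option linter.unusedSectionVars false

namespace Claimed.Agent.R296

open Matrix

section Abstract

variable {PP SH Λ HI : Type} [Fintype PP] [DecidableEq PP] [Fintype SH] [DecidableEq SH]
  [Fintype Λ] [DecidableEq Λ] [Fintype HI] [DecidableEq HI] {q : ℕ} [NeZero q]
  {Ω : (Λ → Fin q) → ℂ} {ε : ℝ} (pat : HI → FrPatch Ω ε)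

/-- error of one operation -/
noncomputable def frErr (ε δ η : ℝ) (m0 h0 : ℕ) : ℝ := 4 * Real.sqrt δ + (m0 + h0 : ℕ) * ε + η

open scoped Classical in
/-- number of rewrites of a schedule in which `P` takes part -/
noncomputable def frCostly (ops : List (FrOp PP SH Λ HI)) (P : PP) : ℕ :=
  (ops.filter fun o => o.costly P).length

open scoped Classical in
/-- cost bound of the linked gate of an operation -/
noncomputable def frOpCost (K : ℕ) (o : FrOp PP SH Λ HI) : ℝ :=
  if ∃ P, o.costly P then K else 1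

/-- monotonicity of `FrImpl` in all bounds -/
theorem FrImpl.mono {Mem : PP → Type} [∀ P, Fintype (Mem P)] [∀ P, DecidableEq (Mem P)]
    {u v : Cfg Mem → ℂ} {err err' : ℝ} {A A' : Finset PP} {cb cb' : ℝ} {Kb Kb' r0 r0' n0 n0' : ℕ}
    (h : FrImpl u v err A cb Kb r0 n0) (he0 : 0 ≤ err) (he : err ≤ err') (hA : A ⊆ A')
    (hcb : A.Nonempty → cb ≤ cb') (hK : Kb ≤ Kb') (hr : r0 ≤ r0') (hn : n0 ≤ n0') :
    FrImpl u v err' A' cb' Kb' r0' n0' := by
  obtain ⟨n, g, h1, h2, h3, h4, h5, S, h6, h7, h8⟩ := h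
  refine ⟨n, g, h1.trans hn, h2, fun i => (h3 i).trans hr, fun i => (h4 i).trans hK,
    h5.trans (pow_le_pow_left₀ he0 he 2), S, h6, fun i hi => ?_, h8⟩
  obtain ⟨h9, h10⟩ := h7 i hi
  have hne : A.Nonempty := ⟨(g i).lead, h9 (Finset.mem_insert_self _ _)⟩
  exact ⟨h9.trans hA, h10.trans (hcb hne)⟩

theorem frm_one_le_frLab {R kk : ℕ} (hR1 : 1 ≤ R) (hkk1 : 1 ≤ kk) (m0 h0 : ℕ) :
    1 ≤ frLab R m0 h0 kk :=
  Nat.mul_pos (Nat.pow_pos hR1) (Nat.pow_pos hkk1)

theorem frm_frErr_nonneg {ε δ η : ℝ} (hε : 0 ≤ ε) (hη : 0 < η) (m0 h0 : ℕ) :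
    0 ≤ frErr ε δ η m0 h0 := by
  unfold frErr
  have := Real.sqrt_nonneg δ
  positivity

/-- every admissible operation is implemented -/
theorem frm_impl_op (hΩ : star Ω ⬝ᵥ Ω = 1) (hε : 0 ≤ ε) (δ η : ℝ) (hη : 0 < η) (R m0 h0 b kk : ℕ)
    (hR : ∀ a, (pat a).nb ≤ R) (hR1 : 1 ≤ R) (hkk1 : 1 ≤ kk)
    (hkk : ((R ^ (m0 + 2 * h0) * (4 * (m0 + 4 * h0)) : ℕ) : ℝ) ^ 2 ≤ η ^ 2 * kk)
    (st : FrState PP SH Λ HI) (hst : st.WF pat) (o : FrOp PP SH Λ HI)
    (ho : o.Ok pat δ m0 h0 b st) :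
    FrImpl (frVec pat st) (frVec pat (o.next pat st)) (frErr ε δ η m0 h0) o.part
      (frOpCost (frLab R m0 (2 * h0) kk) o) (frLab R m0 (2 * h0) kk) (frSteps m0 h0 b)
      (Fintype.card PP + 3) := by
  have hs := Real.sqrt_nonneg δ
  have hme : 0 ≤ ((m0 + h0 : ℕ) : ℝ) * ε := mul_nonneg (Nat.cast_nonneg _) hε
  have hLab := frm_one_le_frLab hR1 hkk1 m0 (2 * h0)
  have hSt : 3 ≤ frSteps m0 h0 b := by unfold frSteps; omega
  cases o with
  | birth s T P Q =>
    refine (frb_impl_birth pat hΩ δ m0 h0 b st hst s T P Q ho).mono hs ?_ (le_refl _) ?_ hLab hSt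
      (by omega)
    · unfold frErr; linarith
    · intro _
      simp [frOpCost, FrOp.costly]
  | death s T P Q =>
    refine (frb_impl_death pat hΩ δ m0 h0 b st hst s T P Q ho).mono hs ?_ (le_refl _) ?_ hLab hSt
      (by omega)
    · unfold frErr; linarith
    · intro _
      simp [frOpCost, FrOp.costly]
  | rewrite s ow' tw' old new pl A =>
    refine (frw_impl pat hΩ hε δ η hη R m0 h0 b kk hR hR1 hkk1 hkk st hst s ow' tw' old new pl A
      ho).mono (by linarith) ?_ (le_refl _) ?_ (le_refl _) (le_refl _) (by omega)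
    · unfold frErr; linarith
    · intro hA
      have : ∃ P, (FrOp.rewrite s ow' tw' old new pl A : FrOp PP SH Λ HI).costly P := hA
      rw [frOpCost, if_pos this]
  | exch s1 s2 Y P =>
    refine (frx_impl_exch pat hΩ δ m0 h0 b st hst s1 s2 Y P ho).mono (by linarith) ?_ (le_refl _) ?_
      hLab (by omega) (by omega)
    · unfold frErr; linarith
    · intro h
      exact absurd h (by simp)

end Abstract

/-! ### time ordered products of lists -/

section ListProd

theorem frm_tprod_ofFn {R : Type*} [Monoid R] (n : ℕ) (f : Fin n → R) :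
    cpTprod n f = (List.ofFn f).reverse.prod := by
  induction n with
  | zero => simp [cpTprod_zero]
  | succ n ih =>
    rw [cpTprod_succ, List.ofFn_succ_last, List.reverse_append, List.reverse_singleton,
      List.singleton_append, List.prod_cons, ih]

theorem frm_tprod_getElem {α R : Type*} [Monoid R] (l : List α) (f : α → R) :
    cpTprod l.length (fun t => f l[t.1]) = (l.map f).reverse.prod := by
  rw [frm_tprod_ofFn, List.ofFn_getElem_eq_map]

theorem frm_contr_list {n : Type} [Fintype n] [DecidableEq n] (l : List (Matrix n n ℂ))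
    (h : ∀ A ∈ l, CpContr A) : CpContr l.prod := by
  induction l with
  | nil => exact CpContr.one
  | cons A l ih =>
    rw [List.prod_cons]
    exact (h A (List.mem_cons_self)).mul (ih fun B hB => h B (List.mem_cons_of_mem _ hB))

/-- triangle inequality for `√ cpNsq` -/
theorem frm_sqrt_nsq_add_le {n : Type} [Fintype n] [DecidableEq n] (u v : n → ℂ) :
    Real.sqrt (cpNsq (u + v)) ≤ Real.sqrt (cpNsq u) + Real.sqrt (cpNsq v) := by
  rw [cpNsq_eq_norm_sq, cpNsq_eq_norm_sq, cpNsq_eq_norm_sq, Real.sqrt_sq (norm_nonneg _),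
    Real.sqrt_sq (norm_nonneg _), Real.sqrt_sq (norm_nonneg _)]
  exact norm_add_le _ _

end ListProd

/-! ### chains of annotated gates -/

section Chain

variable {PP : Type} [Fintype PP] [DecidableEq PP] {Mem : PP → Type} [∀ P, Fintype (Mem P)]
  [∀ P, DecidableEq (Mem P)] {L : ℕ}

/-- a list of gates with carriers which maps `u` to `v` up to `err`, with all the bounds of `fr_main` -/
structure FrmChain (pos : PP → GSite L) (u v : Cfg Mem → ℂ) (err : ℝ) (Kb r0 n0 : ℕ)
    (costB : PP → ℝ) (congB : Claims.C0474.GridEdge L → ℕ)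
    (l : List (CpGate Mem × Finset (GSite L))) : Prop where
  valid : ∀ x ∈ l, x.1.Valid
  steps : ∀ x ∈ l, x.1.r ≤ r0
  labels : ∀ x ∈ l, Fintype.card x.1.Ξ ≤ Kb
  car : ∀ x ∈ l, x.2.Nonempty ∧ AsmConn x.2 ∧ ∀ P ∈ x.1.part, pos P ∈ x.2
  len : l.length ≤ n0
  err : Real.sqrt (cpNsq ((l.map fun x => x.1.op).reverse.prod *ᵥ u - v)) ≤ err
  cost : ∀ P, (l.map fun x => if P ∈ x.1.part then x.1.cost else 1).prod ≤ costB P
  cong : ∀ e, (l.map fun x => if e.1.1 ∈ x.2 ∧ e.1.2 ∈ x.2 then 1 else 0).sum ≤ congB e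

theorem FrmChain.nil (pos : PP → GSite L) (u : Cfg Mem → ℂ) (Kb r0 : ℕ) :
    FrmChain pos u u 0 Kb r0 0 (fun _ => 1) (fun _ => 0) [] where
  valid := by simp
  steps := by simp
  labels := by simp
  car := by simp
  len := by simp
  err := by simp [cpNsq_zero]
  cost := by simp
  cong := by simp

theorem frm_cost_factor_pos (P : PP) (x : CpGate Mem × Finset (GSite L)) :
    0 < (if P ∈ x.1.part then x.1.cost else 1) := by
  split_ifs
  · exact lt_of_lt_of_le one_pos (le_max_left _ _)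
  · exact one_pos

theorem FrmChain.append {pos : PP → GSite L} {u v w : Cfg Mem → ℂ} {e1 e2 : ℝ} {Kb r0 n1 n2 : ℕ}
    {c1 c2 : PP → ℝ} {g1 g2 : Claims.C0474.GridEdge L → ℕ}
    {l1 l2 : List (CpGate Mem × Finset (GSite L))}
    (h1 : FrmChain pos u v e1 Kb r0 n1 c1 g1 l1) (h2 : FrmChain pos v w e2 Kb r0 n2 c2 g2 l2) :
    FrmChain pos u w (e1 + e2) Kb r0 (n1 + n2) (fun P => c1 P * c2 P) (fun e => g1 e + g2 e)
      (l1 ++ l2) where
  valid x hx := (List.mem_append.1 hx).elim (h1.valid x) (h2.valid x)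
  steps x hx := (List.mem_append.1 hx).elim (h1.steps x) (h2.steps x)
  labels x hx := (List.mem_append.1 hx).elim (h1.labels x) (h2.labels x)
  car x hx := (List.mem_append.1 hx).elim (h1.car x) (h2.car x)
  len := by rw [List.length_append]; exact add_le_add h1.len h2.len
  err := by
    rw [List.map_append, List.reverse_append, List.prod_append, ← mulVec_mulVec]
    obtain ⟨G1, hG1⟩ : ∃ G1, G1 = (l1.map fun x => x.1.op).reverse.prod := ⟨_, rfl⟩
    obtain ⟨G2, hG2⟩ : ∃ G2, G2 = (l2.map fun x => x.1.op).reverse.prod := ⟨_, rfl⟩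
    have hc : CpContr G2 := by
      rw [hG2]
      refine frm_contr_list _ fun A hA => ?_
      rw [List.mem_reverse, List.mem_map] at hA
      obtain ⟨x, hx, rfl⟩ := hA
      exact (h2.valid x hx).contr
    have e : G2 *ᵥ (G1 *ᵥ u) - w = G2 *ᵥ (G1 *ᵥ u - v) + (G2 *ᵥ v - w) := by
      rw [mulVec_sub]; abel
    rw [← hG1, ← hG2, e]
    refine (frm_sqrt_nsq_add_le _ _).trans (add_le_add ?_ (hG2 ▸ h2.err))
    exact (Real.sqrt_le_sqrt (hc _)).trans (hG1 ▸ h1.err)
  cost P := by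
    rw [List.map_append, List.prod_append]
    have hp : ∀ l : List (CpGate Mem × Finset (GSite L)),
        0 ≤ (l.map fun x => if P ∈ x.1.part then x.1.cost else 1).prod := by
      intro l
      refine List.prod_nonneg fun a ha => ?_
      rw [List.mem_map] at ha
      obtain ⟨x, -, rfl⟩ := ha
      exact (frm_cost_factor_pos P x).le
    exact mul_le_mul (h1.cost P) (h2.cost P) (hp l2) ((hp l1).trans (h1.cost P))
  cong e := by
    rw [List.map_append, List.sum_append]
    exact add_le_add (h1.cong e) (h2.cong e)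

theorem FrmChain.mono {pos : PP → GSite L} {u v : Cfg Mem → ℂ} {e1 e2 : ℝ} {Kb r0 n1 n2 : ℕ}
    {c1 c2 : PP → ℝ} {g1 g2 : Claims.C0474.GridEdge L → ℕ}
    {l : List (CpGate Mem × Finset (GSite L))}
    (h : FrmChain pos u v e1 Kb r0 n1 c1 g1 l) (he : e1 ≤ e2) (hn : n1 ≤ n2) (hc : ∀ P, c1 P ≤ c2 P)
    (hg : ∀ e, g1 e ≤ g2 e) : FrmChain pos u v e2 Kb r0 n2 c2 g2 l where
  valid := h.valid
  steps := h.steps
  labels := h.labels
  car := h.car
  len := h.len.trans hn
  err := h.err.trans he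
  cost P := (h.cost P).trans (hc P)
  cong e := (h.cong e).trans (hg e)

theorem frm_edge_ne (e : Claims.C0474.GridEdge L) : e.1.1 ≠ e.1.2 := by
  intro h
  have := e.2.2.2
  rw [h] at this
  omega

theorem frm_conn_singleton (x : GSite L) : AsmConn ({x} : Finset (GSite L)) := by
  intro a ha b hb
  rw [Finset.mem_singleton] at ha hb
  rw [ha, hb]

open scoped Classical in
/-- one implemented operation as a chain -/
theorem FrmChain.of_impl (pos : PP → GSite L) {u v : Cfg Mem → ℂ} {err : ℝ} {A : Finset PP}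
    {cb : ℝ} {Kb r0 n0 : ℕ} (h : FrImpl u v err A cb Kb r0 n0) (he : 0 ≤ err) (hcb : 1 ≤ cb)
    (c : Finset (GSite L)) (hc : c.Nonempty ∧ AsmConn c ∧ ∀ P ∈ A, pos P ∈ c) :
    ∃ l, FrmChain pos u v err Kb r0 n0 (fun P => if P ∈ A then cb else 1)
      (fun e => if e.1.1 ∈ c ∧ e.1.2 ∈ c then 1 else 0) l := by
  obtain ⟨n, g, h1, h2, h3, h4, h5, S, h6, h7, h8⟩ := h
  refine ⟨List.ofFn fun i => (g i, if i ∈ S then c else {pos (g i).lead}), ?_⟩
  have hS : S = ∅ ∨ ∃ i, S = {i} := by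
    rcases Nat.le_one_iff_eq_zero_or_eq_one.1 h6 with h | h
    · exact Or.inl (Finset.card_eq_zero.1 h)
    · exact Or.inr (Finset.card_eq_one.1 h)
  refine ⟨?_, ?_, ?_, ?_, ?_, ?_, ?_, ?_⟩
  · intro x hx
    obtain ⟨i, rfl⟩ := List.mem_ofFn.1 hx
    exact h2 i
  · intro x hx
    obtain ⟨i, rfl⟩ := List.mem_ofFn.1 hx
    exact h3 i
  · intro x hx
    obtain ⟨i, rfl⟩ := List.mem_ofFn.1 hx
    exact h4 i
  · intro x hx
    obtain ⟨i, rfl⟩ := List.mem_ofFn.1 hx
    by_cases hi : i ∈ S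
    · simp only [if_pos hi]
      exact ⟨hc.1, hc.2.1, fun P hP => hc.2.2 P ((h7 i hi).1 hP)⟩
    · simp only [if_neg hi]
      refine ⟨Finset.singleton_nonempty _, frm_conn_singleton _, fun P hP => ?_⟩
      have hlead : (g i).lead ∈ (g i).part := Finset.mem_insert_self _ _
      have := Finset.card_le_one.1 (h8 i hi).1 P hP _ hlead
      rw [this]
      exact Finset.mem_singleton_self _
  · rw [List.length_ofFn]; exact h1
  · rw [List.map_ofFn, ← frm_tprod_ofFn]
    exact (Real.sqrt_le_sqrt h5).trans (by rw [Real.sqrt_sq he])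
  · intro P
    rw [List.map_ofFn, List.prod_ofFn]
    simp only [Function.comp]
    have hout : ∀ i, i ∉ S → (if P ∈ (g i).part then (g i).cost else 1) = 1 := by
      intro i hi
      rw [(h8 i hi).2, ite_self]
    rw [← Finset.prod_subset (Finset.subset_univ S) fun i _ hi => hout i hi]
    have hb : (1 : ℝ) ≤ if P ∈ A then cb else 1 := by
      split_ifs
      · exact hcb
      · exact le_refl _
    rcases hS with rfl | ⟨i, rfl⟩
    · simpa using hb
    · rw [Finset.prod_singleton]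
      obtain ⟨h9, h10⟩ := h7 i (Finset.mem_singleton_self i)
      by_cases hP : P ∈ (g i).part
      · rw [if_pos hP, if_pos (h9 hP)]; exact h10
      · rw [if_neg hP]; exact hb
  · intro e
    rw [List.map_ofFn, List.sum_ofFn]
    simp only [Function.comp]
    have hout : ∀ i, i ∉ S → (if e.1.1 ∈ (if i ∈ S then c else {pos (g i).lead}) ∧
        e.1.2 ∈ (if i ∈ S then c else {pos (g i).lead}) then 1 else 0) = 0 := by
      intro i hi
      rw [if_neg hi, if_neg]
      rintro ⟨ha, hb⟩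
      rw [Finset.mem_singleton] at ha hb
      exact frm_edge_ne e (ha.trans hb.symm)
    rw [← Finset.sum_subset (Finset.subset_univ S) fun i _ hi => hout i hi]
    rcases hS with rfl | ⟨i, rfl⟩
    · simp
    · rw [Finset.sum_singleton, if_pos (Finset.mem_singleton_self i)]

end Chain

/-! ### the schedule -/

section Sched

variable {PP SH Λ HI : Type} [Fintype PP] [DecidableEq PP] [Fintype SH] [DecidableEq SH]
  [Fintype Λ] [DecidableEq Λ] [Fintype HI] [DecidableEq HI] {q : ℕ} [NeZero q]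
  {Ω : (Λ → Fin q) → ℂ} {ε : ℝ} (pat : HI → FrPatch Ω ε) {L : ℕ}

theorem frCostly_cons (o : FrOp PP SH Λ HI) (ops : List (FrOp PP SH Λ HI)) (P : PP) :
    frCostly (o :: ops) P = (open scoped Classical in if o.costly P then 1 else 0)
      + frCostly ops P := by
  classical
  unfold frCostly
  rw [List.filter_cons]
  by_cases h : o.costly P
  · simp [h, add_comm]
  · simp [h]

theorem frm_one_le_opCost {K : ℕ} (hK : 1 ≤ K) (o : FrOp PP SH Λ HI) : 1 ≤ frOpCost K o := by
  unfold frOpCost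
  split_ifs
  · exact_mod_cast hK
  · exact le_refl _

theorem frm_opCost_le {K : ℕ} (o : FrOp PP SH Λ HI) (P : PP) :
    (if P ∈ o.part then frOpCost K o else 1)
      ≤ (K : ℝ) ^ (open scoped Classical in if o.costly P then 1 else 0) := by
  classical
  cases o with
  | birth s T P' Q => simp [frOpCost, FrOp.costly]
  | death s T P' Q => simp [frOpCost, FrOp.costly]
  | exch s1 s2 Y P' => simp [frOpCost, FrOp.costly]
  | rewrite s ow' tw' old new pl A =>
    by_cases hP : P ∈ A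
    · have h1 : ∃ P, (FrOp.rewrite s ow' tw' old new pl A : FrOp PP SH Λ HI).costly P := ⟨P, hP⟩
      have h2 : (FrOp.rewrite s ow' tw' old new pl A : FrOp PP SH Λ HI).costly P := hP
      have h3 : P ∈ (FrOp.rewrite s ow' tw' old new pl A : FrOp PP SH Λ HI).part := hP
      rw [if_pos h3, frOpCost, if_pos h1, if_pos h2, pow_one]
    · have h2 : ¬ (FrOp.rewrite s ow' tw' old new pl A : FrOp PP SH Λ HI).costly P := hP
      have h3 : P ∉ (FrOp.rewrite s ow' tw' old new pl A : FrOp PP SH Λ HI).part := hP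
      rw [if_neg h3, if_neg h2, pow_zero]

theorem frm_run_wf (δ : ℝ) (m0 h0 b : ℕ) (ops : List (FrOp PP SH Λ HI)) (st : FrState PP SH Λ HI)
    (hst : st.WF pat) (hok : FrSchedOk pat δ m0 h0 b ops st) : (frRun pat ops st).WF pat := by
  induction ops generalizing st with
  | nil => exact hst
  | cons o ops ih => exact ih _ (fre_next_wf pat δ m0 h0 b o st hst hok.1) hok.2

/-- an admissible schedule as a chain of annotated gates -/
theorem frm_chain (hΩ : star Ω ⬝ᵥ Ω = 1) (hε : 0 ≤ ε) (δ η : ℝ) (hη : 0 < η) (R m0 h0 b kk : ℕ)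
    (hR : ∀ a, (pat a).nb ≤ R) (hR1 : 1 ≤ R) (hkk1 : 1 ≤ kk)
    (hkk : ((R ^ (m0 + 2 * h0) * (4 * (m0 + 4 * h0)) : ℕ) : ℝ) ^ 2 ≤ η ^ 2 * kk)
    (pos : PP → GSite L) (ops : List (FrOp PP SH Λ HI)) (cs : List (Finset (GSite L)))
    (hcs : List.Forall₂ (fun o c => c.Nonempty ∧ AsmConn c ∧ ∀ P ∈ o.part, pos P ∈ c) ops cs)
    (st : FrState PP SH Λ HI) (hst : st.WF pat) (hok : FrSchedOk pat δ m0 h0 b ops st) :
    ∃ l, FrmChain pos (frVec pat st) (frVec pat (frRun pat ops st))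
      (ops.length * frErr ε δ η m0 h0) (frLab R m0 (2 * h0) kk) (frSteps m0 h0 b)
      (ops.length * (Fintype.card PP + 3))
      (fun P => (frLab R m0 (2 * h0) kk : ℝ) ^ frCostly ops P)
      (fun e => (cs.map fun c => if e.1.1 ∈ c ∧ e.1.2 ∈ c then 1 else 0).sum) l := by
  induction hcs generalizing st with
  | nil =>
    exact ⟨[], (FrmChain.nil pos _ _ _).mono (by simp) (by simp) (fun P => by simp [frCostly])
      (fun e => by simp)⟩
  | @cons o c ops cs hoc _ ih =>
    have hLab := frm_one_le_frLab hR1 hkk1 m0 (2 * h0)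
    obtain ⟨l1, hl1⟩ := FrmChain.of_impl pos
      (frm_impl_op pat hΩ hε δ η hη R m0 h0 b kk hR hR1 hkk1 hkk st hst o hok.1)
      (frm_frErr_nonneg hε hη m0 h0) (frm_one_le_opCost hLab o) c hoc
    obtain ⟨l2, hl2⟩ := ih (o.next pat st) (fre_next_wf pat δ m0 h0 b o st hst hok.1) hok.2
    refine ⟨l1 ++ l2, (hl1.append hl2).mono ?_ ?_ ?_ ?_⟩
    · rw [List.length_cons]; push_cast; linarith
    · rw [List.length_cons, Nat.succ_mul, add_comm]
    · intro P
      rw [frCostly_cons, pow_add]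
      refine mul_le_mul_of_nonneg_right ?_ (by positivity)
      convert frm_opCost_le (K := frLab R m0 (2 * h0) kk) o P
    · intro e
      rw [List.map_cons, List.sum_cons]

end Sched

section Grid

variable {L q : ℕ} [NeZero q] {Aux SH HI : Type} [Fintype Aux] [DecidableEq Aux] [Fintype SH]
  [DecidableEq SH] [Fintype HI] [DecidableEq HI] {Ω : GCfg q L → ℂ} {ε : ℝ}
  (pat : HI → FrPatch Ω ε)

theorem frm_asmCong_eq {L : ℕ} {V : Type} [Fintype V] (car : V → Finset (GSite L))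
    (e : Claims.C0474.GridEdge L) :
    asmCong car e = ∑ v, if e.1.1 ∈ car v ∧ e.1.2 ∈ car v then 1 else 0 := by
  unfold asmCong
  rw [Finset.card_filter]

/-- **Sections 5 and 7.1.** -/
theorem fr_main (hΩ : star Ω ⬝ᵥ Ω = 1) (hε : 0 ≤ ε) (δ η : ℝ) (hη : 0 < η) (R m0 h0 b kk w : ℕ)
    (hR : ∀ a, (pat a).nb ≤ R) (hR1 : 1 ≤ R) (hkk1 : 1 ≤ kk)
    (hkk : ((R ^ (m0 + 2 * h0) * (4 * (m0 + 4 * h0)) : ℕ) : ℝ) ^ 2 ≤ η ^ 2 * kk)
    (ops : List (FrOp (APty L Aux) SH (GSite L) HI)) (st0 : FrState (APty L Aux) SH (GSite L) HI)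
    (hinit : st0.Init) (hok : FrSchedOk pat δ m0 h0 b ops st0)
    (s0 : SH) (hfin : (frRun pat ops st0).Final s0 Sum.inl)
    (hw : ∀ P, frCostly ops P ≤ w)
    (pos : APty L Aux → GSite L)
    (carO : Fin ops.length → Finset (GSite L))
    (hcar : ∀ i, (carO i).Nonempty ∧ AsmConn (carO i) ∧ ∀ P ∈ (ops.get i).part, pos P ∈ carO i)
    (χ : ℕ) (hχ : ∀ e, asmCong carO e ≤ χ) :
    ∃ (C : CpCircuit (FrMem (APty L Aux) SH (GSite L) q (frNb pat)))
      (rd : CpRead (FrMem (APty L Aux) SH (GSite L) q (frNb pat)) (aPhys q L Aux))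
      (car : Fin C.M → Finset (GSite L)),
      C.Valid ∧
      (∀ P, C.pcost P ≤ (frLab R m0 (2 * h0) kk : ℝ) ^ w) ∧
      C.nsteps ≤ ops.length * (Fintype.card (APty L Aux) + 3) * frSteps m0 h0 b ∧
      (∀ t, Fintype.card (C.gate t).Ξ ≤ frLab R m0 (2 * h0) kk) ∧
      (∀ t, (C.gate t).r ≤ frSteps m0 h0 b) ∧
      (∀ t, (car t).Nonempty ∧ AsmConn (car t) ∧ ∀ P ∈ (C.gate t).part, pos P ∈ car t) ∧
      (∀ e, asmCong car e ≤ χ) ∧
      ∑ x : GCfg q L, ∑ y : GCfg q L,
        ‖C.rho rd (aCfg Aux x) (aCfg Aux y) - Ω x * star (Ω y)‖ ^ 2 ≤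
          (2 * (ops.length * frErr ε δ η m0 h0) + 2 * (Fintype.card (SH × HI) : ℝ) * ε) ^ 2 := by
  obtain ⟨ψ, hψ1, hψ2⟩ := frio_init_prod pat hΩ st0 hinit
  obtain ⟨rd, hrd⟩ := frio_final_read (Aux := Aux) pat hΩ hε s0
  have hwf0 : st0.WF pat := by
    intro s a ha
    rw [FrState.hs, Finset.mem_filter, hinit.1] at ha
    exact absurd ha.2 (Finset.notMem_empty _)
  have hcs : List.Forall₂ (fun (o : FrOp (APty L Aux) SH (GSite L) HI) c =>
      c.Nonempty ∧ AsmConn c ∧ ∀ P ∈ o.part, pos P ∈ c) ops (List.ofFn carO) := by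
    rw [List.forall₂_iff_get]
    refine ⟨by simp, fun i h1 h2 => ?_⟩
    have := hcar ⟨i, h1⟩
    simpa using this
  obtain ⟨l, hl⟩ := frm_chain pat hΩ hε δ η hη R m0 h0 b kk hR hR1 hkk1 hkk pos ops
    (List.ofFn carO) hcs st0 hwf0 hok
  have hLab : (1 : ℝ) ≤ (frLab R m0 (2 * h0) kk : ℝ) := by
    exact_mod_cast frm_one_le_frLab hR1 hkk1 m0 (2 * h0)
  obtain ⟨C, hC⟩ : ∃ C : CpCircuit (FrMem (APty L Aux) SH (GSite L) q (frNb pat)),
      C = ⟨l.length, fun t => l[t.1].1, ψ⟩ := ⟨_, rfl⟩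
  subst hC
  have hValid : (⟨l.length, fun t => l[t.1].1, ψ⟩ :
      CpCircuit (FrMem (APty L Aux) SH (GSite L) q (frNb pat))).Valid :=
    ⟨fun t => hl.valid _ (List.getElem_mem _), hψ1⟩
  refine ⟨⟨l.length, fun t => l[t.1].1, ψ⟩, rd, fun t => l[t.1].2, hValid, ?_, ?_, ?_, ?_, ?_, ?_, ?_⟩
  · intro P
    unfold CpCircuit.pcost
    rw [Finset.prod_filter]
    have := Fin.prod_univ_fun_getElem l
      (fun x : CpGate (FrMem (APty L Aux) SH (GSite L) q (frNb pat)) × Finset (GSite L) =>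
        if P ∈ x.1.part then x.1.cost else 1)
    refine (le_of_eq this).trans ((hl.cost P).trans ?_)
    exact pow_le_pow_right₀ hLab (hw P)
  · unfold CpCircuit.nsteps
    calc ∑ t : Fin l.length, (l[t.1].1).r ≤ ∑ _t : Fin l.length, frSteps m0 h0 b :=
          Finset.sum_le_sum fun t _ => hl.steps _ (List.getElem_mem _)
      _ = l.length * frSteps m0 h0 b := by simp
      _ ≤ _ := Nat.mul_le_mul_right _ hl.len
  · intro t
    exact hl.labels _ (List.getElem_mem _)
  · intro t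
    exact hl.steps _ (List.getElem_mem _)
  · intro t
    exact hl.car _ (List.getElem_mem _)
  · intro e
    rw [frm_asmCong_eq]
    have h1 := Fin.sum_univ_fun_getElem l
      (fun x : CpGate (FrMem (APty L Aux) SH (GSite L) q (frNb pat)) × Finset (GSite L) =>
        if e.1.1 ∈ x.2 ∧ e.1.2 ∈ x.2 then 1 else 0)
    refine (le_of_eq h1).trans ((hl.cong e).trans ?_)
    have h2 := hχ e
    rw [frm_asmCong_eq] at h2
    rw [List.map_ofFn, List.sum_ofFn]
    exact h2
  · have hE0 : 0 ≤ (ops.length : ℝ) * frErr ε δ η m0 h0 :=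
      mul_nonneg (Nat.cast_nonneg _) (frm_frErr_nonneg hε hη m0 h0)
    refine hrd (frRun pat ops st0) (frm_run_wf pat δ m0 h0 b ops st0 hwf0 hok) hfin _ _ hE0
      (CpCircuit.vec_nsq_le _ hValid) ?_
    have h1 := (Real.sqrt_le_left hE0).1 hl.err
    have h2 : (⟨l.length, fun t => l[t.1].1, ψ⟩ :
        CpCircuit (FrMem (APty L Aux) SH (GSite L) q (frNb pat))).vec
        = (l.map fun x => x.1.op).reverse.prod *ᵥ frVec pat st0 := by
      unfold CpCircuit.vec CpCircuit.op CpCircuit.ini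
      rw [hψ2]
      congr 1
      exact frm_tprod_getElem l fun x => x.1.op
    rw [h2]
    exact h1

end Grid

end Claimed.Agent.R296
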