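import Claimed.Agent.R296.P2.FrSlot

/-!
# Row 296, paper 2, Section 5: calculus of `cpNsq` and `FrBd` (prefix `frn_`; shared, sorry-free)

`cpNsq x ≤ a ^ 2` is `‖x‖ ≤ a`; `FrBd A c` is `‖A‖ ≤ c`.  Triangle inequalities, sums, scalars, products.
`FrBd.apply/mono/add/smul/neg/sub/mul` live in `FrSlot.lean`.
-/

set_option autoImplicit false

namespace Claimed.Agent.R296

open Matrix

section Vec

variable {n : Type} [Fintype n]

theorem frn_nsq_le_iff (x : n → ℂ) {a : ℝ} (ha : 0 ≤ a) :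
    cpNsq x ≤ a ^ 2 ↔ ‖(WithLp.toLp 2 x : EuclideanSpace ℂ n)‖ ≤ a := by
  classical
  rw [cpNsq_eq_norm_sq]
  exact pow_le_pow_iff_left₀ (norm_nonneg _) ha two_ne_zero

theorem frn_nsq_add_le (x y : n → ℂ) {a b : ℝ} (ha : 0 ≤ a) (hb : 0 ≤ b) (hx : cpNsq x ≤ a ^ 2)
    (hy : cpNsq y ≤ b ^ 2) : cpNsq (x + y) ≤ (a + b) ^ 2 := by
  rw [frn_nsq_le_iff _ (add_nonneg ha hb)]
  rw [frn_nsq_le_iff _ ha] at hx
  rw [frn_nsq_le_iff _ hb] at hy
  rw [WithLp.toLp_add]
  exact (norm_add_le _ _).trans (add_le_add hx hy)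

theorem frn_nsq_neg (x : n → ℂ) : cpNsq (-x) = cpNsq x := by
  unfold cpNsq
  simp only [Pi.neg_apply, norm_neg]

theorem frn_nsq_sub_comm (x y : n → ℂ) : cpNsq (x - y) = cpNsq (y - x) := by
  rw [← frn_nsq_neg, neg_sub]

/-- triangle inequality for distances -/
theorem frn_nsq_sub_le (x y z : n → ℂ) {a b : ℝ} (ha : 0 ≤ a) (hb : 0 ≤ b)
    (hx : cpNsq (x - y) ≤ a ^ 2) (hy : cpNsq (y - z) ≤ b ^ 2) : cpNsq (x - z) ≤ (a + b) ^ 2 := by
  have := frn_nsq_add_le _ _ ha hb hx hy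
  rwa [sub_add_sub_cancel] at this

theorem frn_nsq_sum_le {ι : Type} (t : Finset ι) (x : ι → n → ℂ) (a : ι → ℝ) (ha : ∀ i ∈ t, 0 ≤ a i)
    (hx : ∀ i ∈ t, cpNsq (x i) ≤ a i ^ 2) : cpNsq (∑ i ∈ t, x i) ≤ (∑ i ∈ t, a i) ^ 2 := by
  classical
  induction t using Finset.induction_on with
  | empty => simp [cpNsq_zero]
  | insert i t hi ih =>
    rw [Finset.sum_insert hi, Finset.sum_insert hi]
    exact frn_nsq_add_le _ _ (ha i (Finset.mem_insert_self i t))
      (Finset.sum_nonneg fun j hj => ha j (Finset.mem_insert_of_mem hj))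
      (hx i (Finset.mem_insert_self i t))
      (ih (fun j hj => ha j (Finset.mem_insert_of_mem hj))
        (fun j hj => hx j (Finset.mem_insert_of_mem hj)))

theorem frn_nsq_mono_sq {x : n → ℂ} {a b : ℝ} (ha : 0 ≤ a) (hab : a ≤ b) (hx : cpNsq x ≤ a ^ 2) :
    cpNsq x ≤ b ^ 2 := hx.trans (pow_le_pow_left₀ ha hab 2)

end Vec

section Bd

variable {m n : Type} [Fintype m] [Fintype n]

theorem frn_bd_zero : FrBd (0 : Matrix m n ℂ) 0 := fun v => by
  rw [Matrix.zero_mulVec, cpNsq_zero]; simp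

theorem frn_bd_sum {ι : Type} (t : Finset ι) (A : ι → Matrix m n ℂ) (c : ι → ℝ)
    (hc : ∀ i ∈ t, 0 ≤ c i) (hA : ∀ i ∈ t, FrBd (A i) (c i)) :
    FrBd (∑ i ∈ t, A i) (∑ i ∈ t, c i) := by
  classical
  induction t using Finset.induction_on with
  | empty => simpa using frn_bd_zero
  | insert i t hi ih =>
    rw [Finset.sum_insert hi, Finset.sum_insert hi]
    exact (hA i (Finset.mem_insert_self i t)).add
      (ih (fun j hj => hc j (Finset.mem_insert_of_mem hj))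
        (fun j hj => hA j (Finset.mem_insert_of_mem hj)))
      (hc i (Finset.mem_insert_self i t))
      (Finset.sum_nonneg fun j hj => hc j (Finset.mem_insert_of_mem hj))

theorem frn_bd_one_iff (A : Matrix m n ℂ) : FrBd A 1 ↔ CpContr A := by
  unfold FrBd CpContr
  simp only [one_pow, one_mul]

end Bd

end Claimed.Agent.R296
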