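import Claimed.Agent.R296.P2.FrCyl
import Claimed.Agent.R296.P2.FrNorm

/-!
# Row 296, paper 2, Lemma 5.4, package REW-A: the abstract gate lemma (prefix `frwa`/`Frwa`)

A *cylinder system* `FrwaSys io J`: `J` factors in time order, the `j`-th factor is a sum over branches `b : Fin (n j)` of rank-one
cylinders `emb (D j b) |k j b⟩⟨r j b|`.  `S.op` is the time ordered product of the factors.
`frwa_gate`: if `S.op` is a contraction and, for every branch choice, the open input legs of every bra and the open output legs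
of every ket are *tame* (`FrwaTame`: two fixed owners in `A`; or all legs open, product vector, all owners in `A`), then
`frLift own own' S.op` is within `η` of ONE valid gate with participants in `A`.

PROOF.  `S.op = ∑_β frcProd (S.DB β) ..` (`cpTprod_sum`).  `frc_expand` for every `β` (choice).  Labels `Ξ = Br × (Fin J → Fin kk)²`.
`M~ = ∑_ξ c_ξ frProdOp ..`, `‖S.op - M~‖ ≤ card Br * 2J/√kk ≤ η/2`; gate coefficients `c_ξ/(1+η/2)`;
monomial of `ξ` = reads `j = 0..J-1`, then writes `j = 0..J-1` (`frs_lift_prodOp`); each read/write is a *program* (`FrwaProg`): a list of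
at most `b+1` valid steps with label independent end points in `A`: `frs_step_rd/wr` (two owners) or `frs_rd_prod/wr_prod` +
`frs_step_priv` for the parties of `A` (product vectors; the other parties contribute `cpLoc P 1 = 1`).
-/

set_option autoImplicit false
set_option linter.unusedSectionVars false

namespace Claimed.Agent.R296

open Matrix

/-- a system of sums of rank-one cylinders, in time order -/
structure FrwaSys {s : Type} [DecidableEq s] (io : s → Type) (J : ℕ) where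
  /-- number of branches of a factor -/
  n : Fin J → ℕ
  /-- supports -/
  D : ∀ j, Fin (n j) → Finset s
  /-- kets -/
  k : ∀ j b, CfgOn io (D j b) → ℂ
  /-- bras (as vectors) -/
  r : ∀ j b, CfgOn io (D j b) → ℂ

namespace FrwaSys

variable {s : Type} [DecidableEq s] [Fintype s] {io : s → Type} [∀ x, Fintype (io x)]
  [∀ x, DecidableEq (io x)] {J : ℕ} (S : FrwaSys io J)

/-- branch choices -/
abbrev Br : Type := ∀ j, Fin (S.n j)

/-- the `j`-th factor -/
def fac (j : Fin J) : Matrix (Cfg io) (Cfg io) ℂ :=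
  ∑ b, emb (S.D j b) (vecMulVec (S.k j b) (star (S.r j b)))

/-- the operator of the system -/
def op : Matrix (Cfg io) (Cfg io) ℂ := cpTprod J S.fac

/-- supports of a branch choice -/
def DB (β : S.Br) : Fin J → Finset s := fun j => S.D j (β j)

end FrwaSys

section Gate

variable {PP SH Λ HI : Type} [Fintype PP] [DecidableEq PP] [Fintype SH] [DecidableEq SH]
  [Fintype Λ] [DecidableEq Λ] [Fintype HI] [DecidableEq HI] {q : ℕ} [NeZero q] {nb : HI → ℕ}

/-- tameness of the open legs `I β` of a group with legs `D β` and vector `v β` (`β` = branch choice) -/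
def FrwaTame {B : Type} (own : FrReg SH Λ HI → PP) (A : Finset PP) (I D : B → Finset (FrReg SH Λ HI))
    (v : ∀ β, CfgOn (frIo (SH := SH) (Λ := Λ) q nb) (D β) → ℂ) : Prop :=
  (∃ P ∈ A, ∃ Q ∈ A, ∀ β, ∀ r ∈ I β, own r = P ∨ own r = Q) ∨
  (∀ β, I β = D β ∧ (∀ r ∈ D β, own r ∈ A) ∧
    ∃ ρ : ∀ r : FrReg SH Λ HI, frIo q nb r → ℂ, (∀ r, cpNsq (ρ r) = 1) ∧
      v β = fun c => ∏ x, ρ x.1 (c x))

end Gate

/-! ### time ordered products of lists -/

/-- time ordered product of a list: the head acts first (stands rightmost) -/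
def frwaTl {R : Type*} [Monoid R] : List R → R
  | [] => 1
  | x :: l => frwaTl l * x

theorem frwa_tl_append {R : Type*} [Monoid R] (l₁ l₂ : List R) :
    frwaTl (l₁ ++ l₂) = frwaTl l₂ * frwaTl l₁ := by
  induction l₁ with
  | nil => simp [frwaTl]
  | cons x l ih => simp only [List.cons_append, frwaTl, ih, mul_assoc]

theorem frwa_tl_reverse {R : Type*} [Monoid R] (l : List R) : frwaTl l.reverse = l.prod := by
  induction l with
  | nil => simp [frwaTl]
  | cons x l ih => rw [List.reverse_cons, frwa_tl_append, ih, List.prod_cons]; simp [frwaTl]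

theorem frwa_tl_ofFn {R : Type*} [Monoid R] (n : ℕ) (f : Fin n → R) :
    frwaTl (List.ofFn f) = cpTprod n f := by
  induction n with
  | zero => simp [frwaTl, cpTprod]
  | succ n ih =>
    rw [List.ofFn_succ', List.concat_eq_append, frwa_tl_append, ih, cpTprod_succ]
    simp [frwaTl]

theorem frwa_tprod_get {α R : Type*} [Monoid R] (l : List α) (f : α → R) :
    cpTprod l.length (fun i => f (l.get i)) = frwaTl (l.map f) := by
  rw [← frwa_tl_ofFn]
  congr 1
  have := List.map_ofFn (f := l.get) (g := f)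
  rw [List.ofFn_get] at this
  rw [this]
  rfl

section Prog

variable {PP : Type} [Fintype PP] [DecidableEq PP] {Mem : PP → Type} [∀ P, Fintype (Mem P)]
  [∀ P, DecidableEq (Mem P)]

/-- the gate of a list of steps (the head acts first) -/
def frwaGate (Ξ : Type) [Fintype Ξ] [DecidableEq Ξ] (c : Ξ → ℂ) (l : List (CpStep Mem Ξ))
    (lead : PP) : CpGate Mem where
  Ξ := Ξ
  c := c
  r := l.length
  step := fun i => l.get i
  lead := lead

theorem frwa_gate_mono (Ξ : Type) [Fintype Ξ] [DecidableEq Ξ] (c : Ξ → ℂ)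
    (l : List (CpStep Mem Ξ)) (lead : PP) (ξ : Ξ) :
    (frwaGate Ξ c l lead).mono ξ = frwaTl (l.map fun st => st.link ξ) :=
  frwa_tprod_get l fun st => st.link ξ

theorem frwa_gate_part (Ξ : Type) [Fintype Ξ] [DecidableEq Ξ] (c : Ξ → ℂ)
    (l : List (CpStep Mem Ξ)) (lead : PP) (A : Finset PP) (hlead : lead ∈ A)
    (hl : ∀ st ∈ l, st.P ∈ A ∧ st.Q ∈ A) : (frwaGate Ξ c l lead).part ⊆ A := by
  unfold CpGate.part
  intro P hP
  rcases Finset.mem_insert.mp hP with rfl | hP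
  · exact hlead
  · obtain ⟨i, -, hi⟩ := Finset.mem_biUnion.mp hP
    have h := hl (l.get i) (List.get_mem l i)
    have hi' : P ∈ ({(l.get i).P, (l.get i).Q} : Finset PP) := hi
    rcases Finset.mem_insert.mp hi' with rfl | hi'
    · exact h.1
    · rw [Finset.mem_singleton.mp hi']; exact h.2

/-- a label dependent operator is realised by at most `n` valid steps with end points in `A` -/
def FrwaProg {Ξ : Type} (A : Finset PP) (n : ℕ) (F : Ξ → CpOp Mem) : Prop :=
  ∃ l : List (CpStep Mem Ξ), l.length ≤ n ∧ (∀ st ∈ l, st.Valid ∧ st.P ∈ A ∧ st.Q ∈ A) ∧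
    ∀ ξ, frwaTl (l.map fun st => st.link ξ) = F ξ

variable {Ξ : Type} {A : Finset PP}

theorem frwa_prog_one : FrwaProg (Mem := Mem) (Ξ := Ξ) A 0 (fun _ => 1) :=
  ⟨[], le_rfl, fun _ h => absurd h (List.not_mem_nil), fun _ => rfl⟩

theorem FrwaProg.mono {n n' : ℕ} {F : Ξ → CpOp Mem} (h : FrwaProg A n F) (hn : n ≤ n') :
    FrwaProg A n' F := by
  obtain ⟨l, h1, h2, h3⟩ := h
  exact ⟨l, h1.trans hn, h2, h3⟩

theorem FrwaProg.congr {n : ℕ} {F F' : Ξ → CpOp Mem} (h : FrwaProg A n F) (hF : ∀ ξ, F ξ = F' ξ) :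
    FrwaProg A n F' := by
  obtain ⟨l, h1, h2, h3⟩ := h
  exact ⟨l, h1, h2, fun ξ => (h3 ξ).trans (hF ξ)⟩

/-- `F` first, then `F'` -/
theorem FrwaProg.mul {n n' : ℕ} {F F' : Ξ → CpOp Mem} (h : FrwaProg A n F)
    (h' : FrwaProg A n' F') : FrwaProg A (n + n') (fun ξ => F' ξ * F ξ) := by
  obtain ⟨l, h1, h2, h3⟩ := h
  obtain ⟨l', h1', h2', h3'⟩ := h'
  refine ⟨l ++ l', by rw [List.length_append]; omega, ?_, fun ξ => ?_⟩
  · intro st hst
    rcases List.mem_append.mp hst with h | h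
    · exact h2 st h
    · exact h2' st h
  · rw [List.map_append, frwa_tl_append, h3, h3']

theorem frwa_prog_step (st : CpStep Mem Ξ) (hv : st.Valid) (hP : st.P ∈ A) (hQ : st.Q ∈ A) :
    FrwaProg A 1 (fun ξ => st.link ξ) :=
  ⟨[st], le_rfl, fun st' h => by rw [List.mem_singleton.mp h]; exact ⟨hv, hP, hQ⟩,
    fun ξ => by simp [frwaTl]⟩

theorem frwa_prog_tprod (J n : ℕ) (F : Fin J → Ξ → CpOp Mem) (h : ∀ j, FrwaProg A n (F j)) :
    FrwaProg A (J * n) (fun ξ => cpTprod J fun j => F j ξ) := by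
  induction J with
  | zero => simpa [cpTprod] using frwa_prog_one (Mem := Mem) (Ξ := Ξ) (A := A)
  | succ J ih =>
    have h1 := (ih (fun j => F j.castSucc) fun j => h _).mul (h (Fin.last J))
    rw [Nat.succ_mul]
    exact h1

end Prog

/-! ### reads and writes -/

section RW

variable {PP SH Λ HI : Type} [Fintype PP] [DecidableEq PP] [Fintype SH] [DecidableEq SH]
  [Fintype Λ] [DecidableEq Λ] [Fintype HI] [DecidableEq HI] {q : ℕ} [NeZero q] {nb : HI → ℕ}

instance frwaNonempty (r : FrReg SH Λ HI) : Nonempty (frIo q nb r) := ⟨fr0 q nb r⟩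

/-- a product of one-party contractions over a list of parties in `A` -/
theorem frwa_prog_priv {Ξ : Type} {A : Finset PP} (L : List PP) (hL : ∀ P ∈ L, P ∈ A)
    (B : Ξ → PP → Matrix (FrCfg SH Λ q nb) (FrCfg SH Λ q nb) ℂ) (hB : ∀ ξ P, CpContr (B ξ P)) :
    FrwaProg A L.length (fun ξ =>
      (L.map fun P => cpLoc (Mem := FrMem PP SH Λ q nb) P (B ξ P)).prod) := by
  induction L with
  | nil => simpa using frwa_prog_one (Mem := FrMem PP SH Λ q nb) (Ξ := Ξ) (A := A)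
  | cons P L ih =>
    obtain ⟨st, hP, hQ, hv, hl⟩ := frs_step_priv (PP := PP) P (fun ξ => B ξ P) (fun ξ => hB ξ P)
    have hPA : P ∈ A := hL P (List.mem_cons_self)
    have h1 := (ih fun P' h => hL P' (List.mem_cons_of_mem _ h)).mul
      (frwa_prog_step st hv (hP ▸ hPA) (hQ ▸ hPA))
    refine h1.congr fun ξ => ?_
    rw [List.map_cons, List.prod_cons, hl]

/-- factors equal to one may be dropped from a list product -/
theorem frwa_prod_filter {α R : Type*} [Monoid R] (L : List α) (p : α → Prop) [DecidablePred p]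
    (f : α → R) (h : ∀ x, ¬ p x → f x = 1) : (L.map f).prod = ((L.filter p).map f).prod := by
  induction L with
  | nil => rfl
  | cons x L ih =>
    by_cases hx : p x
    · rw [List.filter_cons_of_pos (by simpa using hx), List.map_cons, List.map_cons, List.prod_cons,
        List.prod_cons, ih]
    · rw [List.filter_cons_of_neg (by simpa using hx), List.map_cons, List.prod_cons, h x hx,
        one_mul, ih]

theorem frwa_filter_length (A : Finset PP) :
    ((Finset.univ : Finset PP).toList.filter (· ∈ A)).length = A.card := by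
  have h1 : ((Finset.univ : Finset PP).toList.filter (· ∈ A)).Nodup :=
    (Finset.nodup_toList _).filter _
  rw [← List.toFinset_card_of_nodup h1]
  congr 1
  ext P
  simp

/-- every partial configuration is a restriction -/
theorem frwa_exists_ext (I : Finset (FrReg SH Λ HI))
    (c : CfgOn (frIo (SH := SH) (Λ := Λ) q nb) I) : ∃ σ : FrCfg SH Λ q nb, crOn I σ = c :=
  ⟨fun r => if h : r ∈ I then c ⟨r, h⟩ else fr0 q nb r, by
    funext x
    simp [crOn, x.2]⟩

/-- a kept product vector -/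
theorem frwa_kept {I D : Finset (FrReg SH Λ HI)} (h : I = D)
    (w : CfgOn (frIo (SH := SH) (Λ := Λ) q nb) I → ℂ)
    (v : CfgOn (frIo (SH := SH) (Λ := Λ) q nb) D → ℂ)
    (hw : ∀ σ : FrCfg SH Λ q nb, w (crOn _ σ) = v (crOn _ σ))
    (ρ : ∀ r : FrReg SH Λ HI, frIo q nb r → ℂ) (hv : v = fun c => ∏ x, ρ x.1 (c x)) :
    w = fun c => ∏ x, ρ x.1 (c x) := by
  subst h
  funext c
  obtain ⟨σ, rfl⟩ := frwa_exists_ext I c
  rw [hw, hv]

variable {Ξ B : Type} (br : Ξ → B) (own : FrReg SH Λ HI → PP) (A : Finset PP) (b : ℕ)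

theorem frwa_prog_rd (hA : A.card ≤ b) (I D : B → Finset (FrReg SH Λ HI))
    (v : ∀ β, CfgOn (frIo (SH := SH) (Λ := Λ) q nb) (D β) → ℂ) (ht : FrwaTame own A I D v)
    (w : ∀ ξ, CfgOn (frIo (SH := SH) (Λ := Λ) q nb) (I (br ξ)) → ℂ) (hw : ∀ ξ, cpNsq (w ξ) = 1)
    (hkeep : ∀ ξ, I (br ξ) = D (br ξ) → ∀ σ : FrCfg SH Λ q nb,
      w ξ (crOn _ σ) = v (br ξ) (crOn _ σ)) :
    FrwaProg A (b + 1) (fun ξ => frRd own (I (br ξ)) (w ξ)) := by
  rcases ht with ⟨P, hP, Q, hQ, h⟩ | h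
  · obtain ⟨st, hP', hQ', hv, hl⟩ := frs_step_rd own P Q (fun ξ => I (br ξ)) w hw
      (fun ξ r hr => h (br ξ) r hr)
    exact ((frwa_prog_step st hv (hP' ▸ hP) (hQ' ▸ hQ)).mono (by omega)).congr hl
  · choose hID hAo ρ hρ hvρ using h
    have hB := fun ξ => frs_rd_prod own (I (br ξ)) (ρ (br ξ)) (fun r _ => hρ (br ξ) r)
    choose Bm hBc hB1 hBe using hB
    have h1 := frwa_prog_priv (A := A) ((Finset.univ : Finset PP).toList.filter (· ∈ A))
      (fun P hP => by simpa using (List.mem_filter.mp hP).2) Bm hBc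
    rw [frwa_filter_length] at h1
    refine (h1.mono (by omega)).congr fun ξ => ?_
    rw [frwa_kept (hID (br ξ)) (w ξ) (v (br ξ)) (hkeep ξ (hID (br ξ))) (ρ (br ξ)) (hvρ (br ξ)),
      hBe ξ]
    refine (frwa_prod_filter _ (· ∈ A) _ fun P hP => ?_).symm
    rw [hB1 ξ P, cpLoc_one]
    intro r hr hr'
    rw [hID] at hr
    exact hP (hr' ▸ hAo (br ξ) r hr)

theorem frwa_prog_wr (hA : A.card ≤ b) (I D : B → Finset (FrReg SH Λ HI))
    (v : ∀ β, CfgOn (frIo (SH := SH) (Λ := Λ) q nb) (D β) → ℂ) (ht : FrwaTame own A I D v)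
    (w : ∀ ξ, CfgOn (frIo (SH := SH) (Λ := Λ) q nb) (I (br ξ)) → ℂ) (hw : ∀ ξ, cpNsq (w ξ) = 1)
    (hkeep : ∀ ξ, I (br ξ) = D (br ξ) → ∀ σ : FrCfg SH Λ q nb,
      w ξ (crOn _ σ) = v (br ξ) (crOn _ σ)) :
    FrwaProg A (b + 1) (fun ξ => frWr own (I (br ξ)) (w ξ)) := by
  rcases ht with ⟨P, hP, Q, hQ, h⟩ | h
  · obtain ⟨st, hP', hQ', hv, hl⟩ := frs_step_wr own P Q (fun ξ => I (br ξ)) w hw
      (fun ξ r hr => h (br ξ) r hr)
    exact ((frwa_prog_step st hv (hP' ▸ hP) (hQ' ▸ hQ)).mono (by omega)).congr hl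
  · choose hID hAo ρ hρ hvρ using h
    have hB := fun ξ => frs_wr_prod own (I (br ξ)) (ρ (br ξ)) (fun r _ => hρ (br ξ) r)
    choose Bm hBc hB1 hBe using hB
    have h1 := frwa_prog_priv (A := A) ((Finset.univ : Finset PP).toList.filter (· ∈ A))
      (fun P hP => by simpa using (List.mem_filter.mp hP).2) Bm hBc
    rw [frwa_filter_length] at h1
    refine (h1.mono (by omega)).congr fun ξ => ?_
    rw [frwa_kept (hID (br ξ)) (w ξ) (v (br ξ)) (hkeep ξ (hID (br ξ))) (ρ (br ξ)) (hvρ (br ξ)),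
      hBe ξ]
    refine (frwa_prod_filter _ (· ∈ A) _ fun P hP => ?_).symm
    rw [hB1 ξ P, cpLoc_one]
    intro r hr hr'
    rw [hID] at hr
    exact hP (hr' ▸ hAo (br ξ) r hr)

end RW

/-! ### input and output legs -/

section Legs

variable {s : Type} [DecidableEq s] {J : ℕ} (D : Fin J → Finset s)

theorem frwa_mem_out (j : Fin J) (r : s) : r ∈ frcOut D j ↔ r ∈ D j ∧ ∀ i, j < i → r ∉ D i := by
  simp only [frcOut, Finset.mem_sdiff, Finset.mem_biUnion, Finset.mem_filter, Finset.mem_univ,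
    true_and, not_exists, not_and]

theorem frwa_mem_in (j : Fin J) (r : s) : r ∈ frcIn D j ↔ r ∈ D j ∧ ∀ i, i < j → r ∉ D i := by
  simp only [frcIn, Finset.mem_sdiff, Finset.mem_biUnion, Finset.mem_filter, Finset.mem_univ,
    true_and, not_exists, not_and]

theorem frwa_out_cover (r : s) : r ∈ Finset.univ.biUnion D ↔ ∃ j, r ∈ frcOut D j := by
  constructor
  · intro h
    obtain ⟨j0, -, hj0⟩ := Finset.mem_biUnion.mp h
    have hT : (Finset.univ.filter fun j => r ∈ D j).Nonempty :=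
      ⟨j0, Finset.mem_filter.mpr ⟨Finset.mem_univ _, hj0⟩⟩
    refine ⟨(Finset.univ.filter fun j => r ∈ D j).max' hT, (frwa_mem_out D _ r).mpr ⟨?_, ?_⟩⟩
    · exact (Finset.mem_filter.mp (Finset.max'_mem _ hT)).2
    · intro i hi hri
      exact absurd (Finset.le_max' _ i (Finset.mem_filter.mpr ⟨Finset.mem_univ _, hri⟩))
        (not_le.mpr hi)
  · rintro ⟨j, hj⟩
    exact Finset.mem_biUnion.mpr ⟨j, Finset.mem_univ _, ((frwa_mem_out D j r).mp hj).1⟩

theorem frwa_in_cover (r : s) : r ∈ Finset.univ.biUnion D ↔ ∃ j, r ∈ frcIn D j := by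
  constructor
  · intro h
    obtain ⟨j0, -, hj0⟩ := Finset.mem_biUnion.mp h
    have hT : (Finset.univ.filter fun j => r ∈ D j).Nonempty :=
      ⟨j0, Finset.mem_filter.mpr ⟨Finset.mem_univ _, hj0⟩⟩
    refine ⟨(Finset.univ.filter fun j => r ∈ D j).min' hT, (frwa_mem_in D _ r).mpr ⟨?_, ?_⟩⟩
    · exact (Finset.mem_filter.mp (Finset.min'_mem _ hT)).2
    · intro i hi hri
      exact absurd (Finset.min'_le _ i (Finset.mem_filter.mpr ⟨Finset.mem_univ _, hri⟩))
        (not_le.mpr hi)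
  · rintro ⟨j, hj⟩
    exact Finset.mem_biUnion.mpr ⟨j, Finset.mem_univ _, ((frwa_mem_in D j r).mp hj).1⟩

theorem frwa_out_disj (j j' : Fin J) (h : j ≠ j') : Disjoint (frcOut D j) (frcOut D j') := by
  rw [Finset.disjoint_left]
  intro r hr hr'
  rw [frwa_mem_out] at hr hr'
  rcases lt_or_gt_of_ne h with h | h
  · exact hr.2 j' h hr'.1
  · exact hr'.2 j h hr.1

theorem frwa_in_disj (j j' : Fin J) (h : j ≠ j') : Disjoint (frcIn D j) (frcIn D j') := by
  rw [Finset.disjoint_left]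
  intro r hr hr'
  rw [frwa_mem_in] at hr hr'
  rcases lt_or_gt_of_ne h with h | h
  · exact hr'.2 j h hr.1
  · exact hr.2 j' h hr'.1

end Legs

section Main

variable {PP SH Λ HI : Type} [Fintype PP] [DecidableEq PP] [Fintype SH] [DecidableEq SH]
  [Fintype Λ] [DecidableEq Λ] [Fintype HI] [DecidableEq HI] {q : ℕ} [NeZero q] {nb : HI → ℕ}

theorem frwa_lift_sub (own own' : FrReg SH Λ HI → PP)
    (X Y : Matrix (FrCfg SH Λ q nb) (FrCfg SH Λ q nb) ℂ) :
    frLift own own' (X - Y) = frLift own own' X - frLift own own' Y := by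
  have h : X - Y = X + (-1 : ℂ) • Y := by rw [neg_one_smul, sub_eq_add_neg]
  rw [h, frs_lift_add, frs_lift_smul, neg_one_smul, sub_eq_add_neg]

/-- the numerical condition -/
theorem frwa_num {R J kk N : ℕ} {η : ℝ} (hη : 0 < η) (hkk1 : 1 ≤ kk)
    (hkk : ((R ^ J * (4 * J) : ℕ) : ℝ) ^ 2 ≤ η ^ 2 * kk) (hN : N ≤ R ^ J) :
    (N : ℝ) * (2 * J / Real.sqrt kk) ≤ η / 2 := by
  have hk0 : (0 : ℝ) < kk := by exact_mod_cast hkk1
  have hs : 0 < Real.sqrt kk := Real.sqrt_pos.mpr hk0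
  have h1 : ((R ^ J * (4 * J) : ℕ) : ℝ) ≤ η * Real.sqrt kk := by
    have h2 : ((R ^ J * (4 * J) : ℕ) : ℝ) ^ 2 ≤ (η * Real.sqrt kk) ^ 2 := by
      rw [mul_pow, Real.sq_sqrt hk0.le]; exact hkk
    exact (pow_le_pow_iff_left₀ (Nat.cast_nonneg _) (by positivity) two_ne_zero).mp h2
  have h3 : (N : ℝ) ≤ ((R ^ J : ℕ) : ℝ) := by exact_mod_cast hN
  have h4 : (N : ℝ) * (2 * J) ≤ η * Real.sqrt kk / 2 := by
    have : (N : ℝ) * (2 * J) ≤ ((R ^ J : ℕ) : ℝ) * (2 * J) :=
      mul_le_mul_of_nonneg_right h3 (by positivity)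
    push_cast at h1 this ⊢
    nlinarith
  rw [← mul_div_assoc, div_le_iff₀ hs]
  calc (N : ℝ) * (2 * J) ≤ η * Real.sqrt kk / 2 := h4
    _ = η / 2 * Real.sqrt kk := by ring

/-- **abstract gate lemma** -/
theorem frwa_gate {J : ℕ} (S : FrwaSys (frIo (SH := SH) (Λ := Λ) q nb) J)
    (hk : ∀ j b, cpNsq (S.k j b) = 1) (hr : ∀ j b, cpNsq (S.r j b) = 1) (hM : CpContr S.op)
    (R b kk : ℕ) (hR1 : 1 ≤ R) (hn : ∀ j, S.n j ≤ R) (η : ℝ) (hη : 0 < η) (hkk1 : 1 ≤ kk)
    (hkk : ((R ^ J * (4 * J) : ℕ) : ℝ) ^ 2 ≤ η ^ 2 * kk)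
    (own own' : FrReg SH Λ HI → PP) (A : Finset PP) (hA : A.card ≤ b) (lead : PP) (hlead : lead ∈ A)
    (hown : ∀ (β : S.Br) r, (∀ j, r ∉ S.DB β j) → own' r = own r)
    (hin : ∀ j, FrwaTame own A (fun β : S.Br => frcIn (S.DB β) j) (fun β => S.DB β j)
      (fun β => S.r j (β j)))
    (hout : ∀ j, FrwaTame own' A (fun β : S.Br => frcOut (S.DB β) j) (fun β => S.DB β j)
      (fun β => S.k j (β j))) :
    ∃ g : CpGate (FrMem PP SH Λ q nb), g.Valid ∧ g.part ⊆ A ∧
      g.cost ≤ ((R ^ J * kk ^ (2 * J) : ℕ) : ℝ) ∧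
      Fintype.card g.Ξ ≤ R ^ J * kk ^ (2 * J) ∧ g.r ≤ 2 * J * (b + 1) ∧
      FrBd (g.op - frLift own own' S.op) η := by
  classical
  have E := fun β : S.Br => frc_expand (S.DB β) (fun j => S.k j (β j)) (fun j => S.r j (β j))
    (fun j => hk j _) (fun j => hr j _) kk hkk1
  choose aF bF cF ha hb hc hka hkb hE using E
  -- labels and product-form operators
  let Ξ := S.Br × (Fin J → Fin kk) × (Fin J → Fin kk)
  let X : Ξ → Matrix (FrCfg SH Λ q nb) (FrCfg SH Λ q nb) ℂ := fun ξ =>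
    frProdOp (Finset.univ.biUnion (S.DB ξ.1)) (frcOut (S.DB ξ.1)) (frcIn (S.DB ξ.1))
      (fun j => aF ξ.1 j (ξ.2.1 j)) (fun j => bF ξ.1 j (ξ.2.2 j))
  let Mt : Matrix (FrCfg SH Λ q nb) (FrCfg SH Λ q nb) ℂ := ∑ ξ : Ξ, cF ξ.1 ξ.2.1 ξ.2.2 • X ξ
  -- programs
  have hrd : ∀ j, FrwaProg A (b + 1)
      (fun ξ : Ξ => frRd own (frcIn (S.DB ξ.1) j) (bF ξ.1 j (ξ.2.2 j))) := fun j =>
    frwa_prog_rd (fun ξ : Ξ => ξ.1) own A b hA _ _ _ (hin j) (fun ξ => bF ξ.1 j (ξ.2.2 j))
      (fun ξ => hb _ _ _) (fun ξ h σ => hkb ξ.1 j h _ σ)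
  have hwr : ∀ j, FrwaProg A (b + 1)
      (fun ξ : Ξ => frWr own' (frcOut (S.DB ξ.1) j) (aF ξ.1 j (ξ.2.1 j))) := fun j =>
    frwa_prog_wr (fun ξ : Ξ => ξ.1) own' A b hA _ _ _ (hout j) (fun ξ => aF ξ.1 j (ξ.2.1 j))
      (fun ξ => ha _ _ _) (fun ξ h σ => hka ξ.1 j h _ σ)
  obtain ⟨l, hl1, hl2, hl3⟩ := (frwa_prog_tprod J (b + 1) _ hrd).mul (frwa_prog_tprod J (b + 1) _ hwr)
  have hlift : ∀ ξ : Ξ, frwaTl (l.map fun st => st.link ξ) = frLift own own' (X ξ) := fun ξ => by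
    rw [hl3]
    exact (frs_lift_prodOp own own' _ _ _ (frwa_out_cover _) (frwa_out_disj _) (frwa_in_cover _)
      (frwa_in_disj _) (fun r hr => hown ξ.1 r fun j hj =>
        hr (Finset.mem_biUnion.mpr ⟨j, Finset.mem_univ _, hj⟩)) _ _).symm
  -- the approximation of the canonical operator
  have hcard : Fintype.card S.Br ≤ R ^ J := by
    rw [Fintype.card_pi]
    simp only [Fintype.card_fin]
    calc ∏ j, S.n j ≤ ∏ _j : Fin J, R := Finset.prod_le_prod' fun j _ => hn j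
      _ = R ^ J := by simp
  have hbd : FrBd (S.op - Mt) (η / 2) := by
    have e1 : S.op = ∑ β : S.Br, frcProd (S.DB β) (fun j => S.k j (β j)) (fun j => S.r j (β j)) :=
      cpTprod_sum J (fun j => Fin (S.n j))
        (fun j b => emb (S.D j b) (vecMulVec (S.k j b) (star (S.r j b))))
    have e2 : Mt = ∑ β : S.Br, ∑ α, ∑ γ, cF β α γ •
        frProdOp (Finset.univ.biUnion (S.DB β)) (frcOut (S.DB β)) (frcIn (S.DB β))
          (fun j => aF β j (α j)) (fun j => bF β j (γ j)) := by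
      show ∑ ξ : Ξ, cF ξ.1 ξ.2.1 ξ.2.2 • X ξ = _
      rw [Fintype.sum_prod_type]
      refine Finset.sum_congr rfl fun β _ => ?_
      rw [Fintype.sum_prod_type]
    rw [e1, e2, ← Finset.sum_sub_distrib]
    have h1 := frn_bd_sum Finset.univ _ (fun _ : S.Br => 2 * (J : ℝ) / Real.sqrt kk)
      (fun _ _ => by positivity) (fun β _ => hE β)
    refine h1.mono (Finset.sum_nonneg fun _ _ => by positivity) ?_
    rw [Finset.sum_const, Finset.card_univ, nsmul_eq_mul]
    exact frwa_num hη hkk1 hkk hcard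
  have hMb : FrBd S.op 1 := (frn_bd_one_iff _).mpr hM
  have hMt : FrBd Mt (1 + η / 2) := by
    have h1 := hMb.sub hbd zero_le_one (by positivity)
    rwa [sub_sub_cancel] at h1
  -- the scalar
  set z : ℂ := (((1 + η / 2)⁻¹ : ℝ) : ℂ) with hz
  have hz0 : (0 : ℝ) < 1 + η / 2 := by positivity
  have hzn : ‖z‖ = (1 + η / 2)⁻¹ := by
    rw [hz, Complex.norm_real, Real.norm_of_nonneg (inv_nonneg.mpr hz0.le)]
  have hzn1 : ‖z‖ ≤ 1 := by rw [hzn]; exact inv_le_one_of_one_le₀ (by linarith)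
  have hz1 : ‖z - 1‖ ≤ η / 2 := by
    have : z - 1 = (((1 + η / 2)⁻¹ - 1 : ℝ) : ℂ) := by rw [hz]; push_cast; ring
    rw [this, Complex.norm_real, Real.norm_eq_abs, abs_sub_comm, abs_of_nonneg]
    · have h2 : 1 - (1 + η / 2)⁻¹ = (η / 2) * (1 + η / 2)⁻¹ := by field_simp; ring
      rw [h2]
      calc η / 2 * (1 + η / 2)⁻¹ ≤ η / 2 * 1 :=
            mul_le_mul_of_nonneg_left (inv_le_one_of_one_le₀ (by linarith)) (by positivity)
        _ = η / 2 := mul_one _
    · rw [sub_nonneg]; exact inv_le_one_of_one_le₀ (by linarith)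
  have hzM1 : FrBd (z • Mt) 1 := by
    have h1 := hMt.smul z
    rwa [hzn, inv_mul_cancel₀ hz0.ne'] at h1
  have hzM : FrBd (z • Mt - S.op) η := by
    have e : z • Mt - S.op = z • (-(S.op - Mt)) + (z - 1) • S.op := by
      rw [neg_sub, smul_sub, sub_smul, one_smul]; abel
    rw [e]
    have h1 := (hbd.neg.smul z).add (hMb.smul (z - 1)) (by positivity) (by positivity)
    refine h1.mono (by positivity) ?_
    calc ‖z‖ * (η / 2) + ‖z - 1‖ * 1 ≤ 1 * (η / 2) + η / 2 * 1 :=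
          add_le_add (mul_le_mul_of_nonneg_right hzn1 (by positivity))
            (mul_le_mul_of_nonneg_right hz1 zero_le_one)
      _ = η := by ring
  -- the gate
  let g : CpGate (FrMem PP SH Λ q nb) := frwaGate Ξ (fun ξ => z * cF ξ.1 ξ.2.1 ξ.2.2) l lead
  have hop : g.op = frLift own own' (z • Mt) := by
    show ∑ ξ : Ξ, (z * cF ξ.1 ξ.2.1 ξ.2.2) • g.mono ξ = _
    rw [frs_lift_smul]
    show _ = z • frLift own own' (∑ ξ : Ξ, cF ξ.1 ξ.2.1 ξ.2.2 • X ξ)
    rw [frs_lift_sum, Finset.smul_sum]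
    refine Finset.sum_congr rfl fun ξ _ => ?_
    rw [frs_lift_smul, smul_smul, ← hlift ξ]
    congr 1
    exact frwa_gate_mono Ξ _ l lead ξ
  have hΞ : Fintype.card Ξ ≤ R ^ J * kk ^ (2 * J) := by
    show Fintype.card (S.Br × (Fin J → Fin kk) × (Fin J → Fin kk)) ≤ _
    rw [Fintype.card_prod, Fintype.card_prod, Fintype.card_fun, Fintype.card_fin, Fintype.card_fin,
      two_mul, pow_add]
    exact Nat.mul_le_mul_right _ hcard
  refine ⟨g, ⟨fun i => (hl2 _ (List.get_mem l i)).1, ?_⟩, ?_, ?_, hΞ, ?_, ?_⟩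
  · rw [hop]
    exact (frn_bd_one_iff _).mp (frs_lift_bd own own' _ 1 hzM1)
  · exact frwa_gate_part Ξ _ l lead A hlead fun st hst => (hl2 st hst).2
  · show max 1 (∑ ξ : Ξ, ‖z * cF ξ.1 ξ.2.1 ξ.2.2‖) ≤ _
    refine max_le ?_ ?_
    · have : 1 ≤ R ^ J * kk ^ (2 * J) :=
        Nat.one_le_iff_ne_zero.mpr (Nat.mul_ne_zero (pow_ne_zero _ (by omega))
          (pow_ne_zero _ (by omega)))
      exact_mod_cast this
    · calc ∑ ξ : Ξ, ‖z * cF ξ.1 ξ.2.1 ξ.2.2‖ ≤ ∑ _ξ : Ξ, (1 : ℝ) := by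
            refine Finset.sum_le_sum fun ξ _ => ?_
            rw [norm_mul]
            exact mul_le_one₀ hzn1 (norm_nonneg _) (hc _ _ _)
        _ = (Fintype.card Ξ : ℝ) := by simp
        _ ≤ _ := by exact_mod_cast hΞ
  · show l.length ≤ _
    refine hl1.trans (le_of_eq ?_)
    ring
  · rw [hop, ← frwa_lift_sub]
    exact frs_lift_bd own own' _ η hzM

end Main

end Claimed.Agent.R296
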