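import Claimed.Agent.R296.P2.FrEnc

/-!
# Row 296, paper 2, Lemma 5.4, package REW-B: encoders and patch projectors as sums of rank-one cylinders (prefix `frwb`)

Architect: helper212.  Proofs: helper246 (no `sorry` in this file).

Registers `FrReg SH Λ HI`, `io = frIo q (frNb pat)`.  Three kinds of factors of the rewrite map on the sheet `s`:
`old` : `(frEnc pat s a)ᴴ`,  `patch` : `frSheet s (frPatP (pat a))`,  `new` : `frEnc pat s a`.
Each is `∑ b, emb (frwbD κ a b) |frwbKet κ a b⟩⟨frwbBra κ a b|`; the tag register stays INSIDE the hole cylinders: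
`frwbD κ a b = {tag (s,a)} ∪ raw (s, D b)` for `κ ≠ patch`.
Vectors on `CfgOn io D` are defined through global amplitude functions evaluated at the extension `frwbExt` of a partial
configuration by base values (no dependent pattern matching).

PROOFS.  `frwb_fac`: entrywise.  `emb D (vecMulVec k (star r)) σ' σ = if crOff D σ' = crOff D σ then k (crOn D σ') * star (r (crOn D σ))`;
the amplitude functions depend only on the registers in `D`, so `f (frwbExt D (crOn D σ)) = f σ` (prove `frwb_ext_raw`,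
`frwb_ext_tag` first: `frRaw (frwbExt D (crOn D σ)) s x = frRaw σ s x` for `inl (s,x) ∈ D`).  Compare with the definition of `frEnc`
(term by term in `b`): the conditions of `frEnc` say: tags as prescribed, `σ' = 0` on `D b`, `σ' = σ` on all other registers, i.e.
`crOff`-equality.  For `patch`: `frSheet s (emb (D b) (pureOp v))` entrywise (`fre_sheet_*` may help: `frSheet` of a sum).
Norms: `cpNsq` on `CfgOn io (frwbD ..)` : reindex `CfgOn io (frwbD κ a b) ≃ (tag value) × CfgOn (fun _ => Fin q) (D b)` or sum over the fibres;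
`(pat a).unit` gives `∑ ‖v b c‖² = 1`.  Product forms: let `σ₀ = Function.update (fr0 q nb) (inr (s,a)) (some b)` and
`ρ r t = if t = σ₀ r then 1 else 0` (no dependent case distinction needed).
-/

set_option autoImplicit false
set_option linter.unusedSectionVars false

namespace Claimed.Agent.R296

open Matrix

/-- the three kinds of factors of a rewrite map -/
inductive FrwKind
  | old
  | patch
  | new
  deriving DecidableEq

variable {SH Λ HI : Type} [Fintype SH] [DecidableEq SH]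
  [Fintype Λ] [DecidableEq Λ] [Fintype HI] [DecidableEq HI] {q : ℕ} [NeZero q]

/-- extension of a partial configuration by base values -/
def frwbExt {nb : HI → ℕ} (D : Finset (FrReg SH Λ HI))
    (c : CfgOn (frIo (SH := SH) (Λ := Λ) q nb) D) : FrCfg SH Λ q nb :=
  fun r => if h : r ∈ D then c ⟨r, h⟩ else fr0 q nb r

variable {Ω : (Λ → Fin q) → ℂ} {ε : ℝ} (pat : HI → FrPatch Ω ε) (s : SH)

/-- support of a cylinder -/
def frwbD (κ : FrwKind) (a : HI) (b : Fin (pat a).nb) : Finset (FrReg SH Λ HI) :=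
  (if κ = FrwKind.patch then ∅ else {Sum.inr (s, a)}) ∪ ((pat a).D b).image fun x => Sum.inl (s, x)

/-- amplitude `v_b` of the raw registers in `D b` -/
def frwbV (a : HI) (b : Fin (pat a).nb) (σ : FrCfg SH Λ q (frNb pat)) : ℂ :=
  (pat a).v b (fun x => frRaw σ s x.1)

/-- indicator of the zero configuration on `D b` -/
def frwbZ (a : HI) (b : Fin (pat a).nb) (σ : FrCfg SH Λ q (frNb pat)) : ℂ :=
  if ∀ x ∈ (pat a).D b, frRaw σ s x = 0 then 1 else 0

/-- indicator of a tag value -/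
def frwbT (a : HI) (t : Option (Fin (pat a).nb)) (σ : FrCfg SH Λ q (frNb pat)) : ℂ :=
  if frTag σ s a = t then 1 else 0

/-- global amplitude of the ket -/
def frwbKetG (κ : FrwKind) (a : HI) (b : Fin (pat a).nb) (σ : FrCfg SH Λ q (frNb pat)) : ℂ :=
  match κ with
  | .old => frwbT pat s a none σ * frwbV pat s a b σ
  | .patch => frwbV pat s a b σ
  | .new => frwbT pat s a (some b) σ * frwbZ pat s a b σ

/-- global amplitude of the bra (as a vector; it enters conjugated) -/
def frwbBraG (κ : FrwKind) (a : HI) (b : Fin (pat a).nb) (σ : FrCfg SH Λ q (frNb pat)) : ℂ :=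
  match κ with
  | .old => frwbT pat s a (some b) σ * frwbZ pat s a b σ
  | .patch => frwbV pat s a b σ
  | .new => frwbT pat s a none σ * frwbV pat s a b σ

/-- the ket of a cylinder -/
def frwbKet (κ : FrwKind) (a : HI) (b : Fin (pat a).nb) :
    CfgOn (frIo (SH := SH) (Λ := Λ) q (frNb pat)) (frwbD pat s κ a b) → ℂ :=
  fun c => frwbKetG pat s κ a b (frwbExt _ c)

/-- the bra of a cylinder -/
def frwbBra (κ : FrwKind) (a : HI) (b : Fin (pat a).nb) :
    CfgOn (frIo (SH := SH) (Λ := Λ) q (frNb pat)) (frwbD pat s κ a b) → ℂ :=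
  fun c => frwbBraG pat s κ a b (frwbExt _ c)

/-- the factor of the rewrite map -/
def frwbFac (κ : FrwKind) (a : HI) : Matrix (FrCfg SH Λ q (frNb pat)) (FrCfg SH Λ q (frNb pat)) ℂ :=
  match κ with
  | .old => (frEnc pat s a)ᴴ
  | .patch => frSheet s (frPatP (pat a))
  | .new => frEnc pat s a

/-! ### membership in the supports, the extension -/

theorem frwb_inl_mem {κ : FrwKind} {a : HI} {b : Fin (pat a).nb} {s' : SH} {x : Λ} :
    (Sum.inl (s', x) : FrReg SH Λ HI) ∈ frwbD pat s κ a b ↔ s' = s ∧ x ∈ (pat a).D b := by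
  unfold frwbD
  rw [Finset.mem_union]
  constructor
  · rintro (h | h)
    · split_ifs at h <;> simp at h
    · exact inl_mem_frRS.1 h
  · intro h
    exact Or.inr (inl_mem_frRS.2 h)

theorem frwb_inr_mem {κ : FrwKind} {a : HI} {b : Fin (pat a).nb} {p : SH × HI} :
    (Sum.inr p : FrReg SH Λ HI) ∈ frwbD pat s κ a b ↔ κ ≠ FrwKind.patch ∧ p = (s, a) := by
  unfold frwbD
  rw [Finset.mem_union]
  constructor
  · rintro (h | h)
    · split_ifs at h with hκ
      · simp at h
      · exact ⟨hκ, by simpa using h⟩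
    · exact absurd h inr_notMem_frRS
  · rintro ⟨hκ, rfl⟩
    left
    rw [if_neg hκ]
    exact Finset.mem_singleton_self _

theorem frwb_ext_of_mem {nb : HI → ℕ} (D : Finset (FrReg SH Λ HI))
    (c : CfgOn (frIo (SH := SH) (Λ := Λ) q nb) D) {r : FrReg SH Λ HI} (h : r ∈ D) :
    frwbExt D c r = c ⟨r, h⟩ := dif_pos h

theorem frwb_ext_crOn {nb : HI → ℕ} (D : Finset (FrReg SH Λ HI)) (σ : FrCfg SH Λ q nb)
    {r : FrReg SH Λ HI} (h : r ∈ D) : frwbExt D (crOn D σ) r = σ r := dif_pos h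

theorem frwb_crOn_ext {nb : HI → ℕ} (D : Finset (FrReg SH Λ HI))
    (c : CfgOn (frIo (SH := SH) (Λ := Λ) q nb) D) : crOn D (frwbExt D c) = c := by
  funext x
  exact frwb_ext_of_mem D c x.2

theorem frwb_crOn_congr {nb : HI → ℕ} (D : Finset (FrReg SH Λ HI)) {σ σ' : FrCfg SH Λ q nb}
    (h : ∀ r ∈ D, σ r = σ' r) : crOn D σ = crOn D σ' := by
  funext x
  exact h x.1 x.2

theorem frwb_ext_raw {nb : HI → ℕ} (D : Finset (FrReg SH Λ HI)) (σ : FrCfg SH Λ q nb) {s' : SH}
    {x : Λ} (h : Sum.inl (s', x) ∈ D) : frRaw (frwbExt D (crOn D σ)) s' x = frRaw σ s' x :=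
  frwb_ext_crOn D σ h

theorem frwb_ext_tag {nb : HI → ℕ} (D : Finset (FrReg SH Λ HI)) (σ : FrCfg SH Λ q nb) {s' : SH}
    {a : HI} (h : Sum.inr (s', a) ∈ D) : frTag (frwbExt D (crOn D σ)) s' a = frTag σ s' a :=
  frwb_ext_crOn D σ h

/-! ### the amplitudes depend only on the registers of the support -/

theorem frwbV_congr (a : HI) (b : Fin (pat a).nb) {σ σ' : FrCfg SH Λ q (frNb pat)}
    (h : ∀ x ∈ (pat a).D b, frRaw σ s x = frRaw σ' s x) : frwbV pat s a b σ = frwbV pat s a b σ' := by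
  unfold frwbV
  congr 1
  funext x
  exact h x.1 x.2

theorem frwbZ_congr (a : HI) (b : Fin (pat a).nb) {σ σ' : FrCfg SH Λ q (frNb pat)}
    (h : ∀ x ∈ (pat a).D b, frRaw σ s x = frRaw σ' s x) : frwbZ pat s a b σ = frwbZ pat s a b σ' := by
  unfold frwbZ
  have : (∀ x ∈ (pat a).D b, frRaw σ s x = 0) ↔ ∀ x ∈ (pat a).D b, frRaw σ' s x = 0 :=
    forall₂_congr fun x hx => by rw [h x hx]
  simp only [this]

theorem frwbT_congr (a : HI) (t : Option (Fin (pat a).nb)) {σ σ' : FrCfg SH Λ q (frNb pat)}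
    (h : frTag σ s a = frTag σ' s a) : frwbT pat s a t σ = frwbT pat s a t σ' := by
  unfold frwbT
  rw [h]

theorem frwbKetG_congr (κ : FrwKind) (a : HI) (b : Fin (pat a).nb)
    {σ σ' : FrCfg SH Λ q (frNb pat)} (h : ∀ r ∈ frwbD pat s κ a b, σ r = σ' r) :
    frwbKetG pat s κ a b σ = frwbKetG pat s κ a b σ' := by
  have h1 : ∀ x ∈ (pat a).D b, frRaw σ s x = frRaw σ' s x := fun x hx =>
    h _ ((frwb_inl_mem pat s).2 ⟨rfl, hx⟩)
  have h2 : κ ≠ FrwKind.patch → frTag σ s a = frTag σ' s a := fun hκ =>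
    h _ ((frwb_inr_mem pat s).2 ⟨hκ, rfl⟩)
  cases κ
  · simp only [frwbKetG]
    rw [frwbT_congr pat s a _ (h2 (by decide)), frwbV_congr pat s a b h1]
  · simp only [frwbKetG]
    rw [frwbV_congr pat s a b h1]
  · simp only [frwbKetG]
    rw [frwbT_congr pat s a _ (h2 (by decide)), frwbZ_congr pat s a b h1]

theorem frwbBraG_congr (κ : FrwKind) (a : HI) (b : Fin (pat a).nb)
    {σ σ' : FrCfg SH Λ q (frNb pat)} (h : ∀ r ∈ frwbD pat s κ a b, σ r = σ' r) :
    frwbBraG pat s κ a b σ = frwbBraG pat s κ a b σ' := by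
  have h1 : ∀ x ∈ (pat a).D b, frRaw σ s x = frRaw σ' s x := fun x hx =>
    h _ ((frwb_inl_mem pat s).2 ⟨rfl, hx⟩)
  have h2 : κ ≠ FrwKind.patch → frTag σ s a = frTag σ' s a := fun hκ =>
    h _ ((frwb_inr_mem pat s).2 ⟨hκ, rfl⟩)
  cases κ
  · simp only [frwbBraG]
    rw [frwbT_congr pat s a _ (h2 (by decide)), frwbZ_congr pat s a b h1]
  · simp only [frwbBraG]
    rw [frwbV_congr pat s a b h1]
  · simp only [frwbBraG]
    rw [frwbT_congr pat s a _ (h2 (by decide)), frwbV_congr pat s a b h1]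

theorem frwbKet_crOn (κ : FrwKind) (a : HI) (b : Fin (pat a).nb) (σ : FrCfg SH Λ q (frNb pat)) :
    frwbKet pat s κ a b (crOn _ σ) = frwbKetG pat s κ a b σ :=
  frwbKetG_congr pat s κ a b fun _ hr => frwb_ext_crOn _ σ hr

theorem frwbBra_crOn (κ : FrwKind) (a : HI) (b : Fin (pat a).nb) (σ : FrCfg SH Λ q (frNb pat)) :
    frwbBra pat s κ a b (crOn _ σ) = frwbBraG pat s κ a b σ :=
  frwbBraG_congr pat s κ a b fun _ hr => frwb_ext_crOn _ σ hr

/-- equality off the support -/
theorem frwb_crOff_iff (κ : FrwKind) (a : HI) (b : Fin (pat a).nb)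
    (σ' σ : FrCfg SH Λ q (frNb pat)) :
    crOff (frwbD pat s κ a b) σ' = crOff (frwbD pat s κ a b) σ ↔
      (∀ x, x ∉ (pat a).D b → frRaw σ' s x = frRaw σ s x) ∧
      (∀ s' x, s' ≠ s → frRaw σ' s' x = frRaw σ s' x) ∧
      (∀ s' a', (κ = FrwKind.patch ∨ (s', a') ≠ (s, a)) → frTag σ' s' a' = frTag σ s' a') := by
  constructor
  · intro h
    refine ⟨fun x hx => ?_, fun s' x hs => ?_, fun s' a' hp => ?_⟩
    · exact congrFun h ⟨Sum.inl (s, x), fun hm => hx ((frwb_inl_mem pat s).1 hm).2⟩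
    · exact congrFun h ⟨Sum.inl (s', x), fun hm => hs ((frwb_inl_mem pat s).1 hm).1⟩
    · refine congrFun h ⟨Sum.inr (s', a'), fun hm => ?_⟩
      obtain ⟨h1, h2⟩ := (frwb_inr_mem pat s).1 hm
      rcases hp with hp | hp
      · exact h1 hp
      · exact hp h2
  · rintro ⟨h1, h2, h3⟩
    funext r
    rcases r with ⟨r, hr⟩
    rcases r with ⟨s', x⟩ | ⟨s', a'⟩
    · by_cases hs : s' = s
      · subst hs
        exact h1 x fun hx => hr ((frwb_inl_mem pat s').2 ⟨rfl, hx⟩)
      · exact h2 s' x hs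
    · refine h3 s' a' ?_
      by_contra hcon
      rw [not_or, not_not] at hcon
      exact hr ((frwb_inr_mem pat s).2 hcon)

/-- entries of a cylinder -/
theorem frwb_cyl_apply (κ : FrwKind) (a : HI) (b : Fin (pat a).nb)
    (σ' σ : FrCfg SH Λ q (frNb pat)) :
    emb (frwbD pat s κ a b) (vecMulVec (frwbKet pat s κ a b) (star (frwbBra pat s κ a b))) σ' σ =
      if crOff (frwbD pat s κ a b) σ' = crOff (frwbD pat s κ a b) σ then
        frwbKetG pat s κ a b σ' * star (frwbBraG pat s κ a b σ) else 0 := by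
  simp only [emb, Matrix.of_apply, vecMulVec_apply, Pi.star_apply, frwbKet_crOn, frwbBra_crOn]

theorem frwb_encB_eq (a : HI) (b : Fin (pat a).nb) :
    frEncB pat s a b = emb (frwbD pat s FrwKind.new a b)
      (vecMulVec (frwbKet pat s FrwKind.new a b) (star (frwbBra pat s FrwKind.new a b))) := by
  ext σ' σ
  rw [frwb_cyl_apply]
  simp only [frwb_crOff_iff, frEncB, Matrix.of_apply, frwbKetG, frwbBraG, frwbT, frwbZ, frwbV]
  by_cases h1 : frTag σ s a = none
  · by_cases h2 : frTag σ' s a = some b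
    · by_cases h3 : ∀ x ∈ (pat a).D b, frRaw σ' s x = 0
      · simp [h1, h2, eq_true h3]
      · simp [eq_false h3]
    · simp [h2]
  · simp [h1]

theorem frwb_encB_adj_eq (a : HI) (b : Fin (pat a).nb) :
    (frEncB pat s a b)ᴴ = emb (frwbD pat s FrwKind.old a b)
      (vecMulVec (frwbKet pat s FrwKind.old a b) (star (frwbBra pat s FrwKind.old a b))) := by
  ext σ' σ
  rw [frwb_cyl_apply, conjTranspose_apply]
  have hc := frwb_crOff_iff pat s FrwKind.old a b σ σ'
  rw [eq_comm] at hc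
  simp only [hc, frEncB, Matrix.of_apply, frwbKetG, frwbBraG, frwbT, frwbZ, frwbV]
  by_cases h1 : frTag σ' s a = none
  · by_cases h2 : frTag σ s a = some b
    · by_cases h3 : ∀ x ∈ (pat a).D b, frRaw σ s x = 0
      · simp only [h1, h2, eq_true h3, true_and, if_true, one_mul, mul_one, star_one, reduceCtorEq,
          false_or]
        split_ifs <;> simp
      · simp [eq_false h3]
    · simp [h2]
  · simp [h1]

theorem frwb_sheet_eq (a : HI) (b : Fin (pat a).nb) :
    frSheet s (emb (io := fun _ : Λ => Fin q) ((pat a).D b) (pureOp ((pat a).v b))) =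
      emb (frwbD pat s FrwKind.patch a b)
      (vecMulVec (frwbKet pat s FrwKind.patch a b) (star (frwbBra pat s FrwKind.patch a b))) := by
  ext σ' σ
  rw [frwb_cyl_apply]
  have hc : crOff (io := fun _ : Λ => Fin q) ((pat a).D b) (frRaw σ' s) = crOff ((pat a).D b) (frRaw σ s) ↔
      ∀ x, x ∉ (pat a).D b → frRaw σ' s x = frRaw σ s x :=
    ⟨fun h x hx => congrFun h ⟨x, hx⟩, fun h => funext fun x => h x.1 x.2⟩
  simp only [frwb_crOff_iff, frSheet, emb, pureOp, Matrix.of_apply, vecMulVec_apply, Pi.star_apply,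
    frwbKetG, frwbBraG, frwbV, hc, true_or, forall_const]
  by_cases h1 : ∀ x, x ∉ (pat a).D b → frRaw σ' s x = frRaw σ s x
  · simp only [eq_true h1, if_true, true_and]
    rfl
  · simp [eq_false h1]

/-- LEAF REW-B1: every factor is a sum of rank-one cylinders -/
theorem frwb_fac (κ : FrwKind) (a : HI) :
    frwbFac pat s κ a = ∑ b, emb (frwbD pat s κ a b)
      (vecMulVec (frwbKet pat s κ a b) (star (frwbBra pat s κ a b))) := by
  cases κ
  · simp only [frwbFac, frEnc_eq_sum, conjTranspose_sum, frwb_encB_adj_eq]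
  · simp only [frwbFac, frPatP, fre_sheet_sum, frwb_sheet_eq]
  · simp only [frwbFac, frEnc_eq_sum, frwb_encB_eq]

/-! ### norms -/

/-- a product of one-register unit vectors is a unit vector -/
theorem frwb_prod_nsq {nb : HI → ℕ} (D : Finset (FrReg SH Λ HI))
    (ρ : ∀ r : FrReg SH Λ HI, frIo q nb r → ℂ) (hρ : ∀ r, cpNsq (ρ r) = 1) :
    cpNsq (fun c : CfgOn (frIo (SH := SH) (Λ := Λ) q nb) D => ∏ x, ρ x.1 (c x)) = 1 := by
  unfold cpNsq
  simp only [norm_prod, ← Finset.prod_pow]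
  rw [← Fintype.piFinset_univ,
    ← Finset.prod_univ_sum (fun _ => Finset.univ) (fun (x : {x // x ∈ D}) t => ‖ρ x.1 t‖ ^ 2)]
  exact Finset.prod_eq_one fun x _ => hρ x.1

/-- the base configuration with the tag `(s, a)` set to `some b` -/
def frwbS0 (a : HI) (b : Fin (pat a).nb) : FrCfg SH Λ q (frNb pat) :=
  Function.update (fr0 q (frNb pat)) (Sum.inr (s, a)) (some b : Option (Fin (pat a).nb))

/-- the one-register basis vectors of `frwbS0` -/
def frwbRho (a : HI) (b : Fin (pat a).nb) (r : FrReg SH Λ HI) (t : frIo q (frNb pat) r) : ℂ :=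
  if t = frwbS0 pat s a b r then 1 else 0

theorem frwbRho_nsq (a : HI) (b : Fin (pat a).nb) (r : FrReg SH Λ HI) :
    cpNsq (frwbRho pat s a b r) = 1 := by
  unfold cpNsq frwbRho
  rw [Finset.sum_eq_single (frwbS0 pat s a b r)]
  · simp
  · intro t _ ht
    simp [ht]
  · simp

theorem frwbS0_raw (a : HI) (b : Fin (pat a).nb) (s' : SH) (x : Λ) :
    frwbS0 pat s a b (Sum.inl (s', x)) = (0 : Fin q) :=
  Function.update_of_ne (β := frIo q (frNb pat)) (by simp) _ _

theorem frwbS0_tag (a : HI) (b : Fin (pat a).nb) :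
    frwbS0 pat s a b (Sum.inr (s, a)) = (some b : Option (Fin (pat a).nb)) :=
  Function.update_self (β := frIo q (frNb pat)) _ _ _

/-- the amplitude `|some b⟩ ⊗ |0 ... 0⟩` is a product -/
theorem frwb_TZ_prod {κ : FrwKind} (hκ : κ ≠ FrwKind.patch) (a : HI) (b : Fin (pat a).nb)
    (c : CfgOn (frIo (SH := SH) (Λ := Λ) q (frNb pat)) (frwbD pat s κ a b)) :
    frwbT pat s a (some b) (frwbExt _ c) * frwbZ pat s a b (frwbExt _ c) =
      ∏ x, frwbRho pat s a b x.1 (c x) := by
  have hiff : (∀ x, c x = frwbS0 pat s a b x.1) ↔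
      frTag (frwbExt _ c) s a = some b ∧ ∀ x ∈ (pat a).D b, frRaw (frwbExt _ c) s x = 0 := by
    constructor
    · intro h
      refine ⟨?_, fun x hx => ?_⟩
      · have hm : (Sum.inr (s, a) : FrReg SH Λ HI) ∈ frwbD pat s κ a b :=
          (frwb_inr_mem pat s).2 ⟨hκ, rfl⟩
        have h1 : frTag (frwbExt _ c) s a = c ⟨_, hm⟩ := frwb_ext_of_mem _ c hm
        rw [h1, h ⟨_, hm⟩]
        exact frwbS0_tag pat s a b
      · have hm : (Sum.inl (s, x) : FrReg SH Λ HI) ∈ frwbD pat s κ a b :=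
          (frwb_inl_mem pat s).2 ⟨rfl, hx⟩
        have h1 : frRaw (frwbExt _ c) s x = c ⟨_, hm⟩ := frwb_ext_of_mem _ c hm
        rw [h1, h ⟨_, hm⟩]
        exact frwbS0_raw pat s a b s x
    · rintro ⟨h1, h2⟩ ⟨r, hr⟩
      rw [← frwb_ext_of_mem _ c hr]
      rcases r with ⟨s', x⟩ | p
      · obtain ⟨rfl, hx⟩ := (frwb_inl_mem pat s).1 hr
        exact (h2 x hx).trans (frwbS0_raw pat s' a b s' x).symm
      · obtain ⟨-, rfl⟩ := (frwb_inr_mem pat s).1 hr
        exact h1.trans (frwbS0_tag pat s a b).symm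
  unfold frwbRho
  rw [Finset.prod_ite_zero]
  simp only [Finset.mem_univ, forall_const, Finset.prod_const_one, hiff, frwbT, frwbZ]
  by_cases h1 : frTag (frwbExt _ c) s a = some b
  · simp [h1]
  · simp [h1]

/-- a configuration with the tag `(s, a)` equal to `t` and the raw values `c` on `D b` (on every sheet) -/
def frwbLift (a : HI) (b : Fin (pat a).nb) (t : Option (Fin (pat a).nb))
    (c : CfgOn (fun _ : Λ => Fin q) ((pat a).D b)) : FrCfg SH Λ q (frNb pat) :=
  Function.update (β := frIo q (frNb pat)) (fun r => match r with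
    | .inl p => if h : p.2 ∈ (pat a).D b then c ⟨p.2, h⟩ else (0 : Fin q)
    | .inr _ => (none : Option (Fin _))) (Sum.inr (s, a)) t

theorem frwbLift_raw (a : HI) (b : Fin (pat a).nb) (t : Option (Fin (pat a).nb))
    (c : CfgOn (fun _ : Λ => Fin q) ((pat a).D b)) (s' : SH) {x : Λ} (hx : x ∈ (pat a).D b) :
    frRaw (frwbLift pat s a b t c) s' x = c ⟨x, hx⟩ := by
  have h : frwbLift pat s a b t c (Sum.inl (s', x)) =
      (if h : x ∈ (pat a).D b then c ⟨x, h⟩ else (0 : Fin q)) :=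
    Function.update_of_ne (β := frIo q (frNb pat)) (by simp) _ _
  exact h.trans (dif_pos hx)

theorem frwbLift_tag (a : HI) (b : Fin (pat a).nb) (t : Option (Fin (pat a).nb))
    (c : CfgOn (fun _ : Λ => Fin q) ((pat a).D b)) : frTag (frwbLift pat s a b t c) s a = t := by
  have h : frwbLift pat s a b t c (Sum.inr (s, a)) = t :=
    Function.update_self (β := frIo q (frNb pat)) _ _ _
  exact h

theorem frwbV_lift (a : HI) (b : Fin (pat a).nb) (t : Option (Fin (pat a).nb))
    (c : CfgOn (fun _ : Λ => Fin q) ((pat a).D b)) :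
    frwbV pat s a b (frwbLift pat s a b t c) = (pat a).v b c := by
  unfold frwbV
  congr 1
  funext x
  exact frwbLift_raw pat s a b t c s x.2

/-- reduction of the norm on a cylinder to the norm of `v b` -/
theorem frwb_nsq_of_lift (κ : FrwKind) (a : HI) (b : Fin (pat a).nb) (t : Option (Fin (pat a).nb))
    (g : FrCfg SH Λ q (frNb pat) → ℂ)
    (hg : ∀ σ σ' : FrCfg SH Λ q (frNb pat), (∀ r ∈ frwbD pat s κ a b, σ r = σ' r) → g σ = g σ')
    (h1 : ∀ c, g (frwbLift pat s a b t c) = (pat a).v b c)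
    (h2 : ∀ σ, g σ ≠ 0 → κ ≠ FrwKind.patch → frTag σ s a = t) :
    cpNsq (fun c : CfgOn (frIo (SH := SH) (Λ := Λ) q (frNb pat)) (frwbD pat s κ a b) =>
      g (frwbExt _ c)) = 1 := by
  rw [← fre_nsq_eq_one ((pat a).unit b)]
  unfold cpNsq
  symm
  refine Finset.sum_of_injOn (fun c => crOn (frwbD pat s κ a b) (frwbLift pat s a b t c)) ?_ ?_ ?_ ?_
  · intro c _ c' _ h
    funext x
    have hm : (Sum.inl (s, x.1) : FrReg SH Λ HI) ∈ frwbD pat s κ a b :=
      (frwb_inl_mem pat s).2 ⟨rfl, x.2⟩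
    have h3 := congrFun h ⟨_, hm⟩
    have e1 := frwbLift_raw pat s a b t c s x.2
    have e2 := frwbLift_raw pat s a b t c' s x.2
    exact e1.symm.trans (h3.trans e2)
  · intro c _
    exact Finset.mem_coe.2 (Finset.mem_univ _)
  · intro c _ hc
    by_contra hne
    have hne' : g (frwbExt _ c) ≠ 0 := fun h0 => hne (by beta_reduce; rw [h0]; simp)
    apply hc
    refine ⟨fun x => frRaw (frwbExt _ c) s x.1, Finset.mem_coe.2 (Finset.mem_univ _), ?_⟩
    refine Eq.trans (frwb_crOn_congr _ fun r hr => ?_) (frwb_crOn_ext _ c)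
    rcases r with ⟨s', x⟩ | p
    · obtain ⟨rfl, hx⟩ := (frwb_inl_mem pat s).1 hr
      exact frwbLift_raw pat s' a b t _ s' hx
    · obtain ⟨hκ, rfl⟩ := (frwb_inr_mem pat s).1 hr
      exact (frwbLift_tag pat s a b t _).trans (h2 _ hne' hκ).symm
  · intro c _
    beta_reduce
    rw [hg (frwbExt _ (crOn _ (frwbLift pat s a b t c))) (frwbLift pat s a b t c)
      fun r hr => frwb_ext_crOn _ _ hr, h1]

theorem frwb_nsq_TV {κ : FrwKind} (a : HI) (b : Fin (pat a).nb) :
    cpNsq (fun c : CfgOn (frIo (SH := SH) (Λ := Λ) q (frNb pat)) (frwbD pat s κ a b) =>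
      frwbT pat s a none (frwbExt _ c) * frwbV pat s a b (frwbExt _ c)) = 1 ∨ κ = FrwKind.patch := by
  by_cases hκ : κ = FrwKind.patch
  · exact Or.inr hκ
  left
  refine frwb_nsq_of_lift pat s κ a b none
    (fun σ => frwbT pat s a none σ * frwbV pat s a b σ) ?_ ?_ ?_
  · intro σ σ' h
    rw [frwbT_congr pat s a _ (h _ ((frwb_inr_mem pat s).2 ⟨hκ, rfl⟩) : frTag σ s a = frTag σ' s a),
      frwbV_congr pat s a b fun x hx => h _ ((frwb_inl_mem pat s).2 ⟨rfl, hx⟩)]
  · intro c
    simp only [frwbV_lift, frwbT, frwbLift_tag, if_true, one_mul]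
  · intro σ hσ _
    by_contra hne
    exact hσ (by simp [frwbT, hne])

theorem frwb_nsq_V (a : HI) (b : Fin (pat a).nb) :
    cpNsq (fun c : CfgOn (frIo (SH := SH) (Λ := Λ) q (frNb pat))
      (frwbD pat s FrwKind.patch a b) => frwbV pat s a b (frwbExt _ c)) = 1 :=
  frwb_nsq_of_lift pat s FrwKind.patch a b none (fun σ => frwbV pat s a b σ)
    (fun _ _ h => frwbV_congr pat s a b fun _ hx => h _ ((frwb_inl_mem pat s).2 ⟨rfl, hx⟩))
    (fun c => frwbV_lift pat s a b none c) (fun _ _ h => absurd rfl h)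

theorem frwb_nsq_TZ {κ : FrwKind} (hκ : κ ≠ FrwKind.patch) (a : HI) (b : Fin (pat a).nb) :
    cpNsq (fun c : CfgOn (frIo (SH := SH) (Λ := Λ) q (frNb pat)) (frwbD pat s κ a b) =>
      frwbT pat s a (some b) (frwbExt _ c) * frwbZ pat s a b (frwbExt _ c)) = 1 := by
  simp only [frwb_TZ_prod pat s hκ]
  exact frwb_prod_nsq _ _ (frwbRho_nsq pat s a b)

/-- LEAF REW-B2 -/
theorem frwb_ket_nsq (κ : FrwKind) (a : HI) (b : Fin (pat a).nb) :
    cpNsq (frwbKet pat s κ a b) = 1 := by
  cases κ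
  · exact (frwb_nsq_TV pat s a b).resolve_right (by decide)
  · exact frwb_nsq_V pat s a b
  · exact frwb_nsq_TZ pat s (by decide) a b

/-- LEAF REW-B2 -/
theorem frwb_bra_nsq (κ : FrwKind) (a : HI) (b : Fin (pat a).nb) :
    cpNsq (frwbBra pat s κ a b) = 1 := by
  cases κ
  · exact frwb_nsq_TZ pat s (by decide) a b
  · exact frwb_nsq_V pat s a b
  · exact (frwb_nsq_TV pat s a b).resolve_right (by decide)

/-- LEAF REW-B3: the bra of an old hole is a product of one-register unit vectors -/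
theorem frwb_bra_old_prod (a : HI) (b : Fin (pat a).nb) :
    ∃ ρ : ∀ r : FrReg SH Λ HI, frIo q (frNb pat) r → ℂ, (∀ r, cpNsq (ρ r) = 1) ∧
      frwbBra pat s FrwKind.old a b = fun c => ∏ x, ρ x.1 (c x) :=
  ⟨frwbRho pat s a b, frwbRho_nsq pat s a b, funext fun c => frwb_TZ_prod pat s (by decide) a b c⟩

/-- LEAF REW-B3: the ket of a new hole is a product of one-register unit vectors -/
theorem frwb_ket_new_prod (a : HI) (b : Fin (pat a).nb) :
    ∃ ρ : ∀ r : FrReg SH Λ HI, frIo q (frNb pat) r → ℂ, (∀ r, cpNsq (ρ r) = 1) ∧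
      frwbKet pat s FrwKind.new a b = fun c => ∏ x, ρ x.1 (c x) :=
  ⟨frwbRho pat s a b, frwbRho_nsq pat s a b, funext fun c => frwb_TZ_prod pat s (by decide) a b c⟩

end Claimed.Agent.R296
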