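import Claimed.Agent.R296.P2.FrEnc
import Claimed.Agent.R296.P2.FrNorm

/-!
# Row 296, paper 2, Lemma 5.4, package REW-D (= `P2-FR-REW-REF`): the canonical rewrite map and its reference error (prefix `frw_`/`frwd_`)

CANONICAL MAP (eq. (rewrite-map)):  `frwMap = K_new * P_m ⋯ P_1 * K_old†`,
  `K_old = frEncs pat ({s} × old)`, `K_new = frEncs pat ({s} × new)`, `P_i = frSheet s (frPatP (pat (pl i)))`.

`frw_contr`: every factor is a contraction (`fre_encs_contr`, `CpContr.conjTranspose`, `fre_patP_contr` + `fre_sheet_bd` with `c = 1`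
(`frn_bd_one_iff`), `CpContr.mul`, induction on `pl`).

`frw_ref`: `‖frwMap ref_old - ref_new‖ ≤ (m + r_old) ε`:
  `st.hol = Kp ∪ ({s} × old)`, `st'.hol = Kp ∪ ({s} × new)` with `Kp = st.hol.filter (¬ (sheet = s ∧ hole ∈ old))` (all untouched holes, all
  sheets); `ref_old = K_Kp K_old base`, `ref_new = K_Kp K_new base` (`fre_encs_union`, compatibility from `WF`, condition (1), `Disjoint new keep`);
  `K_Kp` commutes with every factor of `frwMap` (condition (1), `fre_enc_commute`, `fre_enc_adj_commute`, `fre_enc_sheet_commute(')` with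
  `fre_patP_suppIn`);  `K_old† K_old base = ∏_{a ∈ old} frSheet s (P_a) base` (`fre_enc_adj_mul`; `frNoTag` fixes vectors whose tag is `none`; the
  encoders of the other old holes commute through);  so `frwMap ref_old - ref_new = K_Kp K_new (A_n ⋯ A_1 - 1) base` with
  `A_j = frSheet s (projector)`, `n = m + r_old`; telescoping `‖(A_n ⋯ A_1 - 1) base‖ ≤ ∑ ‖(A_j - 1) base‖ ≤ n ε`
  (`fre_sheet_base`, `fre_sheet_sub`, `fre_patP_err`), and `m ≤ m0`, `r_old ≤ h0`.
-/

set_option autoImplicit false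
set_option linter.unusedSectionVars false

namespace Claimed.Agent.R296

open Matrix

variable {PP SH Λ HI : Type} [Fintype PP] [DecidableEq PP] [Fintype SH] [DecidableEq SH]
  [Fintype Λ] [DecidableEq Λ] [Fintype HI] [DecidableEq HI] {q : ℕ} [NeZero q]
  {Ω : (Λ → Fin q) → ℂ} {ε : ℝ} (pat : HI → FrPatch Ω ε)

/-- the canonical rewrite map -/
noncomputable def frwMap (s : SH) (old new : Finset HI) (pl : List HI) :
    Matrix (FrCfg SH Λ q (frNb pat)) (FrCfg SH Λ q (frNb pat)) ℂ :=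
  frEncs pat (new.image fun a => (s, a)) *
    (pl.map fun a => frSheet s (frPatP (pat a))).prod *
    (frEncs pat (old.image fun a => (s, a)))ᴴ

/-- the sheet projector of a hole -/
noncomputable abbrev frwdS (p : SH × HI) :
    Matrix (FrCfg SH Λ q (frNb pat)) (FrCfg SH Λ q (frNb pat)) ℂ :=
  frSheet p.1 (frPatP (pat p.2))

theorem frwd_S_contr (p : SH × HI) : CpContr (frwdS pat p) :=
  (frn_bd_one_iff _).1 (fre_sheet_bd _ _ 1 ((frn_bd_one_iff _).2 (fre_patP_contr (pat p.2))))

theorem frwd_S_herm (p : SH × HI) : (frwdS pat p)ᴴ = frwdS pat p :=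
  (fre_sheet_proj p.1 (fre_patP_proj (pat p.2)).1 (fre_patP_proj (pat p.2)).2).2

theorem frw_contr (s : SH) (old new : Finset HI) (pl : List HI) :
    CpContr (frwMap pat s old new pl) := by
  unfold frwMap
  refine ((fre_encs_contr pat _).mul (fre_list_prod_contr _ fun A hA => ?_)).mul
    (fre_encs_contr pat _).conjTranspose
  obtain ⟨a, -, rfl⟩ := List.mem_map.1 hA
  exact frwd_S_contr pat (s, a)

/-- an encoder commutes with the sheet projector of a compatible hole -/
theorem frwd_enc_S_commute (p p' : SH × HI) (h : FrCompat pat p p') :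
    Commute (frEnc pat p.1 p.2) (frwdS pat p') :=
  SuppIn.commute (frFoot_disjoint_frRS pat p.1 p'.1 p.2 (pat p'.2).out (h.imp id fun h' => h'.symm))
    (fre_enc_suppIn pat p.1 p.2) (fre_sheet_suppIn' p'.1 (fre_patP_suppIn (pat p'.2)))

theorem frwd_commute_adj {n : Type} [Fintype n] {A B : Matrix n n ℂ} (h : Commute A B) :
    Commute Aᴴ Bᴴ := by
  have := congrArg conjTranspose h.eq
  rw [conjTranspose_mul, conjTranspose_mul] at this
  exact this.symm

theorem frwd_encs_S_commute (H : Finset (SH × HI)) (p' : SH × HI)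
    (h : ∀ p ∈ H, FrCompat pat p p') : Commute (frEncs pat H) (frwdS pat p') :=
  (fre_encs_commute pat H _ fun p hp => (frwd_enc_S_commute pat p p' (h p hp)).symm).symm

theorem frwd_encs_adj_S_commute (H : Finset (SH × HI)) (p' : SH × HI)
    (h : ∀ p ∈ H, FrCompat pat p p') : Commute (frEncs pat H)ᴴ (frwdS pat p') := by
  have := frwd_commute_adj (frwd_encs_S_commute pat H p' h)
  rwa [frwd_S_herm] at this

/-- one sheet projector moves the base vector by at most `ε` -/
theorem frwd_S_base (hΩ : star Ω ⬝ᵥ Ω = 1) (p : SH × HI) :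
    cpNsq (frwdS pat p *ᵥ frBase (frNb pat) Ω - frBase (frNb pat) Ω) ≤ ε ^ 2 := by
  have h1 : frwdS pat p *ᵥ frBase (SH := SH) (frNb pat) Ω - frBase (frNb pat) Ω =
      frSheet p.1 (frPatP (pat p.2) - 1) *ᵥ frBase (frNb pat) Ω := by
    rw [fre_sheet_sub, fre_sheet_one, Matrix.sub_mulVec, Matrix.one_mulVec]
  rw [h1, fre_sheet_base _ _ hΩ, Matrix.sub_mulVec, Matrix.one_mulVec, frn_nsq_sub_comm]
  exact fre_patP_err (pat p.2)

/-- a sheet projector increases the distance to the base vector by at most `ε` -/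
theorem frwd_S_step (hΩ : star Ω ⬝ᵥ Ω = 1) (hε : 0 ≤ ε) (p : SH × HI)
    (x : FrCfg SH Λ q (frNb pat) → ℂ) {t : ℝ} (ht : 0 ≤ t)
    (hx : cpNsq (x - frBase (frNb pat) Ω) ≤ t ^ 2) :
    cpNsq (frwdS pat p *ᵥ x - frBase (frNb pat) Ω) ≤ (t + ε) ^ 2 := by
  refine frn_nsq_sub_le _ (frwdS pat p *ᵥ frBase (frNb pat) Ω) _ ht hε ?_ (frwd_S_base pat hΩ p)
  rw [← Matrix.mulVec_sub]
  exact (frwd_S_contr pat p _).trans hx

/-- `‖K† K base - base‖ ≤ |H| ε` -/
theorem frwd_adj_encs_base (hΩ : star Ω ⬝ᵥ Ω = 1) (hε : 0 ≤ ε) (H : Finset (SH × HI))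
    (hH : ∀ p' ∈ H, ∀ p'' ∈ H, p' ≠ p'' → FrCompat pat p' p'') :
    cpNsq ((frEncs pat H)ᴴ *ᵥ (frEncs pat H *ᵥ frBase (frNb pat) Ω) - frBase (frNb pat) Ω) ≤
      (H.card * ε) ^ 2 := by
  induction H using Finset.induction_on with
  | empty => simp [fre_encs_empty, cpNsq_zero]
  | insert p H hp ih =>
    have hH' : ∀ p' ∈ H, ∀ p'' ∈ H, p' ≠ p'' → FrCompat pat p' p'' := fun p' h' p'' h'' =>
      hH p' (Finset.mem_insert_of_mem h') p'' (Finset.mem_insert_of_mem h'')
    have hc : ∀ p' ∈ H, FrCompat pat p p' := fun p' h' =>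
      hH p (Finset.mem_insert_self p H) p' (Finset.mem_insert_of_mem h')
        (fun e => hp (e ▸ h'))
    have e1 : (frEncs pat (insert p H))ᴴ *ᵥ (frEncs pat (insert p H) *ᵥ frBase (frNb pat) Ω) =
        frwdS pat p *ᵥ ((frEncs pat H)ᴴ *ᵥ (frEncs pat H *ᵥ frBase (frNb pat) Ω)) := by
      rw [fre_encs_insert pat H p hp hc hH', conjTranspose_mul]
      have c1 := frwd_encs_adj_S_commute pat H p fun p' h' => (hc p' h').symm
      calc ((frEncs pat H)ᴴ * (frEnc pat p.1 p.2)ᴴ) *ᵥ
            ((frEnc pat p.1 p.2 * frEncs pat H) *ᵥ frBase (frNb pat) Ω)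
          = (frEncs pat H)ᴴ *ᵥ (((frEnc pat p.1 p.2)ᴴ * frEnc pat p.1 p.2) *ᵥ
              (frEncs pat H *ᵥ frBase (frNb pat) Ω)) := by
            simp only [Matrix.mulVec_mulVec, Matrix.mul_assoc]
        _ = (frEncs pat H)ᴴ *ᵥ (frwdS pat p *ᵥ (frEncs pat H *ᵥ frBase (frNb pat) Ω)) := by
            rw [fre_enc_adj_mul, ← Matrix.mulVec_mulVec, fre_noTag_encs pat H p hp]
        _ = _ := by
            rw [Matrix.mulVec_mulVec, c1.eq, ← Matrix.mulVec_mulVec]
    rw [e1, Finset.card_insert_of_notMem hp]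
    have := frwd_S_step pat hΩ hε p _ (by positivity) (ih hH')
    refine this.trans (le_of_eq ?_)
    push_cast
    ring

/-- a list of sheet projectors -/
theorem frwd_list_base (hΩ : star Ω ⬝ᵥ Ω = 1) (hε : 0 ≤ ε) (s : SH) (pl : List HI)
    (x : FrCfg SH Λ q (frNb pat) → ℂ) {t : ℝ} (ht : 0 ≤ t)
    (hx : cpNsq (x - frBase (frNb pat) Ω) ≤ t ^ 2) :
    cpNsq ((pl.map fun a => frSheet s (frPatP (pat a))).prod *ᵥ x - frBase (frNb pat) Ω) ≤
      (t + pl.length * ε) ^ 2 := by
  induction pl with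
  | nil => simpa using hx
  | cons a l ih =>
    rw [List.map_cons, List.prod_cons, ← Matrix.mulVec_mulVec]
    have := frwd_S_step pat hΩ hε (s, a) _ (by positivity) ih
    refine this.trans (le_of_eq ?_)
    rw [List.length_cons]
    push_cast
    ring

/-- eq. (rewrite-reference-error) -/
theorem frw_ref (hΩ : star Ω ⬝ᵥ Ω = 1) (hε : 0 ≤ ε) (δ : ℝ) (m0 h0 b : ℕ)
    (st : FrState PP SH Λ HI) (hst : st.WF pat) (s : SH) (ow' : Λ → PP) (tw' : HI → PP)
    (old new : Finset HI) (pl : List HI) (A : Finset PP)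
    (ho : (FrOp.rewrite s ow' tw' old new pl A).Ok pat δ m0 h0 b st) :
    cpNsq (frwMap pat s old new pl *ᵥ frRef pat st -
      frRef pat ((FrOp.rewrite s ow' tw' old new pl A).next pat st)) ≤ ((m0 + h0 : ℕ) * ε) ^ 2 := by
  have hst' := fre_next_wf pat δ m0 h0 b _ st hst ho
  obtain ⟨hold, hnk, -, h1, -, -, -, -, -, -, hm, hro, -, -⟩ := ho
  set O : Finset (SH × HI) := old.image fun a => (s, a) with hO
  set N : Finset (SH × HI) := new.image fun a => (s, a) with hN
  set Kp : Finset (SH × HI) := st.hol.filter fun p => ¬ (p.1 = s ∧ p.2 ∈ old) with hKp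
  have hhol : st.hol = Kp ∪ O := by
    ext p
    simp only [hKp, hO, Finset.mem_union, Finset.mem_filter, Finset.mem_image]
    constructor
    · intro hp
      by_cases hc : p.1 = s ∧ p.2 ∈ old
      · exact Or.inr ⟨p.2, hc.2, by rw [← hc.1]⟩
      · exact Or.inl ⟨hp, hc⟩
    · rintro (hp | ⟨a, ha, rfl⟩)
      · exact hp.1
      · exact (fre_mem_hs st s a).1 (hold ha)
  have hhol' : ((FrOp.rewrite s ow' tw' old new pl A).next pat st).hol = N ∪ Kp :=
    Finset.union_comm _ _
  have dO : Disjoint Kp O := by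
    rw [Finset.disjoint_left]
    intro p hp hp'
    obtain ⟨a, ha, rfl⟩ := Finset.mem_image.1 hp'
    exact (Finset.mem_filter.1 hp).2 ⟨rfl, ha⟩
  have hkeep : ∀ p ∈ Kp, p.1 = s → p.2 ∈ st.hs s \ old := by
    intro p hp hs
    obtain ⟨hp1, hp2⟩ := Finset.mem_filter.1 hp
    refine Finset.mem_sdiff.2 ⟨(fre_mem_hs st s p.2).2 (by rw [← hs]; exact hp1), fun h => hp2 ⟨hs, h⟩⟩
  have dN : Disjoint N Kp := by
    rw [Finset.disjoint_left]
    intro p hp hp'
    obtain ⟨a, ha, rfl⟩ := Finset.mem_image.1 hp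
    exact Finset.disjoint_left.1 hnk ha (hkeep _ hp' rfl)
  have cO := fre_wf_compat pat st hst
  have cN := fre_wf_compat pat _ hst'
  rw [hhol] at cO
  rw [hhol'] at cN
  have rO : frRef pat st = (frEncs pat Kp * frEncs pat O) *ᵥ frBase (frNb pat) Ω := by
    rw [frRef, hhol, fre_encs_union pat Kp O dO cO]
  have rN : frRef pat ((FrOp.rewrite s ow' tw' old new pl A).next pat st) =
      (frEncs pat N * frEncs pat Kp) *ᵥ frBase (frNb pat) Ω := by
    rw [frRef, hhol', fre_encs_union pat N Kp dN cN]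
  set Pi := (pl.map fun a => frSheet (nb := frNb pat) s (frPatP (pat a))).prod with hPi
  have ca : Commute (frEncs pat O)ᴴ (frEncs pat Kp) := by
    refine fre_encs_commute pat Kp _ fun p hp => ?_
    have h2 : Commute (frEnc pat p.1 p.2)ᴴ (frEncs pat O) :=
      fre_encs_commute pat O _ fun p' hp' =>
        fre_enc_adj_commute pat p p' (fun e => Finset.disjoint_left.1 dO hp (e ▸ hp'))
          (cO p (Finset.mem_union_left _ hp) p' (Finset.mem_union_right _ hp')
            (fun e => Finset.disjoint_left.1 dO hp (e ▸ hp')))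
    have h3 := frwd_commute_adj h2
    rw [conjTranspose_conjTranspose] at h3
    exact h3.symm
  have cb : Commute Pi (frEncs pat Kp) := by
    refine Commute.list_prod_left _ _ fun X hX => ?_
    obtain ⟨a, ha, rfl⟩ := List.mem_map.1 hX
    refine (frwd_encs_S_commute pat Kp (s, a) fun p hp => ?_).symm
    by_cases hs : p.1 = s
    · right
      exact ((h1 a (Or.inl ha)).mono_right (fre_out_subset_frOut pat (hkeep p hp hs))).symm
    · exact Or.inl hs
  have hmat : frwMap pat s old new pl * (frEncs pat Kp * frEncs pat O) =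
      frEncs pat N * frEncs pat Kp * (Pi * ((frEncs pat O)ᴴ * frEncs pat O)) := by
    unfold frwMap
    rw [← hO, ← hN, ← hPi]
    calc frEncs pat N * Pi * (frEncs pat O)ᴴ * (frEncs pat Kp * frEncs pat O)
        = frEncs pat N * Pi * ((frEncs pat O)ᴴ * frEncs pat Kp) * frEncs pat O := by
          simp only [Matrix.mul_assoc]
      _ = frEncs pat N * Pi * (frEncs pat Kp * (frEncs pat O)ᴴ) * frEncs pat O := by rw [ca.eq]
      _ = frEncs pat N * (Pi * frEncs pat Kp) * (frEncs pat O)ᴴ * frEncs pat O := by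
          simp only [Matrix.mul_assoc]
      _ = frEncs pat N * (frEncs pat Kp * Pi) * (frEncs pat O)ᴴ * frEncs pat O := by rw [cb.eq]
      _ = _ := by simp only [Matrix.mul_assoc]
  rw [rO, rN, Matrix.mulVec_mulVec, hmat, ← Matrix.mulVec_mulVec, ← Matrix.mulVec_sub]
  refine (((fre_encs_contr pat N).mul (fre_encs_contr pat Kp)) _).trans ?_
  have hOc : ∀ p' ∈ O, ∀ p'' ∈ O, p' ≠ p'' → FrCompat pat p' p'' := fun p' h' p'' h'' =>
    cO p' (Finset.mem_union_right _ h') p'' (Finset.mem_union_right _ h'')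
  have e1 := frwd_adj_encs_base pat hΩ hε O hOc
  have e2 := frwd_list_base pat hΩ hε s pl _ (mul_nonneg (Nat.cast_nonneg _) hε) e1
  rw [← Matrix.mulVec_mulVec, ← Matrix.mulVec_mulVec]
  refine e2.trans (pow_le_pow_left₀ (add_nonneg (mul_nonneg (Nat.cast_nonneg _) hε)
    (mul_nonneg (Nat.cast_nonneg _) hε)) ?_ 2)
  have hOcard : (O.card : ℝ) ≤ h0 := by
    exact_mod_cast (Finset.card_image_le).trans hro
  have hmR : (pl.length : ℝ) ≤ m0 := by exact_mod_cast hm
  push_cast
  nlinarith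

end Claimed.Agent.R296
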