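import Claimed.Agent.R296.P2.FrRewA
import Claimed.Agent.R296.P2.FrRewB
import Claimed.Agent.R296.P2.FrRewD

/-!
# Row 296, paper 2, Lemma 5.4, package REW-C: the cylinder system of a rewrite and its combinatorics (prefix `frwc`)

`frwcList old new pl` : the factors in TIME order: old holes, patches (`pl.reverse`: the head of `pl` acts last in `frwMap`), new holes.
`frwcSys pat s dl` : the cylinder system (`FrRewA`) of a list of factors, built from `FrRewB`.
`frwcOwn0`, `frwcOwn1` : input and output owners; they differ from `st.own`, `st'.own` only on tags of absent holes, so that all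
open legs have owners in `A`.

PROOFS.
`frwc_op` (C1): `cpTprod l.length (fun j => f (l.get j)) = (l.map f).reverse.prod` (induction; `List.get` of `l ++ [x]` or use `List.ofFn`);
  `S.fac j = frwbFac ..` by `frwb_fac`; `(l.map (frEnc pat s)).prod = frEncs pat (l.toFinset.image (s,·))` for every nodup list of pairwise
  compatible holes (induction with `fre_encs_insert`); `((l.map f).prod)ᴴ = (l.reverse.map fun a => (f a)ᴴ).prod`.
ORDER: put `rank old = 0 < rank patch = 1 < rank new = 2`.  `(frwcList ..).Pairwise (fun p p' => rank p.1 ≤ rank p'.1 ∧ (p.1 ≠ patch → p ≠ p'))`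
  (`List.pairwise_append`, `List.pairwise_map`, `Finset.nodup_toList`); with `List.pairwise_iff_get`: `rank (get i) < rank (get j) → i < j`, and two different
  positions of kind `old` (`new`) carry different holes.  `(κ, a) ∈ frwcList ↔ ..` + `List.mem_iff_get` produce positions.
LEGS (for every branch choice; `inn ⊆ D b ⊆ out`):
  (L1) `j` old: earlier cylinders are other old holes: disjoint outer footprints (`WF`, `old ⊆ hs s`), other tags: `frcIn = D`.
  (L2) `j` old: a raw leg `x ∈ D b ⊆ out a` lies in `frInn pl` (condition (2)), i.e. in the cylinder of a LATER patch: `frcOut ⊆ {tag (s,a)}`.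
  (L3) `j` patch: a leg in `frInn old` lies in an EARLIER old cylinder: `frcIn ⊆ raw (out a \ frInn old)`: at most two owners (condition (3)), in `A` (4).
  (L4)-(L6): the mirror statements for `frcOut`, `new`, `ow'`.
  (L7) a register outside all cylinders has `own1 = own0`: condition (2) for raw registers; tags of `new` are in cylinders.
`frwc_glob0/1`: `frs_glob_congr` + `fre_ref_tag` (the owners differ only on tags of absent holes: `new \ old` is disjoint from `st.hs s`; a tag with
  `tw' a ≠ st.tw s a`, `a ∉ new`, is not in `keep`, hence absent in the new state).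
`frwc_empty`: if `A = ∅` then `old = new = ∅`, `frOut pl = ∅`, no raw owner changes, `hol` is unchanged; `frs_glob_congr` + `fre_ref_tag`.
-/

set_option autoImplicit false
set_option linter.unusedSectionVars false

namespace Claimed.Agent.R296

open Matrix

variable {PP SH Λ HI : Type} [Fintype PP] [DecidableEq PP] [Fintype SH] [DecidableEq SH]
  [Fintype Λ] [DecidableEq Λ] [Fintype HI] [DecidableEq HI] {q : ℕ} [NeZero q]
  {Ω : (Λ → Fin q) → ℂ} {ε : ℝ} (pat : HI → FrPatch Ω ε)

/-- the factors of a rewrite, in time order -/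
noncomputable def frwcList (old new : Finset HI) (pl : List HI) : List (FrwKind × HI) :=
  old.toList.map (fun a => (FrwKind.old, a)) ++ pl.reverse.map (fun a => (FrwKind.patch, a)) ++
    new.toList.map (fun a => (FrwKind.new, a))

/-- the cylinder system of a list of factors -/
def frwcSys (s : SH) (dl : List (FrwKind × HI)) :
    FrwaSys (frIo (SH := SH) (Λ := Λ) q (frNb pat)) dl.length where
  n := fun j => (pat (dl.get j).2).nb
  D := fun j b => frwbD pat s (dl.get j).1 (dl.get j).2 b
  k := fun j b => frwbKet pat s (dl.get j).1 (dl.get j).2 b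
  r := fun j b => frwbBra pat s (dl.get j).1 (dl.get j).2 b

/-- input owners: the tag of a hole which is created (and not removed) is read at its future owner -/
def frwcOwn0 (st : FrState PP SH Λ HI) (s : SH) (tw' : HI → PP) (old new : Finset HI) :
    FrReg SH Λ HI → PP
  | .inl p => st.own (.inl p)
  | .inr p => if p.1 = s ∧ p.2 ∈ new ∧ p.2 ∉ old then tw' p.2 else st.own (.inr p)

/-- output owners: only the tags of the created holes change their owner -/
def frwcOwn1 (st : FrState PP SH Λ HI) (s : SH) (ow' : Λ → PP) (tw' : HI → PP) (new : Finset HI) :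
    FrReg SH Λ HI → PP
  | .inl p => if p.1 = s then ow' p.2 else st.own (.inl p)
  | .inr p => if p.1 = s ∧ p.2 ∈ new then tw' p.2 else st.own (.inr p)

theorem frwc_length (old new : Finset HI) (pl : List HI) :
    (frwcList old new pl).length = old.card + pl.length + new.card := by
  simp only [frwcList, List.length_append, List.length_map, List.length_reverse,
    Finset.length_toList]

/-- the time ordered product as a reversed list product -/
theorem frwc_tprod_ofFn {R : Type*} [Monoid R] (n : ℕ) (g : Fin n → R) :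
    cpTprod n g = (List.ofFn g).reverse.prod := by
  induction n with
  | zero => simp [cpTprod]
  | succ n ih =>
    rw [List.ofFn_succ', List.concat_eq_append, List.reverse_append, cpTprod, ih]
    simp

/-- the time ordered product over the positions of a list -/
theorem frwc_tprod_get {R : Type*} [Monoid R] {α : Type*} (f : α → R) (l : List α) :
    cpTprod l.length (fun j => f (l.get j)) = (l.map f).reverse.prod := by
  rw [frwc_tprod_ofFn]
  have : List.ofFn (fun j => f (l.get j)) = l.map f := by
    conv_rhs => rw [← List.ofFn_get l]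
    rw [List.map_ofFn]
    rfl
  rw [this]

/-- the product of the encoders of a nodup list of pairwise compatible holes of one sheet -/
theorem frwc_encs_list (s : SH) (l : List HI) (hn : l.Nodup)
    (hc : ∀ a ∈ l, ∀ a' ∈ l, a ≠ a' → Disjoint (pat a).out (pat a').out) :
    (l.map fun a => frEnc pat s a).prod = frEncs pat (l.toFinset.image fun a => (s, a)) := by
  induction l with
  | nil => simp [fre_encs_empty]
  | cons a l ih =>
    rw [List.nodup_cons] at hn
    rw [List.map_cons, List.prod_cons, List.toFinset_cons, Finset.image_insert,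
      fre_encs_insert pat _ (s, a), ih hn.2 fun b hb b' hb' =>
        hc b (List.mem_cons_of_mem _ hb) b' (List.mem_cons_of_mem _ hb')]
    · intro h
      obtain ⟨b, hb, hb'⟩ := Finset.mem_image.1 h
      rw [List.mem_toFinset] at hb
      have : b = a := (Prod.mk.inj hb').2
      exact hn.1 (this ▸ hb)
    · intro p hp
      obtain ⟨b, hb, rfl⟩ := Finset.mem_image.1 hp
      rw [List.mem_toFinset] at hb
      refine Or.inr (hc a List.mem_cons_self b (List.mem_cons_of_mem _ hb) ?_)
      rintro rfl
      exact hn.1 hb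
    · intro p hp p' hp' hne
      obtain ⟨b, hb, rfl⟩ := Finset.mem_image.1 hp
      obtain ⟨b', hb', rfl⟩ := Finset.mem_image.1 hp'
      rw [List.mem_toFinset] at hb hb'
      refine Or.inr (hc b (List.mem_cons_of_mem _ hb) b' (List.mem_cons_of_mem _ hb') ?_)
      rintro rfl
      exact hne rfl

/-- LEAF REW-C1: the operator of the system is the canonical rewrite map -/
theorem frwc_op (s : SH) (old new : Finset HI) (pl : List HI)
    (hold : ∀ a ∈ old, ∀ a' ∈ old, a ≠ a' → Disjoint (pat a).out (pat a').out)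
    (hnew : ∀ a ∈ new, ∀ a' ∈ new, a ≠ a' → Disjoint (pat a).out (pat a').out) :
    (frwcSys pat s (frwcList old new pl)).op = frwMap pat s old new pl := by
  have hfac : (frwcSys pat s (frwcList old new pl)).fac =
      fun j => (fun p : FrwKind × HI => frwbFac pat s p.1 p.2) ((frwcList old new pl).get j) := by
    funext j
    exact (frwb_fac pat s _ _).symm
  unfold FrwaSys.op
  rw [hfac, frwc_tprod_get (fun p : FrwKind × HI => frwbFac pat s p.1 p.2) (frwcList old new pl)]
  have e1 : ((new.toList.map fun a => frEnc pat s a).reverse).prod =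
      frEncs pat (new.image fun a => (s, a)) := by
    rw [← List.map_reverse, frwc_encs_list pat s _ (List.nodup_reverse.2 (Finset.nodup_toList new))
      (fun a ha a' ha' => hnew a (by simpa using ha) a' (by simpa using ha')),
      List.toFinset_reverse, Finset.toList_toFinset]
  have e2 : ((old.toList.map fun a => (frEnc pat s a)ᴴ).reverse).prod =
      (frEncs pat (old.image fun a => (s, a)))ᴴ := by
    rw [← Finset.toList_toFinset old, ← frwc_encs_list pat s _ (Finset.nodup_toList old)
      (fun a ha a' ha' => hold a (by simpa using ha) a' (by simpa using ha')),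
      Matrix.conjTranspose_list_prod, List.map_map, Finset.toList_toFinset]
    rfl
  unfold frwMap frwcList
  rw [List.map_append, List.map_append, List.reverse_append, List.reverse_append, List.prod_append,
    List.prod_append, List.map_map, List.map_map, List.map_map, ← e1, ← e2, mul_assoc]
  congr 1
  congr 1
  rw [← List.map_reverse, List.reverse_reverse]
  rfl

/-! ### combinatorics of the list of factors (REW-C2) -/

/-- time rank of a kind of factor -/
def frwcRank : FrwKind → ℕ
  | .old => 0
  | .patch => 1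
  | .new => 2

theorem frwc_kind_cases (κ : FrwKind) : κ = .old ∨ κ = .patch ∨ κ = .new := by
  cases κ <;> simp

theorem frwc_mem (old new : Finset HI) (pl : List HI) (κ : FrwKind) (a : HI) :
    (κ, a) ∈ frwcList old new pl ↔
      (κ = .old ∧ a ∈ old) ∨ (κ = .patch ∧ a ∈ pl) ∨ (κ = .new ∧ a ∈ new) := by
  simp only [frwcList, List.mem_append, List.mem_map, Finset.mem_toList, List.mem_reverse,
    Prod.mk.injEq]
  constructor
  · rintro ((⟨a', h, rfl, rfl⟩ | ⟨a', h, rfl, rfl⟩) | ⟨a', h, rfl, rfl⟩)
    · exact Or.inl ⟨rfl, h⟩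
    · exact Or.inr (Or.inl ⟨rfl, h⟩)
    · exact Or.inr (Or.inr ⟨rfl, h⟩)
  · rintro (⟨rfl, h⟩ | ⟨rfl, h⟩ | ⟨rfl, h⟩)
    · exact Or.inl (Or.inl ⟨a, h, rfl, rfl⟩)
    · exact Or.inl (Or.inr ⟨a, h, rfl, rfl⟩)
    · exact Or.inr ⟨a, h, rfl, rfl⟩

theorem frwc_pairwise (old new : Finset HI) (pl : List HI) :
    (frwcList old new pl).Pairwise
      (fun p p' => frwcRank p.1 ≤ frwcRank p'.1 ∧ (p.1 ≠ .patch → p ≠ p')) := by
  unfold frwcList
  rw [List.pairwise_append, List.pairwise_append]
  refine ⟨⟨?_, ?_, ?_⟩, ?_, ?_⟩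
  · rw [List.pairwise_map]
    exact (Finset.nodup_toList old).imp fun h => ⟨le_rfl, fun _ h' => h (congrArg Prod.snd h')⟩
  · rw [List.pairwise_map]
    exact List.pairwise_of_forall fun _ _ => ⟨le_rfl, fun h => absurd rfl h⟩
  · intro p hp p' hp'
    obtain ⟨a, _, rfl⟩ := List.mem_map.1 hp
    obtain ⟨a', _, rfl⟩ := List.mem_map.1 hp'
    exact ⟨by simp [frwcRank], fun _ h => by simp at h⟩
  · rw [List.pairwise_map]
    exact (Finset.nodup_toList new).imp fun h => ⟨le_rfl, fun _ h' => h (congrArg Prod.snd h')⟩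
  · intro p hp p' hp'
    obtain ⟨a', _, rfl⟩ := List.mem_map.1 hp'
    rcases List.mem_append.1 hp with hp | hp
    · obtain ⟨a, _, rfl⟩ := List.mem_map.1 hp
      exact ⟨by simp [frwcRank], fun _ h => by simp at h⟩
    · obtain ⟨a, _, rfl⟩ := List.mem_map.1 hp
      exact ⟨by simp [frwcRank], fun _ h => by simp at h⟩

theorem frwc_get_lt {old new : Finset HI} {pl : List HI} {i j : Fin (frwcList old new pl).length}
    (h : i < j) : frwcRank ((frwcList old new pl).get i).1 ≤ frwcRank ((frwcList old new pl).get j).1 ∧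
      (((frwcList old new pl).get i).1 ≠ .patch →
        (frwcList old new pl).get i ≠ (frwcList old new pl).get j) :=
  List.pairwise_iff_get.1 (frwc_pairwise old new pl) i j h

/-- a factor of smaller rank is earlier -/
theorem frwc_lt_of_rank {old new : Finset HI} {pl : List HI}
    {i j : Fin (frwcList old new pl).length}
    (h : frwcRank ((frwcList old new pl).get i).1 < frwcRank ((frwcList old new pl).get j).1) :
    i < j := by
  rcases lt_trichotomy i j with h1 | h1 | h1
  · exact h1
  · rw [h1] at h; exact absurd h (lt_irrefl _)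
  · exact absurd (frwc_get_lt h1).1 (not_le.2 h)

theorem frwc_mem_D (s : SH) (κ : FrwKind) (a : HI) (b : Fin (pat a).nb) (r : FrReg SH Λ HI) :
    r ∈ frwbD pat s κ a b ↔
      (κ ≠ .patch ∧ r = Sum.inr (s, a)) ∨ ∃ x ∈ (pat a).D b, r = Sum.inl (s, x) := by
  unfold frwbD
  rw [Finset.mem_union, Finset.mem_image]
  by_cases hκ : κ = .patch
  · simp [hκ, eq_comm]
  · simp [hκ, eq_comm]

theorem frwc_mem_in {J : ℕ} (D : Fin J → Finset (FrReg SH Λ HI)) (j : Fin J) (r : FrReg SH Λ HI) :
    r ∈ frcIn D j ↔ r ∈ D j ∧ ∀ i, i < j → r ∉ D i := by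
  simp only [frcIn, Finset.mem_sdiff, Finset.mem_biUnion, Finset.mem_filter, Finset.mem_univ,
    true_and, not_exists, not_and]

theorem frwc_mem_out {J : ℕ} (D : Fin J → Finset (FrReg SH Λ HI)) (j : Fin J) (r : FrReg SH Λ HI) :
    r ∈ frcOut D j ↔ r ∈ D j ∧ ∀ i, j < i → r ∉ D i := by
  simp only [frcOut, Finset.mem_sdiff, Finset.mem_biUnion, Finset.mem_filter, Finset.mem_univ,
    true_and, not_exists, not_and]

theorem frwc_DB (s : SH) (dl : List (FrwKind × HI)) (β : (frwcSys pat s dl).Br)
    (j : Fin dl.length) :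
    (frwcSys pat s dl).DB β j = frwbD pat s (dl.get j).1 (dl.get j).2 (β j) := rfl

/-- a raw register in the inner footprint of a factor lies in its cylinder -/
theorem frwc_cover_raw (s : SH) (dl : List (FrwKind × HI)) (β : (frwcSys pat s dl).Br)
    {κ : FrwKind} {a : HI} (h : (κ, a) ∈ dl) {x : Λ} (hx : x ∈ (pat a).inn) :
    ∃ i, (dl.get i).1 = κ ∧ Sum.inl (s, x) ∈ (frwcSys pat s dl).DB β i := by
  obtain ⟨i, hi⟩ := List.mem_iff_get.1 h
  have h1 : (dl.get i).1 = κ := by rw [hi]
  have h2 : (dl.get i).2 = a := by rw [hi]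
  refine ⟨i, h1, (frwc_mem_D pat s _ _ _ _).2 (Or.inr ⟨x, (pat _).inn_sub _ ?_, rfl⟩)⟩
  rw [h2]; exact hx

/-- the tag of a hole factor lies in its cylinder -/
theorem frwc_cover_tag (s : SH) (dl : List (FrwKind × HI)) (β : (frwcSys pat s dl).Br)
    {κ : FrwKind} {a : HI} (h : (κ, a) ∈ dl) (hκ : κ ≠ .patch) :
    ∃ i, (dl.get i).1 = κ ∧ Sum.inr (s, a) ∈ (frwcSys pat s dl).DB β i := by
  obtain ⟨i, hi⟩ := List.mem_iff_get.1 h
  have h1 : (dl.get i).1 = κ := by rw [hi]
  have h2 : (dl.get i).2 = a := by rw [hi]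
  exact ⟨i, h1, (frwc_mem_D pat s _ _ _ _).2 (Or.inl ⟨by rw [h1]; exact hκ, by rw [h2]⟩)⟩

theorem frwc_get_mem (old new : Finset HI) (pl : List HI) (j : Fin (frwcList old new pl).length) :
    (((frwcList old new pl).get j).1 = .old ∧ ((frwcList old new pl).get j).2 ∈ old) ∨
    (((frwcList old new pl).get j).1 = .patch ∧ ((frwcList old new pl).get j).2 ∈ pl) ∨
    (((frwcList old new pl).get j).1 = .new ∧ ((frwcList old new pl).get j).2 ∈ new) :=
  (frwc_mem old new pl _ _).1 (List.get_mem _ j)

theorem frwc_inn_sub_out (H : Finset HI) : frInn pat H ⊆ frOut pat H := by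
  intro x hx
  obtain ⟨a, ha, hxa⟩ := Finset.mem_biUnion.1 hx
  exact Finset.mem_biUnion.2 ⟨a, ha, (pat a).inn_out hxa⟩

theorem frwc_out_sub {H : Finset HI} {a : HI} (ha : a ∈ H) : (pat a).out ⊆ frOut pat H :=
  fun _ hx => Finset.mem_biUnion.2 ⟨a, ha, hx⟩

/-- at most two values, all in a nonempty set -/
theorem frwc_two {A T : Finset PP} (hA : A.Nonempty) (hT : T ⊆ A) (hc : T.card ≤ 2) :
    ∃ P ∈ A, ∃ Q ∈ A, ∀ t ∈ T, t = P ∨ t = Q := by
  obtain ⟨P0, hP0⟩ := hA
  rcases Nat.lt_or_ge T.card 1 with h0 | h1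
  · have : T = ∅ := Finset.card_eq_zero.1 (by omega)
    exact ⟨P0, hP0, P0, hP0, fun t ht => by rw [this] at ht; simp at ht⟩
  rcases Nat.lt_or_ge T.card 2 with h2 | h2
  · obtain ⟨P, hP⟩ := Finset.card_eq_one.1 (by omega : T.card = 1)
    have hPA : P ∈ A := hT (by rw [hP]; simp)
    exact ⟨P, hPA, P, hPA, fun t ht => by rw [hP] at ht; exact Or.inl (Finset.mem_singleton.1 ht)⟩
  · obtain ⟨P, Q, _, hPQ⟩ := Finset.card_eq_two.1 (by omega : T.card = 2)
    exact ⟨P, hT (by rw [hPQ]; simp), Q, hT (by rw [hPQ]; simp), fun t ht => by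
      rw [hPQ] at ht; simpa using ht⟩

theorem frwc_bra_prod (s : SH) (κ : FrwKind) (a : HI) (b : Fin (pat a).nb) (hκ : κ = .old) :
    ∃ ρ : ∀ r : FrReg SH Λ HI, frIo q (frNb pat) r → ℂ, (∀ r, cpNsq (ρ r) = 1) ∧
      frwbBra pat s κ a b = fun c => ∏ x, ρ x.1 (c x) := by
  subst hκ
  exact frwb_bra_old_prod pat s a b

theorem frwc_ket_prod (s : SH) (κ : FrwKind) (a : HI) (b : Fin (pat a).nb) (hκ : κ = .new) :
    ∃ ρ : ∀ r : FrReg SH Λ HI, frIo q (frNb pat) r → ℂ, (∀ r, cpNsq (ρ r) = 1) ∧
      frwbKet pat s κ a b = fun c => ∏ x, ρ x.1 (c x) := by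
  subst hκ
  exact frwb_ket_new_prod pat s a b

/-- two hole cylinders with different holes and disjoint outer footprints are disjoint -/
theorem frwc_D_disj (s : SH) {κ κ' : FrwKind} {a a' : HI} (b : Fin (pat a).nb)
    (b' : Fin (pat a').nb) (hne : a ≠ a') (hd : Disjoint (pat a).out (pat a').out)
    {r : FrReg SH Λ HI} (hr : r ∈ frwbD pat s κ a b) : r ∉ frwbD pat s κ' a' b' := by
  intro hr'
  rcases (frwc_mem_D pat s _ _ _ _).1 hr with ⟨_, rfl⟩ | ⟨x, hx, rfl⟩
  · rcases (frwc_mem_D pat s _ _ _ _).1 hr' with ⟨_, h⟩ | ⟨x, _, h⟩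
    · exact hne (by simpa using h)
    · simp at h
  · rcases (frwc_mem_D pat s _ _ _ _).1 hr' with ⟨_, h⟩ | ⟨x', hx', h⟩
    · simp at h
    · have hxx : x = x' := by simpa using h
      subst hxx
      exact Finset.disjoint_left.1 hd ((pat _).sub_out _ hx) ((pat _).sub_out _ hx')

theorem frwc_rank_old {κ : FrwKind} (h : frwcRank κ ≤ 0) : κ = .old := by
  cases κ <;> simp [frwcRank] at h ⊢

theorem frwc_rank_new {κ : FrwKind} (h : 2 ≤ frwcRank κ) : κ = .new := by
  cases κ <;> simp [frwcRank] at h ⊢

section Ok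

variable (δ : ℝ) (m0 h0 b : ℕ) (st : FrState PP SH Λ HI) (hst : st.WF pat) (s : SH) (ow' : Λ → PP)
  (tw' : HI → PP) (old new : Finset HI) (pl : List HI) (A : Finset PP)
  (ho : (FrOp.rewrite s ow' tw' old new pl A).Ok pat δ m0 h0 b st)

include hst ho

/-- LEAF REW-C2 -/
theorem frwc_hown (β : (frwcSys pat s (frwcList old new pl)).Br) (r : FrReg SH Λ HI)
    (h : ∀ j, r ∉ (frwcSys pat s (frwcList old new pl)).DB β j) :
    frwcOwn1 st s ow' tw' new r = frwcOwn0 st s tw' old new r := by
  obtain ⟨h_old, h_nk, h_new, c1, c2, c3, c4, c5, c6, c7, -, -, -, -⟩ := ho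
  rcases r with ⟨s', x⟩ | ⟨s', a⟩
  · simp only [frwcOwn1, frwcOwn0]
    by_cases hs : s' = s
    · rw [if_pos hs]
      by_contra hne
      have hx := c2 x (Or.inl (by rw [← hs]; exact hne))
      obtain ⟨a, ha, hxa⟩ := Finset.mem_biUnion.1 hx
      obtain ⟨i, -, hi⟩ := frwc_cover_raw pat s _ β
        ((frwc_mem old new pl _ _).2 (Or.inr (Or.inl ⟨rfl, List.mem_toFinset.1 ha⟩))) hxa
      exact h i (by rw [hs]; exact hi)
    · rw [if_neg hs]
  · simp only [frwcOwn1, frwcOwn0]
    by_cases hc : s' = s ∧ a ∈ new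
    · exfalso
      obtain ⟨i, -, hi⟩ := frwc_cover_tag pat s _ β
        ((frwc_mem old new pl _ _).2 (Or.inr (Or.inr ⟨rfl, hc.2⟩))) (by simp)
      exact h i (by rw [hc.1]; exact hi)
    · rw [if_neg hc, if_neg (fun h' => hc ⟨h'.1, h'.2.1⟩)]

/-- LEAF REW-C3 -/
theorem frwc_hin (hA : A.Nonempty) (j : Fin (frwcList old new pl).length) :
    FrwaTame (frwcOwn0 st s tw' old new) A
      (fun β : (frwcSys pat s (frwcList old new pl)).Br =>
        frcIn ((frwcSys pat s (frwcList old new pl)).DB β) j)
      (fun β => (frwcSys pat s (frwcList old new pl)).DB β j)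
      (fun β => (frwcSys pat s (frwcList old new pl)).r j (β j)) := by
  obtain ⟨h_old, h_nk, h_new, c1, c2, c3, c4, c5, c6, c7, -, -, -, -⟩ := ho
  rcases frwc_get_mem old new pl j with ⟨hκ, ha⟩ | ⟨hκ, ha⟩ | ⟨hκ, ha⟩
  · -- an old hole: all legs are inputs, product bra
    right
    intro β
    refine ⟨?_, ?_, frwc_bra_prod pat s _ _ _ hκ⟩
    · apply Finset.Subset.antisymm Finset.sdiff_subset
      intro r hr
      refine (frwc_mem_in _ j r).2 ⟨hr, fun i hi => ?_⟩
      have h1 := frwc_get_lt hi
      have hκi : ((frwcList old new pl).get i).1 = .old :=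
        frwc_rank_old (by have := h1.1; rw [hκ] at this; exact this)
      have hne : ((frwcList old new pl).get j).2 ≠ ((frwcList old new pl).get i).2 := fun h =>
        h1.2 (by rw [hκi]; simp) (Prod.ext (hκi.trans hκ.symm) h.symm)
      have hai : ((frwcList old new pl).get i).2 ∈ old := by
        rcases frwc_get_mem old new pl i with ⟨_, h⟩ | ⟨h, _⟩ | ⟨h, _⟩
        · exact h
        · rw [hκi] at h; simp at h
        · rw [hκi] at h; simp at h
      exact frwc_D_disj pat s _ _ hne (hst s _ (h_old ha) _ (h_old hai) hne) hr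
    · intro r hr
      rcases (frwc_mem_D pat s _ _ _ _).1 hr with ⟨_, rfl⟩ | ⟨x, hx, rfl⟩
      · show (if s = s ∧ ((frwcList old new pl).get j).2 ∈ new ∧
          ((frwcList old new pl).get j).2 ∉ old then tw' ((frwcList old new pl).get j).2
          else st.own (.inr (s, ((frwcList old new pl).get j).2))) ∈ A
        rw [if_neg (fun h => h.2.2 ha)]
        exact c5 _ ha
      · have hxo : x ∈ frOut pat (old ∪ new) :=
          frwc_out_sub pat (Finset.mem_union_left _ ha) ((pat _).sub_out _ hx)
        exact (c4 x (frwc_inn_sub_out pat _ (c2 x (Or.inr hxo)))).1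
  · -- a patch: the open legs avoid the inner footprints of the old holes
    left
    obtain ⟨P, hP, Q, hQ, hPQ⟩ := frwc_two hA
      (T := ((pat ((frwcList old new pl).get j).2).out \ frInn pat old).image (st.ow s))
      (by
        intro t ht
        obtain ⟨x, hx, rfl⟩ := Finset.mem_image.1 ht
        exact (c4 x (frwc_out_sub pat (List.mem_toFinset.2 ha) (Finset.mem_sdiff.1 hx).1)).1)
      (c3 _ ha).1
    refine ⟨P, hP, Q, hQ, fun β r hr => ?_⟩
    rw [frwc_mem_in] at hr
    rcases (frwc_mem_D pat s _ _ _ _).1 hr.1 with ⟨h, _⟩ | ⟨x, hx, rfl⟩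
    · exact absurd hκ h
    · apply hPQ
      refine Finset.mem_image.2 ⟨x, Finset.mem_sdiff.2 ⟨(pat _).sub_out _ hx, fun hxo => ?_⟩, rfl⟩
      obtain ⟨a', ha', hxa'⟩ := Finset.mem_biUnion.1 hxo
      obtain ⟨i, hi1, hi2⟩ := frwc_cover_raw pat s _ β
        ((frwc_mem old new pl _ _).2 (Or.inl ⟨rfl, ha'⟩)) hxa'
      exact hr.2 i (frwc_lt_of_rank (by rw [hi1, hκ]; simp [frwcRank])) hi2
  · -- a new hole: only the tag can be open
    left
    have hown : frwcOwn0 st s tw' old new (Sum.inr (s, ((frwcList old new pl).get j).2)) ∈ A := by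
      show (if s = s ∧ ((frwcList old new pl).get j).2 ∈ new ∧
        ((frwcList old new pl).get j).2 ∉ old then tw' ((frwcList old new pl).get j).2
        else st.own (.inr (s, ((frwcList old new pl).get j).2))) ∈ A
      by_cases hao : ((frwcList old new pl).get j).2 ∈ old
      · rw [if_neg (fun h => h.2.2 hao)]
        exact c5 _ hao
      · rw [if_pos ⟨rfl, ha, hao⟩]
        exact c6 _ ha
    refine ⟨_, hown, _, hown, fun β r hr => ?_⟩
    rw [frwc_mem_in] at hr
    rcases (frwc_mem_D pat s _ _ _ _).1 hr.1 with ⟨_, rfl⟩ | ⟨x, hx, rfl⟩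
    · exact Or.inl rfl
    · exfalso
      have hxo : x ∈ frOut pat (old ∪ new) :=
        frwc_out_sub pat (Finset.mem_union_right _ ha) ((pat _).sub_out _ hx)
      obtain ⟨a', ha', hxa'⟩ := Finset.mem_biUnion.1 (c2 x (Or.inr hxo))
      obtain ⟨i, hi1, hi2⟩ := frwc_cover_raw pat s _ β
        ((frwc_mem old new pl _ _).2 (Or.inr (Or.inl ⟨rfl, List.mem_toFinset.1 ha'⟩))) hxa'
      exact hr.2 i (frwc_lt_of_rank (by rw [hi1, hκ]; simp [frwcRank])) hi2

/-- LEAF REW-C4 -/
theorem frwc_hout (hA : A.Nonempty) (j : Fin (frwcList old new pl).length) :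
    FrwaTame (frwcOwn1 st s ow' tw' new) A
      (fun β : (frwcSys pat s (frwcList old new pl)).Br =>
        frcOut ((frwcSys pat s (frwcList old new pl)).DB β) j)
      (fun β => (frwcSys pat s (frwcList old new pl)).DB β j)
      (fun β => (frwcSys pat s (frwcList old new pl)).k j (β j)) := by
  obtain ⟨h_old, h_nk, h_new, c1, c2, c3, c4, c5, c6, c7, -, -, -, -⟩ := ho
  rcases frwc_get_mem old new pl j with ⟨hκ, ha⟩ | ⟨hκ, ha⟩ | ⟨hκ, ha⟩
  · -- an old hole: only the tag can be open
    left
    have hown : frwcOwn1 st s ow' tw' new (Sum.inr (s, ((frwcList old new pl).get j).2)) ∈ A := by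
      show (if s = s ∧ ((frwcList old new pl).get j).2 ∈ new
        then tw' ((frwcList old new pl).get j).2
        else st.own (.inr (s, ((frwcList old new pl).get j).2))) ∈ A
      by_cases han : ((frwcList old new pl).get j).2 ∈ new
      · rw [if_pos ⟨rfl, han⟩]
        exact c6 _ han
      · rw [if_neg (fun h => han h.2)]
        exact c5 _ ha
    refine ⟨_, hown, _, hown, fun β r hr => ?_⟩
    rw [frwc_mem_out] at hr
    rcases (frwc_mem_D pat s _ _ _ _).1 hr.1 with ⟨_, rfl⟩ | ⟨x, hx, rfl⟩
    · exact Or.inl rfl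
    · exfalso
      have hxo : x ∈ frOut pat (old ∪ new) :=
        frwc_out_sub pat (Finset.mem_union_left _ ha) ((pat _).sub_out _ hx)
      obtain ⟨a', ha', hxa'⟩ := Finset.mem_biUnion.1 (c2 x (Or.inr hxo))
      obtain ⟨i, hi1, hi2⟩ := frwc_cover_raw pat s _ β
        ((frwc_mem old new pl _ _).2 (Or.inr (Or.inl ⟨rfl, List.mem_toFinset.1 ha'⟩))) hxa'
      exact hr.2 i (frwc_lt_of_rank (by rw [hi1, hκ]; simp [frwcRank])) hi2
  · -- a patch
    left
    obtain ⟨P, hP, Q, hQ, hPQ⟩ := frwc_two hA
      (T := ((pat ((frwcList old new pl).get j).2).out \ frInn pat new).image ow')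
      (by
        intro t ht
        obtain ⟨x, hx, rfl⟩ := Finset.mem_image.1 ht
        exact (c4 x (frwc_out_sub pat (List.mem_toFinset.2 ha) (Finset.mem_sdiff.1 hx).1)).2)
      (c3 _ ha).2
    refine ⟨P, hP, Q, hQ, fun β r hr => ?_⟩
    rw [frwc_mem_out] at hr
    rcases (frwc_mem_D pat s _ _ _ _).1 hr.1 with ⟨h, _⟩ | ⟨x, hx, rfl⟩
    · exact absurd hκ h
    · apply hPQ
      simp only [frwcOwn1, if_true]
      refine Finset.mem_image.2 ⟨x, Finset.mem_sdiff.2 ⟨(pat _).sub_out _ hx, fun hxo => ?_⟩, rfl⟩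
      obtain ⟨a', ha', hxa'⟩ := Finset.mem_biUnion.1 hxo
      obtain ⟨i, hi1, hi2⟩ := frwc_cover_raw pat s _ β
        ((frwc_mem old new pl _ _).2 (Or.inr (Or.inr ⟨rfl, ha'⟩))) hxa'
      exact hr.2 i (frwc_lt_of_rank (by rw [hi1, hκ]; simp [frwcRank])) hi2
  · -- a new hole: all legs are outputs, product ket
    right
    intro β
    refine ⟨?_, ?_, frwc_ket_prod pat s _ _ _ hκ⟩
    · apply Finset.Subset.antisymm Finset.sdiff_subset
      intro r hr
      refine (frwc_mem_out _ j r).2 ⟨hr, fun i hi => ?_⟩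
      have h1 := frwc_get_lt hi
      have hκi : ((frwcList old new pl).get i).1 = .new :=
        frwc_rank_new (by have := h1.1; rw [hκ] at this; exact this)
      have hne : ((frwcList old new pl).get j).2 ≠ ((frwcList old new pl).get i).2 := fun h =>
        h1.2 (by rw [hκ]; simp) (Prod.ext (hκ.trans hκi.symm) h)
      have hai : ((frwcList old new pl).get i).2 ∈ new := by
        rcases frwc_get_mem old new pl i with ⟨h, _⟩ | ⟨h, _⟩ | ⟨_, h⟩
        · rw [hκi] at h; simp at h
        · rw [hκi] at h; simp at h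
        · exact h
      exact frwc_D_disj pat s _ _ hne (h_new _ ha _ hai hne) hr
    · intro r hr
      rcases (frwc_mem_D pat s _ _ _ _).1 hr with ⟨_, rfl⟩ | ⟨x, hx, rfl⟩
      · show (if s = s ∧ ((frwcList old new pl).get j).2 ∈ new
          then tw' ((frwcList old new pl).get j).2
          else st.own (.inr (s, ((frwcList old new pl).get j).2))) ∈ A
        rw [if_pos ⟨rfl, ha⟩]
        exact c6 _ ha
      · have hxo : x ∈ frOut pat (old ∪ new) :=
          frwc_out_sub pat (Finset.mem_union_right _ ha) ((pat _).sub_out _ hx)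
        simp only [frwcOwn1, if_true]
        exact (c4 x (frwc_inn_sub_out pat _ (c2 x (Or.inr hxo)))).2

/-- LEAF REW-C5 -/
theorem frwc_glob0 :
    frGlob st.own (frRef pat st) = frGlob (frwcOwn0 st s tw' old new) (frRef pat st) := by
  obtain ⟨h_old, h_nk, h_new, c1, c2, c3, c4, c5, c6, c7, -, -, -, -⟩ := ho
  apply frs_glob_congr
  intro σ r hne hσ
  rcases r with p | ⟨s', a⟩
  · exact absurd rfl hne
  · simp only [frwcOwn0] at hne
    by_cases hc : s' = s ∧ a ∈ new ∧ a ∉ old
    · refine fre_ref_tag pat st σ (s', a) (fun hmem => ?_) hσ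
      have hk : a ∈ st.hs s \ old := Finset.mem_sdiff.2
        ⟨by rw [← hc.1]; simp [FrState.hs, hmem], hc.2.2⟩
      exact Finset.disjoint_left.1 h_nk hc.2.1 hk
    · rw [if_neg hc] at hne
      exact absurd rfl hne

/-- LEAF REW-C5 -/
theorem frwc_glob1 :
    frGlob (frwcOwn1 st s ow' tw' new)
        (frRef pat ((FrOp.rewrite s ow' tw' old new pl A).next pat st)) =
      frVec pat ((FrOp.rewrite s ow' tw' old new pl A).next pat st) := by
  obtain ⟨h_old, h_nk, h_new, c1, c2, c3, c4, c5, c6, c7, -, -, -, -⟩ := ho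
  unfold frVec
  apply frs_glob_congr
  intro σ r hne hσ
  rcases r with p | ⟨s', a⟩
  · exact absurd rfl hne
  · have hne' : (if s' = s ∧ a ∈ new then tw' a else st.own (.inr (s', a))) ≠
        (if s' = s then tw' a else st.own (.inr (s', a))) := hne
    by_cases hs : s' = s
    · by_cases ha : a ∈ new
      · rw [if_pos ⟨hs, ha⟩, if_pos hs] at hne'
        exact absurd rfl hne'
      · rw [if_neg (fun h => ha h.2), if_pos hs] at hne'
        refine fre_ref_tag pat _ σ (s', a) (fun hmem => ?_) hσ
        have hmem' : (s', a) ∈ (st.hol.filter fun p => ¬ (p.1 = s ∧ p.2 ∈ old)) ∪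
            new.image fun a => (s, a) := hmem
        rcases Finset.mem_union.1 hmem' with h | h
        · have h2 := Finset.mem_filter.1 h
          have hk : a ∈ st.hs s \ old := Finset.mem_sdiff.2
            ⟨by rw [← hs]; simp [FrState.hs, h2.1], fun hao => h2.2 ⟨hs, hao⟩⟩
          apply hne'
          rw [c7 a hk, hs]
          rfl
        · obtain ⟨a', ha', he⟩ := Finset.mem_image.1 h
          have : a' = a := congrArg Prod.snd he
          exact ha (this ▸ ha')
    · rw [if_neg (fun h => hs h.1), if_neg hs] at hne'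
      exact absurd rfl hne'

/-- LEAF REW-C5: the corner case without participants -/
theorem frwc_empty (hA : A = ∅) :
    frVec pat ((FrOp.rewrite s ow' tw' old new pl A).next pat st) = frVec pat st := by
  obtain ⟨h_old, h_nk, h_new, c1, c2, c3, c4, c5, c6, c7, -, -, -, -⟩ := ho
  have hold : old = ∅ := Finset.eq_empty_of_forall_notMem fun a ha => by
    have := c5 a ha
    rw [hA] at this
    simp at this
  have hnew : new = ∅ := Finset.eq_empty_of_forall_notMem fun a ha => by
    have := c6 a ha
    rw [hA] at this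
    simp at this
  have hout : ∀ x, x ∉ frOut pat pl.toFinset := fun x hx => by
    have := (c4 x hx).1
    rw [hA] at this
    simp at this
  have how : ∀ x, ow' x = st.ow s x := by
    intro x
    by_contra hne
    exact hout x (frwc_inn_sub_out pat _ (c2 x (Or.inl hne)))
  have hhol : ((FrOp.rewrite s ow' tw' old new pl A).next pat st).hol = st.hol := by
    show (st.hol.filter fun p => ¬ (p.1 = s ∧ p.2 ∈ old)) ∪ new.image (fun a => (s, a)) = st.hol
    rw [hold, hnew]
    simp
  have href : frRef pat ((FrOp.rewrite s ow' tw' old new pl A).next pat st) = frRef pat st := by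
    unfold frRef
    rw [hhol]
  unfold frVec
  rw [href]
  apply frs_glob_congr
  intro σ r hne hσ
  rcases r with ⟨s', x⟩ | ⟨s', a⟩
  · exfalso
    apply hne
    show (if s' = s then ow' x else st.own (.inl (s', x))) = st.own (.inl (s', x))
    by_cases hs : s' = s
    · rw [if_pos hs, how, hs]
      rfl
    · rw [if_neg hs]
  · have hne' : (if s' = s then tw' a else st.own (.inr (s', a))) ≠ st.own (.inr (s', a)) := hne
    by_cases hs : s' = s
    · rw [if_pos hs] at hne'
      refine fre_ref_tag pat st σ (s', a) (fun hmem => ?_) hσ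
      have hk : a ∈ st.hs s \ old := Finset.mem_sdiff.2
        ⟨by rw [← hs]; simp [FrState.hs, hmem], by rw [hold]; simp⟩
      apply hne'
      rw [c7 a hk, hs]
      rfl
    · rw [if_neg hs] at hne'
      exact absurd rfl hne'

end Ok

end Claimed.Agent.R296
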