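import Claimed.Agent.R296.P2.FrSlotA

/-!
# Row 296, paper 2, Section 5: the slot toolkit (LEAF `P2-FR-SLOT`, prefix `frs_`; shared by all operation leaves)

Everything here is bookkeeping with 0/1 matrices; no analysis.  `Reg = FrReg SH Λ HI`, `io = frIo q nb`.

* `frLift own own' X` : the canonical operator `X` read with input owners `own` and output owners `own'`.  It is
  `W' X W†  ⊗  1` where `W` places the register `r` in the slot `(own r, r)` and the base value in the slot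
  `(own' r, r)` if `own' r ≠ own r`; all other slots are spectators.
* `frRd own I β`  ("read")  : `|base⟩⟨β|` on the slots `(own r, r)`, `r ∈ I`;
* `frWr own O κ`  ("write") : `|κ⟩⟨base|` on the slots `(own r, r)`, `r ∈ O`.
* `frProdOp S O I a b` : the canonical operator `|⊗_j a_j⟩⟨⊗_j b_j|` on `S`, identity off `S`.
-/

set_option autoImplicit false
set_option linter.unusedSectionVars false

namespace Claimed.Agent.R296

open Matrix

/-- `‖A v‖ ≤ c ‖v‖` for all `v` -/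
def FrBd {m n : Type} [Fintype m] [Fintype n] (A : Matrix m n ℂ) (c : ℝ) : Prop :=
  ∀ v : n → ℂ, cpNsq (A *ᵥ v) ≤ c ^ 2 * cpNsq v

/-! ### calculus of `FrBd` (shared) -/

section Bd

variable {m n l : Type} [Fintype m] [Fintype n] [Fintype l]

/-- triangle inequality in the squared form -/
theorem frs_nsq_add_le (u v : n → ℂ) {a b : ℝ} (ha : 0 ≤ a) (hb : 0 ≤ b)
    (hu : cpNsq u ≤ a ^ 2) (hv : cpNsq v ≤ b ^ 2) : cpNsq (u + v) ≤ (a + b) ^ 2 := by
  classical
  rw [cpNsq_eq_norm_sq] at hu hv ⊢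
  have h1 := (pow_le_pow_iff_left₀ (norm_nonneg _) ha two_ne_zero).1 hu
  have h2 := (pow_le_pow_iff_left₀ (norm_nonneg _) hb two_ne_zero).1 hv
  refine pow_le_pow_left₀ (norm_nonneg _) ?_ 2
  rw [WithLp.toLp_add]
  exact (norm_add_le _ _).trans (add_le_add h1 h2)

theorem frs_nsq_neg (v : n → ℂ) : cpNsq (-v) = cpNsq v := by
  simp [cpNsq]

theorem frs_nsq_sub_le (u v : n → ℂ) {a b : ℝ} (ha : 0 ≤ a) (hb : 0 ≤ b)
    (hu : cpNsq u ≤ a ^ 2) (hv : cpNsq v ≤ b ^ 2) : cpNsq (u - v) ≤ (a + b) ^ 2 := by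
  rw [sub_eq_add_neg]
  exact frs_nsq_add_le u (-v) ha hb hu (by rwa [frs_nsq_neg])

theorem frs_nsq_sum_le {ι : Type} (t : Finset ι) (u : ι → n → ℂ) (a : ι → ℝ)
    (ha : ∀ i ∈ t, 0 ≤ a i) (hu : ∀ i ∈ t, cpNsq (u i) ≤ a i ^ 2) :
    cpNsq (∑ i ∈ t, u i) ≤ (∑ i ∈ t, a i) ^ 2 := by
  classical
  induction t using Finset.induction_on with
  | empty => simp [cpNsq_zero]
  | insert i t hi ih =>
    rw [Finset.sum_insert hi, Finset.sum_insert hi]
    exact frs_nsq_add_le _ _ (ha i (Finset.mem_insert_self i t))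
      (Finset.sum_nonneg fun j hj => ha j (Finset.mem_insert_of_mem hj))
      (hu i (Finset.mem_insert_self i t))
      (ih (fun j hj => ha j (Finset.mem_insert_of_mem hj))
        (fun j hj => hu j (Finset.mem_insert_of_mem hj)))

theorem frs_bd_one_iff (A : Matrix m n ℂ) : FrBd A 1 ↔ CpContr A := by
  unfold FrBd CpContr
  simp only [one_pow, one_mul]

theorem FrBd.mono {A : Matrix m n ℂ} {c c' : ℝ} (h : FrBd A c) (hc : 0 ≤ c) (hcc : c ≤ c') :
    FrBd A c' := fun v =>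
  (h v).trans (mul_le_mul_of_nonneg_right (pow_le_pow_left₀ hc hcc 2) (cpNsq_nonneg v))

/-- `‖v‖ ≤ a  ⟹  ‖A v‖ ≤ c a` -/
theorem FrBd.apply {A : Matrix m n ℂ} {c : ℝ} (h : FrBd A c) (v : n → ℂ) {a : ℝ}
    (hv : cpNsq v ≤ a ^ 2) : cpNsq (A *ᵥ v) ≤ (c * a) ^ 2 := by
  rw [mul_pow]
  exact (h v).trans (mul_le_mul_of_nonneg_left hv (sq_nonneg c))

theorem FrBd.add {A B : Matrix m n ℂ} {a b : ℝ} (hA : FrBd A a) (hB : FrBd B b) (ha : 0 ≤ a)
    (hb : 0 ≤ b) : FrBd (A + B) (a + b) := by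
  intro v
  have hs : cpNsq v = Real.sqrt (cpNsq v) ^ 2 := (Real.sq_sqrt (cpNsq_nonneg v)).symm
  have h := frs_nsq_add_le (A *ᵥ v) (B *ᵥ v) (mul_nonneg ha (Real.sqrt_nonneg (cpNsq v)))
    (mul_nonneg hb (Real.sqrt_nonneg (cpNsq v))) (hA.apply v hs.le) (hB.apply v hs.le)
  rw [Matrix.add_mulVec]
  calc _ ≤ _ := h
    _ = (a + b) ^ 2 * Real.sqrt (cpNsq v) ^ 2 := by ring
    _ = _ := by rw [← hs]

theorem FrBd.neg {A : Matrix m n ℂ} {a : ℝ} (hA : FrBd A a) : FrBd (-A) a := by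
  intro v
  rw [Matrix.neg_mulVec, frs_nsq_neg]
  exact hA v

theorem FrBd.sub {A B : Matrix m n ℂ} {a b : ℝ} (hA : FrBd A a) (hB : FrBd B b) (ha : 0 ≤ a)
    (hb : 0 ≤ b) : FrBd (A - B) (a + b) := by
  rw [sub_eq_add_neg]
  exact hA.add hB.neg ha hb

theorem FrBd.zero : FrBd (0 : Matrix m n ℂ) 0 := by
  intro v
  rw [Matrix.zero_mulVec, cpNsq_zero]
  simp

theorem FrBd.sum {ι : Type} (t : Finset ι) {A : ι → Matrix m n ℂ} {a : ι → ℝ}
    (hA : ∀ i ∈ t, FrBd (A i) (a i)) (ha : ∀ i ∈ t, 0 ≤ a i) :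
    FrBd (∑ i ∈ t, A i) (∑ i ∈ t, a i) := by
  classical
  induction t using Finset.induction_on with
  | empty => simpa using FrBd.zero
  | insert i t hi ih =>
    rw [Finset.sum_insert hi, Finset.sum_insert hi]
    exact (hA i (Finset.mem_insert_self i t)).add
      (ih (fun j hj => hA j (Finset.mem_insert_of_mem hj))
        (fun j hj => ha j (Finset.mem_insert_of_mem hj)))
      (ha i (Finset.mem_insert_self i t))
      (Finset.sum_nonneg fun j hj => ha j (Finset.mem_insert_of_mem hj))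

theorem FrBd.smul {A : Matrix m n ℂ} {a : ℝ} (hA : FrBd A a) (c : ℂ) : FrBd (c • A) (‖c‖ * a) := by
  intro v
  rw [Matrix.smul_mulVec, cpNsq_smul, mul_pow, mul_assoc]
  exact mul_le_mul_of_nonneg_left (hA v) (sq_nonneg _)

theorem FrBd.mul {A : Matrix l m ℂ} {B : Matrix m n ℂ} {a b : ℝ} (hA : FrBd A a) (hB : FrBd B b) :
    FrBd (A * B) (a * b) := by
  intro v
  rw [← Matrix.mulVec_mulVec, mul_pow, mul_assoc]
  exact (hA _).trans (mul_le_mul_of_nonneg_left (hB v) (sq_nonneg _))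

end Bd

section Prod

variable {s : Type} [DecidableEq s] [Fintype s] {io : s → Type} [∀ x, Fintype (io x)]
  [∀ x, DecidableEq (io x)]

/-- `|⊗_j a_j⟩⟨⊗_j b_j|` on `S`, identity off `S` (used when the `O j` and the `I j` partition `S`) -/
def frProdOp {J : ℕ} (S : Finset s) (O I : Fin J → Finset s) (a : ∀ j, CfgOn io (O j) → ℂ)
    (b : ∀ j, CfgOn io (I j) → ℂ) : Matrix (Cfg io) (Cfg io) ℂ :=
  Matrix.of fun σ' σ => if crOff S σ' = crOff S σ then
    (∏ j, a j (crOn (O j) σ')) * star (∏ j, b j (crOn (I j) σ)) else 0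

end Prod

section Slot

variable {PP SH Λ HI : Type} [Fintype PP] [DecidableEq PP] [Fintype SH] [DecidableEq SH]
  [Fintype Λ] [DecidableEq Λ] [Fintype HI] [DecidableEq HI] {q : ℕ} [NeZero q] {nb : HI → ℕ}

/-- lift of a canonical operator: input owners `own`, output owners `own'` -/
def frLift (own own' : FrReg SH Λ HI → PP) (X : Matrix (FrCfg SH Λ q nb) (FrCfg SH Λ q nb) ℂ) :
    Matrix (Cfg (FrMem PP SH Λ q nb)) (Cfg (FrMem PP SH Λ q nb)) ℂ :=
  Matrix.of fun m' m =>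
    if (∀ P r, P ≠ own r → P ≠ own' r → m' P r = m P r) ∧
        (∀ r, own r ≠ own' r → m (own' r) r = fr0 q nb r ∧ m' (own r) r = fr0 q nb r)
    then X (fun r => m' (own' r) r) (fun r => m (own r) r) else 0

open scoped Classical in
/-- read: `|base⟩⟨β|` on the slots `(own r, r)`, `r ∈ I` -/
noncomputable def frRd (own : FrReg SH Λ HI → PP) (I : Finset (FrReg SH Λ HI))
    (β : CfgOn (frIo (SH := SH) (Λ := Λ) q nb) I → ℂ) :
    Matrix (Cfg (FrMem PP SH Λ q nb)) (Cfg (FrMem PP SH Λ q nb)) ℂ :=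
  Matrix.of fun m' m =>
    if (∀ P r, (r ∈ I ∧ P = own r) ∨ m' P r = m P r) ∧ (∀ r ∈ I, m' (own r) r = fr0 q nb r)
    then star (β fun r => m (own r.1) r.1) else 0

open scoped Classical in
/-- write: `|κ⟩⟨base|` on the slots `(own r, r)`, `r ∈ O` -/
noncomputable def frWr (own : FrReg SH Λ HI → PP) (O : Finset (FrReg SH Λ HI))
    (κ : CfgOn (frIo (SH := SH) (Λ := Λ) q nb) O → ℂ) :
    Matrix (Cfg (FrMem PP SH Λ q nb)) (Cfg (FrMem PP SH Λ q nb)) ℂ :=
  Matrix.of fun m' m =>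
    if (∀ P r, (r ∈ O ∧ P = own r) ∨ m' P r = m P r) ∧ (∀ r ∈ O, m (own r) r = fr0 q nb r)
    then κ fun r => m' (own r.1) r.1 else 0

/-! ### bridges to the abstract toolkit of `FrSlotA.lean` -/

theorem frs_glob_eq (own : FrReg SH Λ HI → PP) (ψ : FrCfg SH Λ q nb → ℂ) :
    frGlob own ψ = frsGlob (fr0 q nb) own ψ := by
  funext m
  exact if_congr Iff.rfl rfl rfl

theorem frs_lift_eq (own own' : FrReg SH Λ HI → PP)
    (X : Matrix (FrCfg SH Λ q nb) (FrCfg SH Λ q nb) ℂ) :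
    frLift own own' X = frsLift (fr0 q nb) own own' X := by
  ext m' m
  exact if_congr Iff.rfl rfl rfl

theorem frs_rd_eq (own : FrReg SH Λ HI → PP) (I : Finset (FrReg SH Λ HI))
    (β : CfgOn (frIo (SH := SH) (Λ := Λ) q nb) I → ℂ) :
    frRd own I β = frsRdG (fr0 q nb) own I (fun σ => β (crOn I σ)) := by
  ext m' m
  by_cases h : m' = frsRst (fr0 q nb) own I m
  · rw [frsRdG, frsPm_apply, if_pos h]
    exact if_pos ((frsRst_cond (fr0 q nb) own I m' m).mpr h)
  · rw [frsRdG, frsPm_apply, if_neg h]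
    exact if_neg fun h' => h ((frsRst_cond (fr0 q nb) own I m' m).mp h')

theorem frs_wr_eq (own : FrReg SH Λ HI → PP) (O : Finset (FrReg SH Λ HI))
    (κ : CfgOn (frIo (SH := SH) (Λ := Λ) q nb) O → ℂ) :
    frWr own O κ = (frsRdG (fr0 q nb) own O (fun σ => κ (crOn O σ)))ᴴ := by
  ext m' m
  have hc : ((∀ P r, (r ∈ O ∧ P = own r) ∨ m' P r = m P r) ∧ (∀ r ∈ O, m (own r) r = fr0 q nb r)) ↔
      m = frsRst (fr0 q nb) own O m' := by
    rw [← frsRst_cond (fr0 q nb) own O m m']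
    exact and_congr_left fun _ => forall_congr' fun P => forall_congr' fun r =>
      or_congr_right eq_comm
  rw [Matrix.conjTranspose_apply, frsRdG, frsPm_apply]
  by_cases h : m = frsRst (fr0 q nb) own O m'
  · rw [if_pos h, star_star]
    exact if_pos (hc.mpr h)
  · rw [if_neg h, star_zero]
    exact if_neg fun h' => h (hc.mp h')

/-! ### placement -/

theorem frs_glob_nsq (own : FrReg SH Λ HI → PP) (ψ : FrCfg SH Λ q nb → ℂ) :
    cpNsq (frGlob own ψ) = cpNsq ψ := by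
  rw [frs_glob_eq]
  exact frsGlob_nsq (fr0 q nb) own ψ

theorem frs_glob_sub (own : FrReg SH Λ HI → PP) (ψ φ : FrCfg SH Λ q nb → ℂ) :
    frGlob own (ψ - φ) = frGlob own ψ - frGlob own φ := by
  funext m
  simp only [frGlob, Pi.sub_apply]
  split_ifs
  · rfl
  · simp

/-- a register which has the base value on the support of `ψ` has no owner -/
theorem frs_glob_congr (own own' : FrReg SH Λ HI → PP) (ψ : FrCfg SH Λ q nb → ℂ)
    (h : ∀ σ r, own r ≠ own' r → σ r ≠ fr0 q nb r → ψ σ = 0) : frGlob own ψ = frGlob own' ψ := by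
  rw [frs_glob_eq, frs_glob_eq]
  exact frsGlob_congr (fr0 q nb) own own' ψ h

/-! ### the lift -/

theorem frs_lift_add (own own' : FrReg SH Λ HI → PP)
    (X Y : Matrix (FrCfg SH Λ q nb) (FrCfg SH Λ q nb) ℂ) :
    frLift own own' (X + Y) = frLift own own' X + frLift own own' Y := by
  ext m' m
  simp only [frLift, Matrix.of_apply, Matrix.add_apply]
  split_ifs
  · rfl
  · simp

theorem frs_lift_smul (own own' : FrReg SH Λ HI → PP) (c : ℂ)
    (X : Matrix (FrCfg SH Λ q nb) (FrCfg SH Λ q nb) ℂ) :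
    frLift own own' (c • X) = c • frLift own own' X := by
  ext m' m
  simp only [frLift, Matrix.of_apply, Matrix.smul_apply]
  split_ifs
  · rfl
  · simp

theorem frs_lift_sum {ι : Type} (t : Finset ι) (own own' : FrReg SH Λ HI → PP)
    (X : ι → Matrix (FrCfg SH Λ q nb) (FrCfg SH Λ q nb) ℂ) :
    frLift own own' (∑ i ∈ t, X i) = ∑ i ∈ t, frLift own own' (X i) := by
  ext m' m
  simp only [frLift, Matrix.of_apply, Matrix.sum_apply]
  split_ifs
  · rfl
  · simp

/-- the lift does not increase the operator norm -/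
theorem frs_lift_bd (own own' : FrReg SH Λ HI → PP)
    (X : Matrix (FrCfg SH Λ q nb) (FrCfg SH Λ q nb) ℂ) (c : ℝ) (h : FrBd X c) :
    FrBd (frLift own own' X) c := by
  rw [frs_lift_eq]
  exact frsLift_bd (fr0 q nb) own own' X c h

/-- intertwining with the placement -/
theorem frs_lift_glob (own own' : FrReg SH Λ HI → PP)
    (X : Matrix (FrCfg SH Λ q nb) (FrCfg SH Λ q nb) ℂ) (ψ : FrCfg SH Λ q nb → ℂ) :
    frLift own own' X *ᵥ frGlob own ψ = frGlob own' (X *ᵥ ψ) := by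
  rw [frs_lift_eq, frs_glob_eq, frs_glob_eq]
  exact frsLift_glob (fr0 q nb) own own' X ψ

/-- composition, if the intermediate owner of every register is the first or the last one -/
theorem frs_lift_mul (own own' own'' : FrReg SH Λ HI → PP)
    (h : ∀ r, own' r = own r ∨ own' r = own'' r)
    (X Y : Matrix (FrCfg SH Λ q nb) (FrCfg SH Λ q nb) ℂ) :
    frLift own' own'' Y * frLift own own' X = frLift own own'' (Y * X) := by
  rw [frs_lift_eq, frs_lift_eq, frs_lift_eq]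
  exact frsLift_mul (fr0 q nb) own own' own'' h X Y

/-- a canonical operator supported on registers of one party is a one-party operator -/
theorem frs_lift_priv (own : FrReg SH Λ HI → PP) (P : PP) (D : Finset (FrReg SH Λ HI))
    (hD : ∀ r ∈ D, own r = P)
    (K : Matrix (CfgOn (frIo (SH := SH) (Λ := Λ) q nb) D) (CfgOn (frIo (SH := SH) (Λ := Λ) q nb) D) ℂ) :
    frLift own own (emb D K) =
      cpLoc (Mem := FrMem PP SH Λ q nb) P (emb (io := frIo (SH := SH) (Λ := Λ) q nb) D K) := by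
  rw [frs_lift_eq]
  exact frsLift_priv (fr0 q nb) own P D hD K

/-- **product form**: if the `O j` and the `I j` partition `S` and the owners change only on `S`, the lift of
`|⊗ a_j⟩⟨⊗ b_j|` is: read all `b_j` with the old owners, then write all `a_j` with the new owners -/
theorem frs_lift_prodOp {J : ℕ} (own own' : FrReg SH Λ HI → PP) (S : Finset (FrReg SH Λ HI))
    (O I : Fin J → Finset (FrReg SH Λ HI))
    (hO : ∀ r, r ∈ S ↔ ∃ j, r ∈ O j) (hO' : ∀ j j', j ≠ j' → Disjoint (O j) (O j'))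
    (hI : ∀ r, r ∈ S ↔ ∃ j, r ∈ I j) (hI' : ∀ j j', j ≠ j' → Disjoint (I j) (I j'))
    (hown : ∀ r, r ∉ S → own' r = own r)
    (a : ∀ j, CfgOn (frIo (SH := SH) (Λ := Λ) q nb) (O j) → ℂ)
    (b : ∀ j, CfgOn (frIo (SH := SH) (Λ := Λ) q nb) (I j) → ℂ) :
    frLift own own' (frProdOp S O I a b) =
      (cpTprod J fun j => frWr own' (O j) (a j)) * (cpTprod J fun j => frRd own (I j) (b j)) := by
  have hSO : Finset.univ.biUnion O = S := by
    ext r
    simp only [Finset.mem_biUnion, Finset.mem_univ, true_and]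
    exact (hO r).symm
  have hSI : Finset.univ.biUnion I = S := by
    ext r
    simp only [Finset.mem_biUnion, Finset.mem_univ, true_and]
    exact (hI r).symm
  simp only [frs_wr_eq, frs_rd_eq]
  rw [frsRdG_tprod_H (fr0 q nb) own' J O (fun j σ => a j (crOn (O j) σ)) hO'
      (fun j σ σ' h => congrArg (a j) (funext fun r => h r.1 r.2)),
    frsRdG_tprod (fr0 q nb) own J I (fun j σ => b j (crOn (I j) σ)) hI'
      (fun j σ σ' h => congrArg (b j) (funext fun r => h r.1 r.2)),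
    hSO, hSI, ← frsLift_prod (fr0 q nb) own own' S hown, frs_lift_eq]
  rfl

/-! ### steps and gates of the model of `CompModel.lean` -/

/-- one-party step -/
theorem frs_step_priv {Ξ : Type} (P : PP)
    (B : Ξ → Matrix (FrCfg SH Λ q nb) (FrCfg SH Λ q nb) ℂ) (hB : ∀ ξ, CpContr (B ξ)) :
    ∃ st : CpStep (FrMem PP SH Λ q nb) Ξ, st.P = P ∧ st.Q = P ∧ st.Valid ∧
      ∀ ξ, st.link ξ = cpLoc (Mem := FrMem PP SH Λ q nb) P (B ξ) :=
  ⟨CpStep.priv (Mem := FrMem PP SH Λ q nb) P B, rfl, rfl,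
    CpStep.priv_valid (Mem := FrMem PP SH Λ q nb) P B hB,
    CpStep.priv_link (Mem := FrMem PP SH Λ q nb) P B⟩

/-- a read of unit covectors whose legs belong to `P` and `Q` is a pair effect
(Schmidt decomposition across the two owners; support and covector may depend on the label) -/
theorem frs_step_rd {Ξ : Type} (own : FrReg SH Λ HI → PP) (P Q : PP)
    (I : Ξ → Finset (FrReg SH Λ HI)) (β : ∀ ξ, CfgOn (frIo (SH := SH) (Λ := Λ) q nb) (I ξ) → ℂ)
    (hβ : ∀ ξ, cpNsq (β ξ) = 1) (hown : ∀ ξ, ∀ r ∈ I ξ, own r = P ∨ own r = Q) :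
    ∃ st : CpStep (FrMem PP SH Λ q nb) Ξ, st.P = P ∧ st.Q = Q ∧ st.Valid ∧
      ∀ ξ, st.link ξ = frRd own (I ξ) (β ξ) := by
  refine ⟨CpStep.effectVec P Q (FrCfg SH Λ q nb) (FrCfg SH Λ q nb)
    (fun ξ => frsEta (fr0 q nb) own P (I ξ) (β ξ))
    (fun ξ => frsExt (fr0 q nb) ((I ξ).filter fun r => own r = P))
    (fun ξ => frsExt (fr0 q nb) ((I ξ).filter fun r => own r ≠ P)), rfl, rfl, ?_, fun ξ => ?_⟩
  · exact CpStep.effectVec_valid P Q _ _ _ _ _
      (fun ξ => (frsEta_nsq (fr0 q nb) own P (I ξ) (β ξ)).trans (hβ ξ))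
      (fun ξ => frsExt_col (fr0 q nb) _) (fun ξ => frsExt_col (fr0 q nb) _)
  · rw [CpStep.effectVec_link, frs_rd_eq]
    exact frsRdG_link (fr0 q nb) own P Q (I ξ) (β ξ) (hown ξ)

/-- a write of unit vectors whose legs belong to `P` and `Q` is a pair source -/
theorem frs_step_wr {Ξ : Type} (own : FrReg SH Λ HI → PP) (P Q : PP)
    (O : Ξ → Finset (FrReg SH Λ HI)) (κ : ∀ ξ, CfgOn (frIo (SH := SH) (Λ := Λ) q nb) (O ξ) → ℂ)
    (hκ : ∀ ξ, cpNsq (κ ξ) = 1) (hown : ∀ ξ, ∀ r ∈ O ξ, own r = P ∨ own r = Q) :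
    ∃ st : CpStep (FrMem PP SH Λ q nb) Ξ, st.P = P ∧ st.Q = Q ∧ st.Valid ∧
      ∀ ξ, st.link ξ = frWr own (O ξ) (κ ξ) := by
  refine ⟨CpStep.sourceVec P Q (FrCfg SH Λ q nb) (FrCfg SH Λ q nb)
    (fun ξ x y => star (frsEta (fr0 q nb) own Q (O ξ) (κ ξ) y x))
    (fun ξ x => (frsExt (fr0 q nb) ((O ξ).filter fun r => own r ≠ Q) x)ᴴ)
    (fun ξ y => (frsExt (fr0 q nb) ((O ξ).filter fun r => own r = Q) y)ᴴ), rfl, rfl, ?_, fun ξ => ?_⟩
  · refine CpStep.sourceVec_valid P Q _ _ _ _ _ (fun ξ => ?_)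
      (fun ξ => (frsExt_col (fr0 q nb) _).conjTranspose)
      (fun ξ => (frsExt_col (fr0 q nb) _).conjTranspose)
    rw [Finset.sum_comm]
    simp only [norm_star]
    exact (frsEta_nsq (fr0 q nb) own Q (O ξ) (κ ξ)).trans (hκ ξ)
  · rw [CpStep.sourceVec_link, frs_wr_eq]
    exact frsRdG_link_H (fr0 q nb) own P Q (O ξ) (κ ξ) (hown ξ)

/-- a read of a product of one-register unit covectors is a product of one-party contractions, one per party of `A` -/
theorem frs_rd_prod (own : FrReg SH Λ HI → PP) (I : Finset (FrReg SH Λ HI))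
    (β : ∀ r : FrReg SH Λ HI, frIo q nb r → ℂ) (hβ : ∀ r ∈ I, cpNsq (β r) = 1) :
    ∃ B : PP → Matrix (FrCfg SH Λ q nb) (FrCfg SH Λ q nb) ℂ, (∀ P, CpContr (B P)) ∧
      (∀ P, (∀ r ∈ I, own r ≠ P) → B P = 1) ∧
      frRd own I (fun c => ∏ r, β r.1 (c r)) =
        ((Finset.univ : Finset PP).toList.map fun P =>
          cpLoc (Mem := FrMem PP SH Λ q nb) P (B P)).prod := by
  refine ⟨frsRdP (fr0 q nb) own I β, frsRdP_contr (fr0 q nb) own I β hβ,
    fun P h => frsRdP_one (fr0 q nb) own I β P h, ?_⟩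
  rw [frs_rd_eq, ← frsRdG_prod (fr0 q nb) own I β]
  refine frsRdG_congr (fr0 q nb) own rfl fun σ => ?_
  exact Finset.prod_coe_sort I (fun r => β r (σ r))

/-- the same for a write -/
theorem frs_wr_prod (own : FrReg SH Λ HI → PP) (O : Finset (FrReg SH Λ HI))
    (κ : ∀ r : FrReg SH Λ HI, frIo q nb r → ℂ) (hκ : ∀ r ∈ O, cpNsq (κ r) = 1) :
    ∃ B : PP → Matrix (FrCfg SH Λ q nb) (FrCfg SH Λ q nb) ℂ, (∀ P, CpContr (B P)) ∧
      (∀ P, (∀ r ∈ O, own r ≠ P) → B P = 1) ∧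
      frWr own O (fun c => ∏ r, κ r.1 (c r)) =
        ((Finset.univ : Finset PP).toList.map fun P =>
          cpLoc (Mem := FrMem PP SH Λ q nb) P (B P)).prod := by
  refine ⟨fun P => (frsRdP (fr0 q nb) own O κ P)ᴴ,
    fun P => (frsRdP_contr (fr0 q nb) own O κ hκ P).conjTranspose,
    fun P h => by
      show (frsRdP (fr0 q nb) own O κ P)ᴴ = 1
      rw [frsRdP_one (fr0 q nb) own O κ P h, Matrix.conjTranspose_one], ?_⟩
  rw [frs_wr_eq, ← frsRdG_prod_H (fr0 q nb) own O κ]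
  refine congrArg _ (frsRdG_congr (fr0 q nb) own rfl fun σ => ?_)
  exact Finset.prod_coe_sort O (fun r => κ r (σ r))

/-- one-party gate -/
theorem frs_gate_priv (P : PP) (B : Matrix (FrCfg SH Λ q nb) (FrCfg SH Λ q nb) ℂ) (hB : CpContr B) :
    ∃ g : CpGate (FrMem PP SH Λ q nb), g.Valid ∧ g.op = cpLoc (Mem := FrMem PP SH Λ q nb) P B ∧
      g.part = {P} ∧ g.cost = 1 ∧ g.r = 1 ∧ Fintype.card g.Ξ = 1 :=
  ⟨CpGate.priv (Mem := FrMem PP SH Λ q nb) P B, CpGate.priv_valid (Mem := FrMem PP SH Λ q nb) P B hB,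
    CpGate.priv_op (Mem := FrMem PP SH Λ q nb) P B, CpGate.priv_part (Mem := FrMem PP SH Λ q nb) P B,
    CpGate.single_cost _ _ _, rfl, Fintype.card_unit⟩

end Slot

end Claimed.Agent.R296
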