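import Claimed.Agent.R296.P2.FrVec

/-!
# Row 296, paper 2, Section 5: the slot toolkit, abstract part (LEAF `P2-FR-SLOT`, prefix `frs`)

Registers are an arbitrary finite type `R` with value types `io r` and base values `z r`; every party has one slot
for every register.  `FrSlot.lean` specialises to `R = FrReg SH Λ HI`, `io = frIo q nb`, `z = fr0 q nb`.

* `frsPm g w = ∑ a, w a |g a⟩⟨a|` : weighted function matrices, their products, `cpLoc` of them, contraction criteria;
* `frsOut`, `frsRst`, `frsIns`, `frsSw`, `frsUpd` : operations on slot configurations;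
* `frsLift`, `frsRdG` : abstract lift and read.
-/

set_option autoImplicit false
set_option linter.unusedSectionVars false

namespace Claimed.Agent.R296

open Matrix

/-! ### weighted function matrices -/

section Pm

variable {A B C : Type}

/-- `∑ a, w a |g a⟩⟨a|` -/
def frsPm [DecidableEq B] (g : A → B) (w : A → ℂ) : Matrix B A ℂ :=
  Matrix.of fun b a => if b = g a then w a else 0

theorem frsPm_apply [DecidableEq B] (g : A → B) (w : A → ℂ) (b : B) (a : A) :
    frsPm g w b a = if b = g a then w a else 0 := rfl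

theorem frsPm_mul [Fintype B] [DecidableEq B] [DecidableEq C] (g₁ : B → C) (w₁ : B → ℂ)
    (g₂ : A → B) (w₂ : A → ℂ) :
    frsPm g₁ w₁ * frsPm g₂ w₂ = frsPm (fun a => g₁ (g₂ a)) (fun a => w₁ (g₂ a) * w₂ a) := by
  ext c a
  simp only [Matrix.mul_apply, frsPm_apply, mul_ite, mul_zero, Finset.sum_ite_eq', Finset.mem_univ,
    if_true, ite_mul, zero_mul]

theorem frsPm_id [DecidableEq A] : frsPm (fun a : A => a) (fun _ => 1) = 1 := by
  ext a b
  simp only [frsPm_apply, Matrix.one_apply]

theorem frsPm_congr [DecidableEq B] {g g' : A → B} {w w' : A → ℂ} (hg : ∀ a, g a = g' a)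
    (hw : ∀ a, w a = w' a) : frsPm g w = frsPm g' w' := by
  rw [funext hg, funext hw]

theorem frsPm_smul [DecidableEq B] (c : ℂ) (g : A → B) (w : A → ℂ) :
    c • frsPm g w = frsPm g (fun a => c * w a) := by
  ext b a
  simp only [Matrix.smul_apply, frsPm_apply, smul_eq_mul, mul_ite, mul_zero]

theorem frsPm_sum [DecidableEq B] {ι : Type} (t : Finset ι) (g : A → B) (w : ι → A → ℂ) :
    ∑ i ∈ t, frsPm g (w i) = frsPm g (fun a => ∑ i ∈ t, w i a) := by
  ext b a
  simp only [Matrix.sum_apply, frsPm_apply]
  split_ifs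
  · rfl
  · simp

/-- `(frsPm g w)ᴴ * frsPm g' w'` -/
theorem frsPm_conjTranspose_mul [Fintype B] [DecidableEq B] (g : A → B) (w : A → ℂ)
    (g' : C → B) (w' : C → ℂ) (a : A) (c : C) :
    ((frsPm g w)ᴴ * frsPm g' w') a c = if g a = g' c then star (w a) * w' c else 0 := by
  simp only [Matrix.mul_apply, Matrix.conjTranspose_apply, frsPm_apply, mul_ite, mul_zero,
    Finset.sum_ite_eq', Finset.mem_univ, if_true]
  by_cases h : g a = g' c
  · rw [if_pos h, if_pos h.symm]
  · rw [if_neg h, if_neg (fun h' => h h'.symm), star_zero, zero_mul]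

theorem frsPm_mulVec [Fintype A] [DecidableEq B] (g : A → B) (w : A → ℂ) (v : A → ℂ) (b : B) :
    (frsPm g w *ᵥ v) b = ∑ a, if b = g a then w a * v a else 0 := by
  simp only [Matrix.mulVec, dotProduct, frsPm_apply, ite_mul, zero_mul]

/-- Cauchy-Schwarz criterion: the weights have norm at most one on every fibre -/
theorem frsPm_contr [Fintype A] [Fintype B] [DecidableEq B] (g : A → B) (w : A → ℂ)
    (h : ∀ b, ∑ a, (if b = g a then ‖w a‖ ^ 2 else 0) ≤ 1) : CpContr (frsPm g w) := by
  intro v
  have h1 : ∀ b, ‖(frsPm g w *ᵥ v) b‖ ^ 2 ≤ ∑ a, if b = g a then ‖v a‖ ^ 2 else 0 := by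
    intro b
    rw [frsPm_mulVec]
    have e : ∑ a, (if b = g a then w a * v a else 0) =
        cpIp (fun a => if b = g a then star (w a) else 0) (fun a => if b = g a then v a else 0) := by
      unfold cpIp
      refine Finset.sum_congr rfl fun a _ => ?_
      by_cases hb : b = g a <;> simp [hb]
    rw [e]
    refine (cpIp_norm_sq_le _ _).trans ?_
    have e1 : cpNsq (fun a => if b = g a then star (w a) else 0) =
        ∑ a, (if b = g a then ‖w a‖ ^ 2 else 0) := by
      unfold cpNsq
      refine Finset.sum_congr rfl fun a _ => ?_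
      by_cases hb : b = g a <;> simp [hb]
    have e2 : cpNsq (fun a => if b = g a then v a else 0) =
        ∑ a, (if b = g a then ‖v a‖ ^ 2 else 0) := by
      unfold cpNsq
      refine Finset.sum_congr rfl fun a _ => ?_
      by_cases hb : b = g a <;> simp [hb]
    rw [e1, e2]
    have h0 : 0 ≤ ∑ a, (if b = g a then ‖v a‖ ^ 2 else 0) :=
      Finset.sum_nonneg fun a _ => by split_ifs <;> positivity
    calc _ ≤ 1 * ∑ a, (if b = g a then ‖v a‖ ^ 2 else 0) := mul_le_mul_of_nonneg_right (h b) h0
      _ = _ := one_mul _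
  calc cpNsq (frsPm g w *ᵥ v) ≤ ∑ b, ∑ a, if b = g a then ‖v a‖ ^ 2 else 0 :=
        Finset.sum_le_sum fun b _ => h1 b
    _ = cpNsq v := by
        rw [Finset.sum_comm]
        unfold cpNsq
        refine Finset.sum_congr rfl fun a _ => ?_
        simp

/-- extraction family: `x ↦ ∑_{a : k a = x} |g a⟩⟨a|` is a column contraction if `a ↦ (g a, k a)` is injective -/
theorem frsPm_col {X : Type} [Fintype A] [DecidableEq A] [Fintype X] [DecidableEq X]
    (g : A → A) (k : A → X) (hinj : ∀ a a', g a = g a' → k a = k a' → a = a') :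
    CpCol fun x => frsPm g (fun a => if x = k a then 1 else 0) := by
  intro v
  have h1 : ∀ x b, ‖(frsPm g (fun a => if x = k a then (1 : ℂ) else 0) *ᵥ v) b‖ ^ 2 =
      ∑ a, if (b = g a ∧ x = k a) then ‖v a‖ ^ 2 else 0 := by
    intro x b
    rw [frsPm_mulVec, ← cp_nsq_sum_unique Finset.univ (fun a => b = g a ∧ x = k a)
      (fun a _ a' _ h h' => hinj a a' (h.1.symm.trans h'.1) (h.2.symm.trans h'.2)) v]
    congr 2
    refine Finset.sum_congr rfl fun a _ => ?_
    by_cases hb : b = g a <;> by_cases hx : x = k a <;> simp [hb, hx]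
  unfold cpNsq
  simp only [h1]
  have h2 : ∀ a, ∑ x, ∑ b, (if (b = g a ∧ x = k a) then ‖v a‖ ^ 2 else 0) = ‖v a‖ ^ 2 := by
    intro a
    rw [Finset.sum_eq_single (k a), Finset.sum_eq_single (g a)]
    · simp
    · intro b _ hb; simp [hb]
    · simp
    · intro x _ hx; simp [hx]
    · simp
  calc ∑ x, ∑ b, ∑ a, (if (b = g a ∧ x = k a) then ‖v a‖ ^ 2 else 0)
      = ∑ x, ∑ a, ∑ b, (if (b = g a ∧ x = k a) then ‖v a‖ ^ 2 else 0) :=
        Finset.sum_congr rfl fun x _ => Finset.sum_comm
    _ = ∑ a, ∑ x, ∑ b, (if (b = g a ∧ x = k a) then ‖v a‖ ^ 2 else 0) := Finset.sum_comm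
    _ ≤ ∑ a, ‖v a‖ ^ 2 := (Finset.sum_congr rfl fun a _ => h2 a).le

end Pm

/-! ### `cpLoc` of a weighted function matrix -/

section Loc

variable {PP : Type} [DecidableEq PP] [Fintype PP] {Mem : PP → Type}
  [∀ P, Fintype (Mem P)] [∀ P, DecidableEq (Mem P)]

theorem frsPm_loc (P : PP) (g : Mem P → Mem P) (w : Mem P → ℂ) :
    cpLoc P (frsPm g w) =
      frsPm (fun m : Cfg Mem => Function.update m P (g (m P))) (fun m => w (m P)) := by
  ext m' m
  rw [cpLoc_apply, frsPm_apply, frsPm_apply]
  by_cases h : m' = Function.update m P (g (m P))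
  · rw [if_pos h, if_pos, if_pos]
    · rw [h]; simp
    · intro Q hQ; rw [h, Function.update_of_ne hQ]
  · rw [if_neg h]
    split_ifs with h1 h2
    · exfalso
      apply h
      funext Q
      by_cases hQ : Q = P
      · subst hQ; simp [h2]
      · rw [Function.update_of_ne hQ]; exact h1 Q hQ
    · rfl
    · rfl

end Loc

/-! ### slot configurations -/

section Slot

variable {PP R : Type} [Fintype PP] [DecidableEq PP] [Fintype R] [DecidableEq R] {io : R → Type}
  [∀ r, Fintype (io r)] [∀ r, DecidableEq (io r)]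

/-- slot configurations: every party has one slot for every register -/
abbrev FrsM (PP : Type) {R : Type} (io : R → Type) : Type := Cfg (fun _ : PP => Cfg io)

/-- the canonical configuration read off with the owners `own` -/
def frsOut (own : R → PP) (m : FrsM PP io) : Cfg io := fun r => m (own r) r

/-- overwrite the slots `(own r, r)` -/
def frsUpd (own : R → PP) (m : FrsM PP io) (σ : Cfg io) : FrsM PP io :=
  fun P r => if P = own r then σ r else m P r

/-- exchange the slots `(own r, r)` and `(own' r, r)` -/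
def frsSw (own own' : R → PP) (m : FrsM PP io) : FrsM PP io :=
  fun P r => if P = own r then m (own' r) r else if P = own' r then m (own r) r else m P r

variable (z : ∀ r, io r)

/-- reset the slots `(own r, r)`, `r ∈ I` -/
def frsRst (own : R → PP) (I : Finset R) (m : FrsM PP io) : FrsM PP io :=
  fun P r => if r ∈ I ∧ P = own r then z r else m P r

/-- `σ` in the slots `(own r, r)`, base values in the slots `(own' r, r)` -/
def frsIns (own own' : R → PP) (m : FrsM PP io) (σ : Cfg io) : FrsM PP io :=
  fun P r => if P = own r then σ r else if P = own' r then z r else m P r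

/-- placement -/
def frsGlob (own : R → PP) (ψ : Cfg io → ℂ) : FrsM PP io → ℂ :=
  fun m => if ∀ P r, own r ≠ P → m P r = z r then ψ (frsOut own m) else 0

/-- lift -/
def frsLift (own own' : R → PP) (X : Matrix (Cfg io) (Cfg io) ℂ) :
    Matrix (FrsM PP io) (FrsM PP io) ℂ :=
  Matrix.of fun m' m =>
    if (∀ P r, P ≠ own r → P ≠ own' r → m' P r = m P r) ∧
        (∀ r, own r ≠ own' r → m (own' r) r = z r ∧ m' (own r) r = z r)
    then X (frsOut own' m') (frsOut own m) else 0

/-! #### elementary identities -/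

omit [Fintype PP] [Fintype R] [DecidableEq R] [∀ r, Fintype (io r)] [∀ r, DecidableEq (io r)] in
theorem frsOut_upd (own : R → PP) (m : FrsM PP io) (σ : Cfg io) :
    frsOut own (frsUpd own m σ) = σ := by
  funext r
  simp [frsOut, frsUpd]

omit [Fintype PP] [Fintype R] [DecidableEq R] [∀ r, Fintype (io r)] [∀ r, DecidableEq (io r)] in
theorem frsUpd_out (own : R → PP) (m : FrsM PP io) : frsUpd own m (frsOut own m) = m := by
  funext P r
  by_cases h : P = own r
  · subst h; simp [frsOut, frsUpd]
  · simp [frsUpd, h]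

omit [Fintype PP] [Fintype R] [DecidableEq R] [∀ r, Fintype (io r)] [∀ r, DecidableEq (io r)] in
theorem frsUpd_upd (own : R → PP) (m : FrsM PP io) (σ τ : Cfg io) :
    frsUpd own (frsUpd own m σ) τ = frsUpd own m τ := by
  funext P r
  by_cases h : P = own r <;> simp [frsUpd, h]

omit [Fintype PP] [Fintype R] [DecidableEq R] [∀ r, Fintype (io r)] [∀ r, DecidableEq (io r)] in
theorem frsSw_sw (own own' : R → PP) (m : FrsM PP io) : frsSw own own' (frsSw own own' m) = m := by
  funext P r
  by_cases h : P = own r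
  · subst h
    by_cases h' : own' r = own r <;> simp [frsSw, h']
  · by_cases h' : P = own' r
    · subst h'
      simp [frsSw, h]
    · simp [frsSw, h, h']

omit [Fintype PP] [Fintype R] [DecidableEq R] [∀ r, Fintype (io r)] [∀ r, DecidableEq (io r)] in
theorem frsOut_ins (own own' : R → PP) (m : FrsM PP io) (σ : Cfg io) :
    frsOut own (frsIns z own own' m σ) = σ := by
  funext r
  simp [frsOut, frsIns]

/-- averaging over the slots `(own r, r)` -/
theorem frs_sum_upd (own : R → PP) (G : FrsM PP io → ℝ) :
    ∑ m, ∑ σ, G (frsUpd own m σ) = (Fintype.card (Cfg io) : ℝ) * ∑ m, G m := by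
  have hinv : Function.Involutive
      (fun p : FrsM PP io × Cfg io => (frsUpd own p.1 p.2, frsOut own p.1)) := by
    rintro ⟨m, σ⟩
    simp only [frsOut_upd, frsUpd_upd, frsUpd_out]
  have h1 := Equiv.sum_comp hinv.toPerm (fun p : FrsM PP io × Cfg io => G p.1)
  rw [Fintype.sum_prod_type, Fintype.sum_prod_type] at h1
  simp only [Function.Involutive.coe_toPerm] at h1
  rw [h1]
  simp only [Finset.sum_const, Finset.card_univ, nsmul_eq_mul, Finset.mul_sum]

/-! #### the lift -/

/-- the condition in the lift -/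
theorem frsLift_cond (own own' : R → PP) (m' m : FrsM PP io) :
    ((∀ P r, P ≠ own r → P ≠ own' r → m' P r = m P r) ∧
        (∀ r, own r ≠ own' r → m (own' r) r = z r ∧ m' (own r) r = z r)) ↔
      (∀ r, own r ≠ own' r → m' (own r) r = z r) ∧ m = frsIns z own own' m' (frsOut own m) := by
  constructor
  · rintro ⟨h1, h2⟩
    refine ⟨fun r hr => (h2 r hr).2, ?_⟩
    funext P r
    by_cases h : P = own r
    · subst h; simp [frsIns, frsOut]
    · by_cases h' : P = own' r
      · subst h'; simp [frsIns, h, (h2 r (Ne.symm h)).1]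
      · simp [frsIns, h, h', h1 P r h h']
  · rintro ⟨h1, h2⟩
    refine ⟨fun P r h h' => ?_, fun r hr => ⟨?_, h1 r hr⟩⟩
    · rw [h2]; simp [frsIns, h, h']
    · rw [h2]; simp [frsIns, Ne.symm hr]

theorem frsLift_apply (own own' : R → PP) (X : Matrix (Cfg io) (Cfg io) ℂ) (m' m : FrsM PP io) :
    frsLift z own own' X m' m =
    if (∀ P r, P ≠ own r → P ≠ own' r → m' P r = m P r) ∧
        (∀ r, own r ≠ own' r → m (own' r) r = z r ∧ m' (own r) r = z r)
    then X (frsOut own' m') (frsOut own m) else 0 := rfl

theorem frsLift_mulVec (own own' : R → PP) (X : Matrix (Cfg io) (Cfg io) ℂ)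
    (v : FrsM PP io → ℂ) (m' : FrsM PP io) :
    (frsLift z own own' X *ᵥ v) m' = if (∀ r, own r ≠ own' r → m' (own r) r = z r) then
      (X *ᵥ fun σ => v (frsIns z own own' m' σ)) (frsOut own' m') else 0 := by
  simp only [Matrix.mulVec, dotProduct]
  split_ifs with hg
  · symm
    apply Fintype.sum_of_injective (frsIns z own own' m')
    · intro σ τ h
      have := congrArg (frsOut own) h
      simpa only [frsOut_ins] using this
    · intro m hm
      rw [frsLift_apply, if_neg, zero_mul]
      intro hc
      exact hm ⟨_, ((frsLift_cond z own own' m' m).mp hc).2.symm⟩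
    · intro σ
      rw [frsLift_apply, if_pos, frsOut_ins]
      exact (frsLift_cond z own own' m' _).mpr ⟨hg, by rw [frsOut_ins]⟩
  · apply Finset.sum_eq_zero
    intro m _
    rw [frsLift_apply, if_neg, zero_mul]
    intro hc
    exact hg ((frsLift_cond z own own' m' m).mp hc).1

theorem frsLift_bd (own own' : R → PP) (X : Matrix (Cfg io) (Cfg io) ℂ) (c : ℝ)
    (h : ∀ v : Cfg io → ℂ, cpNsq (X *ᵥ v) ≤ c ^ 2 * cpNsq v) (v : FrsM PP io → ℂ) :
    cpNsq (frsLift z own own' X *ᵥ v) ≤ c ^ 2 * cpNsq v := by
  have : Nonempty (Cfg io) := ⟨z⟩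
  have hN : (0 : ℝ) < (Fintype.card (Cfg io) : ℝ) := by exact_mod_cast Fintype.card_pos
  have hterm : ∀ m : FrsM PP io,
      ∑ τ, ‖(frsLift z own own' X *ᵥ v) (frsUpd own' m τ)‖ ^ 2 ≤
        c ^ 2 * ∑ σ, ‖v (frsSw own own' (frsUpd own' m σ))‖ ^ 2 := by
    intro m
    by_cases hg : ∀ r, own r ≠ own' r → m (own r) r = z r
    · have e : ∀ τ, (frsLift z own own' X *ᵥ v) (frsUpd own' m τ) =
          (X *ᵥ fun σ => v (frsSw own own' (frsUpd own' m σ))) τ := by
        intro τ
        rw [frsLift_mulVec, if_pos, frsOut_upd]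
        · congr 2
          funext σ
          congr 1
          funext P r
          by_cases h1 : P = own r
          · subst h1; simp [frsIns, frsSw, frsUpd]
          · by_cases h2 : P = own' r
            · subst h2
              simp [frsIns, frsSw, frsUpd, h1, Ne.symm h1, hg r (Ne.symm h1)]
            · simp [frsIns, frsSw, frsUpd, h1, h2]
        · intro r hr
          simp [frsUpd, hr, hg r hr]
      simp only [e]
      exact h _
    · have e : ∀ τ, (frsLift z own own' X *ᵥ v) (frsUpd own' m τ) = 0 := by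
        intro τ
        rw [frsLift_mulVec, if_neg]
        intro hg'
        apply hg
        intro r hr
        have := hg' r hr
        simpa [frsUpd, hr] using this
      simp only [e]
      simp only [norm_zero, ne_eq, OfNat.ofNat_ne_zero, not_false_eq_true, zero_pow,
        Finset.sum_const_zero]
      exact mul_nonneg (sq_nonneg _) (Finset.sum_nonneg fun _ _ => sq_nonneg _)
  have hsw : ∑ m, ‖v (frsSw own own' m)‖ ^ 2 = ∑ m, ‖v m‖ ^ 2 :=
    Equiv.sum_comp (Function.Involutive.toPerm _ (frsSw_sw own own')) (fun m => ‖v m‖ ^ 2)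
  have key : (Fintype.card (Cfg io) : ℝ) * cpNsq (frsLift z own own' X *ᵥ v) ≤
      (Fintype.card (Cfg io) : ℝ) * (c ^ 2 * cpNsq v) := by
    unfold cpNsq
    rw [← frs_sum_upd own' (fun m => ‖(frsLift z own own' X *ᵥ v) m‖ ^ 2)]
    refine (Finset.sum_le_sum fun m _ => hterm m).trans ?_
    rw [← Finset.mul_sum, frs_sum_upd own' (fun m => ‖v (frsSw own own' m)‖ ^ 2), hsw]
    exact le_of_eq (by ring)
  exact le_of_mul_le_mul_left key hN

/-! #### placement -/

theorem frsGlob_cond (own : R → PP) (m : FrsM PP io) :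
    (∀ P r, own r ≠ P → m P r = z r) ↔ m = frsUpd own (fun _ => z) (frsOut own m) := by
  constructor
  · intro h
    funext P r
    by_cases h1 : P = own r
    · subst h1; simp [frsUpd, frsOut]
    · simp [frsUpd, h1, h P r (Ne.symm h1)]
  · intro h P r hP
    rw [h]
    simp [frsUpd, Ne.symm hP]

theorem frsGlob_apply (own : R → PP) (ψ : Cfg io → ℂ) (m : FrsM PP io) :
    frsGlob z own ψ m = if ∀ P r, own r ≠ P → m P r = z r then ψ (frsOut own m) else 0 := rfl

theorem frsGlob_nsq (own : R → PP) (ψ : Cfg io → ℂ) : cpNsq (frsGlob z own ψ) = cpNsq ψ := by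
  unfold cpNsq
  symm
  apply Fintype.sum_of_injective (frsUpd own (fun _ => z))
  · intro σ τ h
    simpa only [frsOut_upd] using congrArg (frsOut own) h
  · intro m hm
    rw [frsGlob_apply, if_neg]
    · simp
    · intro hc
      exact hm ⟨_, ((frsGlob_cond z own m).mp hc).symm⟩
  · intro σ
    rw [frsGlob_apply, if_pos, frsOut_upd]
    exact (frsGlob_cond z own _).mpr (by rw [frsOut_upd])

theorem frsGlob_congr_aux (own own' : R → PP) (ψ : Cfg io → ℂ)
    (h : ∀ σ r, own r ≠ own' r → σ r ≠ z r → ψ σ = 0) (m : FrsM PP io)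
    (hc : ∀ P r, own r ≠ P → m P r = z r) : frsGlob z own ψ m = frsGlob z own' ψ m := by
  rw [frsGlob_apply, frsGlob_apply, if_pos hc]
  by_cases hb : ∀ r, own r ≠ own' r → m (own r) r = z r
  · rw [if_pos]
    · congr 1
      funext r
      by_cases hr : own r = own' r
      · simp [frsOut, hr]
      · simp only [frsOut]
        rw [hb r hr, hc _ r hr]
    · intro P r hP
      by_cases hr : own r = P
      · subst hr
        exact hb r (Ne.symm hP)
      · exact hc P r hr
  · push Not at hb
    obtain ⟨r, hr, hr'⟩ := hb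
    rw [h (frsOut own m) r hr hr', if_neg]
    intro hc'
    exact hr' (hc' _ r (Ne.symm hr))

theorem frsGlob_congr (own own' : R → PP) (ψ : Cfg io → ℂ)
    (h : ∀ σ r, own r ≠ own' r → σ r ≠ z r → ψ σ = 0) : frsGlob z own ψ = frsGlob z own' ψ := by
  funext m
  by_cases hc : ∀ P r, own r ≠ P → m P r = z r
  · exact frsGlob_congr_aux z own own' ψ h m hc
  · by_cases hc' : ∀ P r, own' r ≠ P → m P r = z r
    · exact (frsGlob_congr_aux z own' own ψ (fun σ r hr => h σ r (Ne.symm hr)) m hc').symm
    · rw [frsGlob_apply, frsGlob_apply, if_neg hc, if_neg hc']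

theorem frsLift_glob (own own' : R → PP) (X : Matrix (Cfg io) (Cfg io) ℂ) (ψ : Cfg io → ℂ) :
    frsLift z own own' X *ᵥ frsGlob z own ψ = frsGlob z own' (X *ᵥ ψ) := by
  funext m'
  rw [frsLift_mulVec, frsGlob_apply]
  have hins : ∀ σ, (∀ P r, own r ≠ P → frsIns z own own' m' σ P r = z r) ↔
      ∀ P r, P ≠ own r → P ≠ own' r → m' P r = z r := by
    intro σ
    constructor
    · intro h P r h1 h2
      have := h P r (Ne.symm h1)
      simpa [frsIns, h1, h2] using this
    · intro h P r h1
      by_cases h2 : P = own' r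
      · simp only [frsIns, if_neg (Ne.symm h1), if_pos h2]
      · simp [frsIns, Ne.symm h1, h2, h P r (Ne.symm h1) h2]
  by_cases hc : ∀ P r, own' r ≠ P → m' P r = z r
  · rw [if_pos hc, if_pos (fun r hr => hc _ r (Ne.symm hr))]
    congr 2
    funext σ
    rw [frsGlob_apply, if_pos, frsOut_ins]
    exact (hins σ).mpr fun P r _ h2 => hc P r (Ne.symm h2)
  · rw [if_neg hc]
    split_ifs with hg
    · have e : (fun σ => frsGlob z own ψ (frsIns z own own' m' σ)) = 0 := by
        funext σ
        rw [frsGlob_apply, if_neg, Pi.zero_apply]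
        intro h
        apply hc
        intro P r hP
        by_cases h1 : P = own r
        · subst h1
          exact hg r (Ne.symm hP)
        · exact (hins σ).mp h P r h1 (Ne.symm hP)
      rw [e, Matrix.mulVec_zero, Pi.zero_apply]
    · rfl

/-! #### composition -/

theorem frsLift_mul_cond (own own' own'' : R → PP) (h : ∀ r, own' r = own r ∨ own' r = own'' r)
    (m'' m : FrsM PP io) (τ : Cfg io) :
    ((∀ r, own' r ≠ own'' r → m'' (own' r) r = z r) ∧
      ((∀ P r, P ≠ own r → P ≠ own' r → frsIns z own' own'' m'' τ P r = m P r) ∧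
        (∀ r, own r ≠ own' r → m (own' r) r = z r ∧ frsIns z own' own'' m'' τ (own r) r = z r))) ↔
    ((∀ P r, P ≠ own r → P ≠ own'' r → m'' P r = m P r) ∧
        (∀ r, own r ≠ own'' r → m (own'' r) r = z r ∧ m'' (own r) r = z r)) := by
  constructor
  · rintro ⟨g2, c1, c2⟩
    refine ⟨fun P r h1 h2 => ?_, fun r hr => ?_⟩
    · have h3 : P ≠ own' r := by
        rcases h r with h' | h' <;> rw [h'] <;> assumption
      have := c1 P r h1 h3
      simpa [frsIns, h3, h2] using this
    · rcases h r with h' | h'
      · have h3 : own'' r ≠ own' r := by rw [h']; exact Ne.symm hr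
        have := c1 (own'' r) r (Ne.symm hr) h3
        have g := g2 r (Ne.symm h3)
        rw [h'] at g
        refine ⟨?_, g⟩
        simpa [frsIns, h3] using this.symm
      · have h3 : own r ≠ own' r := by rw [h']; exact hr
        have := c2 r h3
        rw [h'] at this
        refine ⟨this.1, ?_⟩
        simpa [frsIns, hr, h'] using this.2
  · rintro ⟨c1, c2⟩
    refine ⟨fun r hr => ?_, fun P r h1 h2 => ?_, fun r hr => ?_⟩
    · rcases h r with h' | h'
      · rw [h'] at hr ⊢
        exact (c2 r hr).2
      · exact absurd h' hr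
    · by_cases h3 : P = own'' r
      · subst h3
        simp [frsIns, h2, (c2 r (Ne.symm h1)).1]
      · simp [frsIns, h2, h3, c1 P r h1 h3]
    · rcases h r with h' | h'
      · exact absurd h'.symm hr
      · have h3 : own r ≠ own'' r := by rw [← h']; exact hr
        rw [h']
        refine ⟨(c2 r h3).1, ?_⟩
        simp [frsIns, h3, h', (c2 r h3).2]

theorem frsLift_mul (own own' own'' : R → PP) (h : ∀ r, own' r = own r ∨ own' r = own'' r)
    (X Y : Matrix (Cfg io) (Cfg io) ℂ) :
    frsLift z own' own'' Y * frsLift z own own' X = frsLift z own own'' (Y * X) := by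
  ext m'' m
  have e : (frsLift z own' own'' Y * frsLift z own own' X) m'' m =
      (frsLift z own' own'' Y *ᵥ fun m' => frsLift z own own' X m' m) m'' := rfl
  rw [e, frsLift_mulVec, frsLift_apply]
  by_cases hc : ((∀ P r, P ≠ own r → P ≠ own'' r → m'' P r = m P r) ∧
        (∀ r, own r ≠ own'' r → m (own'' r) r = z r ∧ m'' (own r) r = z r))
  · rw [if_pos hc, if_pos ((frsLift_mul_cond z own own' own'' h m'' m z).mpr hc).1]
    have e2 : (fun σ => frsLift z own own' X (frsIns z own' own'' m'' σ) m) =
        fun σ => X σ (frsOut own m) := by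
      funext σ
      rw [frsLift_apply, if_pos ((frsLift_mul_cond z own own' own'' h m'' m σ).mpr hc).2,
        frsOut_ins]
    rw [e2]
    rfl
  · rw [if_neg hc]
    split_ifs with hg
    · have e2 : (fun σ => frsLift z own own' X (frsIns z own' own'' m'' σ) m) = 0 := by
        funext σ
        rw [frsLift_apply, if_neg, Pi.zero_apply]
        intro h1
        exact hc ((frsLift_mul_cond z own own' own'' h m'' m σ).mp ⟨hg, h1⟩)
      rw [e2, Matrix.mulVec_zero, Pi.zero_apply]
    · rfl

/-! #### one-party operators -/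

theorem frsLift_priv (own : R → PP) (P : PP) (D : Finset R) (hD : ∀ r ∈ D, own r = P)
    (K : Matrix (CfgOn io D) (CfgOn io D) ℂ) :
    frsLift z own own (emb D K) = cpLoc (Mem := fun _ : PP => Cfg io) P (emb D K) := by
  ext m' m
  rw [frsLift_apply, cpLoc_apply]
  simp only [emb, Matrix.of_apply]
  have hon : ∀ n : FrsM PP io, crOn D (frsOut own n) = crOn D (n P) := by
    intro n
    funext r
    simp only [crOn, frsOut]
    rw [hD r.1 r.2]
  rw [hon, hon]
  by_cases hc : ∀ P' r, (r ∈ D ∧ P' = P) ∨ m' P' r = m P' r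
  · have h1 : (∀ P' r, P' ≠ own r → P' ≠ own r → m' P' r = m P' r) ∧
        (∀ r, own r ≠ own r → m (own r) r = z r ∧ m' (own r) r = z r) := by
      refine ⟨fun P' r h1 _ => ?_, fun r hr => absurd rfl hr⟩
      rcases hc P' r with ⟨hr, hP⟩ | h2
      · exact absurd (hP.trans (hD r hr).symm) h1
      · exact h2
    have h2 : crOff D (frsOut own m') = crOff D (frsOut own m) := by
      funext r
      simp only [crOff, frsOut]
      rcases hc (own r.1) r.1 with ⟨hr, _⟩ | h2
      · exact absurd hr r.2
      · exact h2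
    have h3 : ∀ Q, Q ≠ P → m' Q = m Q := by
      intro Q hQ
      funext r
      rcases hc Q r with ⟨_, hP⟩ | h2
      · exact absurd hP hQ
      · exact h2
    have h4 : crOff D (m' P) = crOff D (m P) := by
      funext r
      simp only [crOff]
      rcases hc P r.1 with ⟨hr, _⟩ | h2
      · exact absurd hr r.2
      · exact h2
    rw [if_pos h1, if_pos h2, if_pos h3, if_pos h4]
  · have hL : ¬ (((∀ P' r, P' ≠ own r → P' ≠ own r → m' P' r = m P' r) ∧
        (∀ r, own r ≠ own r → m (own r) r = z r ∧ m' (own r) r = z r)) ∧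
        crOff D (frsOut own m') = crOff D (frsOut own m)) := by
      rintro ⟨⟨h1, _⟩, h2⟩
      apply hc
      intro P' r
      by_cases hP : P' = own r
      · by_cases hr : r ∈ D
        · exact Or.inl ⟨hr, hP.trans (hD r hr)⟩
        · right
          subst hP
          exact congrFun h2 ⟨r, hr⟩
      · exact Or.inr (h1 P' r hP hP)
    have hR : ¬ ((∀ Q, Q ≠ P → m' Q = m Q) ∧ crOff D (m' P) = crOff D (m P)) := by
      rintro ⟨h1, h2⟩
      apply hc
      intro P' r
      by_cases hP : P' = P
      · by_cases hr : r ∈ D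
        · exact Or.inl ⟨hr, hP⟩
        · right
          subst hP
          exact congrFun h2 ⟨r, hr⟩
      · exact Or.inr (congrFun (h1 P' hP) r)
    rw [← ite_and, ← ite_and, if_neg hL, if_neg hR]

/-! #### reads and writes -/

/-- general read: `|base⟩⟨B|` on the slots `(own r, r)`, `r ∈ I`; the covector `B` is a function of the canonical
configuration.  The write is the adjoint. -/
def frsRdG (own : R → PP) (I : Finset R) (B : Cfg io → ℂ) : Matrix (FrsM PP io) (FrsM PP io) ℂ :=
  frsPm (frsRst z own I) (fun m => star (B (frsOut own m)))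

theorem frsRst_cond (own : R → PP) (I : Finset R) (m' m : FrsM PP io) :
    ((∀ P r, (r ∈ I ∧ P = own r) ∨ m' P r = m P r) ∧ (∀ r ∈ I, m' (own r) r = z r)) ↔
      m' = frsRst z own I m := by
  constructor
  · rintro ⟨h1, h2⟩
    funext P r
    by_cases h : r ∈ I ∧ P = own r
    · obtain ⟨hr, rfl⟩ := h
      simp [frsRst, hr, h2 r hr]
    · rcases h1 P r with h' | h'
      · exact absurd h' h
      · simp only [frsRst, if_neg h, h']
  · rintro rfl
    refine ⟨fun P r => ?_, fun r hr => ?_⟩
    · by_cases h : r ∈ I ∧ P = own r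
      · exact Or.inl h
      · right; simp only [frsRst, if_neg h]
    · simp [frsRst, hr]

theorem frsRst_rst (own : R → PP) (I₁ I₂ : Finset R) (m : FrsM PP io) :
    frsRst z own I₁ (frsRst z own I₂ m) = frsRst z own (I₁ ∪ I₂) m := by
  funext P r
  by_cases h1 : r ∈ I₁ <;> by_cases h2 : r ∈ I₂ <;> by_cases h3 : P = own r <;>
    simp [frsRst, h1, h2, h3]

theorem frsRst_empty (own : R → PP) (m : FrsM PP io) : frsRst z own ∅ m = m := by
  funext P r
  simp [frsRst]

theorem frsOut_rst (own : R → PP) (I : Finset R) (m : FrsM PP io) (r : R) (hr : r ∉ I) :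
    frsOut own (frsRst z own I m) r = frsOut own m r := by
  simp [frsOut, frsRst, hr]

theorem frsRdG_congr (own : R → PP) {I I' : Finset R} {B B' : Cfg io → ℂ} (hI : I = I')
    (hB : ∀ σ, B σ = B' σ) : frsRdG z own I B = frsRdG z own I' B' := by
  rw [hI, funext hB]

theorem frsRdG_mul (own : R → PP) (I₁ I₂ : Finset R) (B₁ B₂ : Cfg io → ℂ)
    (hd : Disjoint I₁ I₂) (hB : ∀ σ σ', (∀ r ∈ I₁, σ r = σ' r) → B₁ σ = B₁ σ') :
    frsRdG z own I₁ B₁ * frsRdG z own I₂ B₂ = frsRdG z own (I₁ ∪ I₂) (fun σ => B₁ σ * B₂ σ) := by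
  unfold frsRdG
  rw [frsPm_mul]
  refine frsPm_congr (fun m => frsRst_rst z own I₁ I₂ m) fun m => ?_
  rw [hB (frsOut own (frsRst z own I₂ m)) (frsOut own m)
    (fun r hr => frsOut_rst z own I₂ m r (Finset.disjoint_left.mp hd hr)), star_mul']

theorem frsRdG_empty (own : R → PP) : frsRdG z own ∅ (fun _ => 1) = 1 := by
  unfold frsRdG
  rw [← frsPm_id]
  exact frsPm_congr (fun m => frsRst_empty z own m) fun m => star_one _

theorem frsRdG_tprod (own : R → PP) : ∀ (J : ℕ) (I : Fin J → Finset R) (B : Fin J → Cfg io → ℂ),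
    (∀ j j', j ≠ j' → Disjoint (I j) (I j')) →
    (∀ j σ σ', (∀ r ∈ I j, σ r = σ' r) → B j σ = B j σ') →
    cpTprod J (fun j => frsRdG z own (I j) (B j)) =
      frsRdG z own (Finset.univ.biUnion I) (fun σ => ∏ j, B j σ)
  | 0, I, B, _, _ => by
    rw [cpTprod_zero, ← frsRdG_empty z own]
    exact frsRdG_congr z own (by simp) (fun σ => by simp)
  | n + 1, I, B, hI, hB => by
    rw [cpTprod_succ, frsRdG_tprod own n (fun j => I j.castSucc) (fun j => B j.castSucc)
      (fun j j' h => hI _ _ (fun h' => h (Fin.castSucc_injective n h')))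
      (fun j => hB j.castSucc), frsRdG_mul z own _ _ _ _ _ (hB (Fin.last n))]
    · refine frsRdG_congr z own ?_ (fun σ => ?_)
      · ext r
        simp only [Finset.mem_union, Finset.mem_biUnion, Finset.mem_univ, true_and]
        rw [Fin.exists_fin_succ', or_comm]
      · rw [Fin.prod_univ_castSucc, mul_comm]
    · rw [Finset.disjoint_biUnion_right]
      intro j _
      exact hI _ _ (Fin.castSucc_lt_last j).ne'

theorem frsRdG_tprod_H (own : R → PP) : ∀ (J : ℕ) (I : Fin J → Finset R) (B : Fin J → Cfg io → ℂ),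
    (∀ j j', j ≠ j' → Disjoint (I j) (I j')) →
    (∀ j σ σ', (∀ r ∈ I j, σ r = σ' r) → B j σ = B j σ') →
    cpTprod J (fun j => (frsRdG z own (I j) (B j))ᴴ) =
      (frsRdG z own (Finset.univ.biUnion I) (fun σ => ∏ j, B j σ))ᴴ
  | 0, I, B, _, _ => by
    rw [cpTprod_zero, ← Matrix.conjTranspose_one, ← frsRdG_empty z own]
    exact congrArg _ (frsRdG_congr z own (by simp) (fun σ => by simp))
  | n + 1, I, B, hI, hB => by
    rw [cpTprod_succ, frsRdG_tprod_H own n (fun j => I j.castSucc) (fun j => B j.castSucc)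
      (fun j j' h => hI _ _ (fun h' => h (Fin.castSucc_injective n h')))
      (fun j => hB j.castSucc), ← Matrix.conjTranspose_mul, frsRdG_mul z own]
    · congr 1
      refine frsRdG_congr z own ?_ (fun σ => ?_)
      · ext r
        simp only [Finset.mem_union, Finset.mem_biUnion, Finset.mem_univ, true_and]
        rw [Fin.exists_fin_succ']
      · rw [Fin.prod_univ_castSucc]
    · rw [Finset.disjoint_biUnion_left]
      intro j _
      exact hI _ _ (Fin.castSucc_lt_last j).ne
    · intro σ σ' h
      refine Finset.prod_congr rfl fun j _ => hB _ σ σ' fun r hr => h r ?_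
      exact Finset.mem_biUnion.mpr ⟨j, Finset.mem_univ _, hr⟩

/-- write with the new owners after read with the old owners -/
theorem frsLift_prod (own own' : R → PP) (S : Finset R) (hown : ∀ r, r ∉ S → own' r = own r)
    (A B : Cfg io → ℂ) :
    frsLift z own own' (Matrix.of fun σ' σ =>
        if crOff S σ' = crOff S σ then A σ' * star (B σ) else 0) =
      (frsRdG z own' S A)ᴴ * frsRdG z own S B := by
  ext m'' m
  unfold frsRdG
  rw [frsPm_conjTranspose_mul, frsLift_apply, Matrix.of_apply, star_star, ← ite_and]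
  refine if_congr ?_ rfl rfl
  constructor
  · rintro ⟨⟨c1, c2⟩, c3⟩
    funext P r
    by_cases hr : r ∈ S
    · by_cases h1 : P = own' r
      · by_cases h2 : P = own r
        · simp only [frsRst, if_pos (And.intro hr h1), if_pos (And.intro hr h2)]
        · subst h1
          simp [frsRst, hr, h2, (c2 r (Ne.symm h2)).1]
      · by_cases h2 : P = own r
        · subst h2
          simp [frsRst, hr, h1, (c2 r h1).2]
        · simp [frsRst, h1, h2, c1 P r h2 h1]
    · simp only [frsRst, hr, false_and, if_false]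
      by_cases h2 : P = own r
      · have := congrFun c3 ⟨r, hr⟩
        simp only [crOff, frsOut, hown r hr] at this
        rw [h2]; exact this
      · exact c1 P r h2 (by rw [hown r hr]; exact h2)
  · intro heq
    have E : ∀ P r, (if r ∈ S ∧ P = own' r then z r else m'' P r) =
        (if r ∈ S ∧ P = own r then z r else m P r) := fun P r => congrFun (congrFun heq P) r
    refine ⟨⟨fun P r h1 h2 => ?_, fun r hr => ?_⟩, ?_⟩
    · simpa [h1, h2] using E P r
    · have hS : r ∈ S := by
        by_contra h
        exact hr (hown r h).symm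
      refine ⟨?_, ?_⟩
      · simpa [hS, Ne.symm hr] using (E (own' r) r).symm
      · simpa [hS, hr] using E (own r) r
    · funext r
      have := E (own r.1) r.1
      simp only [r.2, false_and, if_false] at this
      simp only [crOff, frsOut, hown r.1 r.2]
      exact this

/-! #### reads of registers of one party -/

/-- reset the registers of `D` (canonical configurations) -/
def frsRstC (D : Finset R) (σ : Cfg io) : Cfg io := fun r => if r ∈ D then z r else σ r

/-- keep the registers of `D`, base values elsewhere -/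
def frsKeep (D : Finset R) (σ : Cfg io) : Cfg io := fun r => if r ∈ D then σ r else z r

theorem frsRst_eq_update (own : R → PP) (P : PP) (D : Finset R) (hD : ∀ r ∈ D, own r = P)
    (m : FrsM PP io) : Function.update m P (frsRstC z D (m P)) = frsRst z own D m := by
  funext P' r
  by_cases hP : P' = P
  · subst hP
    rw [Function.update_self]
    by_cases hr : r ∈ D
    · simp [frsRstC, frsRst, hr, hD r hr]
    · simp [frsRstC, frsRst, hr]
  · rw [Function.update_of_ne hP]
    have : ¬ (r ∈ D ∧ P' = own r) := fun h => hP (h.2.trans (hD r h.1))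
    simp only [frsRst, if_neg this]

theorem frsPm_loc_rst (own : R → PP) (P : PP) (D : Finset R) (hD : ∀ r ∈ D, own r = P)
    (w : Cfg io → ℂ) :
    cpLoc (Mem := fun _ : PP => Cfg io) P (frsPm (frsRstC z D) w) =
      frsPm (frsRst z own D) (fun m : FrsM PP io => w (m P)) := by
  rw [frsPm_loc]
  exact frsPm_congr (fun m => frsRst_eq_update z own P D hD m) fun _ => rfl

theorem frsRdG_loc (own : R → PP) (P : PP) (D : Finset R) (hD : ∀ r ∈ D, own r = P)
    (B : Cfg io → ℂ) (hB : ∀ σ σ', (∀ r ∈ D, σ r = σ' r) → B σ = B σ') :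
    cpLoc (Mem := fun _ : PP => Cfg io) P (frsPm (frsRstC z D) (fun σ => star (B σ))) =
      frsRdG z own D B := by
  rw [frsPm_loc_rst z own P D hD]
  unfold frsRdG
  refine frsPm_congr (fun _ => rfl) fun m => ?_
  rw [hB (m P) (frsOut own m) (fun r hr => by simp only [frsOut, hD r hr])]

/-- the fibre sums of a product of unit covectors -/
theorem frs_fibre_le (D : Finset R) (β : ∀ r, io r → ℂ) (hβ : ∀ r ∈ D, cpNsq (β r) = 1)
    (σ' : Cfg io) :
    ∑ σ : Cfg io, (if σ' = frsRstC z D σ then ‖star (∏ r ∈ D, β r (σ r))‖ ^ 2 else 0) ≤ 1 := by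
  classical
  set t : ∀ r, Finset (io r) := fun r => if r ∈ D then Finset.univ else {σ' r} with ht
  set F : ∀ r, io r → ℝ := fun r x => if r ∈ D then ‖β r x‖ ^ 2 else 1 with hF
  have h1 : ∏ r, ∑ x ∈ t r, F r x = 1 := by
    apply Finset.prod_eq_one
    intro r _
    by_cases hr : r ∈ D
    · simp only [ht, hF, hr, if_true]
      exact hβ r hr
    · simp [ht, hF, hr]
  rw [Finset.prod_univ_sum] at h1
  have hFF : ∀ σ : Cfg io, ‖star (∏ r ∈ D, β r (σ r))‖ ^ 2 = ∏ r, F r (σ r) := by
    intro σ
    rw [norm_star, norm_prod, ← Finset.prod_pow]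
    simp only [hF]
    rw [Finset.prod_ite_mem, Finset.univ_inter]
  rw [← h1, ← Finset.sum_filter]
  simp only [hFF]
  apply Finset.sum_le_sum_of_subset_of_nonneg
  · intro σ hσ
    rw [Finset.mem_filter] at hσ
    rw [Fintype.mem_piFinset]
    intro r
    by_cases hr : r ∈ D
    · simp [ht, hr]
    · have := congrFun hσ.2 r
      simp only [frsRstC, hr, if_false] at this
      simp [ht, hr, this]
  · intro σ _ _
    apply Finset.prod_nonneg
    intro r _
    simp only [hF]
    split_ifs <;> positivity

/-- product over the parties of a list -/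
theorem frsRdG_list (own : R → PP) (I : Finset R) (β : ∀ r, io r → ℂ) : ∀ l : List PP, l.Nodup →
    (l.map fun P => frsRdG z own (I.filter fun r => own r = P)
      (fun σ => ∏ r ∈ I.filter (fun r => own r = P), β r (σ r))).prod =
    frsRdG z own (I.filter fun r => own r ∈ l)
      (fun σ => ∏ r ∈ I.filter (fun r => own r ∈ l), β r (σ r))
  | [], _ => by
    rw [List.map_nil, List.prod_nil, ← frsRdG_empty z own]
    exact frsRdG_congr z own (by simp) (fun σ => by simp)
  | P :: l, hl => by
    have hd : Disjoint (I.filter fun r => own r = P) (I.filter fun r => own r ∈ l) := by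
      rw [Finset.disjoint_left]
      intro r h1 h2
      rw [Finset.mem_filter] at h1 h2
      exact (List.nodup_cons.mp hl).1 (h1.2 ▸ h2.2)
    have hu : (I.filter fun r => own r = P) ∪ (I.filter fun r => own r ∈ l) =
        I.filter fun r => own r ∈ P :: l := by
      ext r
      simp only [Finset.mem_union, Finset.mem_filter, List.mem_cons]
      tauto
    rw [List.map_cons, List.prod_cons, frsRdG_list own I β l (List.nodup_cons.mp hl).2,
      frsRdG_mul z own _ _ _ _ hd]
    · refine frsRdG_congr z own hu (fun σ => ?_)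
      rw [← hu, Finset.prod_union hd]
    · intro σ σ' h
      exact Finset.prod_congr rfl fun r hr => by rw [h r hr]

/-- the same for the adjoints -/
theorem frsRdG_list_H (own : R → PP) (I : Finset R) (β : ∀ r, io r → ℂ) : ∀ l : List PP, l.Nodup →
    (l.map fun P => (frsRdG z own (I.filter fun r => own r = P)
      (fun σ => ∏ r ∈ I.filter (fun r => own r = P), β r (σ r)))ᴴ).prod =
    (frsRdG z own (I.filter fun r => own r ∈ l)
      (fun σ => ∏ r ∈ I.filter (fun r => own r ∈ l), β r (σ r)))ᴴ
  | [], _ => by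
    rw [List.map_nil, List.prod_nil, ← Matrix.conjTranspose_one, ← frsRdG_empty z own]
    exact congrArg _ (frsRdG_congr z own (by simp) (fun σ => by simp))
  | P :: l, hl => by
    have hd : Disjoint (I.filter fun r => own r ∈ l) (I.filter fun r => own r = P) := by
      rw [Finset.disjoint_left]
      intro r h2 h1
      rw [Finset.mem_filter] at h1 h2
      exact (List.nodup_cons.mp hl).1 (h1.2 ▸ h2.2)
    have hu : (I.filter fun r => own r ∈ l) ∪ (I.filter fun r => own r = P) =
        I.filter fun r => own r ∈ P :: l := by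
      ext r
      simp only [Finset.mem_union, Finset.mem_filter, List.mem_cons]
      tauto
    rw [List.map_cons, List.prod_cons, frsRdG_list_H own I β l (List.nodup_cons.mp hl).2,
      ← Matrix.conjTranspose_mul, frsRdG_mul z own _ _ _ _ hd]
    · refine congrArg _ (frsRdG_congr z own hu (fun σ => ?_))
      rw [← hu, Finset.prod_union hd]
    · intro σ σ' h
      exact Finset.prod_congr rfl fun r hr => by rw [h r hr]

/-- the one-party factor of a product read -/
def frsRdP (own : R → PP) (I : Finset R) (β : ∀ r, io r → ℂ) (P : PP) :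
    Matrix (Cfg io) (Cfg io) ℂ :=
  frsPm (frsRstC z (I.filter fun r => own r = P))
    (fun σ => star (∏ r ∈ I.filter (fun r => own r = P), β r (σ r)))

theorem frsRdP_contr (own : R → PP) (I : Finset R) (β : ∀ r, io r → ℂ)
    (hβ : ∀ r ∈ I, cpNsq (β r) = 1) (P : PP) : CpContr (frsRdP z own I β P) :=
  frsPm_contr _ _ fun σ' =>
    frs_fibre_le z _ β (fun r hr => hβ r (Finset.mem_filter.mp hr).1) σ'

theorem frsRdP_one (own : R → PP) (I : Finset R) (β : ∀ r, io r → ℂ) (P : PP)
    (h : ∀ r ∈ I, own r ≠ P) : frsRdP z own I β P = 1 := by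
  have he : (I.filter fun r => own r = P) = ∅ := by
    rw [Finset.filter_eq_empty_iff]
    exact h
  unfold frsRdP
  rw [he, ← frsPm_id]
  refine frsPm_congr (fun σ => ?_) fun σ => ?_
  · funext r
    simp [frsRstC]
  · simp

theorem frsRdP_loc (own : R → PP) (I : Finset R) (β : ∀ r, io r → ℂ) (P : PP) :
    cpLoc (Mem := fun _ : PP => Cfg io) P (frsRdP z own I β P) =
      frsRdG z own (I.filter fun r => own r = P)
        (fun σ => ∏ r ∈ I.filter (fun r => own r = P), β r (σ r)) :=
  frsRdG_loc z own P _ (fun r hr => (Finset.mem_filter.mp hr).2) _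
    fun σ σ' h => Finset.prod_congr rfl fun r hr => by rw [h r hr]

theorem frsRdG_prod (own : R → PP) (I : Finset R) (β : ∀ r, io r → ℂ) :
    frsRdG z own I (fun σ => ∏ r ∈ I, β r (σ r)) =
      ((Finset.univ : Finset PP).toList.map fun P =>
        cpLoc (Mem := fun _ : PP => Cfg io) P (frsRdP z own I β P)).prod := by
  simp only [frsRdP_loc]
  rw [frsRdG_list z own I β _ (Finset.nodup_toList _)]
  have he : (I.filter fun r => own r ∈ (Finset.univ : Finset PP).toList) = I := by
    simp
  exact frsRdG_congr z own he.symm fun σ => by rw [he]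

theorem frsRdG_prod_H (own : R → PP) (I : Finset R) (β : ∀ r, io r → ℂ) :
    (frsRdG z own I (fun σ => ∏ r ∈ I, β r (σ r)))ᴴ =
      ((Finset.univ : Finset PP).toList.map fun P =>
        cpLoc (Mem := fun _ : PP => Cfg io) P (frsRdP z own I β P)ᴴ).prod := by
  simp only [cpLoc_conjTranspose, frsRdP_loc]
  rw [frsRdG_list_H z own I β _ (Finset.nodup_toList _)]
  have he : (I.filter fun r => own r ∈ (Finset.univ : Finset PP).toList) = I := by
    simp
  exact congrArg _ (frsRdG_congr z own he.symm fun σ => by rw [he])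

/-! #### reads of registers of two parties -/

/-- extraction family of the registers `D`: `x ↦ |base⟩⟨x|` on `D` (zero unless `x` is supported in `D`) -/
def frsExt (D : Finset R) (x : Cfg io) : Matrix (Cfg io) (Cfg io) ℂ :=
  frsPm (frsRstC z D) (fun σ => if x = frsKeep z D σ then 1 else 0)

theorem frsExt_col (D : Finset R) : CpCol (frsExt z D) := by
  refine frsPm_col _ _ fun a a' h1 h2 => ?_
  funext r
  by_cases hr : r ∈ D
  · have := congrFun h2 r
    simpa only [frsKeep, if_pos hr] using this
  · have := congrFun h1 r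
    simpa only [frsRstC, if_neg hr] using this

/-- the pair covector of a read whose legs belong to `P` or to another party -/
def frsEta (own : R → PP) (P : PP) (I : Finset R) (β : CfgOn io I → ℂ) (x y : Cfg io) : ℂ :=
  if x = frsKeep z (I.filter fun r => own r = P) x ∧ y = frsKeep z (I.filter fun r => own r ≠ P) y
  then star (β fun r => if own r.1 = P then x r.1 else y r.1) else 0

theorem frsKeep_keep (D : Finset R) (σ : Cfg io) : frsKeep z D (frsKeep z D σ) = frsKeep z D σ := by
  funext r
  by_cases hr : r ∈ D <;> simp [frsKeep, hr]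

theorem frsEta_nsq (own : R → PP) (P : PP) (I : Finset R) (β : CfgOn io I → ℂ) :
    ∑ x, ∑ y, ‖frsEta z own P I β x y‖ ^ 2 = cpNsq β := by
  rw [← Fintype.sum_prod_type' (f := fun x y => ‖frsEta z own P I β x y‖ ^ 2)]
  unfold cpNsq
  symm
  let ex : CfgOn io I → Cfg io := fun c r => if h : r ∈ I then c ⟨r, h⟩ else z r
  have hmerge : ∀ c : CfgOn io I, (fun r : {r // r ∈ I} => if own r.1 = P
      then frsKeep z (I.filter fun r => own r = P) (ex c) r.1
      else frsKeep z (I.filter fun r => own r ≠ P) (ex c) r.1) = c := by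
    intro c
    funext r
    by_cases hr : own r.1 = P
    · simp [frsKeep, ex, hr, r.2]
    · simp [frsKeep, ex, hr, r.2]
  apply Fintype.sum_of_injective (fun c : CfgOn io I =>
    (frsKeep z (I.filter fun r => own r = P) (ex c), frsKeep z (I.filter fun r => own r ≠ P) (ex c)))
  · intro c c' h
    rw [← hmerge c, ← hmerge c']
    have h1 := congrArg Prod.fst h
    have h2 := congrArg Prod.snd h
    simp only at h1 h2
    rw [h1, h2]
  · rintro ⟨x, y⟩ hp
    simp only
    rw [frsEta, if_neg]
    · simp
    · rintro ⟨hx, hy⟩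
      apply hp
      refine ⟨fun r => if own r.1 = P then x r.1 else y r.1, ?_⟩
      refine Prod.ext ?_ ?_
      · simp only
        funext r
        by_cases hr : r ∈ I.filter fun r => own r = P
        · have hr' := Finset.mem_filter.mp hr
          simp [frsKeep, ex, hr'.1, hr'.2]
        · rw [hx]
          simp only [frsKeep, if_neg hr]
      · simp only
        funext r
        by_cases hr : r ∈ I.filter fun r => own r ≠ P
        · have hr' := Finset.mem_filter.mp hr
          simp [frsKeep, ex, hr'.1, hr'.2]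
        · rw [hy]
          simp only [frsKeep, if_neg hr]
  · intro c
    simp only
    rw [frsEta, if_pos ⟨(frsKeep_keep z _ _).symm, (frsKeep_keep z _ _).symm⟩, hmerge, norm_star]

theorem frs_sum_delta {X Y : Type} [Fintype X] [Fintype Y] [DecidableEq X] [DecidableEq Y]
    (η : X → Y → ℂ) (a : X) (b : Y) :
    ∑ x, ∑ y, η x y * ((if x = a then 1 else 0) * (if y = b then 1 else 0)) = η a b := by
  rw [Finset.sum_eq_single a, Finset.sum_eq_single b]
  · simp
  · intro y _ hy; simp [hy]
  · simp
  · intro x _ hx; simp [hx]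
  · simp

/-- a read whose legs belong to `P` and `Q` as a pair effect -/
theorem frsRdG_link (own : R → PP) (P Q : PP) (I : Finset R) (β : CfgOn io I → ℂ)
    (hown : ∀ r ∈ I, own r = P ∨ own r = Q) :
    ∑ x, ∑ y, frsEta z own P I β x y •
      (cpLoc (Mem := fun _ : PP => Cfg io) P (frsExt z (I.filter fun r => own r = P) x) *
        cpLoc (Mem := fun _ : PP => Cfg io) Q (frsExt z (I.filter fun r => own r ≠ P) y)) =
    frsRdG z own I (fun σ => β (crOn I σ)) := by
  have hP : ∀ r ∈ I.filter (fun r => own r = P), own r = P := fun r hr => (Finset.mem_filter.mp hr).2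
  have hQ : ∀ r ∈ I.filter (fun r => own r ≠ P), own r = Q := fun r hr => by
    have h := Finset.mem_filter.mp hr
    exact (hown r h.1).resolve_left h.2
  unfold frsExt
  simp only [frsPm_loc_rst z own P _ hP, frsPm_loc_rst z own Q _ hQ, frsPm_mul, frsPm_smul,
    frsPm_sum]
  unfold frsRdG
  refine frsPm_congr (fun m => ?_) fun m => ?_
  · rw [frsRst_rst, Finset.filter_union_filter_not_eq]
  · rw [frs_sum_delta, frsEta, if_pos ⟨(frsKeep_keep z _ _).symm, (frsKeep_keep z _ _).symm⟩]
    congr 2
    funext r
    by_cases hr : own r.1 = P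
    · simp [frsKeep, frsRst, crOn, frsOut, hr, r.2]
    · have hq : own r.1 = Q := (hown r.1 r.2).resolve_left hr
      have hmem : r.1 ∈ I.filter fun r => own r ≠ P := Finset.mem_filter.mpr ⟨r.2, hr⟩
      rw [if_neg hr]
      simp only [frsKeep, if_pos hmem, crOn, frsOut, hq]

/-- a write whose legs belong to `P` and `Q` as a pair source -/
theorem frsRdG_link_H (own : R → PP) (P Q : PP) (I : Finset R) (β : CfgOn io I → ℂ)
    (hown : ∀ r ∈ I, own r = P ∨ own r = Q) :
    ∑ x, ∑ y, star (frsEta z own Q I β y x) •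
      (cpLoc (Mem := fun _ : PP => Cfg io) P (frsExt z (I.filter fun r => own r ≠ Q) x)ᴴ *
        cpLoc (Mem := fun _ : PP => Cfg io) Q (frsExt z (I.filter fun r => own r = Q) y)ᴴ) =
    (frsRdG z own I (fun σ => β (crOn I σ)))ᴴ := by
  rw [← frsRdG_link z own Q P I β (fun r hr => (hown r hr).symm), Finset.sum_comm]
  simp only [Matrix.conjTranspose_sum, Matrix.conjTranspose_smul, Matrix.conjTranspose_mul,
    cpLoc_conjTranspose]

end Slot

end Claimed.Agent.R296
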