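import Claimed.Agent.R296.P2.FrDefs

/-!
# Row 296, paper 2, Section 5: slot memory, encoders, reference vectors, the notion `FrImpl` (prefix `fr`/`Fr`)

* SLOT MEMORY.  Every party has one slot for EVERY canonical register: `FrMem P = Cfg (frIo q nb)`.
  `frGlob own ψ` places the canonical vector `ψ`: the register `r` sits in the slot `r` of the party `own r`,
  all other slots have the base value `fr0` (`0` resp. `none`).  A register with the base value sits nowhere, so
  its owner is irrelevant.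
* ENCODERS.  `frEnc pat s a = ∑_b |some b⟩⟨none|_tag ⊗ (|0⟩⟨v_b|)_{(s, D b)}`   (eq. (hole-encoder)).
* REFERENCE VECTOR of a state: all encoders of the present holes applied to `⊗_s Ω ⊗ |none ... none⟩`.
* `FrImpl u v err A cb Kb r0 n0`: a list of at most `n0` valid gates which maps `u` to `v` up to `err`; at most one of
  them is linked, with participants in `A` and cost `≤ cb`; all others are one-party gates of cost one.
-/

set_option autoImplicit false

namespace Claimed.Agent.R296

open Matrix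

section Vec

variable {PP SH Λ HI : Type} [Fintype PP] [DecidableEq PP] [Fintype SH] [DecidableEq SH]
  [Fintype Λ] [DecidableEq Λ] [Fintype HI] [DecidableEq HI] {q : ℕ} [NeZero q]

/-- canonical configurations -/
abbrev FrCfg (SH Λ : Type) {HI : Type} (q : ℕ) (nb : HI → ℕ) : Type :=
  Cfg (frIo (SH := SH) (Λ := Λ) q nb)

/-- slot memory: the same for all parties -/
abbrev FrMem (PP SH Λ : Type) {HI : Type} (q : ℕ) (nb : HI → ℕ) : PP → Type :=
  fun _ => FrCfg SH Λ q nb

/-- raw part of a canonical configuration on one sheet -/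
def frRaw {nb : HI → ℕ} (σ : FrCfg SH Λ q nb) (s : SH) : Λ → Fin q := fun x => σ (.inl (s, x))

/-- tag of a canonical configuration -/
def frTag {nb : HI → ℕ} (σ : FrCfg SH Λ q nb) (s : SH) (a : HI) : Option (Fin (nb a)) :=
  σ (.inr (s, a))

/-- placement of a canonical vector in the slot memory -/
def frGlob {nb : HI → ℕ} (own : FrReg SH Λ HI → PP) (ψ : FrCfg SH Λ q nb → ℂ) :
    Cfg (FrMem PP SH Λ q nb) → ℂ :=
  fun m => if ∀ P r, own r ≠ P → m P r = fr0 q nb r then ψ (fun r => m (own r) r) else 0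

/-- independent copies of `Ω`, all tags absent -/
def frBase (nb : HI → ℕ) (Ω : (Λ → Fin q) → ℂ) : FrCfg SH Λ q nb → ℂ :=
  fun σ => (∏ s, Ω (frRaw σ s)) * if ∀ s a, frTag σ s a = none then 1 else 0

variable {Ω : (Λ → Fin q) → ℂ} {ε : ℝ} (pat : HI → FrPatch Ω ε)

/-- numbers of cylinders -/
abbrev frNb : HI → ℕ := fun a => (pat a).nb

/-- the encoder of the hole `a` on the sheet `s` -/
def frEnc (s : SH) (a : HI) : Matrix (FrCfg SH Λ q (frNb pat)) (FrCfg SH Λ q (frNb pat)) ℂ :=
  Matrix.of fun σ' σ => ∑ b : Fin (pat a).nb,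
    if frTag σ s a = none ∧ frTag σ' s a = some b ∧ (∀ x ∈ (pat a).D b, frRaw σ' s x = 0) ∧
        (∀ x, x ∉ (pat a).D b → frRaw σ' s x = frRaw σ s x) ∧
        (∀ s' x, s' ≠ s → frRaw σ' s' x = frRaw σ s' x) ∧
        (∀ s' a', (s', a') ≠ (s, a) → frTag σ' s' a' = frTag σ s' a')
    then star ((pat a).v b (fun x => frRaw σ s x.1)) else 0

/-- product of the encoders of a set of holes (they commute if the footprints are disjoint) -/
noncomputable def frEncs (H : Finset (SH × HI)) :
    Matrix (FrCfg SH Λ q (frNb pat)) (FrCfg SH Λ q (frNb pat)) ℂ :=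
  (H.toList.map fun p => frEnc pat p.1 p.2).prod

/-- canonical reference vector of a state -/
noncomputable def frRef (st : FrState PP SH Λ HI) : FrCfg SH Λ q (frNb pat) → ℂ :=
  frEncs pat st.hol *ᵥ frBase (frNb pat) Ω

/-- reference vector of a state in the slot memory -/
noncomputable def frVec (st : FrState PP SH Λ HI) : Cfg (FrMem PP SH Λ q (frNb pat)) → ℂ :=
  frGlob st.own (frRef pat st)

end Vec

/-- a list of at most `n0` valid gates maps `u` to `v` up to `err`; at most one gate is linked (participants in `A`,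
cost `≤ cb`), the others are one-party gates of cost one; `≤ Kb` labels and `≤ r0` steps per gate -/
def FrImpl {PP : Type} [Fintype PP] [DecidableEq PP] {Mem : PP → Type} [∀ P, Fintype (Mem P)]
    [∀ P, DecidableEq (Mem P)] (u v : Cfg Mem → ℂ) (err : ℝ) (A : Finset PP) (cb : ℝ)
    (Kb r0 n0 : ℕ) : Prop :=
  ∃ (n : ℕ) (g : Fin n → CpGate Mem), n ≤ n0 ∧ (∀ i, (g i).Valid) ∧ (∀ i, (g i).r ≤ r0) ∧
    (∀ i, Fintype.card (g i).Ξ ≤ Kb) ∧
    cpNsq ((cpTprod n fun i => (g i).op) *ᵥ u - v) ≤ err ^ 2 ∧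
    ∃ S : Finset (Fin n), S.card ≤ 1 ∧ (∀ i ∈ S, (g i).part ⊆ A ∧ (g i).cost ≤ cb) ∧
      ∀ i, i ∉ S → (g i).part.card ≤ 1 ∧ (g i).cost = 1

end Claimed.Agent.R296
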