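import Claimed.Agent.R296.P2.GBridgeA
import Claimed.Agent.R296.P2.EntSet

/-!
# Row 296, paper 2: the two imports from paper 1, transported to the grid `Fin L × Fin L`

* `gmodel_transport` (GBridgeA.lean, package P2-BR-A): a grid model is a model of paper 1 on `gridSet L ⊆ ℤ × ℤ` with range `R = 1`;
* `gArea`   : `AreaStmt q 1 J Δ → ∃ CA, GAreaStmt`
* `gCoarse` (package P2-BR-B, PROVED by helper189): `InfoDecayStmt q 1 J Δ Ctpl D0 → ∃ β < 1, C, u0, GCoarseStmt N0 A0 β C u0`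
  = Proposition 2.1 (`prop:coarse`) of paper 2: cut `A = univ` (so `cutEnds = ∅`), `s0 = ⌈A0 u⌉`, `n = max(Ctpl,1) max(N0,1) (s0 + 1)`,
  `β = (expBeta + 1)/2`, `2 n^expBeta ≤ u^β` for large `u`.
-/

set_option autoImplicit false
set_option linter.unusedSectionVars false

namespace Claimed.Agent.R296

open Matrix Claims.C0473

variable {q : ℕ} [NeZero q] {J Δ : ℝ} {L : ℕ}

theorem gArea (h : AreaStmt q 1 J Δ) : ∃ CA : ℝ, 0 ≤ CA ∧ GAreaStmt q J Δ CA := by
  obtain ⟨C, hC⟩ := h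
  refine ⟨max C 0, le_max_right _ _, fun L M A => ?_⟩
  obtain ⟨k, Ω', hk, hG, hS, hb⟩ := gmodel_transport M
  have h1 := hC (gridSet L) k hk M.E₀ Ω' hG (A.map (gridEquiv L).toEmbedding)
  rw [entanglementEntropy_eq_ent, ← hS, hb] at h1
  exact h1.trans (mul_le_mul_of_nonneg_right (le_max_left _ _) (Nat.cast_nonneg _))

/-- `c ≤ u ^ ε` for large `u` -/
theorem gbr_rpow_large (c ε : ℝ) (hε : 0 < ε) : ∃ u0 : ℝ, 1 ≤ u0 ∧ ∀ u : ℝ, u0 ≤ u → c ≤ u ^ ε := by
  refine ⟨max 1 ((max c 1) ^ (1 / ε)), le_max_left _ _, fun u hu => ?_⟩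
  have hc : (0 : ℝ) < max c 1 := lt_of_lt_of_le one_pos (le_max_right _ _)
  have h1 : (max c 1) ^ (1 / ε) ≤ u := (le_max_right _ _).trans hu
  have h2 : ((max c 1) ^ (1 / ε)) ^ ε ≤ u ^ ε :=
    Real.rpow_le_rpow (Real.rpow_nonneg hc.le _) h1 hε.le
  rw [← Real.rpow_mul hc.le, one_div, inv_mul_cancel₀ hε.ne', Real.rpow_one] at h2
  exact (le_max_left _ _).trans h2

/-- the scalar choices of `gCoarse` -/
theorem gbr_scalars (c : ℕ) (hc : 1 ≤ c) (A0 : ℝ) (hA0 : 1 ≤ A0) (nstar : ℕ) :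
    ∃ u0 : ℝ, 1 ≤ u0 ∧ ∀ u : ℝ, u0 ≤ u →
      nstar ≤ c * (⌈A0 * u⌉₊ + 1) ∧
      ⌊((c * (⌈A0 * u⌉₊ + 1) : ℕ) : ℝ) ^ (1 - expEll)⌋₊ ≤ ⌈A0 * u⌉₊ ∧
      2 * ((c * (⌈A0 * u⌉₊ + 1) : ℕ) : ℝ) ^ expBeta ≤ u ^ ((expBeta + 1) / 2) := by
  set K : ℝ := 3 * c * A0 with hK
  have hcR : (1 : ℝ) ≤ (c : ℝ) := by exact_mod_cast hc
  have hK0 : 0 < K := by positivity
  have hell : 0 < expEll := by unfold expEll; norm_num
  have hell1 : 0 ≤ 1 - expEll := by unfold expEll; norm_num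
  have hb0 : 0 ≤ expBeta := by unfold expBeta; norm_num
  have hbb : 0 < (expBeta + 1) / 2 - expBeta := by unfold expBeta; norm_num
  obtain ⟨u1, hu1, h1⟩ := gbr_rpow_large (K ^ (1 - expEll)) expEll hell
  obtain ⟨u2, hu2, h2⟩ := gbr_rpow_large (2 * K ^ expBeta) ((expBeta + 1) / 2 - expBeta) hbb
  refine ⟨max (max u1 u2) nstar, (hu1.trans (le_max_left _ _)).trans (le_max_left _ _), ?_⟩
  intro u hu
  have hu1' : u1 ≤ u := ((le_max_left _ _).trans (le_max_left _ _)).trans hu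
  have hu2' : u2 ≤ u := ((le_max_right _ _).trans (le_max_left _ _)).trans hu
  have hun : (nstar : ℝ) ≤ u := (le_max_right _ _).trans hu
  have hu1'' : 1 ≤ u := hu1.trans hu1'
  have hu0 : 0 < u := by linarith
  have hAu : u ≤ A0 * u := by nlinarith
  have hs1 : A0 * u ≤ (⌈A0 * u⌉₊ : ℝ) := Nat.le_ceil _
  have hs2 : (⌈A0 * u⌉₊ : ℝ) < A0 * u + 1 := Nat.ceil_lt_add_one (by positivity)
  have hn : ((c * (⌈A0 * u⌉₊ + 1) : ℕ) : ℝ) ≤ K * u := by
    push_cast
    rw [hK]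
    have : (⌈A0 * u⌉₊ : ℝ) + 1 ≤ 3 * (A0 * u) := by linarith
    calc (c : ℝ) * ((⌈A0 * u⌉₊ : ℝ) + 1) ≤ c * (3 * (A0 * u)) :=
          mul_le_mul_of_nonneg_left this (by positivity)
      _ = 3 * c * A0 * u := by ring
  have hn0 : (0 : ℝ) ≤ ((c * (⌈A0 * u⌉₊ + 1) : ℕ) : ℝ) := Nat.cast_nonneg _
  refine ⟨?_, ?_, ?_⟩
  · have : (nstar : ℝ) ≤ ((c * (⌈A0 * u⌉₊ + 1) : ℕ) : ℝ) := by
      push_cast
      nlinarith
    exact_mod_cast this
  · apply Nat.floor_le_of_le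
    calc ((c * (⌈A0 * u⌉₊ + 1) : ℕ) : ℝ) ^ (1 - expEll) ≤ (K * u) ^ (1 - expEll) :=
          Real.rpow_le_rpow hn0 hn hell1
      _ = K ^ (1 - expEll) * u ^ (1 - expEll) := Real.mul_rpow hK0.le hu0.le
      _ ≤ u ^ expEll * u ^ (1 - expEll) :=
          mul_le_mul_of_nonneg_right (h1 u hu1') (Real.rpow_nonneg hu0.le _)
      _ = u := by
          rw [← Real.rpow_add hu0]
          simp
      _ ≤ (⌈A0 * u⌉₊ : ℝ) := hAu.trans hs1
  · calc 2 * ((c * (⌈A0 * u⌉₊ + 1) : ℕ) : ℝ) ^ expBeta ≤ 2 * (K * u) ^ expBeta := by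
          have := Real.rpow_le_rpow hn0 hn hb0
          linarith
      _ = (2 * K ^ expBeta) * u ^ expBeta := by rw [Real.mul_rpow hK0.le hu0.le]; ring
      _ ≤ u ^ ((expBeta + 1) / 2 - expBeta) * u ^ expBeta :=
          mul_le_mul_of_nonneg_right (h2 u hu2') (Real.rpow_nonneg hu0.le _)
      _ = u ^ ((expBeta + 1) / 2) := by
          rw [← Real.rpow_add hu0]
          congr 1
          ring

theorem gbr_cutEnds_univ (Λ : Finset (ℤ × ℤ)) : cutEnds Λ Finset.univ = ∅ := by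
  unfold cutEnds
  simp

theorem gCoarse (hE : EntApiStmt) {Ctpl D0 : ℕ} (h : InfoDecayStmt q 1 J Δ Ctpl D0) (N0 : ℕ)
    (A0 : ℝ) (hA0 : 1 ≤ A0) :
    ∃ β C u0 : ℝ, β < 1 ∧ 0 ≤ C ∧ GCoarseStmt q J Δ N0 A0 β C u0 := by
  classical
  obtain ⟨C, nstar, hI⟩ := h
  obtain ⟨u0, hu0, hsc⟩ := gbr_scalars (max Ctpl 1 * max N0 1)
    (Nat.mul_pos (lt_of_lt_of_le one_pos (le_max_right _ _))
      (lt_of_lt_of_le one_pos (le_max_right _ _))) A0 hA0 nstar
  refine ⟨(expBeta + 1) / 2, max C 0, u0, by unfold expBeta; norm_num, le_max_right _ _, ?_⟩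
  intro L M u hu T rect hT hdiam X E hX hEsep
  have hP := M.pureEnt hE
  rcases X.eq_empty_or_nonempty with rfl | ⟨x0, hx0⟩
  · rw [M.I_eq_sfI]
    unfold sfI
    rw [Finset.empty_union, hP.empty]
    simp
  obtain ⟨hn1, hn2, hn3⟩ := hsc u hu
  have hu1 : 1 ≤ u := hu0.trans hu
  set s0 : ℕ := ⌈A0 * u⌉₊ with hs0
  set n : ℕ := max Ctpl 1 * max N0 1 * (s0 + 1) with hn
  have hs0R : A0 * u ≤ (s0 : ℝ) := Nat.le_ceil _
  have hTne : T.Nonempty := ⟨gpt x0, hX x0 hx0⟩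
  have hN0 : 1 ≤ N0 := by
    obtain ⟨a, _⟩ := (hT _).1 (hX x0 hx0)
    exact Nat.one_le_iff_ne_zero.2 (fun h0 => by subst h0; exact a.elim0)
  obtain ⟨k, Ω', hk, hG, hS, _⟩ := gmodel_transport M
  -- diameter in integers
  have hdiamZ : ∀ x ∈ T, ∀ y ∈ T, dInf x y ≤ (s0 : ℤ) := by
    intro x hx y hy
    have h1 := (hdiam x hx y hy).trans hs0R
    exact_mod_cast h1
  -- the template
  set P : Fin N0 → RectP := fun a =>
    if (∃ p, InRect (rect a) p) then
      ⟨(rect a).1.1, (rect a).2.1, (rect a).1.2, (rect a).2.2⟩ else ⟨1, 0, 1, 0⟩ with hP'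
  have hPmem : ∀ a p, (P a).Mem p ↔ InRect (rect a) p := by
    intro a p
    by_cases hne : ∃ p, InRect (rect a) p
    · simp only [hP', hne, if_true]
      rfl
    · simp only [hP', hne, if_false]
      constructor
      · intro hm
        unfold RectP.Mem at hm
        simp only at hm
        omega
      · intro hm
        exact absurd ⟨p, hm⟩ hne
  have htpl : IsTemplate Ctpl T n s0 := by
    refine ⟨hTne, ?_, N0, P, hN0, ?_, ?_, ?_, ?_⟩
    · have : (1 : ℝ) ≤ (s0 : ℝ) := by nlinarith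
      exact_mod_cast this
    · intro a
      by_cases hne : ∃ p, InRect (rect a) p
      · simp only [hP', hne, if_true]
        obtain ⟨p, hp⟩ := hne
        obtain ⟨p1, p2, p3, p4⟩ := hp
        have c1 : InRect (rect a) ((rect a).1.1, (rect a).1.2) :=
          ⟨le_rfl, p1.trans p2, le_rfl, p3.trans p4⟩
        have c2 : InRect (rect a) ((rect a).2.1, (rect a).2.2) :=
          ⟨p1.trans p2, le_rfl, p3.trans p4, le_rfl⟩
        have h3 := hdiamZ _ ((hT _).2 ⟨a, c2⟩) _ ((hT _).2 ⟨a, c1⟩)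
        unfold dInf at h3
        simp only [max_le_iff] at h3
        exact ⟨(le_abs_self _).trans h3.1, (le_abs_self _).trans h3.2⟩
      · simp only [hP', hne, if_false]
        constructor <;> omega
    · intro p
      rw [hT p]
      exact exists_congr fun a => (hPmem a p).symm
    · rw [hn]
      apply Nat.mul_le_mul_right
      exact Nat.mul_le_mul (le_max_left _ _) (le_max_left _ _)
    · intro x hx y hy
      refine (hdiamZ x hx y hy).trans ?_
      have : s0 ≤ n := by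
        rw [hn]
        have h1 : 1 ≤ max Ctpl 1 * max N0 1 :=
          Nat.mul_pos (lt_of_lt_of_le one_pos (le_max_right _ _))
            (lt_of_lt_of_le one_pos (le_max_right _ _))
        nlinarith
      exact_mod_cast this
  have hclear : TemplateClear D0 (cutEnds (gridSet L) Finset.univ) T n s0 := by
    rw [gbr_cutEnds_univ]
    refine ⟨fun x _ z hz => absurd hz (Finset.notMem_empty z), hn2,
      fun x _ z hz => absurd hz (Finset.notMem_empty z)⟩
  have key := hI (gridSet L) k hk M.E₀ Ω' hG Finset.univ T n s0 hn1 htpl hclear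
    (X.map (gridEquiv L).toEmbedding) (E.map (gridEquiv L).toEmbedding)
    (by
      intro x hx
      obtain ⟨y, hy, rfl⟩ := Finset.mem_map.1 hx
      exact ⟨Finset.mem_univ _, hX y hy⟩)
    (by
      intro y hy _ x hx
      obtain ⟨e, he, rfl⟩ := Finset.mem_map.1 hy
      have h1 := hEsep e he x hx
      have h2 : dInf x (gpt e) = dInf (gpt e) x := by
        unfold dInf
        rw [abs_sub_comm, abs_sub_comm x.2]
      show 2 * (n : ℝ) ^ expBeta < ((dInf x (gpt e) : ℤ) : ℝ)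
      rw [h2]
      exact lt_of_le_of_lt hn3 h1)
  have hMI : M.I X E = minfo (io := fun _ : gridSet L => Fin q) (pureOp Ω')
      (X.map (gridEquiv L).toEmbedding) (E.map (gridEquiv L).toEmbedding) := by
    unfold GModel.I minfo
    rw [hS X, hS E, hS (X ∪ E), Finset.map_union]
  rw [hMI]
  refine key.trans ?_
  have hn1' : (1 : ℝ) ≤ (n : ℝ) := by
    have : 1 ≤ n := by
      rw [hn]
      exact Nat.mul_pos (Nat.mul_pos (lt_of_lt_of_le one_pos (le_max_right _ _))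
        (lt_of_lt_of_le one_pos (le_max_right _ _))) (Nat.succ_pos _)
    exact_mod_cast this
  have h100 : ((n : ℝ) ^ 100)⁻¹ ≤ 1 := inv_le_one_of_one_le₀ (one_le_pow₀ hn1')
  have h100' : 0 ≤ ((n : ℝ) ^ 100)⁻¹ := by positivity
  calc C * ((n : ℝ) ^ 100)⁻¹ ≤ max C 0 * ((n : ℝ) ^ 100)⁻¹ :=
        mul_le_mul_of_nonneg_right (le_max_left _ _) h100'
    _ ≤ max C 0 * 1 := mul_le_mul_of_nonneg_left h100 (le_max_right _ _)
    _ = max C 0 := mul_one _

end Claimed.Agent.R296
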