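import Claimed.Agent.R296.P2.ModelFacts
import Claimed.Agent.R296.Top
import Claimed.Agent.R296.EntSiteChange

/-!
# Row 296, paper 2: a grid model is a model of paper 1 (package P2-BR-A, PROVED by helper189)

`gmodel_transport`: a grid model is a model of paper 1 on `gridSet L ⊆ ℤ × ℤ` with range `R = 1`; entropies and edge boundaries correspond.
Operators are transported by `gtr K = K.submatrix φ φ`, `φ = gcfgEquiv`; the interaction is `gkern M X = gtr (raw term)` if `X` is the
support of a (unique) term and `0` otherwise.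
-/

set_option autoImplicit false
set_option linter.unusedSectionVars false

namespace Claimed.Agent.R296

open Matrix Claims.C0473
open scoped ComplexOrder

variable {q : ℕ} [NeZero q] {J Δ : ℝ} {L : ℕ}

/-- the grid as a subset of the square lattice -/
def gridSet (L : ℕ) : Finset (ℤ × ℤ) := (Finset.univ : Finset (GSite L)).image gpt

theorem gpt_injective : Function.Injective (gpt : GSite L → ℤ × ℤ) := by
  intro x y h
  simp only [gpt, Prod.mk.injEq, Nat.cast_inj] at h
  exact Prod.ext (Fin.ext h.1) (Fin.ext h.2)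

/-- the site bijection -/
noncomputable def gridEquiv (L : ℕ) : GSite L ≃ gridSet L :=
  Equiv.ofBijective (fun x => ⟨gpt x, Finset.mem_image_of_mem _ (Finset.mem_univ x)⟩)
    ⟨fun x y h => gpt_injective (congrArg Subtype.val h), fun y => by
      obtain ⟨x, _, hx⟩ := Finset.mem_image.mp y.2
      exact ⟨x, Subtype.ext hx⟩⟩

theorem gridEquiv_coe (x : GSite L) : ((gridEquiv L x : gridSet L) : ℤ × ℤ) = gpt x := rfl

/-- the bijection of configurations -/
noncomputable def gcfgEquiv (q L : ℕ) : (gridSet L → Fin q) ≃ GCfg q L where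
  toFun σ := fun x => σ (gridEquiv L x)
  invFun τ := fun y => τ ((gridEquiv L).symm y)
  left_inv σ := by funext y; simp
  right_inv τ := by funext x; simp

theorem gcfgEquiv_apply (σ : gridSet L → Fin q) (x : GSite L) :
    gcfgEquiv q L σ x = σ (gridEquiv L x) := rfl

/-- transport of an operator -/
noncomputable def gtr (K : Matrix (GCfg q L) (GCfg q L) ℂ) :
    Matrix (gridSet L → Fin q) (gridSet L → Fin q) ℂ :=
  K.submatrix (gcfgEquiv q L) (gcfgEquiv q L)

theorem gtr_apply (K : Matrix (GCfg q L) (GCfg q L) ℂ) (σ τ : gridSet L → Fin q) :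
    gtr K σ τ = K (gcfgEquiv q L σ) (gcfgEquiv q L τ) := rfl

theorem gtr_add (K K' : Matrix (GCfg q L) (GCfg q L) ℂ) : gtr (K + K') = gtr K + gtr K' := rfl

theorem gtr_sub (K K' : Matrix (GCfg q L) (GCfg q L) ℂ) : gtr (K - K') = gtr K - gtr K' := rfl

theorem gtr_smul (c : ℂ) (K : Matrix (GCfg q L) (GCfg q L) ℂ) : gtr (c • K) = c • gtr K := rfl

theorem gtr_one : gtr (1 : Matrix (GCfg q L) (GCfg q L) ℂ) = 1 := by
  unfold gtr
  exact Matrix.submatrix_one_equiv _

theorem gtr_zero : gtr (0 : Matrix (GCfg q L) (GCfg q L) ℂ) = 0 := rfl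

theorem gtr_sum {ι : Type} (t : Finset ι) (K : ι → Matrix (GCfg q L) (GCfg q L) ℂ) :
    gtr (∑ i ∈ t, K i) = ∑ i ∈ t, gtr (K i) := by
  classical
  induction t using Finset.induction_on with
  | empty => simp [gtr_zero]
  | insert a t ha ih => rw [Finset.sum_insert ha, Finset.sum_insert ha, gtr_add, ih]

theorem gtr_herm {K : Matrix (GCfg q L) (GCfg q L) ℂ} (h : K.IsHermitian) : (gtr K).IsHermitian :=
  h.submatrix _

theorem gtr_psd {K : Matrix (GCfg q L) (GCfg q L) ℂ} (h : Claims.C0474.IsPSD K) :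
    IsPSD (gtr K) := by
  rw [br_isPSD_iff]
  exact (br_isPSD_iff.mp h).submatrix _

theorem gtr_mulVec (K : Matrix (GCfg q L) (GCfg q L) ℂ) (v : GCfg q L → ℂ) :
    gtr K *ᵥ (v ∘ gcfgEquiv q L) = (K *ᵥ v) ∘ gcfgEquiv q L := by
  unfold gtr
  rw [Matrix.submatrix_mulVec_equiv]
  congr 2
  funext x
  simp

theorem gtr_vecMulVec (v w : GCfg q L → ℂ) :
    gtr (vecMulVec v w) = vecMulVec (v ∘ gcfgEquiv q L) (w ∘ gcfgEquiv q L) := by
  ext σ τ
  simp [gtr_apply, vecMulVec_apply]

theorem gtr_embedAt (S : Finset (GSite L)) (K : Matrix (GCfg q L) (GCfg q L) ℂ) :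
    embedAt (S.map (gridEquiv L).toEmbedding) (gtr K) = gtr (Claims.C0474.embedAt S K) := by
  ext σ τ
  have hmem : ∀ x : GSite L, gridEquiv L x ∈ S.map (gridEquiv L).toEmbedding ↔ x ∈ S := by
    intro x
    simp
  have hc : (∀ y, y ∉ S.map (gridEquiv L).toEmbedding → σ y = τ y) ↔
      (∀ x, x ∉ S → gcfgEquiv q L σ x = gcfgEquiv q L τ x) := by
    constructor
    · intro h x hx
      exact h _ (fun h' => hx ((hmem x).1 h'))
    · intro h y hy
      have := h ((gridEquiv L).symm y) (fun h' => hy (by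
        rw [← (gridEquiv L).apply_symm_apply y]; exact (hmem _).2 h'))
      simpa [gcfgEquiv_apply] using this
  have ha : ∀ ρ : gridSet L → Fin q,
      gcfgEquiv q L (fun y => if y ∈ S.map (gridEquiv L).toEmbedding then ρ y else 0) =
        fun x => if x ∈ S then gcfgEquiv q L ρ x else 0 := by
    intro ρ
    funext x
    rw [gcfgEquiv_apply]
    by_cases hx : x ∈ S
    · rw [if_pos ((hmem x).2 hx), if_pos hx]; rfl
    · rw [if_neg (fun h' => hx ((hmem x).1 h')), if_neg hx]
  rw [gtr_apply]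
  unfold embedAt Claims.C0474.embedAt
  simp only [Matrix.of_apply]
  by_cases h : ∀ y, y ∉ S.map (gridEquiv L).toEmbedding → σ y = τ y
  · rw [if_pos h, if_pos (hc.1 h), gtr_apply, ha, ha]
  · rw [if_neg h, if_neg (fun h' => h (hc.2 h'))]


/-! ### supports -/

/-- raw matrices of the terms -/
def GModel.raw (M : GModel q J Δ L) : GTerm L → Matrix (GCfg q L) (GCfg q L) ℂ
  | Sum.inl v => M.hv v
  | Sum.inr e => M.he e

theorem GModel.term_eq_raw (M : GModel q J Δ L) (i : GTerm L) :
    M.term i = Claims.C0474.embedAt (gsupp i) (M.raw i) := by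
  cases i <;> rfl

theorem GModel.term_normLE (M : GModel q J Δ L) (i : GTerm L) :
    Claims.C0474.HermNormLE (M.term i) J := by
  cases i with
  | inl v => exact M.hvJ v
  | inr e => exact M.heJ e

theorem gedge_ne (e : Claims.C0474.GridEdge L) : e.1.1 ≠ e.1.2 := by
  intro h
  have h3 := e.2.2.2
  rw [h] at h3
  omega

theorem gedge_dOne (e : Claims.C0474.GridEdge L) :
    |(gpt e.1.1).1 - (gpt e.1.2).1| + |(gpt e.1.1).2 - (gpt e.1.2).2| = 1 := by
  obtain ⟨h1, h2, h3⟩ := e.2
  have h1' : ((e.1.1.1 : ℕ) : ℤ) ≤ ((e.1.2.1 : ℕ) : ℤ) := by exact_mod_cast h1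
  have h2' : ((e.1.1.2 : ℕ) : ℤ) ≤ ((e.1.2.2 : ℕ) : ℤ) := by exact_mod_cast h2
  have h3' : ((e.1.1.1 : ℕ) : ℤ) + ((e.1.1.2 : ℕ) : ℤ) + 1
      = ((e.1.2.1 : ℕ) : ℤ) + ((e.1.2.2 : ℕ) : ℤ) := by exact_mod_cast h3
  simp only [gpt]
  rw [abs_of_nonpos (by linarith), abs_of_nonpos (by linarith)]
  linarith

theorem gsupp_injective : Function.Injective (gsupp : GTerm L → Finset (GSite L)) := by
  intro i i' h
  cases i with
  | inl v =>
    cases i' with
    | inl v' =>
      simp only [gsupp, Finset.singleton_inj] at h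
      rw [h]
    | inr e =>
      exfalso
      simp only [gsupp, Claims.C0474.GridEdge.support] at h
      have h1 : e.1.1 ∈ ({v} : Finset (GSite L)) := by rw [h]; simp
      have h2 : e.1.2 ∈ ({v} : Finset (GSite L)) := by rw [h]; simp
      rw [Finset.mem_singleton] at h1 h2
      exact gedge_ne e (h1.trans h2.symm)
  | inr e =>
    cases i' with
    | inl v =>
      exfalso
      simp only [gsupp, Claims.C0474.GridEdge.support] at h
      have h1 : e.1.1 ∈ ({v} : Finset (GSite L)) := by rw [← h]; simp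
      have h2 : e.1.2 ∈ ({v} : Finset (GSite L)) := by rw [← h]; simp
      rw [Finset.mem_singleton] at h1 h2
      exact gedge_ne e (h1.trans h2.symm)
    | inr e' =>
      simp only [gsupp, Claims.C0474.GridEdge.support] at h
      have h1 : e.1.1 ∈ ({e'.1.1, e'.1.2} : Finset (GSite L)) := by rw [← h]; simp
      have h2 : e.1.2 ∈ ({e'.1.1, e'.1.2} : Finset (GSite L)) := by rw [← h]; simp
      simp only [Finset.mem_insert, Finset.mem_singleton] at h1 h2
      have hne := gedge_ne e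
      have s1 := e.2.2.2
      have s2 := e'.2.2.2
      congr 1
      apply Subtype.ext
      rcases h1 with h1 | h1 <;> rcases h2 with h2 | h2
      · exact absurd (h1.trans h2.symm) hne
      · exact Prod.ext h1 h2
      · exfalso
        rw [h1, h2] at s1
        omega
      · exact absurd (h1.trans h2.symm) hne

/-- support of a term in the lattice -/
noncomputable def gsuppL (i : GTerm L) : Finset (gridSet L) :=
  (gsupp i).map (gridEquiv L).toEmbedding

theorem gsuppL_injective : Function.Injective (gsuppL : GTerm L → Finset (gridSet L)) := by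
  intro i i' h
  exact gsupp_injective (Finset.map_injective _ h)

theorem gsupp_pair (i : GTerm L) {x y : GSite L} (hx : x ∈ gsupp i) (hy : y ∈ gsupp i) :
    x = y ∨ |(gpt x).1 - (gpt y).1| + |(gpt x).2 - (gpt y).2| = 1 := by
  cases i with
  | inl v =>
    simp only [gsupp, Finset.mem_singleton] at hx hy
    exact Or.inl (hx.trans hy.symm)
  | inr e =>
    simp only [gsupp, Claims.C0474.GridEdge.support, Finset.mem_insert,
      Finset.mem_singleton] at hx hy
    have h := gedge_dOne e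
    rcases hx with rfl | rfl <;> rcases hy with rfl | rfl
    · exact Or.inl rfl
    · exact Or.inr h
    · right
      rw [abs_sub_comm, abs_sub_comm (gpt e.1.2).2]
      exact h
    · exact Or.inl rfl

theorem gsuppL_adm (i : GTerm L) : gsuppL i ∈ admissibleSupports (gridSet L) 1 := by
  unfold admissibleSupports
  rw [Finset.mem_filter]
  refine ⟨Finset.mem_univ _, (gsupp_nonempty i).map, ?_⟩
  intro x hx y hy
  obtain ⟨x0, hx0, rfl⟩ := Finset.mem_map.1 hx
  obtain ⟨y0, hy0, rfl⟩ := Finset.mem_map.1 hy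
  rw [Nat.cast_one, SimpleGraph.edist_le_one_iff_adj_or_eq]
  rcases gsupp_pair i hx0 hy0 with h | h
  · exact Or.inr (by rw [h])
  · by_cases hxy : x0 = y0
    · exact Or.inr (by rw [hxy])
    · left
      unfold latticeGraph
      rw [SimpleGraph.fromRel_adj]
      exact ⟨fun h' => hxy ((gridEquiv L).injective h'), Or.inl h⟩

/-- the interaction of paper 1 -/
noncomputable def gkern (M : GModel q J Δ L) (X : Finset (gridSet L)) :
    Matrix (gridSet L → Fin q) (gridSet L → Fin q) ℂ :=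
  by classical exact if h : ∃ i, gsuppL i = X then gtr (M.raw h.choose) else 0

theorem gkern_gsuppL (M : GModel q J Δ L) (i : GTerm L) : gkern M (gsuppL i) = gtr (M.raw i) := by
  have h : ∃ i', gsuppL i' = gsuppL i := ⟨i, rfl⟩
  unfold gkern
  rw [dif_pos h, gsuppL_injective h.choose_spec]

theorem gkern_of_not (M : GModel q J Δ L) {X : Finset (gridSet L)} (h : ¬ ∃ i, gsuppL i = X) :
    gkern M X = 0 := by
  unfold gkern
  rw [dif_neg h]

theorem embedAt_gkern (M : GModel q J Δ L) (i : GTerm L) :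
    embedAt (gsuppL i) (gkern M (gsuppL i)) = gtr (M.term i) := by
  rw [gkern_gsuppL, M.term_eq_raw]
  exact gtr_embedAt _ _

theorem gham (M : GModel q J Δ L) : latticeHamiltonian (gridSet L) 1 q (gkern M) = gtr M.H := by
  classical
  unfold latticeHamiltonian
  rw [M.H_eq_sum, gtr_sum]
  have h1 : ∑ X ∈ (Finset.univ : Finset (GTerm L)).image gsuppL, embedAt X (gkern M X)
      = ∑ X ∈ admissibleSupports (gridSet L) 1, embedAt X (gkern M X) := by
    apply Finset.sum_subset
    · intro X hX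
      obtain ⟨i, _, rfl⟩ := Finset.mem_image.1 hX
      exact gsuppL_adm i
    · intro X _ hX
      rw [gkern_of_not M (fun ⟨i, hi⟩ => hX (Finset.mem_image.2 ⟨i, Finset.mem_univ _, hi⟩))]
      exact top_embedAt_zero X
  rw [← h1, Finset.sum_image (fun i _ i' _ h => gsuppL_injective h)]
  exact Finset.sum_congr rfl fun i _ => embedAt_gkern M i

theorem GModel.J_nonneg (M : GModel q J Δ L) (v : GSite L) : 0 ≤ J := by
  obtain ⟨_, h1, h2⟩ := M.hvJ v
  let σ0 : GCfg q L := fun _ => 0
  have a1 := h1.2 (Pi.single σ0 1)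
  have a2 := h2.2 (Pi.single σ0 1)
  rw [Matrix.sub_mulVec, dotProduct_sub, Complex.sub_re] at a1
  rw [Matrix.add_mulVec, dotProduct_add, Complex.add_re] at a2
  have a3 : (star (Pi.single σ0 (1 : ℂ)) ⬝ᵥ (((J : ℂ) • (1 : Matrix (GCfg q L) (GCfg q L) ℂ)) *ᵥ
      Pi.single σ0 1)).re = J := by
    rw [Matrix.smul_mulVec, Matrix.one_mulVec, dotProduct_smul]
    simp [dotProduct, Pi.single_apply]
  rw [a3] at a1 a2
  linarith

theorem gkern_adm (M : GModel q J Δ L) : AdmInt q 1 J (gridSet L) (gkern M) := by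
  intro X hX
  by_cases h : ∃ i, gsuppL i = X
  · obtain ⟨i, rfl⟩ := h
    rw [embedAt_gkern]
    obtain ⟨h0, h1, h2⟩ := M.term_normLE i
    refine ⟨gtr_herm h0, ?_, ?_⟩
    · rw [← gtr_one, ← gtr_smul, ← gtr_sub]
      exact gtr_psd h1
    · rw [← gtr_one, ← gtr_smul, ← gtr_add]
      exact gtr_psd h2
  · rw [gkern_of_not M h, top_embedAt_zero]
    have hne : X.Nonempty := by
      unfold admissibleSupports at hX
      exact (Finset.mem_filter.1 hX).2.1
    obtain ⟨y, _⟩ := hne
    have hJ : 0 ≤ J := M.J_nonneg ((gridEquiv L).symm y)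
    have hpsd : IsPSD ((J : ℂ) • (1 : Matrix (gridSet L → Fin q) (gridSet L → Fin q) ℂ)) := by
      rw [br_isPSD_iff]
      exact Matrix.PosSemidef.one.smul (by exact_mod_cast hJ)
    refine ⟨Matrix.isHermitian_zero, ?_, ?_⟩
    · rw [sub_zero]; exact hpsd
    · rw [add_zero]; exact hpsd

theorem ggap (M : GModel q J Δ L) :
    GapState q 1 Δ (gridSet L) (gkern M) M.E₀ (M.Ω ∘ gcfgEquiv q L) := by
  refine ⟨?_, ?_, ?_⟩
  · have h := M.nrm
    unfold dotProduct at h ⊢
    rw [← h, ← Equiv.sum_comp (gcfgEquiv q L)]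
    rfl
  · rw [gham, gtr_mulVec]
    have h : M.H *ᵥ M.Ω = (M.E₀ : ℂ) • M.Ω := M.eig
    rw [h]
    rfl
  · rw [gham]
    have h := gtr_psd M.gap
    rw [gtr_sub, gtr_sub, gtr_smul, gtr_smul, gtr_sub, gtr_one, gtr_vecMulVec] at h
    exact h

theorem gent (M : GModel q J Δ L) (A : Finset (GSite L)) :
    M.S A = ent (io := fun _ : gridSet L => Fin q) (pureOp (M.Ω ∘ gcfgEquiv q L))
      (A.map (gridEquiv L).toEmbedding) := by
  have hmem : ∀ x : GSite L, gridEquiv L x ∈ A.map (gridEquiv L).toEmbedding ↔ x ∈ A := by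
    intro x
    simp
  have e1 : pureOp (M.Ω ∘ gcfgEquiv q L) =
      (pureOp M.Ω).submatrix (gcfgEquiv q L) (gcfgEquiv q L) := by
    ext σ τ
    simp [pureOp, vecMulVec_apply]
  rw [e1]
  unfold GModel.S
  symm
  apply ent_submatrix_equiv (io' := fun _ : gridSet L => Fin q) (io := fun _ : GSite L => Fin q)
    (gcfgEquiv q L) (A.map (gridEquiv L).toEmbedding) A
  · intro σ τ
    constructor
    · intro h y hy
      exact h _ ((hmem y).2 hy)
    · intro h x hx
      have hx' : (gridEquiv L).symm x ∈ A := by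
        rw [← hmem, Equiv.apply_symm_apply]; exact hx
      have key : ∀ ρ : gridSet L → Fin q, gcfgEquiv q L ρ ((gridEquiv L).symm x) = ρ x :=
        fun ρ => by rw [gcfgEquiv_apply, Equiv.apply_symm_apply]
      exact (key σ).symm.trans ((h _ hx').trans (key τ))
  · intro σ τ
    constructor
    · intro h y hy
      exact h _ (fun h' => hy ((hmem y).1 h'))
    · intro h x hx
      have hx' : (gridEquiv L).symm x ∉ A := by
        rw [← hmem, Equiv.apply_symm_apply]; exact hx
      have key : ∀ ρ : gridSet L → Fin q, gcfgEquiv q L ρ ((gridEquiv L).symm x) = ρ x :=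
        fun ρ => by rw [gcfgEquiv_apply, Equiv.apply_symm_apply]
      exact (key σ).symm.trans ((h _ hx').trans (key τ))


/-- orientation of a pair of neighbours -/
theorem gnbr_orient {x y : GSite L}
    (h : |(gpt x).1 - (gpt y).1| + |(gpt x).2 - (gpt y).2| = 1) :
    (x.1 ≤ y.1 ∧ x.2 ≤ y.2 ∧ ((x.1 : ℕ) + x.2 + 1 = (y.1 : ℕ) + y.2)) ∨
      (y.1 ≤ x.1 ∧ y.2 ≤ x.2 ∧ ((y.1 : ℕ) + y.2 + 1 = (x.1 : ℕ) + x.2)) := by
  simp only [gpt] at h
  simp only [Fin.le_def]
  rcases abs_cases (((x.1 : ℕ) : ℤ) - ((y.1 : ℕ) : ℤ)) with ⟨h1, _⟩ | ⟨h1, _⟩ <;>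
    rcases abs_cases (((x.2 : ℕ) : ℤ) - ((y.2 : ℕ) : ℤ)) with ⟨h2, _⟩ | ⟨h2, _⟩ <;>
    rw [h1, h2] at h <;> omega

theorem gbd_eq (A : Finset (GSite L)) :
    edgeBoundary (gridSet L) (A.map (gridEquiv L).toEmbedding) = gbd A := by
  classical
  have hmem : ∀ x : GSite L, gridEquiv L x ∈ A.map (gridEquiv L).toEmbedding ↔ x ∈ A := by
    intro x
    simp
  unfold edgeBoundary gbd
  symm
  apply Finset.card_bij (fun (ed : Claims.C0474.GridEdge L) _ =>
    if ed.1.1 ∈ A then (gridEquiv L ed.1.1, gridEquiv L ed.1.2)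
    else (gridEquiv L ed.1.2, gridEquiv L ed.1.1))
  · intro ed hed
    have hcr := (Finset.mem_filter.1 hed).2
    have hd := gedge_dOne ed
    rw [Finset.mem_filter]
    refine ⟨Finset.mem_univ _, ?_⟩
    by_cases h1 : ed.1.1 ∈ A
    · rw [if_pos h1]
      have h2 : ed.1.2 ∉ A := fun h2 => hcr ⟨fun _ => h2, fun _ => h1⟩
      exact ⟨(hmem _).2 h1, fun h => h2 ((hmem _).1 h), hd⟩
    · rw [if_neg h1]
      have h2 : ed.1.2 ∈ A := by
        by_contra h2
        exact hcr ⟨fun h => absurd h h1, fun h => absurd h h2⟩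
      refine ⟨(hmem _).2 h2, fun h => h1 ((hmem _).1 h), ?_⟩
      show |(gpt ed.1.2).1 - (gpt ed.1.1).1| + |(gpt ed.1.2).2 - (gpt ed.1.1).2| = 1
      rw [abs_sub_comm, abs_sub_comm (gpt ed.1.2).2]
      exact hd
  · intro ed _ ed' _ h
    have s1 := ed.2.2.2
    have s2 := ed'.2.2.2
    apply Subtype.ext
    by_cases h1 : ed.1.1 ∈ A <;> by_cases h2 : ed'.1.1 ∈ A
    · simp only [if_pos h1, if_pos h2, Prod.mk.injEq, EmbeddingLike.apply_eq_iff_eq] at h
      exact Prod.ext h.1 h.2
    · simp only [if_pos h1, if_neg h2, Prod.mk.injEq, EmbeddingLike.apply_eq_iff_eq] at h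
      exfalso
      rw [h.1, h.2] at s1
      omega
    · simp only [if_neg h1, if_pos h2, Prod.mk.injEq, EmbeddingLike.apply_eq_iff_eq] at h
      exfalso
      rw [h.1, h.2] at s1
      omega
    · simp only [if_neg h1, if_neg h2, Prod.mk.injEq, EmbeddingLike.apply_eq_iff_eq] at h
      exact Prod.ext h.2 h.1
  · intro p hp
    obtain ⟨_, hp1, hp2, hp3⟩ := Finset.mem_filter.1 hp
    obtain ⟨x, hx⟩ : ∃ x, gridEquiv L x = p.1 := ⟨(gridEquiv L).symm p.1, by simp⟩
    obtain ⟨y, hy⟩ : ∃ y, gridEquiv L y = p.2 := ⟨(gridEquiv L).symm p.2, by simp⟩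
    rw [← hx] at hp1 hp3
    rw [← hy] at hp2 hp3
    have hxA : x ∈ A := (hmem x).1 hp1
    have hyA : y ∉ A := fun h => hp2 ((hmem y).2 h)
    rcases gnbr_orient (x := x) (y := y) hp3 with ho | ho
    · refine ⟨⟨(x, y), ho⟩, ?_, ?_⟩
      · rw [Finset.mem_filter]
        exact ⟨Finset.mem_univ _, fun h => hyA (h.1 hxA)⟩
      · simp only [if_pos hxA]
        exact Prod.ext hx hy
    · refine ⟨⟨(y, x), ho⟩, ?_, ?_⟩
      · rw [Finset.mem_filter]
        exact ⟨Finset.mem_univ _, fun h => hyA (h.2 hxA)⟩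
      · simp only [if_neg hyA]
        exact Prod.ext hx hy

theorem gmodel_transport (M : GModel q J Δ L) :
    ∃ (k : Finset (gridSet L) → Matrix (gridSet L → Fin q) (gridSet L → Fin q) ℂ)
      (Ω' : (gridSet L → Fin q) → ℂ),
      AdmInt q 1 J (gridSet L) k ∧ GapState q 1 Δ (gridSet L) k M.E₀ Ω' ∧
      (∀ A : Finset (GSite L), M.S A =
        ent (io := fun _ : gridSet L => Fin q) (pureOp Ω') (A.map (gridEquiv L).toEmbedding)) ∧
      (∀ A : Finset (GSite L), edgeBoundary (gridSet L) (A.map (gridEquiv L).toEmbedding) = gbd A) :=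
  ⟨gkern M, M.Ω ∘ gcfgEquiv q L, gkern_adm M, ggap M, gent M, gbd_eq⟩

end Claimed.Agent.R296
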