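import Claimed.Agent.R296.P2.GeoLoc

/-!
# Row 296, paper 2, Section 6: integer geometry of bands   (LEAF `P2-GE-BAND`, prefix `geb_`)

Pure facts on `ℤ × ℤ`; tools: `omega`, `nlinarith`, `Int.le_ediv_iff_mul_le`, `Int.ediv_lt_iff_lt_mul`, `abs_le`, `max_le_iff`.
No state, no environment.  These are the only places where the slanted bands are analysed.
-/

set_option autoImplicit false

namespace Claimed.Agent.R296

variable {G Nn : ℤ}

theorem geb_dInf_comm (p p' : ℤ × ℤ) : dInf p p' = dInf p' p := by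
  unfold dInf
  rw [abs_sub_comm p.1, abs_sub_comm p.2]

theorem geb_dInf_le_iff (p p' : ℤ × ℤ) (r : ℤ) :
    dInf p p' ≤ r ↔ (|p.1 - p'.1| ≤ r ∧ |p.2 - p'.2| ≤ r) := by
  unfold dInf
  exact max_le_iff

theorem geb_dInf_lt_iff (p p' : ℤ × ℤ) (r : ℤ) :
    dInf p p' < r ↔ (|p.1 - p'.1| < r ∧ |p.2 - p'.2| < r) := by
  unfold dInf
  exact max_lt_iff

theorem geb_dInf_tri (p p' p'' : ℤ × ℤ) : dInf p p'' ≤ dInf p p' + dInf p' p'' := by
  rw [geb_dInf_le_iff]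
  have h1 := (geb_dInf_le_iff p p' _).mp le_rfl
  have h2 := (geb_dInf_le_iff p' p'' _).mp le_rfl
  constructor
  · have := abs_sub_le p.1 p'.1 p''.1
    linarith [h1.1, h2.1]
  · have := abs_sub_le p.2 p'.2 p''.2
    linarith [h1.2, h2.2]

theorem geb_bw_ge (s : ℤ) : 16 * G ≤ geBw G Nn s := le_max_left _ _

theorem geb_bw_pos (h : GeLoc G Nn) (s : ℤ) : 0 < geBw G Nn s := by
  have := geb_bw_ge (G := G) (Nn := Nn) s
  have := h.G_pos
  omega

theorem geb_bw_le (h : GeLoc G Nn) (s : ℤ) : 2 * geBw G Nn s ≤ Nn := by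
  have := h.G_pos
  have := h.Nn_ge
  unfold geBw
  omega

theorem geb_bw_symm (s : ℤ) : geBw G Nn (Nn - s) = geBw G Nn s := by
  unfold geBw
  omega

theorem geb_bw_lip (s s' : ℤ) : |geBw G Nn s - geBw G Nn s'| ≤ |s - s'| := by
  unfold geBw
  rw [abs_le]
  rcases abs_cases (s - s') with ⟨h, _⟩ | ⟨h, _⟩ <;> rw [h] <;> omega

theorem geb_bw_near0 {s : ℤ} (hs : s ≤ 16 * G) : geBw G Nn s = 16 * G := by
  unfold geBw
  omega

theorem geb_bw_near1 {s : ℤ} (hs : Nn - 16 * G ≤ s) : geBw G Nn s = 16 * G := by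
  unfold geBw
  omega

theorem geb_le_row_iff (h : GeLoc G Nn) (p : ℤ × ℤ) (k : ℤ) :
    k ≤ geRow G Nn p ↔ k * geBw G Nn p.1 ≤ 16 * p.2 := by
  unfold geRow
  exact Int.le_ediv_iff_mul_le (geb_bw_pos h _)

theorem geb_row_lt_iff (h : GeLoc G Nn) (p : ℤ × ℤ) (k : ℤ) :
    geRow G Nn p < k ↔ 16 * p.2 < k * geBw G Nn p.1 := by
  unfold geRow
  exact Int.ediv_lt_iff_lt_mul (geb_bw_pos h _)

theorem geb_row_near (h : GeLoc G Nn) {p : ℤ × ℤ} (hp : p.1 ≤ 16 * G ∨ Nn - 16 * G ≤ p.1) :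
    geRow G Nn p = p.2 / G := by
  have hb : geBw G Nn p.1 = 16 * G := by
    rcases hp with hp | hp
    · exact geb_bw_near0 hp
    · exact geb_bw_near1 hp
  unfold geRow
  rw [hb]
  exact Int.mul_ediv_mul_of_pos _ _ (by norm_num)

/-- SEPARATION, the second point lies above -/
theorem geb_sep_up (h : GeLoc G Nn) {y z : ℤ × ℤ} {k : ℤ} (hk : |k| ≤ 9)
    (hy : 16 * y.2 < k * geBw G Nn y.1) (hz : (k + 1) * geBw G Nn z.1 ≤ 16 * z.2) :
    geBw G Nn y.1 < 26 * dInf y z := by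
  have hl := geb_bw_lip (G := G) (Nn := Nn) y.1 z.1
  obtain ⟨h1, h2⟩ := (geb_dInf_le_iff y z _).mp le_rfl
  set D := dInf y z
  set a := geBw G Nn y.1
  set b := geBw G Nn z.1
  have hab : |a - b| ≤ D := hl.trans h1
  rw [abs_le] at hab hk h2
  have hD : 0 ≤ D := by omega
  -- k * (b - a) ≥ -9 D
  have hkk : -(9 * D) ≤ k * (b - a) := by
    rcases le_total 0 k with hk0 | hk0
    · nlinarith [mul_le_mul_of_nonneg_left (show -D ≤ b - a by omega) hk0,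
        mul_le_mul_of_nonneg_right hk.2 hD]
    · nlinarith [mul_le_mul_of_nonpos_left (show b - a ≤ D by omega) hk0,
        mul_le_mul_of_nonneg_right hk.1 hD]
  nlinarith

/-- SEPARATION, the second point lies below -/
theorem geb_sep_down (h : GeLoc G Nn) {y z : ℤ × ℤ} {k : ℤ} (hk : |k| ≤ 9)
    (hy : (k + 1) * geBw G Nn y.1 ≤ 16 * y.2) (hz : 16 * z.2 < k * geBw G Nn z.1) :
    geBw G Nn y.1 < 26 * dInf y z := by
  have hl := geb_bw_lip (G := G) (Nn := Nn) y.1 z.1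
  obtain ⟨h1, h2⟩ := (geb_dInf_le_iff y z _).mp le_rfl
  set D := dInf y z
  set a := geBw G Nn y.1
  set b := geBw G Nn z.1
  have hab : |a - b| ≤ D := hl.trans h1
  rw [abs_le] at hab hk h2
  have hD : 0 ≤ D := by omega
  have hkk : -(9 * D) ≤ k * (a - b) := by
    rcases le_total 0 k with hk0 | hk0
    · nlinarith [mul_le_mul_of_nonneg_left (show -D ≤ a - b by omega) hk0,
        mul_le_mul_of_nonneg_right hk.2 hD]
    · nlinarith [mul_le_mul_of_nonpos_left (show a - b ≤ D by omega) hk0,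
        mul_le_mul_of_nonneg_right hk.1 hD]
  nlinarith

/-- the row inequalities of a band, with the constants `-9`, `9` -/
theorem gebb_band_rows (h : GeLoc G Nn) {al be : ℤ} (ha : -9 ≤ al) (hb : be ≤ 9) {p : ℤ × ℤ}
    (hp : geBand G Nn al be p) :
    -9 * geBw G Nn p.1 ≤ 16 * p.2 ∧ 16 * p.2 < 9 * geBw G Nn p.1 := by
  obtain ⟨_, h1, h2⟩ := hp
  exact ⟨(geb_le_row_iff h p (-9)).mp (ha.trans h1),
    (geb_row_lt_iff h p 9).mp (lt_of_lt_of_le h2 hb)⟩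

/-- a point of a band has `12 G ≤ s ≤ Nn - 12 G` -/
theorem geb_band_s (h : GeLoc G Nn) {al be : ℤ} (ha : -9 ≤ al) (hb : be ≤ 9) {p : ℤ × ℤ}
    (hp : geBand G Nn al be p) : 12 * G ≤ p.1 ∧ p.1 ≤ Nn - 12 * G := by
  obtain ⟨r1, r2⟩ := gebb_band_rows h ha hb hp
  obtain ⟨⟨s1, s2, z0, z1⟩, _, _⟩ := hp
  have hG := h.G_pos
  have hN := h.Nn_ge
  simp only [geZone, geb_dInf_lt_iff, abs_lt, not_and_or, not_lt] at z0 z1
  unfold geBw at r1 r2
  constructor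
  · by_contra hcon
    omega
  · by_contra hcon
    omega

theorem geb_band_d (h : GeLoc G Nn) {al be : ℤ} (ha : -9 ≤ al) (hb : be ≤ 9) {p : ℤ × ℤ}
    (hp : geBand G Nn al be p) : 16 * |p.2| ≤ 9 * geBw G Nn p.1 := by
  obtain ⟨r1, r2⟩ := gebb_band_rows h ha hb hp
  rcases abs_cases p.2 with ⟨e, _⟩ | ⟨e, _⟩ <;> rw [e] <;> omega

/-- the distance of a point of a band from the nearest mark is at most `geBw` -/
theorem geb_band_mark (h : GeLoc G Nn) {al be : ℤ} (ha : -9 ≤ al) (hb : be ≤ 9) {p : ℤ × ℤ}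
    (hp : geBand G Nn al be p) :
    dInf p (0, 0) ≤ geBw G Nn p.1 ∨ dInf p (Nn, 0) ≤ geBw G Nn p.1 := by
  obtain ⟨r1, r2⟩ := gebb_band_rows h ha hb hp
  obtain ⟨⟨s1, s2, _, _⟩, _, _⟩ := hp
  have hG := h.G_pos
  simp only [geb_dInf_le_iff, abs_le]
  unfold geBw at r1 r2 ⊢
  omega

/-- points outside the span are far from a band -/
theorem geb_band_side (h : GeLoc G Nn) {al be : ℤ} (ha : -9 ≤ al) (hb : be ≤ 9) {p z : ℤ × ℤ}
    (hp : geBand G Nn al be p) (hz : z.1 ≤ 0 ∨ Nn ≤ z.1) : 3 * geBw G Nn p.1 ≤ 4 * dInf p z := by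
  obtain ⟨s1, s2⟩ := geb_band_s h ha hb hp
  obtain ⟨h1, _⟩ := (geb_dInf_le_iff p z _).mp le_rfl
  rw [abs_le] at h1
  have hG := h.G_pos
  unfold geBw
  omega

/-- BULK SEPARATION: a point which is not in a zone and not in the rows `al - 1 ≤ row < be + 1` -/
theorem geb_band_sep (h : GeLoc G Nn) {al be : ℤ} (ha : -8 ≤ al) (hb : be ≤ 8) {p z : ℤ × ℤ}
    (hp : geBand G Nn al be p) (hz0 : ¬ geZone G (0, 0) z) (hz1 : ¬ geZone G (Nn, 0) z)
    (hz : ¬ geBand G Nn (al - 1) (be + 1) z) : geBw G Nn p.1 < 26 * dInf p z := by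
  have hpos := geb_bw_pos h p.1
  by_cases hs : 0 < z.1 ∧ z.1 < Nn
  · have hspan : geSpan G Nn z := ⟨hs.1, hs.2, hz0, hz1⟩
    have hlt : al < be := lt_of_le_of_lt hp.2.1 hp.2.2
    have hr : geRow G Nn z < al - 1 ∨ be + 1 ≤ geRow G Nn z := by
      by_contra hcon
      push Not at hcon
      exact hz ⟨hspan, hcon.1, hcon.2⟩
    rcases hr with hr | hr
    · refine geb_sep_down h (k := al - 1) (by rw [abs_le]; omega) ?_
        ((geb_row_lt_iff h z _).mp hr)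
      have := (geb_le_row_iff h p al).mp hp.2.1
      simpa using this
    · exact geb_sep_up h (k := be) (by rw [abs_le]; omega) ((geb_row_lt_iff h p _).mp hp.2.2)
        ((geb_le_row_iff h z _).mp hr)
  · have := geb_band_side h (by omega) (by omega) hp (z := z) (by omega)
    omega

theorem geb_band_diam (h : GeLoc G Nn) {al be : ℤ} (ha : -9 ≤ al) (hb : be ≤ 9) {p p' : ℤ × ℤ}
    (hp : geBand G Nn al be p) (hp' : geBand G Nn al be p') : dInf p p' ≤ 4 * Nn := by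
  obtain ⟨r1, r2⟩ := gebb_band_rows h ha hb hp
  obtain ⟨r1', r2'⟩ := gebb_band_rows h ha hb hp'
  obtain ⟨⟨s1, s2, _, _⟩, _, _⟩ := hp
  obtain ⟨⟨s1', s2', _, _⟩, _, _⟩ := hp'
  have b1 := geb_bw_le h p.1
  have b2 := geb_bw_le h p'.1
  simp only [geb_dInf_le_iff, abs_le]
  omega

/-- a band is far from the nodes of the level grid other than the two marks -/
theorem geb_band_far (h : GeLoc G Nn) {al be : ℤ} (ha : -9 ≤ al) (hb : be ≤ 9) {p w : ℤ × ℤ}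
    (hp : geBand G Nn al be p) (hw : GeNode Nn w) (h0 : w ≠ (0, 0)) (h1 : w ≠ (Nn, 0)) :
    Nn ≤ 2 * dInf p w := by
  obtain ⟨r1, r2⟩ := gebb_band_rows h ha hb hp
  obtain ⟨⟨s1, s2, _, _⟩, _, _⟩ := hp
  have b1 := geb_bw_le h p.1
  obtain ⟨d1, d2⟩ := (geb_dInf_le_iff p w _).mp le_rfl
  rw [abs_le] at d1 d2
  obtain ⟨⟨a, ha'⟩, ⟨b, hb'⟩⟩ := hw
  have hN : 0 < Nn := by have := h.G_pos; have := h.Nn_ge; omega
  by_cases hb0 : b = 0
  · have ha0 : a ≠ 0 := by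
      rintro rfl
      apply h0
      ext <;> simp [ha', hb', hb0]
    have ha1 : a ≠ 1 := by
      rintro rfl
      apply h1
      ext <;> simp [ha', hb', hb0]
    rcases lt_or_gt_of_ne ha0 with hlt | hgt
    · have : Nn * a ≤ -Nn := by nlinarith
      omega
    · have : 2 * Nn ≤ Nn * a := by
        have : 2 ≤ a := by omega
        nlinarith
      omega
  · rcases lt_or_gt_of_ne hb0 with hlt | hgt
    · have : Nn * b ≤ -Nn := by nlinarith
      omega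
    · have : Nn ≤ Nn * b := by nlinarith
      omega

theorem geb_band_iff (h : GeLoc G Nn) (al be : ℤ) (p : ℤ × ℤ) :
    geBand G Nn al be p ↔ (0 < p.1 ∧ p.1 < Nn ∧ ¬ geZone G (0, 0) p ∧ ¬ geZone G (Nn, 0) p) ∧
      al * geBw G Nn p.1 ≤ 16 * p.2 ∧ 16 * p.2 < be * geBw G Nn p.1 := by
  rw [geBand, geSpan, geb_le_row_iff h, geb_row_lt_iff h]

/-- a multiple of `m > 0` is `≤ k m` or `≥ (k + 1) m` -/
theorem geb_dvd_dich {m c : ℤ} (hm : 0 < m) (hc : m ∣ c) (k : ℤ) : c ≤ k * m ∨ (k + 1) * m ≤ c := by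
  obtain ⟨a, rfl⟩ := hc
  rcases le_or_gt a k with h | h
  · left
    rw [mul_comm]
    exact mul_le_mul_of_nonneg_right h hm.le
  · right
    rw [mul_comm m a]
    exact mul_le_mul_of_nonneg_right (by omega) hm.le

theorem geb_lt_box {p q : ℤ × ℤ} {r : ℤ} (h : dInf p q < r) :
    q.1 - r < p.1 ∧ p.1 < q.1 + r ∧ q.2 - r < p.2 ∧ p.2 < q.2 + r := by
  simp only [dInf, abs_eq_max_neg] at h
  omega

theorem geb_le_box {p q : ℤ × ℤ} {r : ℤ} (h : dInf p q ≤ r) :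
    q.1 - r ≤ p.1 ∧ p.1 ≤ q.1 + r ∧ q.2 - r ≤ p.2 ∧ p.2 ≤ q.2 + r := by
  simp only [dInf, abs_eq_max_neg] at h
  omega

/-- NODES NEXT TO A BAND: if the node `c` (within `14 G` of a mark) is at distance `< G` from a point of the band which is not
on a grid line, then every point at distance `< G` from `c` which is not on a grid line lies in a zone or in the rows
`al - 1 ≤ row < be + 1` -/
theorem geb_node_band (h : GeLoc G Nn) {al be : ℤ} (ha : -8 ≤ al) (hb : be ≤ 8) {c p z : ℤ × ℤ}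
    (hc : GeNode G c) (hc' : dInf c (0, 0) ≤ 14 * G ∨ dInf c (Nn, 0) ≤ 14 * G)
    (hp : geBand G Nn al be p) (hpc : dInf p c < G) (hzc : dInf z c < G)
    (hz1 : ¬ G ∣ z.1) (hz2 : ¬ G ∣ z.2) :
    geZone G (0, 0) z ∨ geZone G (Nn, 0) z ∨ geBand G Nn (al - 1) (be + 1) z := by
  have hG := h.G_pos
  have hN := h.Nn_ge
  obtain ⟨s1, s2⟩ := geb_band_s h (by omega) (by omega) hp
  obtain ⟨-, h5, h6⟩ := (geb_band_iff h al be p).1 hp
  obtain ⟨j, hj⟩ := hc.2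
  -- the widths at `p` and `z` are `16 G`, and `z` lies in the span
  obtain ⟨p1, p2, p3, p4⟩ := geb_lt_box hpc
  obtain ⟨z1, z2, z3, z4⟩ := geb_lt_box hzc
  have key : (p.1 ≤ 16 * G ∧ z.1 ≤ 16 * G ∧ 0 < z.1) ∨
      (Nn - 16 * G ≤ p.1 ∧ Nn - 16 * G ≤ z.1 ∧ z.1 < Nn) := by
    clear h5 h6
    rcases hc' with hc' | hc'
    · left
      have e1 := geb_dvd_dich hG hc.1 11
      obtain ⟨c1, c2, -, -⟩ := geb_le_box hc'
      simp only at c1 c2
      omega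
    · right
      have e2 := geb_dvd_dich hG (Dvd.dvd.sub h.Nn_dvd hc.1) 11
      obtain ⟨c1, c2, -, -⟩ := geb_le_box hc'
      simp only at c1 c2
      omega
  have key : geBw G Nn p.1 = 16 * G ∧ geBw G Nn z.1 = 16 * G ∧ 0 < z.1 ∧ z.1 < Nn := by
    rcases key with ⟨k1, k2, k3⟩ | ⟨k1, k2, k3⟩
    · exact ⟨geb_bw_near0 k1, geb_bw_near0 k2, k3, by omega⟩
    · exact ⟨geb_bw_near1 k1, geb_bw_near1 k2, by omega, k3⟩
  obtain ⟨kp, kz, z0, zN⟩ := key
  rw [kp] at h5 h6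
  rw [hj] at p3 p4 z3 z4
  have a1 : al * G < (j + 1) * G := by
    have e1 : al * (16 * G) = 16 * (al * G) := by ring
    have e2 : (j + 1) * G = G * j + G := by ring
    omega
  have a2 : (j - 1) * G < be * G := by
    have e1 : be * (16 * G) = 16 * (be * G) := by ring
    have e2 : (j - 1) * G = G * j - G := by ring
    omega
  have a3 : al < j + 1 := lt_of_mul_lt_mul_right a1 hG.le
  have a4 : j - 1 < be := lt_of_mul_lt_mul_right a2 hG.le
  have a5 : (al - 1) * G ≤ (j - 1) * G := mul_le_mul_of_nonneg_right (by omega) hG.le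
  have a6 : (j + 1) * G ≤ (be + 1) * G := mul_le_mul_of_nonneg_right (by omega) hG.le
  by_cases w0 : geZone G (0, 0) z
  · exact Or.inl w0
  by_cases w1 : geZone G (Nn, 0) z
  · exact Or.inr (Or.inl w1)
  refine Or.inr (Or.inr ((geb_band_iff h _ _ z).2 ⟨⟨z0, zN, w0, w1⟩, ?_, ?_⟩))
  · rw [kz]
    have e1 : (al - 1) * (16 * G) = 16 * ((al - 1) * G) := by ring
    have e2 : (j - 1) * G = G * j - G := by ring
    omega
  · rw [kz]
    have e1 : (be + 1) * (16 * G) = 16 * ((be + 1) * G) := by ring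
    have e2 : (j + 1) * G = G * j + G := by ring
    omega

/-- the rows `-7 ≤ row < -4` of the span lie in the region of the exchange, which lies in the rows `-7 ≤ row < -3` -/
theorem geb_band_sub_y (h : GeLoc G Nn) {p : ℤ × ℤ} (hp : geBand G Nn (-7) (-4) p) : geY G Nn p := by
  obtain ⟨⟨h1, h2, -, -⟩, h5, h6⟩ := (geb_band_iff h _ _ p).1 hp
  have hB := geb_bw_pos h p.1
  refine ⟨h1, h2, h5, ?_⟩
  omega

theorem geb_y_sub (h : GeLoc G Nn) {p : ℤ × ℤ} (hp : geY G Nn p) :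
    geZone G (0, 0) p ∨ geZone G (Nn, 0) p ∨ geBand G Nn (-7) (-3) p := by
  obtain ⟨h1, h2, h5, h6⟩ := hp
  have hB := geb_bw_pos h p.1
  by_cases w0 : geZone G (0, 0) p
  · exact Or.inl w0
  by_cases w1 : geZone G (Nn, 0) p
  · exact Or.inr (Or.inl w1)
  refine Or.inr (Or.inr ((geb_band_iff h _ _ p).2 ⟨⟨h1, h2, w0, w1⟩, h5, ?_⟩))
  omega

theorem geb_quarter_box {p q : ℤ × ℤ} {r : ℤ} (h : 4 * dInf p q ≤ r) :
    4 * q.1 - r ≤ 4 * p.1 ∧ 4 * p.1 ≤ 4 * q.1 + r ∧ 4 * q.2 - r ≤ 4 * p.2 ∧ 4 * p.2 ≤ 4 * q.2 + r := by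
  simp only [dInf, abs_eq_max_neg] at h
  omega

theorem geb_zone0_iff (z : ℤ × ℤ) : geZone G (0, 0) z ↔
    (-(12 * G) < z.1 ∧ z.1 < 12 * G ∧ -(12 * G) < z.2 ∧ z.2 < 12 * G) := by
  simp only [geZone, dInf, abs_eq_max_neg]
  omega

theorem geb_zone1_iff (z : ℤ × ℤ) : geZone G (Nn, 0) z ↔
    (Nn - 12 * G < z.1 ∧ z.1 < Nn + 12 * G ∧ -(12 * G) < z.2 ∧ z.2 < 12 * G) := by
  simp only [geZone, dInf, abs_eq_max_neg]
  omega

theorem geb_y_near {z : ℤ × ℤ} (hz : z.1 ≤ 16 * G ∨ Nn - 16 * G ≤ z.1) :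
    geY G Nn z ↔ (0 < z.1 ∧ z.1 < Nn ∧ -7 * G ≤ z.2 ∧ 2 * z.2 < -7 * G) := by
  have hB : geBw G Nn z.1 = 16 * G := hz.elim geb_bw_near0 geb_bw_near1
  rw [geY, hB]
  omega

theorem geb_band_near (h : GeLoc G Nn) (al be : ℤ) {z : ℤ × ℤ}
    (hz : z.1 ≤ 16 * G ∨ Nn - 16 * G ≤ z.1) :
    geBand G Nn al be z ↔ (0 < z.1 ∧ z.1 < Nn ∧ ¬ geZone G (0, 0) z ∧ ¬ geZone G (Nn, 0) z) ∧
      al * G ≤ z.2 ∧ z.2 < be * G := by
  have hB : geBw G Nn z.1 = 16 * G := hz.elim geb_bw_near0 geb_bw_near1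
  have e1 : al * (16 * G) = 16 * (al * G) := by ring
  have e2 : be * (16 * G) = 16 * (be * G) := by ring
  have e3 : 16 * (al * G) ≤ 16 * z.2 ↔ al * G ≤ z.2 := by omega
  have e4 : 16 * z.2 < 16 * (be * G) ↔ z.2 < be * G := by omega
  rw [geb_band_iff h, hB, e1, e2, e3, e4]

/-- the dichotomy for the exchange next to one of the two marks; `d` is the first coordinate counted from the mark -/
theorem geb_exch_mark (h : GeLoc G Nn) {c : ℤ × ℤ} {d : ℤ} (hd : G ∣ d) (hc2 : G ∣ c.2)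
    (hdc : d = c.1 ∨ d = Nn - c.1) (hd1 : -(14 * G) ≤ d) (hd2 : d ≤ 14 * G) :
    (∀ z, dInf z c < G → ¬ G ∣ z.1 → ¬ G ∣ z.2 →
      geZone G (0, 0) z ∨ geZone G (Nn, 0) z ∨ geBand G Nn (-8) (-6) z) ∨
    ((∀ z, 4 * dInf z c ≤ G → geY G Nn z) ∧ ∀ z, dInf z c < G → ¬ G ∣ z.1 → ¬ G ∣ z.2 →
      geY G Nn z ∨ geZone G (0, 0) z ∨ geZone G (Nn, 0) z ∨ geBand G Nn (-4) (-3) z) ∨
    ((∀ z, 4 * dInf z c ≤ G → ¬ geY G Nn z) ∧ ∀ z, dInf z c < G → ¬ G ∣ z.1 → ¬ G ∣ z.2 →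
      ¬ geY G Nn z ∨ geZone G (0, 0) z ∨ geZone G (Nn, 0) z ∨ geBand G Nn (-4) (-3) z) := by
  have hG := h.G_pos
  have hN := h.Nn_ge
  have hnear : ∀ z : ℤ × ℤ, dInf z c < G → (z.1 ≤ 16 * G ∨ Nn - 16 * G ≤ z.1) := by
    intro z hz
    obtain ⟨z1, z2, -, -⟩ := geb_lt_box hz
    omega
  have hq : ∀ z : ℤ × ℤ, 4 * dInf z c ≤ G → dInf z c < G := by
    intro z hz
    omega
  -- the third alternative holds as soon as all points near `c` lie outside `geY`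
  suffices hmain : (∀ z : ℤ × ℤ, dInf z c < G → ¬ geY G Nn z) ∨
      (∀ z, dInf z c < G → 
        geZone G (0, 0) z ∨ geZone G (Nn, 0) z ∨ geBand G Nn (-8) (-6) z) ∨
      ((∀ z, 4 * dInf z c ≤ G → geY G Nn z) ∧ ∀ z, dInf z c < G → 
        geY G Nn z ∨ geZone G (0, 0) z ∨ geZone G (Nn, 0) z ∨ geBand G Nn (-4) (-3) z) ∨
      ((∀ z, 4 * dInf z c ≤ G → ¬ geY G Nn z) ∧ ∀ z, dInf z c < G → 
        ¬ geY G Nn z ∨ geZone G (0, 0) z ∨ geZone G (Nn, 0) z ∨ geBand G Nn (-4) (-3) z) by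
    rcases hmain with hh | hh | hh | hh
    · exact Or.inr (Or.inr ⟨fun z hz => hh z (hq z hz), fun z hz _ _ => Or.inl (hh z hz)⟩)
    · exact Or.inl fun z hz _ _ => hh z hz
    · exact Or.inr (Or.inl ⟨hh.1, fun z hz _ _ => hh.2 z hz⟩)
    · exact Or.inr (Or.inr ⟨hh.1, fun z hz _ _ => hh.2 z hz⟩)
  rcases geb_dvd_dich hG hd (-12) with d1 | d1
  · refine Or.inl fun z hz => ?_
    rw [geb_y_near (hnear z hz)]
    obtain ⟨z1, z2, z3, z4⟩ := geb_lt_box hz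
    omega
  rcases geb_dvd_dich hG hd 11 with d2 | d2
  · rcases geb_dvd_dich hG hc2 (-12) with e1 | e1
    · refine Or.inl fun z hz => ?_
      rw [geb_y_near (hnear z hz)]
      obtain ⟨z1, z2, z3, z4⟩ := geb_lt_box hz
      omega
    rcases geb_dvd_dich hG hc2 11 with e2 | e2
    · refine Or.inr (Or.inl fun z hz => ?_)
      rw [geb_zone0_iff, geb_zone1_iff]
      obtain ⟨z1, z2, z3, z4⟩ := geb_lt_box hz
      omega
    · refine Or.inl fun z hz => ?_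
      rw [geb_y_near (hnear z hz)]
      obtain ⟨z1, z2, z3, z4⟩ := geb_lt_box hz
      omega
  rcases geb_dvd_dich hG hc2 (-3) with e1 | e1
  swap
  · refine Or.inl fun z hz => ?_
    rw [geb_y_near (hnear z hz)]
    obtain ⟨z1, z2, z3, z4⟩ := geb_lt_box hz
    omega
  rcases geb_dvd_dich hG hc2 (-4) with e2 | e2
  swap
  · -- `c.2 = -3 G`
    refine Or.inr (Or.inr (Or.inr ⟨fun z hz => ?_, fun z hz => ?_⟩))
    · rw [geb_y_near (hnear z (hq z hz))]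
      obtain ⟨z1, z2, z3, z4⟩ := geb_quarter_box hz
      omega
    · rw [geb_y_near (hnear z hz), geb_band_near h _ _ (hnear z hz), geb_zone0_iff, geb_zone1_iff]
      obtain ⟨z1, z2, z3, z4⟩ := geb_lt_box hz
      omega
  rcases geb_dvd_dich hG hc2 (-7) with e3 | e3
  swap
  · -- `c.2 = -4 G, -5 G, -6 G`
    refine Or.inr (Or.inr (Or.inl ⟨fun z hz => ?_, fun z hz => ?_⟩))
    · rw [geb_y_near (hnear z (hq z hz))]
      obtain ⟨z1, z2, z3, z4⟩ := geb_quarter_box hz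
      omega
    · rw [geb_y_near (hnear z hz), geb_band_near h _ _ (hnear z hz), geb_zone0_iff, geb_zone1_iff]
      obtain ⟨z1, z2, z3, z4⟩ := geb_lt_box hz
      omega
  rcases geb_dvd_dich hG hc2 (-8) with e4 | e4
  · refine Or.inl fun z hz => ?_
    rw [geb_y_near (hnear z hz)]
    obtain ⟨z1, z2, z3, z4⟩ := geb_lt_box hz
    omega
  · -- `c.2 = -7 G`
    refine Or.inr (Or.inl fun z hz => ?_)
    rw [geb_band_near h _ _ (hnear z hz), geb_zone0_iff, geb_zone1_iff]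
    obtain ⟨z1, z2, z3, z4⟩ := geb_lt_box hz
    omega

/-- DICHOTOMY FOR THE EXCHANGE.  Let `c` be a node within `14 G` of a node `w` of the level grid.  Then one of:
(a) all points at distance `< G` of `c` (not on grid lines) lie in a zone or in the rows `-8, -7`;
(b) the closed square of radius `G / 4` about `c` lies in `geY`, and every point at distance `< G` of `c` lies in `geY`, in a zone, or
    in the row `-4`;
(c) the closed square of radius `G / 4` about `c` is disjoint from `geY`, and every point at distance `< G` of `c` lies outside `geY`,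
    in a zone, or in the row `-4`. -/
theorem geb_exch_node (h : GeLoc G Nn) {c w : ℤ × ℤ} (hc : GeNode G c) (hw : GeNode Nn w)
    (hcw : dInf c w ≤ 14 * G) :
    (∀ z, dInf z c < G → ¬ G ∣ z.1 → ¬ G ∣ z.2 →
      geZone G (0, 0) z ∨ geZone G (Nn, 0) z ∨ geBand G Nn (-8) (-6) z) ∨
    ((∀ z, 4 * dInf z c ≤ G → geY G Nn z) ∧ ∀ z, dInf z c < G → ¬ G ∣ z.1 → ¬ G ∣ z.2 →
      geY G Nn z ∨ geZone G (0, 0) z ∨ geZone G (Nn, 0) z ∨ geBand G Nn (-4) (-3) z) ∨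
    ((∀ z, 4 * dInf z c ≤ G → ¬ geY G Nn z) ∧ ∀ z, dInf z c < G → ¬ G ∣ z.1 → ¬ G ∣ z.2 →
      ¬ geY G Nn z ∨ geZone G (0, 0) z ∨ geZone G (Nn, 0) z ∨ geBand G Nn (-4) (-3) z) := by
  have hG := h.G_pos
  have hN := h.Nn_ge
  obtain ⟨c1, c2, c3, c4⟩ := geb_le_box hcw
  by_cases h0 : w.1 = 0 ∧ w.2 = 0
  · exact geb_exch_mark h (d := c.1) hc.1 hc.2 (Or.inl rfl) (by omega) (by omega)
  by_cases h1 : w.1 = Nn ∧ w.2 = 0
  · exact geb_exch_mark h (d := Nn - c.1) (Dvd.dvd.sub h.Nn_dvd hc.1) hc.2 (Or.inr rfl)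
      (by omega) (by omega)
  have hN0 : 0 < Nn := by omega
  have a1 := geb_dvd_dich hN0 hw.1 (-1)
  have a2 := geb_dvd_dich hN0 hw.1 0
  have a3 := geb_dvd_dich hN0 hw.1 1
  have b1 := geb_dvd_dich hN0 hw.2 (-1)
  have b2 := geb_dvd_dich hN0 hw.2 0
  have hh : ∀ z : ℤ × ℤ, dInf z c < G → ¬ geY G Nn z := by
    rintro z hz ⟨y1, y2, y3, y4⟩
    obtain ⟨z1, z2, z3, z4⟩ := geb_lt_box hz
    have hB := geb_bw_le h z.1
    have hB' := geb_bw_pos h z.1
    omega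
  exact Or.inr (Or.inr ⟨fun z hz => hh z (by omega), fun z hz _ _ => Or.inl (hh z hz)⟩)

end Claimed.Agent.R296
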