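import Claimed.Agent.R296.P2.GeoRoute

/-!
# Row 296, paper 2, Section 6.7: per-home bookkeeping (prefix `gbk`)   (helper292, statement + proof)

A schedule which is the concatenation `hl.flatMap opsOf` of the operation lists of homes, with at most `M` operations per home
and all participants of the operations of the home `h` in `gePart L J h.1 h.2`, satisfies the hypotheses `hw`, `hcar`, `hχ` of
`fr_main` (= the corresponding clauses of `GeoStmt`):

* `gbk_costly`  : `frCostly ops P ≤ 25 * M`;
* `gbk_carriers`: carriers `carO` (the carrier `geCar` of the home of the operation) with `asmCong carO e ≤ 600 * M`;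
* `gbk_length`  : `ops.length ≤ J * (2 ^ J * 2 ^ J) * M`;
* **`gbk_main`** : all three for `hl = geHomes J`.

The general versions (`gbk_costly`, `gbk_carriers`) are stated for an arbitrary SUBLIST-like list `hl` of homes: what is used
is only `hl.countP p ≤ (geHomes J).countP p`, which is asked as `hl.Sublist (geHomes J)`.
-/

set_option autoImplicit false
set_option linter.unusedSectionVars false

namespace Claimed.Agent.R296

open Finset Claims.C0474

/-! ### lists -/

/-- the concatenation `hl.flatMap f`, every entry tagged with its source -/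
def gbkTag {α β : Type} (hl : List α) (f : α → List β) : List (α × β) :=
  hl.flatMap fun a => (f a).map fun b => (a, b)

theorem gbk_tag_snd {α β : Type} (hl : List α) (f : α → List β) :
    (gbkTag hl f).map Prod.snd = hl.flatMap f := by
  unfold gbkTag
  rw [List.map_flatMap]
  congr 1
  funext a
  rw [List.map_map]
  exact List.map_id _

theorem gbk_tag_length {α β : Type} (hl : List α) (f : α → List β) :
    (hl.flatMap f).length = (gbkTag hl f).length := by
  rw [← gbk_tag_snd, List.length_map]

theorem gbk_tag_mem {α β : Type} {hl : List α} {f : α → List β} {x : α × β} (hx : x ∈ gbkTag hl f) :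
    x.1 ∈ hl ∧ x.2 ∈ f x.1 := by
  unfold gbkTag at hx
  rw [List.mem_flatMap] at hx
  obtain ⟨a, ha, hx⟩ := hx
  rw [List.mem_map] at hx
  obtain ⟨b, hb, rfl⟩ := hx
  exact ⟨ha, hb⟩

/-- the number of entries whose source satisfies `p` -/
theorem gbk_tag_countP {α β : Type} (hl : List α) (f : α → List β) (p : α → Bool) (M : ℕ)
    (hlen : ∀ a ∈ hl, (f a).length ≤ M) :
    (gbkTag hl f).countP (fun x => p x.1) ≤ hl.countP p * M := by
  induction hl with
  | nil => simp [gbkTag]
  | cons a t ih =>
    have e : gbkTag (a :: t) f = ((f a).map fun b => (a, b)) ++ gbkTag t f := by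
      simp [gbkTag]
    have ih' := ih fun b hb => hlen b (List.mem_cons_of_mem _ hb)
    have ha := hlen a List.mem_cons_self
    rw [e, List.countP_append, List.countP_map, List.countP_cons]
    cases hp : p a
    · have : List.countP ((fun x : α × β => p x.1) ∘ fun b => (a, b)) (f a) = 0 := by
        rw [List.countP_eq_zero]
        intro b _
        simp [hp]
      rw [this]
      simpa using ih'
    · have : List.countP ((fun x : α × β => p x.1) ∘ fun b => (a, b)) (f a) ≤ M :=
        (List.countP_le_length).trans ha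
      simp only [if_true]
      rw [Nat.add_mul, Nat.one_mul]
      omega

/-- counting the indices of a list -/
theorem gbk_card_filter {α : Type} (l : List α) (n : ℕ) (hn : n = l.length) (p : α → Prop)
    [DecidablePred p] :
    (univ.filter fun i : Fin n => p (l[i.1]'(hn ▸ i.2))).card = l.countP fun a => decide (p a) := by
  subst hn
  rw [Finset.card_filter, Fin.sum_univ_fun_getElem l (fun a => if p a then 1 else 0)]
  induction l with
  | nil => simp
  | cons a t ih =>
    rw [List.map_cons, List.sum_cons, ih, List.countP_cons]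
    by_cases h : p a <;> simp [h, add_comm]

/-! ### operations -/

section Ops

variable {L J : ℕ} {SH HI : Type} [Fintype SH] [DecidableEq SH] [Fintype HI] [DecidableEq HI]

theorem gbk_costly_part {PP Λ : Type} [DecidableEq PP] [Fintype Λ] [DecidableEq Λ]
    (o : FrOp PP SH Λ HI) (P : PP) (h : o.costly P) : P ∈ o.part := by
  cases o <;> simp_all [FrOp.costly, FrOp.part]

/-- LIFETIMES of a schedule -/
theorem gbk_costly (hl : List (ℕ × (ℤ × ℤ))) (hsub : hl.Sublist (geHomes J))
    (opsOf : ℕ × (ℤ × ℤ) → List (FrOp (APty L (GeAux J)) SH (GSite L) HI)) (M : ℕ)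
    (hlen : ∀ h ∈ hl, (opsOf h).length ≤ M)
    (hpart : ∀ h ∈ hl, ∀ o ∈ opsOf h, o.part ⊆ gePart L J h.1 h.2) (P : APty L (GeAux J)) :
    frCostly (hl.flatMap opsOf) P ≤ 25 * M := by
  classical
  unfold frCostly
  rw [← List.countP_eq_length_filter, ← gbk_tag_snd, List.countP_map]
  have h1 : List.countP ((fun o : FrOp (APty L (GeAux J)) SH (GSite L) HI => decide (o.costly P)) ∘
        Prod.snd) (gbkTag hl opsOf) ≤
      List.countP (fun x => decide (P ∈ gePart L J x.1.1 x.1.2)) (gbkTag hl opsOf) := by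
    refine List.countP_mono_left fun x hx hc => ?_
    obtain ⟨m1, m2⟩ := gbk_tag_mem hx
    simp only [Function.comp, decide_eq_true_eq] at hc ⊢
    exact hpart _ m1 _ m2 (gbk_costly_part _ _ hc)
  have h2 := gbk_tag_countP hl opsOf (fun h => decide (P ∈ gePart L J h.1 h.2)) M hlen
  have h3 : hl.countP (fun h => decide (P ∈ gePart L J h.1 h.2)) ≤ 25 := by
    refine (hsub.countP_le).trans ?_
    rw [List.countP_eq_length_filter]
    convert geo_part_count L J P
  exact h1.trans (h2.trans (Nat.mul_le_mul_right _ h3))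

/-- ROUTING of a schedule -/
theorem gbk_carriers [NeZero L] (hJ : L ≤ 2 ^ J) (hJ' : 2 ^ J < 2 * L)
    (hl : List (ℕ × (ℤ × ℤ))) (hsub : hl.Sublist (geHomes J))
    (opsOf : ℕ × (ℤ × ℤ) → List (FrOp (APty L (GeAux J)) SH (GSite L) HI)) (M : ℕ)
    (hlen : ∀ h ∈ hl, (opsOf h).length ≤ M)
    (hpart : ∀ h ∈ hl, ∀ o ∈ opsOf h, o.part ⊆ gePart L J h.1 h.2) :
    ∃ carO : Fin (hl.flatMap opsOf).length → Finset (GSite L),
      (∀ i, (carO i).Nonempty ∧ AsmConn (carO i) ∧
        ∀ P ∈ ((hl.flatMap opsOf).get i).part, gePos L J P ∈ carO i) ∧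
      ∀ e, asmCong carO e ≤ 600 * M := by
  classical
  have hn := gbk_tag_length hl opsOf
  refine ⟨fun i => geCar L J ((gbkTag hl opsOf)[i.1]'(hn ▸ i.2)).1.1
    ((gbkTag hl opsOf)[i.1]'(hn ▸ i.2)).1.2, fun i => ?_, fun e => ?_⟩
  · have hi : i.1 < (gbkTag hl opsOf).length := hn ▸ i.2
    obtain ⟨m1, m2⟩ := gbk_tag_mem (List.getElem_mem hi)
    obtain ⟨hj, hr⟩ := (geo_mem_homes J _).1 (hsub.subset m1)
    have hget : (hl.flatMap opsOf).get i = ((gbkTag hl opsOf)[i.1]'hi).2 := by
      have : ∀ (l : List (FrOp (APty L (GeAux J)) SH (GSite L) HI)) (h : l = hl.flatMap opsOf)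
          (hi' : i.1 < l.length), (hl.flatMap opsOf).get i = l[i.1]'hi' := by
        intro l h hi'
        subst h
        rfl
      rw [this _ (gbk_tag_snd hl opsOf) (by rw [List.length_map]; exact hi), List.getElem_map]
    refine ⟨geo_car_nonempty L J hj hr, geo_car_conn L J hJ hJ' hj hr, fun P hP => ?_⟩
    rw [hget] at hP
    exact geo_car_part L J hJ hj hr P (hpart _ m1 _ m2 hP)
  · unfold asmCong
    have h1 := gbk_card_filter (gbkTag hl opsOf) _ hn
      (fun x : (ℕ × (ℤ × ℤ)) × FrOp (APty L (GeAux J)) SH (GSite L) HI =>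
        e.1.1 ∈ geCar L J x.1.1 x.1.2)
    refine le_trans (card_le_card fun i hi => ?_) (h1.le.trans ?_)
    · rw [mem_filter] at hi ⊢
      exact ⟨hi.1, hi.2.1⟩
    have h2 := gbk_tag_countP hl opsOf (fun h => decide (e.1.1 ∈ geCar L J h.1 h.2)) M hlen
    have h3 : hl.countP (fun h => decide (e.1.1 ∈ geCar L J h.1 h.2)) ≤ 600 := by
      refine (hsub.countP_le).trans ?_
      rw [List.countP_eq_length_filter]
      convert geo_car_cong L J hJ hJ' e.1.1
    exact h2.trans (Nat.mul_le_mul_right _ h3)

/-- LENGTH of a schedule -/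
theorem gbk_length (hl : List (ℕ × (ℤ × ℤ))) (hsub : hl.Sublist (geHomes J))
    (opsOf : ℕ × (ℤ × ℤ) → List (FrOp (APty L (GeAux J)) SH (GSite L) HI)) (M : ℕ)
    (hlen : ∀ h ∈ hl, (opsOf h).length ≤ M) :
    (hl.flatMap opsOf).length ≤ J * (2 ^ J * 2 ^ J) * M := by
  have h2 := gbk_tag_countP hl opsOf (fun _ => true) M hlen
  rw [gbk_tag_length]
  simp only [List.countP_true] at h2
  exact h2.trans (Nat.mul_le_mul_right _ (hsub.length_le.trans (geo_homes_length J)))

/-- **per-home bookkeeping**: the clauses `hw`, `hcar`, `hχ` of `fr_main` and the length of the schedule -/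
theorem gbk_main [NeZero L] (hJ : L ≤ 2 ^ J) (hJ' : 2 ^ J < 2 * L)
    (opsOf : ℕ × (ℤ × ℤ) → List (FrOp (APty L (GeAux J)) SH (GSite L) HI)) (M : ℕ)
    (hlen : ∀ h ∈ geHomes J, (opsOf h).length ≤ M)
    (hpart : ∀ h ∈ geHomes J, ∀ o ∈ opsOf h, o.part ⊆ gePart L J h.1 h.2) :
    (∀ P, frCostly ((geHomes J).flatMap opsOf) P ≤ 25 * M) ∧
    (∃ carO : Fin ((geHomes J).flatMap opsOf).length → Finset (GSite L),
      (∀ i, (carO i).Nonempty ∧ AsmConn (carO i) ∧
        ∀ P ∈ (((geHomes J).flatMap opsOf).get i).part, gePos L J P ∈ carO i) ∧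
      ∀ e, asmCong carO e ≤ 600 * M) ∧
    ((geHomes J).flatMap opsOf).length ≤ J * (2 ^ J * 2 ^ J) * M :=
  ⟨gbk_costly _ (List.Sublist.refl _) opsOf M hlen hpart,
    gbk_carriers hJ hJ' _ (List.Sublist.refl _) opsOf M hlen hpart,
    gbk_length _ (List.Sublist.refl _) opsOf M hlen⟩

end Ops

end Claimed.Agent.R296
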