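import Claimed.Agent.R296.P2.GeoBand

/-!
# Row 296, paper 2, Section 6: the exchange (auxiliary file of `ge_exch`, LEAF `P2-GE-EXCH`, prefix `gxc_`)

Owner: helper187.  The hypotheses of `GeExchHyp` are used in the unbundled form
`hC : ∀ x, (zone ∨ zone ∨ rows -8,-7 ∨ row -4) → o x = C ∧ o' x = C`, which is symmetric in the two owner maps.
-/

set_option autoImplicit false
set_option linter.unusedSectionVars false

namespace Claimed.Agent.R296

open Finset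

variable {Λ HI PP SH : Type} [Fintype Λ] [DecidableEq Λ] [Fintype HI] [DecidableEq HI]
  [DecidableEq PP] [DecidableEq SH] {q : ℕ} {Ω : (Λ → Fin q) → ℂ} {ε δ : ℝ}

/-! ### the state after an exchange -/

section Next

variable (pat : HI → FrPatch Ω ε) (st : FrState PP SH Λ HI) (s1 s2 : SH) (Y : Finset Λ) (P : PP)

/-- the transposition of the two sheets -/
def gxcSw (s1 s2 : SH) : SH → SH := fun s => if s = s1 then s2 else if s = s2 then s1 else s

theorem gxc_sw_left (s1 s2 : SH) : gxcSw s1 s2 s1 = s2 := by simp [gxcSw]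

theorem gxc_sw_right {s1 s2 : SH} (h : s1 ≠ s2) : gxcSw s1 s2 s2 = s1 := by
  simp [gxcSw, h.symm]

theorem gxc_sw_eq_left {s1 s2 : SH} (h : s1 ≠ s2) (t : SH) : gxcSw s1 s2 t = s1 ↔ t = s2 := by
  unfold gxcSw
  by_cases h1 : t = s1
  · subst h1; simp [h, h.symm]
  · by_cases h2 : t = s2
    · subst h2; simp [h1]
    · simp [h1, h2]

theorem gxc_sw_eq_right {s1 s2 : SH} (h : s1 ≠ s2) (t : SH) : gxcSw s1 s2 t = s2 ↔ t = s1 := by
  unfold gxcSw
  by_cases h1 : t = s1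
  · subst h1; simp
  · by_cases h2 : t = s2
    · subst h2; simp [h1, h]
    · simp [h1, h2]

theorem gxc_next_ow (s : SH) (x : Λ) :
    ((FrOp.exch s1 s2 Y P).next pat st).ow s x =
      if x ∈ Y then st.ow (gxcSw s1 s2 s) x else st.ow s x := rfl

theorem gxc_next_tw (s : SH) (a : HI) :
    ((FrOp.exch s1 s2 Y P).next pat st).tw s a =
      if (pat a).out ⊆ Y then st.tw (gxcSw s1 s2 s) a else st.tw s a := rfl

theorem gxc_next_hs {s s' : SH} (h : ∀ t, gxcSw s1 s2 t = s ↔ t = s') (a : HI) :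
    a ∈ ((FrOp.exch s1 s2 Y P).next pat st).hs s ↔
      (a ∈ st.hs s ∧ ¬ (pat a).out ⊆ Y) ∨ (a ∈ st.hs s' ∧ (pat a).out ⊆ Y) := by
  have h0 : ((FrOp.exch s1 s2 Y P).next pat st).hol =
      (st.hol.filter fun p => ¬ (pat p.2).out ⊆ Y) ∪
        (st.hol.filter fun p => (pat p.2).out ⊆ Y).image fun p => (gxcSw s1 s2 p.1, p.2) := rfl
  simp only [FrState.hs, mem_filter, mem_univ, true_and, h0, mem_union, mem_image]
  constructor
  · rintro (h1 | ⟨p, ⟨hp1, hp2⟩, hp3⟩)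
    · exact Or.inl h1
    · right
      have e1 : gxcSw s1 s2 p.1 = s := congrArg Prod.fst hp3
      have e2 : p.2 = a := congrArg Prod.snd hp3
      rw [h] at e1
      subst e2
      refine ⟨?_, hp2⟩
      rw [← e1]
      exact hp1
  · rintro (h1 | ⟨h1, h2⟩)
    · exact Or.inl h1
    · exact Or.inr ⟨(s', a), ⟨h1, h2⟩, by rw [(h s').2 rfl]⟩

end Next

/-! ### owner maps which agree next to a node -/

section Adj

variable (E : GeEnv Λ HI Ω ε δ) (lv : GeLvl PP)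

theorem gxc_adj_congr {own own' : Λ → PP} {c : ℤ × ℤ}
    (h : ∀ x, dInf (E.pt x) c < lv.m → own x = own' x) : E.adj lv own c = E.adj lv own' c := by
  unfold GeEnv.adj
  exact image_congr fun x hx => h x (by simpa using hx)

theorem gxc_isHole_congr {own own' : Λ → PP} {a : HI}
    (h : E.adj lv own (E.ctr a) = E.adj lv own' (E.ctr a)) :
    E.IsHole lv own a ↔ E.IsHole lv own' a := by
  unfold GeEnv.IsHole GeEnv.hrad
  rw [h]

theorem gxc_tagOf_congr {own own' : Λ → PP} {c : ℤ × ℤ}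
    (h : E.adj lv own c = E.adj lv own' c) : E.tagOf lv own c = E.tagOf lv own' c := by
  unfold GeEnv.tagOf
  rw [h]

theorem gxc_adj_card_le_one {own : Λ → PP} {c : ℤ × ℤ} {C : PP}
    (h : ∀ x, dInf (E.pt x) c < lv.m → own x = C) : (E.adj lv own c).card ≤ 1 := by
  have : E.adj lv own c ⊆ {C} := by
    intro P hP
    unfold GeEnv.adj at hP
    rw [mem_image] at hP
    obtain ⟨x, hx, rfl⟩ := hP
    rw [mem_singleton]
    exact h x (by simpa using hx)
  exact (card_le_card this).trans (by simp)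

theorem gxc_hrad_le (hm : 0 ≤ lv.m) (own : Λ → PP) (c : ℤ × ℤ) : 8 * E.hrad lv own c ≤ lv.m := by
  unfold GeEnv.hrad
  split_ifs <;> omega

theorem gxc_mem_ySet (Nn : ℤ) (x : Λ) : x ∈ E.ySet Nn ↔ geY E.G Nn (E.pt x) := by
  simp [GeEnv.ySet]

theorem gxc_swp_of_mem {Nn : ℤ} (o o' : Λ → PP) {x : Λ} (h : geY E.G Nn (E.pt x)) :
    E.swp Nn o o' x = o' x := by
  simp [GeEnv.swp, h]

theorem gxc_swp_of_not_mem {Nn : ℤ} (o o' : Λ → PP) {x : Λ} (h : ¬ geY E.G Nn (E.pt x)) :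
    E.swp Nn o o' x = o x := by
  simp [GeEnv.swp, h]

theorem gxc_not_dvd (hG : 256 ∣ E.G) (x : Λ) : ¬ E.G ∣ (E.pt x).1 ∧ ¬ E.G ∣ (E.pt x).2 := by
  obtain ⟨h1, h2⟩ := E.odd x
  constructor
  · intro h
    have := hG.trans h
    omega
  · intro h
    have := hG.trans h
    omega

end Adj

/-! ### the three types of nodes -/

section Types

variable (E : GeEnv Λ HI Ω ε δ) (lv : GeLvl PP)

/-- the buffer region: both zones, the rows `-8, -7` and the row `-4` -/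
def gxcBuf (G Nn : ℤ) (p : ℤ × ℤ) : Prop :=
  geZone G (0, 0) p ∨ geZone G (Nn, 0) p ∨ geBand G Nn (-8) (-6) p ∨ geBand G Nn (-4) (-3) p

/-- type (b): the outer square lies in the region of the exchange -/
def GxcIn (c : ℤ × ℤ) : Prop :=
  (∀ z, 4 * dInf z c ≤ E.G → geY E.G lv.Nn z) ∧
    ∀ x, dInf (E.pt x) c < E.G → geY E.G lv.Nn (E.pt x) ∨ gxcBuf E.G lv.Nn (E.pt x)

/-- type (c): the outer square is disjoint from the region of the exchange -/
def GxcOut (c : ℤ × ℤ) : Prop :=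
  (∀ z, 4 * dInf z c ≤ E.G → ¬ geY E.G lv.Nn z) ∧
    ∀ x, dInf (E.pt x) c < E.G → ¬ geY E.G lv.Nn (E.pt x) ∨ gxcBuf E.G lv.Nn (E.pt x)

theorem gxc_node_cases (hL : E.Large lv) {c : ℤ × ℤ} (hc : GeNode lv.m c) (hc' : lv.Cand c) :
    (∀ x, dInf (E.pt x) c < E.G → gxcBuf E.G lv.Nn (E.pt x)) ∨ GxcIn E lv c ∨ GxcOut E lv c := by
  obtain ⟨w, hw, hcw⟩ := hc'
  rw [hL.m_eq] at hc hcw
  rcases geb_exch_node hL.loc hc hw hcw with h | ⟨h1, h2⟩ | ⟨h1, h2⟩
  · left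
    intro x hx
    obtain ⟨n1, n2⟩ := gxc_not_dvd E hL.loc.G_dvd x
    rcases h _ hx n1 n2 with h | h | h
    · exact Or.inl h
    · exact Or.inr (Or.inl h)
    · exact Or.inr (Or.inr (Or.inl h))
  · right; left
    refine ⟨h1, fun x hx => ?_⟩
    obtain ⟨n1, n2⟩ := gxc_not_dvd E hL.loc.G_dvd x
    rcases h2 _ hx n1 n2 with h | h | h | h
    · exact Or.inl h
    · exact Or.inr (Or.inl h)
    · exact Or.inr (Or.inr (Or.inl h))
    · exact Or.inr (Or.inr (Or.inr (Or.inr h)))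
  · right; right
    refine ⟨h1, fun x hx => ?_⟩
    obtain ⟨n1, n2⟩ := gxc_not_dvd E hL.loc.G_dvd x
    rcases h2 _ hx n1 n2 with h | h | h | h
    · exact Or.inl h
    · exact Or.inr (Or.inl h)
    · exact Or.inr (Or.inr (Or.inl h))
    · exact Or.inr (Or.inr (Or.inr (Or.inr h)))

variable {E lv}

/-- a hole of any owner map: outer radius `≤ G / 4` -/
theorem gxc_out_small (hL : E.Large lv) {own : Λ → PP} {a : HI} (ha : E.IsHole lv own a) {x : Λ}
    (hx : x ∈ (E.pat a).out) : 4 * dInf (E.pt x) (E.ctr a) ≤ E.G := by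
  rw [E.mem_out] at hx
  have h0 : 0 ≤ lv.m := by rw [hL.m_eq]; exact hL.loc.G_pos.le
  have h1 := gxc_hrad_le E lv h0 own (E.ctr a)
  rw [← ha.2.2.2.1, hL.m_eq] at h1
  omega

theorem gxc_out_sub (hL : E.Large lv) {own : Λ → PP} {a : HI} (ha : E.IsHole lv own a)
    (hc : GxcIn E lv (E.ctr a)) : (E.pat a).out ⊆ E.ySet lv.Nn := by
  intro x hx
  rw [gxc_mem_ySet]
  exact hc.1 _ (gxc_out_small hL ha hx)

theorem gxc_out_disj (hL : E.Large lv) {own : Λ → PP} {a : HI} (ha : E.IsHole lv own a)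
    (hc : GxcOut E lv (E.ctr a)) : Disjoint (E.pat a).out (E.ySet lv.Nn) := by
  rw [disjoint_left]
  intro x hx hy
  rw [gxc_mem_ySet] at hy
  exact hc.1 _ (gxc_out_small hL ha hx) hy

theorem gxc_out_not_sub (hL : E.Large lv) {own : Λ → PP} {a : HI} (ha : E.IsHole lv own a)
    (hc : GxcOut E lv (E.ctr a)) : ¬ (E.pat a).out ⊆ E.ySet lv.Nn := by
  intro h
  obtain ⟨x, hx⟩ := ha.2.2.2.2
  exact disjoint_left.1 (gxc_out_disj hL ha hc) hx (h hx)


/-- THE TRICHOTOMY for an index `a` -/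
theorem gxc_cases (hL : E.Large lv) {o o' : Λ → PP} {C : PP}
    (hC : ∀ x, gxcBuf E.G lv.Nn (E.pt x) → o x = C ∧ o' x = C) (a : HI) :
    (¬ E.IsHole lv o a ∧ ¬ E.IsHole lv o' a ∧ ¬ E.IsHole lv (E.swp lv.Nn o o') a) ∨
    (GxcIn E lv (E.ctr a) ∧ E.adj lv (E.swp lv.Nn o o') (E.ctr a) = E.adj lv o' (E.ctr a)) ∨
    (GxcOut E lv (E.ctr a) ∧ E.adj lv (E.swp lv.Nn o o') (E.ctr a) = E.adj lv o (E.ctr a)) := by
  by_cases hn : GeNode lv.m (E.ctr a) ∧ lv.Cand (E.ctr a)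
  · rcases gxc_node_cases E lv hL hn.1 hn.2 with h | h | h
    · left
      have key : ∀ own : Λ → PP, (∀ x, gxcBuf E.G lv.Nn (E.pt x) → own x = C) →
          ¬ E.IsHole lv own a := by
        intro own hown hh
        have h1 := gxc_adj_card_le_one E lv (own := own) (c := E.ctr a) (C := C)
          (fun x hx => hown x (h x (hL.m_eq ▸ hx)))
        have h3 := hh.2.2.1
        omega
      refine ⟨key o fun x hx => (hC x hx).1, key o' fun x hx => (hC x hx).2, key _ fun x hx => ?_⟩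
      by_cases hy : geY E.G lv.Nn (E.pt x)
      · rw [gxc_swp_of_mem E o o' hy]; exact (hC x hx).2
      · rw [gxc_swp_of_not_mem E o o' hy]; exact (hC x hx).1
    · right; left
      refine ⟨h, gxc_adj_congr E lv fun x hx => ?_⟩
      rw [hL.m_eq] at hx
      by_cases hy : geY E.G lv.Nn (E.pt x)
      · exact gxc_swp_of_mem E o o' hy
      · rcases h.2 x hx with hy' | hb
        · exact absurd hy' hy
        · rw [gxc_swp_of_not_mem E o o' hy, (hC x hb).1, (hC x hb).2]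
    · right; right
      refine ⟨h, gxc_adj_congr E lv fun x hx => ?_⟩
      rw [hL.m_eq] at hx
      by_cases hy : geY E.G lv.Nn (E.pt x)
      · rcases h.2 x hx with hy' | hb
        · exact absurd hy hy'
        · rw [gxc_swp_of_mem E o o' hy, (hC x hb).1, (hC x hb).2]
      · exact gxc_swp_of_not_mem E o o' hy
  · left
    exact ⟨fun h => hn ⟨h.1, h.2.1⟩, fun h => hn ⟨h.1, h.2.1⟩, fun h => hn ⟨h.1, h.2.1⟩⟩

/-- the holes of the swapped owner map -/
theorem gxc_hole_iff (hL : E.Large lv) {o o' : Λ → PP} {C : PP}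
    (hC : ∀ x, gxcBuf E.G lv.Nn (E.pt x) → o x = C ∧ o' x = C) (a : HI) :
    E.IsHole lv (E.swp lv.Nn o o') a ↔
      (E.IsHole lv o a ∧ ¬ (E.pat a).out ⊆ E.ySet lv.Nn) ∨
        (E.IsHole lv o' a ∧ (E.pat a).out ⊆ E.ySet lv.Nn) := by
  rcases gxc_cases hL hC a with ⟨h1, h2, h3⟩ | ⟨hc, he⟩ | ⟨hc, he⟩
  · constructor
    · intro h; exact absurd h h3
    · rintro (h | h)
      · exact absurd h.1 h1
      · exact absurd h.1 h2
  · rw [gxc_isHole_congr E lv he]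
    constructor
    · intro h; exact Or.inr ⟨h, gxc_out_sub hL h hc⟩
    · rintro (h | h)
      · exact absurd (gxc_out_sub hL h.1 hc) h.2
      · exact h.1
  · rw [gxc_isHole_congr E lv he]
    constructor
    · intro h; exact Or.inl ⟨h, gxc_out_not_sub hL h hc⟩
    · rintro (h | h)
      · exact h.1
      · exact absurd h.2 (gxc_out_not_sub hL h.1 hc)

/-- RULE TRANSFER -/
theorem gxc_rule (hL : E.Large lv) {o o' : Λ → PP} {C : PP}
    (hC : ∀ x, gxcBuf E.G lv.Nn (E.pt x) → o x = C ∧ o' x = C)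
    {st : FrState PP SH Λ HI} {s1 s2 s s' : SH} (hsw : ∀ t, gxcSw s1 s2 t = s ↔ t = s')
    (hsw' : gxcSw s1 s2 s = s') (P : PP)
    (h : E.Rule lv st s o) (h' : E.Rule lv st s' o') :
    E.Rule lv ((FrOp.exch s1 s2 (E.ySet lv.Nn) P).next E.pat st) s (E.swp lv.Nn o o') := by
  refine ⟨fun x => ?_, fun a => ?_, fun a ha => ?_⟩
  · rw [gxc_next_ow, hsw', h.1, h'.1]
    by_cases hy : geY E.G lv.Nn (E.pt x)
    · rw [if_pos ((gxc_mem_ySet E _ x).2 hy), gxc_swp_of_mem E o o' hy]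
    · rw [if_neg (fun hh => hy ((gxc_mem_ySet E _ x).1 hh)), gxc_swp_of_not_mem E o o' hy]
  · rw [gxc_next_hs E.pat st s1 s2 _ P hsw, h.2.1, h'.2.1, gxc_hole_iff hL hC]
  · rw [gxc_next_tw, hsw']
    rcases gxc_cases hL hC a with ⟨_, _, h3⟩ | ⟨hc, he⟩ | ⟨hc, he⟩
    · exact absurd ha h3
    · have ha' := (gxc_isHole_congr E lv he).1 ha
      rw [if_pos (gxc_out_sub hL ha hc), h'.2.2 a ha', gxc_tagOf_congr E lv he]
    · have ha' := (gxc_isHole_congr E lv he).1 ha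
      rw [if_neg (gxc_out_not_sub hL ha hc), h.2.2 a ha', gxc_tagOf_congr E lv he]


end Types

/-! ### the angular estimate -/

section Ang

theorem gxc_dInf_self (p : ℤ × ℤ) : dInf p p = 0 := by simp [dInf]

theorem gxc_node_dist {G : ℤ} {c c' : ℤ × ℤ} (hc : GeNode G c) (hc' : GeNode G c') (hne : c ≠ c') :
    G ≤ dInf c c' := by
  have key : ∀ u u' : ℤ, G ∣ u → G ∣ u' → u ≠ u' → G ≤ |u - u'| := by
    intro u u' hu hu' hn
    exact Int.le_of_dvd (abs_pos.2 (sub_ne_zero.2 hn)) ((dvd_abs _ _).2 (dvd_sub hu hu'))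
  by_cases h1 : c.1 = c'.1
  · have h2 : c.2 ≠ c'.2 := fun h2 => hne (Prod.ext h1 h2)
    exact (key _ _ hc.2 hc'.2 h2).trans (le_max_right _ _)
  · exact (key _ _ hc.1 hc'.1 h1).trans (le_max_left _ _)

variable {G Nn : ℤ}

theorem gxc_band_not_buf {p : ℤ × ℤ} (hp : geBand G Nn (-6) (-4) p) : ¬ gxcBuf G Nn p := by
  obtain ⟨⟨_, _, z0, z1⟩, r1, r2⟩ := hp
  rintro (h | h | h | h)
  · exact z0 h
  · exact z1 h
  · have := h.2.2; omega
  · have := h.2.1; omega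

theorem gxc_band_y (h : GeLoc G Nn) {p : ℤ × ℤ} (hp : geBand G Nn (-6) (-4) p) : geY G Nn p :=
  geb_band_sub_y h ⟨hp.1, by have := hp.2.1; omega, hp.2.2⟩

theorem gxc_x1 (h : GeLoc G Nn) {p : ℤ × ℤ} (hy : geY G Nn p) (hb : ¬ gxcBuf G Nn p) :
    geBand G Nn (-6) (-4) p := by
  rcases geb_y_sub h hy with h0 | h0 | h0
  · exact absurd (Or.inl h0) hb
  · exact absurd (Or.inr (Or.inl h0)) hb
  · refine ⟨h0.1, ?_, ?_⟩
    · by_contra hh
      exact hb (Or.inr (Or.inr (Or.inl ⟨h0.1, by have := h0.2.1; omega, by omega⟩)))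
    · by_contra hh
      exact hb (Or.inr (Or.inr (Or.inr ⟨h0.1, by omega, h0.2.2⟩)))

theorem gxc_f1 (h : GeLoc G Nn) {p : ℤ × ℤ} (hy : ¬ geY G Nn p) (hb : ¬ gxcBuf G Nn p) :
    ¬ geZone G (0, 0) p ∧ ¬ geZone G (Nn, 0) p ∧ ¬ geBand G Nn (-7) (-3) p := by
  refine ⟨fun h0 => hb (Or.inl h0), fun h0 => hb (Or.inr (Or.inl h0)), fun h0 => ?_⟩
  by_cases hr : geRow G Nn p < -4
  · exact hy (geb_band_sub_y h ⟨h0.1, h0.2.1, hr⟩)
  · exact hb (Or.inr (Or.inr (Or.inr ⟨h0.1, by omega, h0.2.2⟩)))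

theorem gxc_y_diam (h : GeLoc G Nn) {p p' : ℤ × ℤ} (hp : geY G Nn p) (hp' : geY G Nn p') :
    dInf p p' ≤ 4 * Nn := by
  obtain ⟨a1, a2, a3, a4⟩ := hp
  obtain ⟨b1, b2, b3, b4⟩ := hp'
  have c1 := geb_bw_le h p.1
  have c2 := geb_bw_le h p'.1
  have c3 := geb_bw_pos h p.1
  have c4 := geb_bw_pos h p'.1
  rw [geb_dInf_le_iff, abs_le, abs_le]
  refine ⟨⟨by omega, by omega⟩, ⟨by omega, by omega⟩⟩


end Ang

section Pair

variable {E : GeEnv Λ HI Ω ε δ} {lv : GeLvl PP}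

/-- the two kinds of points of `Z ∩ Y` -/
def GxcX (E : GeEnv Λ HI Ω ε δ) (lv : GeLvl PP) (p : ℤ × ℤ) : Prop :=
  geBand E.G lv.Nn (-6) (-4) p ∨
    ∃ c, GeNode E.G c ∧ lv.Cand c ∧ GxcIn E lv c ∧ 4 * dInf p c ≤ E.G

/-- the two kinds of points of `Z \ Y` -/
def GxcF (E : GeEnv Λ HI Ω ε δ) (lv : GeLvl PP) (p : ℤ × ℤ) : Prop :=
  (¬ geY E.G lv.Nn p ∧ ¬ gxcBuf E.G lv.Nn p) ∨
    ∃ c, GeNode E.G c ∧ lv.Cand c ∧ GxcOut E lv c ∧ 4 * dInf p c ≤ E.G

/-- a node of type (b) lies within `14 G` of a mark -/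
theorem gxc_in_mark (hL : E.Large lv) {c : ℤ × ℤ} (hc' : lv.Cand c) (hc : GxcIn E lv c) :
    dInf c (0, 0) ≤ 14 * E.G ∨ dInf c (lv.Nn, 0) ≤ 14 * E.G := by
  have hG := hL.loc.G_pos
  have hy : geY E.G lv.Nn c := hc.1 c (by rw [gxc_dInf_self]; omega)
  rcases geb_y_sub hL.loc hy with h0 | h0 | h0
  · left; unfold geZone at h0; omega
  · right; unfold geZone at h0; omega
  · obtain ⟨w, hw, hcw⟩ := hc'
    rw [hL.m_eq] at hcw
    by_cases h1 : w = (0, 0)
    · left; rw [← h1]; exact hcw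
    · by_cases h2 : w = (lv.Nn, 0)
      · right; rw [← h2]; exact hcw
      · have := geb_band_far hL.loc (by norm_num) (by norm_num) h0 hw h1 h2
        have := hL.loc.Nn_ge
        omega

theorem gxc_pair (hL : E.Large lv) {x e : Λ} (hx : GxcX E lv (E.pt x)) (he : GxcF E lv (E.pt e)) :
    E.G ≤ 16 * dInf (E.pt x) (E.pt e) ∧
      (lv.Nn ≤ 64 * dInf (E.pt x) (E.pt e) ∨
        ∃ v ∈ ({(0, 0), (lv.Nn, 0)} : Finset (ℤ × ℤ)),
          dInf (E.pt x) v ≤ 64 * dInf (E.pt x) (E.pt e)) := by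
  have hG := hL.loc.G_pos
  have hN := hL.loc.Nn_ge
  have m0 : ((0, 0) : ℤ × ℤ) ∈ ({(0, 0), (lv.Nn, 0)} : Finset (ℤ × ℤ)) := by simp
  have m1 : ((lv.Nn, 0) : ℤ × ℤ) ∈ ({(0, 0), (lv.Nn, 0)} : Finset (ℤ × ℤ)) := by simp
  rcases hx with hx | ⟨c, hcn, hcc, hci, hxc⟩
  · rcases he with ⟨hey, heb⟩ | ⟨c', hcn', hcc', hco', hec'⟩
    · -- (X1, F1)
      obtain ⟨z0, z1, z2⟩ := gxc_f1 hL.loc hey heb
      have h1 := geb_band_sep hL.loc (al := -6) (be := -4) (by norm_num) (by norm_num) hx z0 z1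
        (by norm_num; exact z2)
      have h2 := geb_bw_ge (G := E.G) (Nn := lv.Nn) (E.pt x).1
      refine ⟨by omega, Or.inr ?_⟩
      rcases geb_band_mark hL.loc (by norm_num) (by norm_num) hx with h3 | h3
      · exact ⟨_, m0, by omega⟩
      · exact ⟨_, m1, by omega⟩
    · -- (X1, F2)
      have h1 : E.G ≤ dInf (E.pt x) c' := by
        by_contra hh
        rcases hco'.2 x (by omega) with h | h
        · exact h (gxc_band_y hL.loc hx)
        · exact gxc_band_not_buf hx h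
      have h2 := geb_dInf_tri (E.pt x) (E.pt e) c'
      refine ⟨by omega, ?_⟩
      obtain ⟨w, hw, hcw⟩ := hcc'
      rw [hL.m_eq] at hcw
      have h3 := geb_dInf_tri (E.pt x) c' w
      by_cases w0 : w = (0, 0)
      · subst w0; exact Or.inr ⟨_, m0, by omega⟩
      · by_cases w1 : w = (lv.Nn, 0)
        · subst w1; exact Or.inr ⟨_, m1, by omega⟩
        · have := geb_band_far hL.loc (by norm_num) (by norm_num) hx hw w0 w1
          left; omega
  · have hD : E.G ≤ 2 * dInf (E.pt x) (E.pt e) := by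
      rcases he with ⟨hey, heb⟩ | ⟨c', hcn', hcc', hco', hec'⟩
      · -- (X2, F1)
        have h1 : E.G ≤ dInf (E.pt e) c := by
          by_contra hh
          rcases hci.2 e (by omega) with h | h
          · exact hey h
          · exact heb h
        have h2 := geb_dInf_tri (E.pt e) (E.pt x) c
        rw [geb_dInf_comm (E.pt e) (E.pt x)] at h2
        omega
      · -- (X2, F2)
        have hne : c ≠ c' := by
          rintro rfl
          exact hco'.1 c (by rw [gxc_dInf_self]; omega) (hci.1 c (by rw [gxc_dInf_self]; omega))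
        have h1 := gxc_node_dist hcn hcn' hne
        have h2 := geb_dInf_tri c (E.pt x) c'
        have h3 := geb_dInf_tri (E.pt x) (E.pt e) c'
        rw [geb_dInf_comm c (E.pt x)] at h2
        omega
    refine ⟨by omega, Or.inr ?_⟩
    rcases gxc_in_mark hL hcc hci with h | h
    · have := geb_dInf_tri (E.pt x) c (0, 0)
      exact ⟨_, m0, by omega⟩
    · have := geb_dInf_tri (E.pt x) c (lv.Nn, 0)
      exact ⟨_, m1, by omega⟩


/-- admissibility of the exchange -/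
theorem gxc_ok (hL : E.Large lv) {o1 o2 : Λ → PP} {C : PP}
    (hC : ∀ x, gxcBuf E.G lv.Nn (E.pt x) → o1 x = C ∧ o2 x = C)
    {s1 s2 : SH} (hs : s1 ≠ s2) (m0 h0 b : ℕ) {st : FrState PP SH Λ HI}
    (h1 : E.Rule lv st s1 o1) (h2 : E.Rule lv st s2 o2) :
    (FrOp.exch s1 s2 (E.ySet lv.Nn) C).Ok E.pat δ m0 h0 b st := by
  have hG := hL.loc.G_pos
  have hN := hL.loc.Nn_ge
  refine ⟨hs, ?_, ?_⟩
  · intro a ha
    rw [mem_union, h1.2.1, h2.2.1] at ha
    rcases gxc_cases hL hC a with ⟨n1, n2, _⟩ | ⟨hc, _⟩ | ⟨hc, _⟩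
    · rcases ha with ha | ha
      · exact absurd ha n1
      · exact absurd ha n2
    · left; rcases ha with ha | ha <;> exact gxc_out_sub hL ha hc
    · right; rcases ha with ha | ha <;> exact gxc_out_disj hL ha hc
  · intro Z
    have hZ : ∀ x ∈ Z, ¬ (o1 x = C ∧ o2 x = C) ∨
        ∃ a, (∃ own : Λ → PP, (own = o1 ∨ own = o2) ∧ E.IsHole lv own a) ∧ x ∈ (E.pat a).out := by
      intro x hx
      simp only [Z, mem_union, mem_filter, mem_univ, true_and, frOut, mem_biUnion] at hx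
      rcases hx with (hx | ⟨a, ha, hxa⟩) | ⟨a, ha, hxa⟩
      · left; rwa [h1.1, h2.1] at hx
      · right; exact ⟨a, ⟨o1, Or.inl rfl, (h1.2.1 a).1 ha⟩, hxa⟩
      · right; exact ⟨a, ⟨o2, Or.inr rfl, (h2.2.1 a).1 ha⟩, hxa⟩
    have hX : ∀ x ∈ Z ∩ E.ySet lv.Nn, GxcX E lv (E.pt x) ∧ geY E.G lv.Nn (E.pt x) := by
      intro x hx
      rw [mem_inter, gxc_mem_ySet] at hx
      refine ⟨?_, hx.2⟩
      rcases hZ x hx.1 with h | ⟨a, ⟨own, hown, ha⟩, hxa⟩
      · exact Or.inl (gxc_x1 hL.loc hx.2 fun hb => h (hC x hb))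
      · rcases gxc_cases hL hC a with ⟨n1, n2, _⟩ | ⟨hc, _⟩ | ⟨hc, _⟩
        · rcases hown with rfl | rfl
          · exact absurd ha n1
          · exact absurd ha n2
        · exact Or.inr ⟨E.ctr a, hL.m_eq ▸ ha.1, ha.2.1, hc, gxc_out_small hL ha hxa⟩
        · exact absurd hx.2 (hc.1 _ (gxc_out_small hL ha hxa))
    have hF : ∀ e ∈ Z \ E.ySet lv.Nn, GxcF E lv (E.pt e) := by
      intro x hx
      rw [mem_sdiff, gxc_mem_ySet] at hx
      rcases hZ x hx.1 with h | ⟨a, ⟨own, hown, ha⟩, hxa⟩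
      · exact Or.inl ⟨hx.2, fun hb => h (hC x hb)⟩
      · rcases gxc_cases hL hC a with ⟨n1, n2, _⟩ | ⟨hc, _⟩ | ⟨hc, _⟩
        · rcases hown with rfl | rfl
          · exact absurd ha n1
          · exact absurd ha n2
        · exact absurd (hc.1 _ (gxc_out_small hL ha hxa)) hx.2
        · exact Or.inr ⟨E.ctr a, hL.m_eq ▸ ha.1, ha.2.1, hc, gxc_out_small hL ha hxa⟩
    refine E.ang {(0, 0), (lv.Nn, 0)} _ _ lv.Nn ?_ (by omega) hL.le_max ?_ ?_ ?_
    · exact (card_le_two).trans (by norm_num)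
    · intro x hx y hy
      exact gxc_y_diam hL.loc (hX x hx).2 (hX y hy).2
    · intro x hx e he
      exact (gxc_pair hL (hX x hx).1 (hF e he)).1
    · intro x hx e he
      exact (gxc_pair hL (hX x hx).1 (hF e he)).2

/-- **the exchange**, unbundled form -/
theorem gxc_main (hL : E.Large lv) {o1 o2 : Λ → PP} {C : PP}
    (hC : ∀ x, gxcBuf E.G lv.Nn (E.pt x) → o1 x = C ∧ o2 x = C)
    {s1 s2 : SH} (hs : s1 ≠ s2) (m0 h0 b : ℕ) (st : FrState PP SH Λ HI)
    (h1 : E.Rule lv st s1 o1) (h2 : E.Rule lv st s2 o2) :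
    (FrOp.exch s1 s2 (E.ySet lv.Nn) C).Ok E.pat δ m0 h0 b st ∧
      E.Rule lv ((FrOp.exch s1 s2 (E.ySet lv.Nn) C).next E.pat st) s1 (E.swp lv.Nn o1 o2) ∧
      E.Rule lv ((FrOp.exch s1 s2 (E.ySet lv.Nn) C).next E.pat st) s2 (E.swp lv.Nn o2 o1) :=
  ⟨gxc_ok hL hC hs m0 h0 b h1 h2,
    gxc_rule hL hC (gxc_sw_eq_left hs) (gxc_sw_left s1 s2) C h1 h2,
    gxc_rule hL (fun x hx => (hC x hx).symm) (gxc_sw_eq_right hs) (gxc_sw_right hs) C h2 h1⟩

end Pair

end Claimed.Agent.R296
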