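import Claimed.Agent.R296.P2.GeoBand
import Claimed.Agent.R296.P2.GeoExchA

/-!
# Row 296, paper 2, Section 6: bulk moves and the exchange   (LEAVES `P2-GE-BULK`, `P2-GE-EXCH`, prefix `gek_`)

Standard position of an edge (see `GeoLoc.lean`).  NO pixel hypothesis on the owner maps is needed.

## `ge_bulk_birth`, `ge_bulk_death`  (7 instances per edge)
`T = band al be`; `own = P0` on both zones and on the two rim rows `al - 1`, `be`; `own = Pold` on `T`.
 * holes: let `a` be a hole (of `own` or of the new map), `c = ctr a`, `w` the node of the level grid with `dInf c w ≤ 14 G`.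
   If `w` is a mark and some site of `T` is at distance `< G` of `c`, then by `geb_node_band` all adjacent sites lie in the zones, the rim
   rows or `T`: at most two owners, contradiction.  If `w` is not a mark use `geb_band_far`.  Hence no site of `T` is adjacent to a
   hole: `adj`, `hrad`, `IsHole`, `tagOf` are the same for both maps (RULE PRESERVED), and `dInf x e ≥ G - G/4` for `x ∈ T`, `e` in an outer square.
 * `E.ang` with `VV = {(0,0), (Nn,0)}`, `n = Nn`.  For `e` with `own e ≠ P0` (and `e ∉ T`): `geb_band_sep` gives `bw < 26 dInf`, and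
   `16 G ≤ bw`, `dist to a mark ≤ bw` (`geb_band_mark`).  For `e` in an outer square near a mark `v`:
   `dInf x v ≤ dInf x e + G/4 + 14 G ≤ 20 dInf x e`; near another node: `Nn ≤ 64 dInf x e`.

## `ge_exch`
`o1 = o2 = C` on the zones and on the rows `-8, -7, -4`.  Use `geb_exch_node` for every hole of `o1`, `o2` and of the exchanged maps:
case (a): one owner, no hole; case (b): outer square inside `Y`, the exchanged map `swp o1 o2` agrees with `o2` on the adjacent sites;
case (c): outer square disjoint from `Y`, `swp o1 o2` agrees with `o1` on the adjacent sites.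
Information: `X = Z ∩ Y` = (sites of the rows `-6, -5` which are not `C`) ∪ (outer squares of type (b)); `Z \ Y` = sites outside the zones and the
rows `-8 … -4` ∪ outer squares of type (c).  Distances: `geb_band_sep` (with `al = -6`, `be = -4`), `≥ 3G/4` between a site and an outer
square whose node is not adjacent, `≥ G/2` between two outer squares.
-/

set_option autoImplicit false
set_option linter.unusedSectionVars false

namespace Claimed.Agent.R296

open Finset

variable {Λ HI PP SH : Type} [Fintype Λ] [DecidableEq Λ] [Fintype HI] [DecidableEq HI]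
  [DecidableEq PP] [DecidableEq SH] {q : ℕ} {Ω : (Λ → Fin q) → ℂ} {ε δ : ℝ}

/-- hypotheses of a bulk move -/
structure GeBulkHyp (E : GeEnv Λ HI Ω ε δ) (lv : GeLvl PP) (own : Λ → PP) (al be : ℤ) (P0 Pold : PP) :
    Prop where
  large : E.Large lv
  al_ge : -8 ≤ al
  al_lt : al < be
  be_le : be ≤ 8
  zone : ∀ x, geZone E.G (0, 0) (E.pt x) ∨ geZone E.G (lv.Nn, 0) (E.pt x) → own x = P0
  rim : ∀ x, geBand E.G lv.Nn (al - 1) al (E.pt x) ∨ geBand E.G lv.Nn be (be + 1) (E.pt x) → own x = P0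
  body : ∀ x, geBand E.G lv.Nn al be (E.pt x) → own x = Pold

/-- a site does not lie on a grid line -/
theorem gek_not_dvd (E : GeEnv Λ HI Ω ε δ) (hG : 256 ∣ E.G) (x : Λ) :
    ¬ E.G ∣ (E.pt x).1 ∧ ¬ E.G ∣ (E.pt x).2 := by
  obtain ⟨h1, h2⟩ := E.odd x
  constructor
  · intro h
    have := hG.trans h
    omega
  · intro h
    have := hG.trans h
    omega

/-- the node of the level grid next to a candidate node which is close to a band is a mark -/
theorem gek_mark {G Nn : ℤ} (h : GeLoc G Nn) {al be : ℤ} (ha : -9 ≤ al) (hb : be ≤ 9)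
    {p c w : ℤ × ℤ} (hp : geBand G Nn al be p) (hw : GeNode Nn w) (hcw : dInf c w ≤ 14 * G)
    (hpc : dInf p c < G) : w = (0, 0) ∨ w = (Nn, 0) := by
  by_contra hne
  rw [not_or] at hne
  have h1 := geb_band_far h ha hb hp hw hne.1 hne.2
  have h2 := geb_dInf_tri p c w
  have h3 := h.Nn_ge
  have h4 := h.G_pos
  omega

/-- splitting of the rows `al - 1 ≤ row < be + 1` -/
theorem gek_band_split {G Nn al be : ℤ} {p : ℤ × ℤ} (hp : geBand G Nn (al - 1) (be + 1) p) :
    geBand G Nn (al - 1) al p ∨ geBand G Nn al be p ∨ geBand G Nn be (be + 1) p := by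
  obtain ⟨h1, h2, h3⟩ := hp
  by_cases ha : geRow G Nn p < al
  · exact Or.inl ⟨h1, h2, ha⟩
  · by_cases hb : geRow G Nn p < be
    · exact Or.inr (Or.inl ⟨h1, by omega, hb⟩)
    · exact Or.inr (Or.inr ⟨h1, by omega, h3⟩)

theorem gek_zone_not_band {G Nn al be : ℤ} {p : ℤ × ℤ}
    (hz : geZone G (0, 0) p ∨ geZone G (Nn, 0) p) : ¬ geBand G Nn al be p := by
  rintro ⟨⟨-, -, h0, h1⟩, -⟩
  rcases hz with hz | hz
  · exact h0 hz
  · exact h1 hz

theorem gek_rim_not_band {G Nn al be : ℤ} {p : ℤ × ℤ}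
    (hz : geBand G Nn (al - 1) al p ∨ geBand G Nn be (be + 1) p) : ¬ geBand G Nn al be p := by
  rintro ⟨-, h1, h2⟩
  rcases hz with ⟨-, h3, h4⟩ | ⟨-, h3, h4⟩ <;> omega

/-- no site of the band is adjacent to a hole, neither before nor after the move -/
theorem gek_bulk_adj (E : GeEnv Λ HI Ω ε δ) (lv : GeLvl PP) {own : Λ → PP} {al be : ℤ} {P0 Pold : PP}
    (h : GeBulkHyp E lv own al be P0 Pold) (Pnew : PP) (c : ℤ × ℤ) (hc : GeNode lv.m c) (hc' : lv.Cand c)
    (hx : ∃ x, geBand E.G lv.Nn al be (E.pt x) ∧ dInf (E.pt x) c < lv.m) :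
    (E.adj lv own c).card ≤ 2 ∧ (E.adj lv (E.upd lv.Nn al be own Pnew) c).card ≤ 2 := by
  obtain ⟨x, hxb, hxc⟩ := hx
  obtain ⟨w, hw, hcw⟩ := hc'
  have hloc := h.large.loc
  rw [h.large.m_eq] at hc hcw hxc
  have hmark := gek_mark hloc (by linarith [h.al_ge]) (by linarith [h.be_le]) hxb hw hcw hxc
  have hc2 : dInf c (0, 0) ≤ 14 * E.G ∨ dInf c (lv.Nn, 0) ≤ 14 * E.G := by
    rcases hmark with rfl | rfl
    · exact Or.inl hcw
    · exact Or.inr hcw
  have key : ∀ z : Λ, dInf (E.pt z) c < lv.m →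
      (¬ geBand E.G lv.Nn al be (E.pt z) ∧ own z = P0) ∨
        (geBand E.G lv.Nn al be (E.pt z) ∧ own z = Pold) := by
    intro z hz
    rw [h.large.m_eq] at hz
    obtain ⟨hz1, hz2⟩ := gek_not_dvd E hloc.G_dvd z
    rcases geb_node_band hloc h.al_ge h.be_le hc hc2 hxb hxc hz hz1 hz2 with h0 | h0 | h0
    · exact Or.inl ⟨gek_zone_not_band (Or.inl h0), h.zone z (Or.inl h0)⟩
    · exact Or.inl ⟨gek_zone_not_band (Or.inr h0), h.zone z (Or.inr h0)⟩
    · rcases gek_band_split h0 with h1 | h1 | h1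
      · exact Or.inl ⟨gek_rim_not_band (Or.inl h1), h.rim z (Or.inl h1)⟩
      · exact Or.inr ⟨h1, h.body z h1⟩
      · exact Or.inl ⟨gek_rim_not_band (Or.inr h1), h.rim z (Or.inr h1)⟩
  constructor
  · refine (Finset.card_le_card (t := {P0, Pold}) ?_).trans Finset.card_le_two
    intro P hP
    simp only [GeEnv.adj, Finset.mem_image, Finset.mem_filter, Finset.mem_univ, true_and] at hP
    obtain ⟨z, hz, rfl⟩ := hP
    rcases key z hz with h1 | h1
    · simp [h1.2]
    · simp [h1.2]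
  · refine (Finset.card_le_card (t := {P0, Pnew}) ?_).trans Finset.card_le_two
    intro P hP
    simp only [GeEnv.adj, Finset.mem_image, Finset.mem_filter, Finset.mem_univ, true_and] at hP
    obtain ⟨z, hz, rfl⟩ := hP
    rcases key z hz with h1 | h1
    · simp [GeEnv.upd, h1.1, h1.2]
    · simp [GeEnv.upd, h1.1]

/-- if no site of the band is adjacent to `c`, the adjacent owners do not change -/
theorem gek_adj_upd (E : GeEnv Λ HI Ω ε δ) (lv : GeLvl PP) (own : Λ → PP) (al be : ℤ) (Pnew : PP)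
    (c : ℤ × ℤ) (hx : ¬ ∃ x, geBand E.G lv.Nn al be (E.pt x) ∧ dInf (E.pt x) c < lv.m) :
    E.adj lv (E.upd lv.Nn al be own Pnew) c = E.adj lv own c := by
  unfold GeEnv.adj
  refine Finset.image_congr ?_
  intro z hz
  have hz' : dInf (E.pt z) c < lv.m := by simpa using hz
  have : ¬ geBand E.G lv.Nn al be (E.pt z) := fun hb => hx ⟨z, hb, hz'⟩
  simp [GeEnv.upd, this]

/-- the rule frame does not change -/
theorem gek_bulk_rule (E : GeEnv Λ HI Ω ε δ) (lv : GeLvl PP) {own : Λ → PP} {al be : ℤ} {P0 Pold : PP}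
    (h : GeBulkHyp E lv own al be P0 Pold) (Pnew : PP) (a : HI) :
    (E.IsHole lv (E.upd lv.Nn al be own Pnew) a ↔ E.IsHole lv own a) ∧
      (E.IsHole lv own a → E.tagOf lv (E.upd lv.Nn al be own Pnew) (E.ctr a) = E.tagOf lv own (E.ctr a)) := by
  by_cases hx : ∃ x, geBand E.G lv.Nn al be (E.pt x) ∧ dInf (E.pt x) (E.ctr a) < lv.m
  · have hno : ∀ o : Λ → PP, (o = own ∨ o = E.upd lv.Nn al be own Pnew) → ¬ E.IsHole lv o a := by
      rintro o ho ⟨h1, h2, h3, -⟩
      have := gek_bulk_adj E lv h Pnew (E.ctr a) h1 h2 hx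
      rcases ho with rfl | rfl
      · omega
      · omega
    exact ⟨⟨fun h1 => absurd h1 (hno _ (Or.inr rfl)), fun h1 => absurd h1 (hno _ (Or.inl rfl))⟩,
      fun h1 => absurd h1 (hno _ (Or.inl rfl))⟩
  · have hadj := gek_adj_upd E lv own al be Pnew (E.ctr a) hx
    constructor
    · unfold GeEnv.IsHole GeEnv.hrad
      rw [hadj]
    · intro _
      unfold GeEnv.tagOf
      rw [hadj]

theorem gek_mem_band (E : GeEnv Λ HI Ω ε δ) (Nn al be : ℤ) (x : Λ) :
    x ∈ E.band Nn al be ↔ geBand E.G Nn al be (E.pt x) := by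
  simp [GeEnv.band]

theorem gek_hrad_le (E : GeEnv Λ HI Ω ε δ) (lv : GeLvl PP) (own : Λ → PP) (c : ℤ × ℤ) (hm : 0 ≤ lv.m) :
    8 * E.hrad lv own c ≤ lv.m := by
  unfold GeEnv.hrad
  split_ifs <;> omega

/-- sites of the band are far from the outer squares of the holes -/
theorem gek_hole_far (E : GeEnv Λ HI Ω ε δ) (lv : GeLvl PP) {own : Λ → PP} {al be : ℤ} {P0 Pold : PP}
    (h : GeBulkHyp E lv own al be P0 Pold) {a : HI} (ha : E.IsHole lv own a) {x e : Λ}
    (hx : geBand E.G lv.Nn al be (E.pt x)) (he : e ∈ (E.pat a).out) :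
    3 * E.G ≤ 4 * dInf (E.pt x) (E.pt e) ∧
      (lv.Nn ≤ 64 * dInf (E.pt x) (E.pt e) ∨
        dInf (E.pt x) (0, 0) ≤ 64 * dInf (E.pt x) (E.pt e) ∨
        dInf (E.pt x) (lv.Nn, 0) ≤ 64 * dInf (E.pt x) (E.pt e)) := by
  obtain ⟨hn, hcand, h3, hrad, -⟩ := ha
  have hloc := h.large.loc
  have hm := h.large.m_eq
  have hG := hloc.G_pos
  have hfar : E.G ≤ dInf (E.pt x) (E.ctr a) := by
    by_contra hlt
    have := (gek_bulk_adj E lv h P0 (E.ctr a) hn hcand ⟨x, hx, by rw [hm]; omega⟩).1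
    omega
  have he' := (E.mem_out a e).1 he
  have hr := gek_hrad_le E lv own (E.ctr a) (by rw [hm]; exact hG.le)
  rw [← hrad, hm] at hr
  have t1 := geb_dInf_tri (E.pt x) (E.pt e) (E.ctr a)
  obtain ⟨w, hw, hcw⟩ := hcand
  rw [hm] at hcw
  have t2 := geb_dInf_tri (E.pt x) (E.ctr a) w
  refine ⟨by omega, ?_⟩
  by_cases h0 : w = (0, 0)
  · subst h0
    right; left; omega
  · by_cases h1 : w = (lv.Nn, 0)
    · subst h1
      right; right; omega
    · left
      have := geb_band_far hloc (by linarith [h.al_ge]) (by linarith [h.be_le]) hx hw h0 h1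
      omega

/-- sites of the band are far from the sites off the band which are not owned by `P0` -/
theorem gek_other_far (E : GeEnv Λ HI Ω ε δ) (lv : GeLvl PP) {own : Λ → PP} {al be : ℤ} {P0 Pold : PP}
    (h : GeBulkHyp E lv own al be P0 Pold) {x e : Λ}
    (hx : geBand E.G lv.Nn al be (E.pt x)) (he1 : ¬ geBand E.G lv.Nn al be (E.pt e))
    (he2 : own e ≠ P0) :
    E.G ≤ 16 * dInf (E.pt x) (E.pt e) ∧
      (dInf (E.pt x) (0, 0) ≤ 64 * dInf (E.pt x) (E.pt e) ∨
        dInf (E.pt x) (lv.Nn, 0) ≤ 64 * dInf (E.pt x) (E.pt e)) := by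
  have hloc := h.large.loc
  have hG := hloc.G_pos
  have hz0 : ¬ geZone E.G (0, 0) (E.pt e) := fun hz => he2 (h.zone e (Or.inl hz))
  have hz1 : ¬ geZone E.G (lv.Nn, 0) (E.pt e) := fun hz => he2 (h.zone e (Or.inr hz))
  have hz : ¬ geBand E.G lv.Nn (al - 1) (be + 1) (E.pt e) := by
    intro hb
    rcases gek_band_split hb with h1 | h1 | h1
    · exact he2 (h.rim e (Or.inl h1))
    · exact he1 h1
    · exact he2 (h.rim e (Or.inr h1))
  have s1 := geb_band_sep hloc h.al_ge h.be_le hx hz0 hz1 hz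
  have s2 := geb_bw_ge (G := E.G) (Nn := lv.Nn) (E.pt x).1
  refine ⟨by omega, ?_⟩
  rcases geb_band_mark hloc (by linarith [h.al_ge]) (by linarith [h.be_le]) hx with s3 | s3
  · left; omega
  · right; omega

/-- the information estimate of a bulk move -/
theorem gek_bulk_info (E : GeEnv Λ HI Ω ε δ) (lv : GeLvl PP) {own : Λ → PP} {al be : ℤ} {P0 Pold : PP}
    (h : GeBulkHyp E lv own al be P0 Pold) (H : Finset HI) (hH : ∀ a ∈ H, E.IsHole lv own a) :
    minfo (io := fun _ : Λ => Fin q) (pureOp Ω) (E.band lv.Nn al be)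
      ((univ.filter fun x => x ∉ E.band lv.Nn al be ∧ own x ≠ P0) ∪ frOut E.pat H) ≤ δ ∧
    Disjoint (E.band lv.Nn al be) (frOut E.pat H) := by
  have hloc := h.large.loc
  have hG := hloc.G_pos
  have hNn := hloc.Nn_ge
  have key : ∀ x ∈ E.band lv.Nn al be,
      ∀ e ∈ (univ.filter fun x => x ∉ E.band lv.Nn al be ∧ own x ≠ P0) ∪ frOut E.pat H,
      E.G ≤ 16 * dInf (E.pt x) (E.pt e) ∧
      (lv.Nn ≤ 64 * dInf (E.pt x) (E.pt e) ∨
        dInf (E.pt x) (0, 0) ≤ 64 * dInf (E.pt x) (E.pt e) ∨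
        dInf (E.pt x) (lv.Nn, 0) ≤ 64 * dInf (E.pt x) (E.pt e)) := by
    intro x hx e he
    rw [gek_mem_band] at hx
    rcases Finset.mem_union.1 he with he | he
    · simp only [Finset.mem_filter, Finset.mem_univ, true_and, gek_mem_band] at he
      obtain ⟨a1, a2⟩ := gek_other_far E lv h hx he.1 he.2
      exact ⟨a1, Or.inr a2⟩
    · obtain ⟨a, haH, hea⟩ := Finset.mem_biUnion.1 he
      obtain ⟨a1, a2⟩ := gek_hole_far E lv h (hH a haH) hx hea
      exact ⟨by omega, a2⟩
  constructor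
  · refine E.ang {(0, 0), (lv.Nn, 0)} _ _ lv.Nn (Finset.card_le_two.trans (by norm_num))
      (by omega) h.large.le_max ?_ (fun x hx e he => (key x hx e he).1) ?_
    · intro x hx y hy
      rw [gek_mem_band] at hx hy
      exact geb_band_diam hloc (by linarith [h.al_ge]) (by linarith [h.be_le]) hx hy
    · intro x hx e he
      rcases (key x hx e he).2 with a1 | a1 | a1
      · exact Or.inl a1
      · exact Or.inr ⟨(0, 0), by simp, a1⟩
      · exact Or.inr ⟨(lv.Nn, 0), by simp, a1⟩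
  · rw [Finset.disjoint_left]
    intro x hx hx'
    obtain ⟨a, haH, hea⟩ := Finset.mem_biUnion.1 hx'
    rw [gek_mem_band] at hx
    have := (gek_hole_far E lv h (hH a haH) hx hea).1
    have h0 : dInf (E.pt x) (E.pt x) = 0 := by simp [dInf]
    omega

/-- **bulk birth** -/
theorem ge_bulk_birth (E : GeEnv Λ HI Ω ε δ) (lv : GeLvl PP) (s : SH) {own : Λ → PP} {al be : ℤ} {P0 : PP}
    (h : GeBulkHyp E lv own al be P0 P0) (Q : PP) (m0 h0 b : ℕ) (st : FrState PP SH Λ HI)
    (hst : E.Rule lv st s own) :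
    (FrOp.birth s (E.band lv.Nn al be) P0 Q).Ok E.pat δ m0 h0 b st ∧
      E.Rule lv ((FrOp.birth s (E.band lv.Nn al be) P0 Q).next E.pat st) s (E.upd lv.Nn al be own Q) := by
  obtain ⟨r1, r2, r3⟩ := hst
  obtain ⟨i1, i2⟩ := gek_bulk_info E lv h (st.hs s) fun a ha => (r2 a).1 ha
  constructor
  · refine ⟨?_, i2, ?_⟩
    · intro x hx
      rw [r1]
      exact h.body x ((gek_mem_band E _ _ _ x).1 hx)
    · have e : (univ.filter fun x => st.ow s x ≠ P0) =
          univ.filter fun x => x ∉ E.band lv.Nn al be ∧ own x ≠ P0 := by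
        ext x
        simp only [Finset.mem_filter, Finset.mem_univ, true_and, r1]
        constructor
        · intro hx
          exact ⟨fun hb => hx (h.body x ((gek_mem_band E _ _ _ x).1 hb)), hx⟩
        · exact fun hx => hx.2
      rw [e]
      exact i1
  · refine ⟨?_, ?_, ?_⟩
    · intro x
      by_cases hx : geBand E.G lv.Nn al be (E.pt x)
      · simp [FrOp.next, FrState.ow, GeEnv.upd, hx, gek_mem_band]
      · have := r1 x
        simp only [FrState.ow] at this
        simp [FrOp.next, FrState.ow, GeEnv.upd, hx, gek_mem_band, this]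
    · intro a
      rw [(gek_bulk_rule E lv h Q a).1, ← r2 a]
      rfl
    · intro a ha
      rw [(gek_bulk_rule E lv h Q a).1] at ha
      rw [(gek_bulk_rule E lv h Q a).2 ha, ← r3 a ha]
      rfl

/-- **bulk death** -/
theorem ge_bulk_death (E : GeEnv Λ HI Ω ε δ) (lv : GeLvl PP) (s : SH) {own : Λ → PP} {al be : ℤ} {P0 Q : PP}
    (h : GeBulkHyp E lv own al be P0 Q) (m0 h0 b : ℕ) (st : FrState PP SH Λ HI)
    (hst : E.Rule lv st s own) :
    (FrOp.death s (E.band lv.Nn al be) P0 Q).Ok E.pat δ m0 h0 b st ∧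
      E.Rule lv ((FrOp.death s (E.band lv.Nn al be) P0 Q).next E.pat st) s (E.upd lv.Nn al be own P0) := by
  obtain ⟨r1, r2, r3⟩ := hst
  obtain ⟨i1, i2⟩ := gek_bulk_info E lv h (st.hs s) fun a ha => (r2 a).1 ha
  constructor
  · refine ⟨?_, i2, ?_⟩
    · intro x hx
      rw [r1]
      exact h.body x ((gek_mem_band E _ _ _ x).1 hx)
    · have e : (univ.filter fun x => x ∉ E.band lv.Nn al be ∧ st.ow s x ≠ P0) =
          univ.filter fun x => x ∉ E.band lv.Nn al be ∧ own x ≠ P0 := by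
        ext x
        simp only [Finset.mem_filter, Finset.mem_univ, true_and, r1]
      rw [e]
      exact i1
  · refine ⟨?_, ?_, ?_⟩
    · intro x
      by_cases hx : geBand E.G lv.Nn al be (E.pt x)
      · simp [FrOp.next, FrState.ow, GeEnv.upd, hx, gek_mem_band]
      · have := r1 x
        simp only [FrState.ow] at this
        simp [FrOp.next, FrState.ow, GeEnv.upd, hx, gek_mem_band, this]
    · intro a
      rw [(gek_bulk_rule E lv h P0 a).1, ← r2 a]
      rfl
    · intro a ha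
      rw [(gek_bulk_rule E lv h P0 a).1] at ha
      rw [(gek_bulk_rule E lv h P0 a).2 ha, ← r3 a ha]
      rfl

/-- hypotheses of the exchange -/
structure GeExchHyp (E : GeEnv Λ HI Ω ε δ) (lv : GeLvl PP) (o1 o2 : Λ → PP) (C : PP) : Prop where
  large : E.Large lv
  zone : ∀ x, geZone E.G (0, 0) (E.pt x) ∨ geZone E.G (lv.Nn, 0) (E.pt x) → o1 x = C ∧ o2 x = C
  rows : ∀ x, geBand E.G lv.Nn (-8) (-6) (E.pt x) ∨ geBand E.G lv.Nn (-4) (-3) (E.pt x) →
    o1 x = C ∧ o2 x = C

/-- **the exchange** -/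
theorem ge_exch (E : GeEnv Λ HI Ω ε δ) (lv : GeLvl PP) {s1 s2 : SH} (hs : s1 ≠ s2) {o1 o2 : Λ → PP} {C : PP}
    (h : GeExchHyp E lv o1 o2 C) (m0 h0 b : ℕ) (st : FrState PP SH Λ HI)
    (h1 : E.Rule lv st s1 o1) (h2 : E.Rule lv st s2 o2) :
    (FrOp.exch s1 s2 (E.ySet lv.Nn) C).Ok E.pat δ m0 h0 b st ∧
      E.Rule lv ((FrOp.exch s1 s2 (E.ySet lv.Nn) C).next E.pat st) s1 (E.swp lv.Nn o1 o2) ∧
      E.Rule lv ((FrOp.exch s1 s2 (E.ySet lv.Nn) C).next E.pat st) s2 (E.swp lv.Nn o2 o1) := by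
  refine gxc_main h.large (fun x hx => ?_) hs m0 h0 b st h1 h2
  rcases hx with hx | hx | hx | hx
  · exact h.zone x (Or.inl hx)
  · exact h.zone x (Or.inr hx)
  · exact h.rows x (Or.inl hx)
  · exact h.rows x (Or.inr hx)

end Claimed.Agent.R296
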