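import Claimed.Agent.R296.P2.GeoStage

/-!
# Row 296, paper 2, Section 6: the central birth of a large square   (prefix `gec_`)

Architect + proofs: helper197.  Standard position: the square which is repainted is `(0, Nn)²`, the marks are its four corners.

* `geInS Nn`     : the open square;
* `geCore G Nn`  : the core = the points whose rows with respect to the four edges are `≥ 1`;
* `ge_central`   : the birth of the new label `B` on the core is admissible and the rule frame does not change.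
  - a node adjacent to a site of the core has all its adjacent sites inside the square: one owner before, two owners after: no hole;
  - `E.ang` with the four corners: a point outside the square at distance `D` of a core point `x`: `dist (x, corner) ≤ 16 D`;
    outer squares of holes: `D ≥ 3 G / 4`, `dist (x, corner) ≤ D + G / 4 + 14 G`, or `Nn ≤ 64 D` for the other nodes of the level.
-/

set_option autoImplicit false
set_option linter.unusedSectionVars false

namespace Claimed.Agent.R296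

open Finset

/-- the open square `(0, Nn)²` -/
def geInS (Nn : ℤ) (p : ℤ × ℤ) : Prop := 0 < p.1 ∧ p.1 < Nn ∧ 0 < p.2 ∧ p.2 < Nn

/-- the core of the square: the rows with respect to the four edges are `≥ 1` -/
def geCore (G Nn : ℤ) (p : ℤ × ℤ) : Prop :=
  geBw G Nn p.1 ≤ 16 * p.2 ∧ geBw G Nn p.1 ≤ 16 * (Nn - p.2) ∧
    geBw G Nn p.2 ≤ 16 * p.1 ∧ geBw G Nn p.2 ≤ 16 * (Nn - p.1)

/-- the four corners -/
def geCorners (Nn : ℤ) : Finset (ℤ × ℤ) := {(0, 0), (Nn, 0), (0, Nn), (Nn, Nn)}

theorem gec_mem_corners {Nn : ℤ} {v : ℤ × ℤ} :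
    v ∈ geCorners Nn ↔ (v.1 = 0 ∨ v.1 = Nn) ∧ (v.2 = 0 ∨ v.2 = Nn) := by
  obtain ⟨a, b⟩ := v
  simp only [geCorners, Finset.mem_insert, Finset.mem_singleton, Prod.mk.injEq]
  tauto

theorem gec_corners_card (Nn : ℤ) : (geCorners Nn).card ≤ 4 := Finset.card_le_four

section Pure

variable {G Nn : ℤ}

theorem gec_core_in (_h : GeLoc G Nn) {p : ℤ × ℤ} (hp : geCore G Nn p) :
    G ≤ p.1 ∧ p.1 ≤ Nn - G ∧ G ≤ p.2 ∧ p.2 ≤ Nn - G := by
  obtain ⟨h1, h2, h3, h4⟩ := hp
  have a1 := geb_bw_ge (G := G) (Nn := Nn) p.1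
  have a2 := geb_bw_ge (G := G) (Nn := Nn) p.2
  omega

theorem gec_core_inS (h : GeLoc G Nn) {p : ℤ × ℤ} (hp : geCore G Nn p) : geInS Nn p := by
  have := gec_core_in h hp
  have := h.G_pos
  unfold geInS
  omega

/-- a point outside the open square is far from the core, in the angular sense -/
theorem gec_core_out (h : GeLoc G Nn) {p z : ℤ × ℤ} (hp : geCore G Nn p) (hz : ¬ geInS Nn z) :
    G ≤ dInf p z ∧ ∃ v ∈ geCorners Nn, dInf p v ≤ 16 * dInf p z := by
  have hin := gec_core_in h hp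
  have hG := h.G_pos
  obtain ⟨h1, h2, h3, h4⟩ := hp
  have hD := (geo_dInf_le (x := p) (y := z) (r := dInf p z)).1 le_rfl
  generalize dInf p z = D at hD ⊢
  unfold geInS at hz
  unfold geBw at h1 h2 h3 h4
  refine ⟨by omega, ?_⟩
  by_cases c1 : 2 * p.1 ≤ Nn
  · by_cases c2 : 2 * p.2 ≤ Nn
    · exact ⟨(0, 0), by simp [geCorners], by rw [geo_dInf_le]; simp only; omega⟩
    · exact ⟨(0, Nn), by simp [geCorners], by rw [geo_dInf_le]; simp only; omega⟩
  · by_cases c2 : 2 * p.2 ≤ Nn
    · exact ⟨(Nn, 0), by simp [geCorners], by rw [geo_dInf_le]; simp only; omega⟩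
    · exact ⟨(Nn, Nn), by simp [geCorners], by rw [geo_dInf_le]; simp only; omega⟩

/-- all points next to a node which is next to a core point lie in the open square -/
theorem gec_node_in (h : GeLoc G Nn) {p c z : ℤ × ℤ} (hp : geCore G Nn p) (hc : GeNode G c)
    (hpc : dInf p c < G) (hzc : dInf z c < G) : geInS Nn z := by
  have hin := gec_core_in h hp
  have hG := h.G_pos
  rw [geo_dInf_lt] at hpc hzc
  obtain ⟨c1, c2⟩ := hc
  have a1 := ger_gap (dvd_zero G) c1 (by omega)
  have a2 := ger_gap (dvd_zero G) c2 (by omega)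
  have a3 := ger_gap c1 h.Nn_dvd (by omega)
  have a4 := ger_gap c2 h.Nn_dvd (by omega)
  unfold geInS
  omega

/-- the nodes of the level grid which are not corners are far from the square -/
theorem gec_far (h : GeLoc G Nn) {p w : ℤ × ℤ} (hp : geInS Nn p) (hw : GeNode Nn w)
    (hw' : w ∉ geCorners Nn) : Nn ≤ dInf p w := by
  have hG := h.G_pos
  have hN := h.Nn_ge
  rw [gec_mem_corners] at hw'
  obtain ⟨w1, w2⟩ := hw
  obtain ⟨p1, p2, p3, p4⟩ := hp
  rw [geo_le_dInf]
  have key : ∀ t : ℤ, Nn ∣ t → t = 0 ∨ t = Nn ∨ t ≤ -Nn ∨ 2 * Nn ≤ t := by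
    intro t ht
    by_cases t0 : t < 0
    · have := ger_gap ht (dvd_zero Nn) t0
      omega
    · by_cases t1 : t = 0
      · exact Or.inl t1
      · have b1 := ger_gap (dvd_zero Nn) ht (by omega)
        by_cases t2 : t = Nn
        · exact Or.inr (Or.inl t2)
        · have b2 := ger_gap (dvd_refl Nn) ht (by omega)
          omega
  have k1 := key _ w1
  have k2 := key _ w2
  omega

theorem gec_diam {p p' : ℤ × ℤ} (hp : geInS Nn p) (hp' : geInS Nn p') : dInf p p' ≤ Nn := by
  unfold geInS at hp hp'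
  rw [geo_dInf_le]
  omega

end Pure

variable {Λ HI PP SH : Type} [Fintype Λ] [DecidableEq Λ] [Fintype HI] [DecidableEq HI]
  [DecidableEq PP] [DecidableEq SH] {q : ℕ} {Ω : (Λ → Fin q) → ℂ} {ε δ : ℝ}

open scoped Classical in
/-- the sites of the core -/
noncomputable def GeEnv.coreS (E : GeEnv Λ HI Ω ε δ) (Nn : ℤ) : Finset Λ :=
  univ.filter fun x => geCore E.G Nn (E.pt x)

open scoped Classical in
/-- the owner map with the core repainted -/
noncomputable def GeEnv.updC (E : GeEnv Λ HI Ω ε δ) (Nn : ℤ) (own : Λ → PP) (P : PP) : Λ → PP :=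
  fun x => if geCore E.G Nn (E.pt x) then P else own x

/-- hypotheses of the central birth -/
structure GeCentralHyp (E : GeEnv Λ HI Ω ε δ) (lv : GeLvl PP) (own : Λ → PP) (A : PP) : Prop where
  large : E.Large lv
  inS : ∀ x, geInS lv.Nn (E.pt x) → own x = A

theorem gec_mem_coreS (E : GeEnv Λ HI Ω ε δ) (Nn : ℤ) (x : Λ) :
    x ∈ E.coreS Nn ↔ geCore E.G Nn (E.pt x) := by
  simp [GeEnv.coreS]

/-- no site of the core is adjacent to a hole, neither before nor after the birth -/
theorem gec_adj (E : GeEnv Λ HI Ω ε δ) (lv : GeLvl PP) {own : Λ → PP} {A : PP}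
    (h : GeCentralHyp E lv own A) (B : PP) (c : ℤ × ℤ) (hc : GeNode lv.m c)
    (hx : ∃ x, geCore E.G lv.Nn (E.pt x) ∧ dInf (E.pt x) c < lv.m) :
    (E.adj lv own c).card ≤ 2 ∧ (E.adj lv (E.updC lv.Nn own B) c).card ≤ 2 := by
  obtain ⟨x, hxb, hxc⟩ := hx
  have hloc := h.large.loc
  rw [h.large.m_eq] at hc hxc
  have key : ∀ z : Λ, dInf (E.pt z) c < lv.m → own z = A := by
    intro z hz
    rw [h.large.m_eq] at hz
    exact h.inS z (gec_node_in hloc hxb hc hxc hz)
  constructor
  · refine (Finset.card_le_card (t := {A, B}) ?_).trans Finset.card_le_two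
    intro P hP
    simp only [GeEnv.adj, Finset.mem_image, Finset.mem_filter, Finset.mem_univ, true_and] at hP
    obtain ⟨z, hz, rfl⟩ := hP
    simp [key z hz]
  · refine (Finset.card_le_card (t := {A, B}) ?_).trans Finset.card_le_two
    intro P hP
    simp only [GeEnv.adj, Finset.mem_image, Finset.mem_filter, Finset.mem_univ, true_and] at hP
    obtain ⟨z, hz, rfl⟩ := hP
    by_cases hzc : geCore E.G lv.Nn (E.pt z)
    · simp [GeEnv.updC, hzc]
    · simp [GeEnv.updC, hzc, key z hz]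

theorem gec_adj_upd (E : GeEnv Λ HI Ω ε δ) (lv : GeLvl PP) (own : Λ → PP) (B : PP)
    (c : ℤ × ℤ) (hx : ¬ ∃ x, geCore E.G lv.Nn (E.pt x) ∧ dInf (E.pt x) c < lv.m) :
    E.adj lv (E.updC lv.Nn own B) c = E.adj lv own c := by
  unfold GeEnv.adj
  refine Finset.image_congr ?_
  intro z hz
  have hz' : dInf (E.pt z) c < lv.m := by simpa using hz
  have : ¬ geCore E.G lv.Nn (E.pt z) := fun hb => hx ⟨z, hb, hz'⟩
  simp [GeEnv.updC, this]

/-- the rule frame does not change -/
theorem gec_rule (E : GeEnv Λ HI Ω ε δ) (lv : GeLvl PP) {own : Λ → PP} {A : PP}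
    (h : GeCentralHyp E lv own A) (B : PP) (a : HI) :
    (E.IsHole lv (E.updC lv.Nn own B) a ↔ E.IsHole lv own a) ∧
      (E.IsHole lv own a → E.tagOf lv (E.updC lv.Nn own B) (E.ctr a) = E.tagOf lv own (E.ctr a)) := by
  by_cases hx : ∃ x, geCore E.G lv.Nn (E.pt x) ∧ dInf (E.pt x) (E.ctr a) < lv.m
  · have hno : ∀ o : Λ → PP, (o = own ∨ o = E.updC lv.Nn own B) → ¬ E.IsHole lv o a := by
      rintro o ho ⟨h1, h2, h3, -⟩
      have := gec_adj E lv h B (E.ctr a) h1 hx
      rcases ho with rfl | rfl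
      · omega
      · omega
    exact ⟨⟨fun h1 => absurd h1 (hno _ (Or.inr rfl)), fun h1 => absurd h1 (hno _ (Or.inl rfl))⟩,
      fun h1 => absurd h1 (hno _ (Or.inl rfl))⟩
  · have hadj := gec_adj_upd E lv own B (E.ctr a) hx
    constructor
    · unfold GeEnv.IsHole GeEnv.hrad
      rw [hadj]
    · intro _
      unfold GeEnv.tagOf
      rw [hadj]

/-- sites of the core are far from the outer squares of the holes -/
theorem gec_hole_far (E : GeEnv Λ HI Ω ε δ) (lv : GeLvl PP) {own : Λ → PP} {A : PP}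
    (h : GeCentralHyp E lv own A) {a : HI} (ha : E.IsHole lv own a) {x e : Λ}
    (hx : geCore E.G lv.Nn (E.pt x)) (he : e ∈ (E.pat a).out) :
    3 * E.G ≤ 4 * dInf (E.pt x) (E.pt e) ∧
      (lv.Nn ≤ 64 * dInf (E.pt x) (E.pt e) ∨
        ∃ v ∈ geCorners lv.Nn, dInf (E.pt x) v ≤ 64 * dInf (E.pt x) (E.pt e)) := by
  obtain ⟨hn, hcand, h3, hrad, -⟩ := ha
  have hloc := h.large.loc
  have hm := h.large.m_eq
  have hG := hloc.G_pos
  have hN := hloc.Nn_ge
  have hfar : E.G ≤ dInf (E.pt x) (E.ctr a) := by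
    by_contra hlt
    have := (gec_adj E lv h A (E.ctr a) hn ⟨x, hx, by rw [hm]; omega⟩).1
    omega
  have he' := (E.mem_out a e).1 he
  have hr := gek_hrad_le E lv own (E.ctr a) (by rw [hm]; exact hG.le)
  rw [← hrad, hm] at hr
  have t1 := geb_dInf_tri (E.pt x) (E.pt e) (E.ctr a)
  obtain ⟨w, hw, hcw⟩ := hcand
  rw [hm] at hcw
  have t2 := geb_dInf_tri (E.pt x) (E.ctr a) w
  refine ⟨by omega, ?_⟩
  by_cases h0 : w ∈ geCorners lv.Nn
  · exact Or.inr ⟨w, h0, by omega⟩
  · left
    have := gec_far hloc (gec_core_inS hloc hx) hw h0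
    omega

/-- the information estimate of the central birth -/
theorem gec_info (E : GeEnv Λ HI Ω ε δ) (lv : GeLvl PP) {own : Λ → PP} {A : PP}
    (h : GeCentralHyp E lv own A) (H : Finset HI) (hH : ∀ a ∈ H, E.IsHole lv own a) :
    minfo (io := fun _ : Λ => Fin q) (pureOp Ω) (E.coreS lv.Nn)
      ((univ.filter fun x => own x ≠ A) ∪ frOut E.pat H) ≤ δ ∧
    Disjoint (E.coreS lv.Nn) (frOut E.pat H) := by
  have hloc := h.large.loc
  have hG := hloc.G_pos
  have hNn := hloc.Nn_ge
  have key : ∀ x ∈ E.coreS lv.Nn,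
      ∀ e ∈ (univ.filter fun x => own x ≠ A) ∪ frOut E.pat H,
      E.G ≤ 16 * dInf (E.pt x) (E.pt e) ∧
      (lv.Nn ≤ 64 * dInf (E.pt x) (E.pt e) ∨
        ∃ v ∈ geCorners lv.Nn, dInf (E.pt x) v ≤ 64 * dInf (E.pt x) (E.pt e)) := by
    intro x hx e he
    rw [gec_mem_coreS] at hx
    rcases Finset.mem_union.1 he with he | he
    · simp only [Finset.mem_filter, Finset.mem_univ, true_and] at he
      obtain ⟨a1, v, hv, a2⟩ := gec_core_out hloc hx (z := E.pt e) fun hin => he (h.inS e hin)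
      exact ⟨by omega, Or.inr ⟨v, hv, by omega⟩⟩
    · obtain ⟨a, haH, hea⟩ := Finset.mem_biUnion.1 he
      obtain ⟨a1, a2⟩ := gec_hole_far E lv h (hH a haH) hx hea
      exact ⟨by omega, a2⟩
  constructor
  · refine E.ang (geCorners lv.Nn) _ _ lv.Nn (gec_corners_card _)
      (by omega) h.large.le_max ?_ (fun x hx e he => (key x hx e he).1)
      (fun x hx e he => (key x hx e he).2)
    intro x hx y hy
    rw [gec_mem_coreS] at hx hy
    have := gec_diam (gec_core_inS hloc hx) (gec_core_inS hloc hy)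
    omega
  · rw [Finset.disjoint_left]
    intro x hx hx'
    obtain ⟨a, haH, hea⟩ := Finset.mem_biUnion.1 hx'
    rw [gec_mem_coreS] at hx
    have := (gec_hole_far E lv h (hH a haH) hx hea).1
    have h0 : dInf (E.pt x) (E.pt x) = 0 := by simp [dInf]
    omega

/-- **the central birth** -/
theorem ge_central (E : GeEnv Λ HI Ω ε δ) (lv : GeLvl PP) (s : SH) {own : Λ → PP} {A : PP}
    (h : GeCentralHyp E lv own A) (B : PP) (m0 h0 b : ℕ) (st : FrState PP SH Λ HI)
    (hst : E.Rule lv st s own) :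
    (FrOp.birth s (E.coreS lv.Nn) A B).Ok E.pat δ m0 h0 b st ∧
      E.Rule lv ((FrOp.birth s (E.coreS lv.Nn) A B).next E.pat st) s (E.updC lv.Nn own B) := by
  obtain ⟨r1, r2, r3⟩ := hst
  obtain ⟨i1, i2⟩ := gec_info E lv h (st.hs s) fun a ha => (r2 a).1 ha
  have hloc := h.large.loc
  constructor
  · refine ⟨?_, i2, ?_⟩
    · intro x hx
      rw [r1]
      exact h.inS x (gec_core_inS hloc ((gec_mem_coreS E _ x).1 hx))
    · have e : (univ.filter fun x => st.ow s x ≠ A) = univ.filter fun x => own x ≠ A := by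
        ext x
        simp only [Finset.mem_filter, Finset.mem_univ, true_and, r1]
      rw [e]
      exact i1
  · refine ⟨?_, ?_, ?_⟩
    · intro x
      by_cases hx : geCore E.G lv.Nn (E.pt x)
      · simp [FrOp.next, FrState.ow, GeEnv.updC, hx, gec_mem_coreS]
      · have := r1 x
        simp only [FrState.ow] at this
        simp [FrOp.next, FrState.ow, GeEnv.updC, hx, gec_mem_coreS, this]
    · intro a
      rw [(gec_rule E lv h B a).1, ← r2 a]
      rfl
    · intro a ha
      rw [(gec_rule E lv h B a).1] at ha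
      rw [(gec_rule E lv h B a).2 ha, ← r3 a ha]
      rfl

end Claimed.Agent.R296
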