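import Claimed.Agent.R296.P2.GeoTrip
import Claimed.Agent.R296.GeoDefs

/-!
# Row 296, paper 2, Section 6: isometries of the fine grid, transport of the environment   (LEAF `P2-GE-ISO`, prefix `gei_`)

Owner: helper68.  `E.map φ hφ` = the same environment seen in the coordinates `φ.app`.  The patches, the states and the operations are
NOT changed: only `pt` and `ctr` are composed with `φ.app`.  All local lemmas (`GeoBulk`, `GeoStage`, `GeoEdge`, …) are applied to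
`E.map φ hφ`; the only transport lemma which is needed afterwards is `gei_rule` (the hole rule does not depend on the chart).
-/

set_option autoImplicit false
set_option linter.unusedSectionVars false

namespace Claimed.Agent.R296

open Finset

theorem gei_dInf (φ : GeIso) (p p' : ℤ × ℤ) : dInf (φ.app p) (φ.app p') = dInf p p' := by
  obtain ⟨sw, n1, n2, t⟩ := φ
  have h1 := (geo_dInf_le (x := p) (y := p') (r := dInf p p')).1 le_rfl
  apply le_antisymm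
  · rw [geo_dInf_le]
    cases sw <;> cases n1 <;> cases n2 <;> simp only [GeIso.app, if_true, if_false, Bool.false_eq_true] <;>
      omega
  · have h2 := fun (φ : GeIso) => (geo_dInf_le (x := φ.app p) (y := φ.app p')
      (r := dInf (φ.app p) (φ.app p'))).1 le_rfl
    rw [geo_dInf_le]
    have h3 := h2 ⟨sw, n1, n2, t⟩
    generalize dInf (GeIso.app ⟨sw, n1, n2, t⟩ p) (GeIso.app ⟨sw, n1, n2, t⟩ p') = r at h3 ⊢
    cases sw <;> cases n1 <;> cases n2 <;>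
      simp only [GeIso.app, if_true, if_false, Bool.false_eq_true] at h3 <;> omega

theorem gei_inv_app (φ : GeIso) (p : ℤ × ℤ) : φ.inv.app (φ.app p) = p := by
  obtain ⟨sw, n1, n2, t⟩ := φ
  cases sw <;> cases n1 <;> cases n2 <;> simp [GeIso.app, GeIso.inv]

theorem gei_app_inv (φ : GeIso) (p : ℤ × ℤ) : φ.app (φ.inv.app p) = p := by
  obtain ⟨sw, n1, n2, t⟩ := φ
  cases sw <;> cases n1 <;> cases n2 <;> simp [GeIso.app, GeIso.inv]

theorem gei_app_inj (φ : GeIso) : Function.Injective φ.app :=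
  Function.LeftInverse.injective (gei_inv_app φ)

theorem gei_dInf_inv (φ : GeIso) (p c : ℤ × ℤ) : dInf (φ.app p) c = dInf p (φ.inv.app c) := by
  conv_lhs => rw [← gei_app_inv φ c]
  exact gei_dInf φ _ _

/-- nodes go to nodes -/
theorem gei_node (φ : GeIso) {m : ℤ} (h : m ∣ φ.t.1 ∧ m ∣ φ.t.2) (c : ℤ × ℤ) :
    GeNode m (φ.app c) ↔ GeNode m c := by
  obtain ⟨sw, n1, n2, t⟩ := φ
  obtain ⟨⟨a, ha⟩, ⟨b, hb⟩⟩ := h
  simp only at ha hb
  unfold GeNode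
  cases sw <;> cases n1 <;> cases n2 <;>
    simp only [GeIso.app, if_true, if_false, Bool.false_eq_true, ha, hb, dvd_add_left (dvd_mul_right m _),
      dvd_neg] <;> tauto

/-- the translation part of the inverse -/
theorem gei_inv_t (φ : GeIso) {m : ℤ} (h : m ∣ φ.t.1 ∧ m ∣ φ.t.2) : m ∣ φ.inv.t.1 ∧ m ∣ φ.inv.t.2 := by
  obtain ⟨sw, n1, n2, t⟩ := φ
  obtain ⟨h1, h2⟩ := h
  simp only at h1 h2
  cases sw <;> cases n1 <;> cases n2 <;>
    simp only [GeIso.inv, if_true, if_false, Bool.false_eq_true, dvd_neg] <;> exact ⟨by assumption, by assumption⟩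

theorem gei_odd (φ : GeIso) (h : 256 ∣ φ.t.1 ∧ 256 ∣ φ.t.2) {p : ℤ × ℤ} (hp : p.1 % 256 = 128 ∧ p.2 % 256 = 128) :
    (φ.app p).1 % 256 = 128 ∧ (φ.app p).2 % 256 = 128 := by
  obtain ⟨sw, n1, n2, t⟩ := φ
  obtain ⟨⟨a, ha⟩, ⟨b, hb⟩⟩ := h
  simp only at ha hb
  cases sw <;> cases n1 <;> cases n2 <;>
    simp only [GeIso.app, if_true, if_false, Bool.false_eq_true] <;> omega

theorem gei_div_neg {m a : ℤ} (hm : 0 < m) (h : ¬ m ∣ a) : (-a) / m = -(a / m) - 1 := by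
  have h1 := Int.emod_add_mul_ediv a m
  have h2 := Int.emod_nonneg a hm.ne'
  have h3 := Int.emod_lt_of_pos a hm
  have h4 : a % m ≠ 0 := fun h0 => h (Int.dvd_of_emod_eq_zero h0)
  have h5 : m * (-(a / m) - 1) = -(m * (a / m)) - m := by ring
  exact ((Int.ediv_emod_unique (r := m - a % m) hm).2 ⟨by omega, by omega, by omega⟩).1

theorem gei_div_add {m a t : ℤ} (ht : m ∣ t) : (a + t) / m = a / m + t / m :=
  Int.add_ediv_of_dvd_right ht

/-- cells go to cells (for points which are not on grid lines) -/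
theorem gei_sameCell (φ : GeIso) {m : ℤ} (hm : 0 < m) (h : m ∣ φ.t.1 ∧ m ∣ φ.t.2) {p p' : ℤ × ℤ}
    (hp : ¬ m ∣ p.1 ∧ ¬ m ∣ p.2) (hp' : ¬ m ∣ p'.1 ∧ ¬ m ∣ p'.2) :
    GeSameCell m (φ.app p) (φ.app p') ↔ GeSameCell m p p' := by
  obtain ⟨sw, n1, n2, t⟩ := φ
  obtain ⟨h1, h2⟩ := h
  simp only at h1 h2
  unfold GeSameCell
  cases sw <;> cases n1 <;> cases n2 <;>
    simp only [GeIso.app, if_true, if_false, Bool.false_eq_true, gei_div_add h1, gei_div_add h2,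
      gei_div_neg hm hp.1, gei_div_neg hm hp.2, gei_div_neg hm hp'.1, gei_div_neg hm hp'.2] <;>
    constructor <;> rintro ⟨a, b⟩ <;> constructor <;> omega

/-- a point with odd fine coordinates is off the lines of every mesh which is a multiple of `256` -/
theorem gei_off {m : ℤ} (hm : 256 ∣ m) {p : ℤ × ℤ} (h : p.1 % 256 = 128 ∧ p.2 % 256 = 128) :
    ¬ m ∣ p.1 ∧ ¬ m ∣ p.2 := by
  constructor
  · intro h1
    have := hm.trans h1
    omega
  · intro h1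
    have := hm.trans h1
    omega

variable {Λ HI PP SH : Type} [Fintype Λ] [DecidableEq Λ] [Fintype HI] [DecidableEq HI]
  [DecidableEq PP] [DecidableEq SH] {q : ℕ} {Ω : (Λ → Fin q) → ℂ} {ε δ : ℝ}

theorem gei_conv (E : GeEnv Λ HI Ω ε δ) (φ : GeIso) (hφ : 256 ∣ φ.t.1 ∧ 256 ∣ φ.t.2) (x y : Λ) (p : ℤ × ℤ)
    (h1 : p.1 % 256 = 128) (h2 : p.2 % 256 = 128)
    (h3 : min (φ.app (E.pt x)).1 (φ.app (E.pt y)).1 ≤ p.1)
    (h4 : p.1 ≤ max (φ.app (E.pt x)).1 (φ.app (E.pt y)).1)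
    (h5 : min (φ.app (E.pt x)).2 (φ.app (E.pt y)).2 ≤ p.2)
    (h6 : p.2 ≤ max (φ.app (E.pt x)).2 (φ.app (E.pt y)).2) : ∃ z, φ.app (E.pt z) = p := by
  have hodd := gei_odd φ.inv (gei_inv_t φ hφ) (p := p) ⟨h1, h2⟩
  have key : ∃ z, E.pt z = φ.inv.app p := by
    refine E.conv x y (φ.inv.app p) hodd.1 hodd.2 ?_ ?_ ?_ ?_ <;>
    · obtain ⟨sw, n1, n2, t⟩ := φ
      revert h3 h4 h5 h6
      cases sw <;> cases n1 <;> cases n2 <;>
        simp only [GeIso.app, GeIso.inv, if_true, if_false, Bool.false_eq_true] <;> omega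
  obtain ⟨z, hz⟩ := key
  exact ⟨z, by rw [hz, gei_app_inv]⟩

theorem gei_surj (E : GeEnv Λ HI Ω ε δ) (φ : GeIso) (c : ℤ × ℤ) (r : ℤ) (x : Λ)
    (h1 : dInf (φ.app (E.pt x)) c ≤ 2 * E.G) (h2 : 0 < r) (h3 : 8 * r ≤ E.G) :
    ∃ a, φ.app (E.ctr a) = c ∧ E.rad a = r := by
  rw [gei_dInf_inv] at h1
  obtain ⟨a, ha, hr⟩ := E.surj (φ.inv.app c) r x h1 h2 h3
  exact ⟨a, by rw [ha, gei_app_inv], hr⟩

theorem gei_ang (E : GeEnv Λ HI Ω ε δ) (φ : GeIso) (VV : Finset (ℤ × ℤ)) (X F : Finset Λ) (n : ℤ)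
    (h1 : VV.card ≤ 4) (h2 : 4 * E.G ≤ n) (h3 : n ≤ E.nmax)
    (h4 : ∀ x ∈ X, ∀ y ∈ X, dInf (φ.app (E.pt x)) (φ.app (E.pt y)) ≤ 4 * n)
    (h5 : ∀ x ∈ X, ∀ e ∈ F, E.G ≤ 16 * dInf (φ.app (E.pt x)) (φ.app (E.pt e)))
    (h6 : ∀ x ∈ X, ∀ e ∈ F, n ≤ 64 * dInf (φ.app (E.pt x)) (φ.app (E.pt e)) ∨
      ∃ v ∈ VV, dInf (φ.app (E.pt x)) v ≤ 64 * dInf (φ.app (E.pt x)) (φ.app (E.pt e))) :
    minfo (io := fun _ : Λ => Fin q) (pureOp Ω) X F ≤ δ := by
  refine E.ang (VV.image φ.inv.app) X F n (card_image_le.trans h1) h2 h3 ?_ ?_ ?_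
  · intro x hx y hy
    have := h4 x hx y hy
    rwa [gei_dInf] at this
  · intro x hx e he
    have := h5 x hx e he
    rwa [gei_dInf] at this
  · intro x hx e he
    have := h6 x hx e he
    rw [gei_dInf] at this
    rcases this with h | ⟨v, hv, h⟩
    · exact Or.inl h
    · exact Or.inr ⟨φ.inv.app v, mem_image_of_mem _ hv, by rwa [← gei_dInf_inv]⟩

/-- the environment in the chart `φ` -/
def GeEnv.map (E : GeEnv Λ HI Ω ε δ) (φ : GeIso) (hφ : 256 ∣ φ.t.1 ∧ 256 ∣ φ.t.2) : GeEnv Λ HI Ω ε δ where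
  pt x := φ.app (E.pt x)
  pat := E.pat
  ctr a := φ.app (E.ctr a)
  rad := E.rad
  G := E.G
  nmax := E.nmax
  pt_inj := (gei_app_inj φ).comp E.pt_inj
  odd x := gei_odd φ hφ (E.odd x)
  conv := gei_conv E φ hφ
  mem_inn a x := by rw [gei_dInf]; exact E.mem_inn a x
  mem_out a x := by rw [gei_dInf]; exact E.mem_out a x
  inj a a' h h' := E.inj a a' (gei_app_inj φ h) h'
  surj := gei_surj E φ
  ang := gei_ang E φ

section Inv

variable (E : GeEnv Λ HI Ω ε δ) (φ : GeIso) (hφ : 256 ∣ φ.t.1 ∧ 256 ∣ φ.t.2) (lv : GeLvl PP)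

@[simp] theorem gei_map_pt (x : Λ) : (E.map φ hφ).pt x = φ.app (E.pt x) := rfl
@[simp] theorem gei_map_ctr (a : HI) : (E.map φ hφ).ctr a = φ.app (E.ctr a) := rfl
@[simp] theorem gei_map_rad (a : HI) : (E.map φ hφ).rad a = E.rad a := rfl
@[simp] theorem gei_map_pat : (E.map φ hφ).pat = E.pat := rfl
@[simp] theorem gei_map_G : (E.map φ hφ).G = E.G := rfl
@[simp] theorem gei_map_nmax : (E.map φ hφ).nmax = E.nmax := rfl

theorem gei_fsq (c : ℤ × ℤ) (r : ℤ) : (E.map φ hφ).fsq (φ.app c) r = E.fsq c r := by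
  unfold GeEnv.fsq
  simp only [gei_map_pt, gei_dInf]

theorem gei_adj (own : Λ → PP) (c : ℤ × ℤ) : (E.map φ hφ).adj lv own (φ.app c) = E.adj lv own c := by
  unfold GeEnv.adj
  simp only [gei_map_pt, gei_dInf]

theorem gei_hrad (own : Λ → PP) (c : ℤ × ℤ) :
    (E.map φ hφ).hrad lv own (φ.app c) = E.hrad lv own c := by
  unfold GeEnv.hrad
  simp only [gei_adj]

theorem gei_cand (h : lv.Nn ∣ φ.t.1 ∧ lv.Nn ∣ φ.t.2) (c : ℤ × ℤ) : lv.Cand (φ.app c) ↔ lv.Cand c := by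
  unfold GeLvl.Cand
  constructor
  · rintro ⟨w, hw, hd⟩
    refine ⟨φ.inv.app w, (gei_node φ.inv (gei_inv_t φ h) w).2 hw, ?_⟩
    rwa [← gei_dInf_inv]
  · rintro ⟨w, hw, hd⟩
    exact ⟨φ.app w, (gei_node φ h w).2 hw, by rwa [gei_dInf]⟩

theorem gei_isHole (hN : lv.Nn ∣ φ.t.1 ∧ lv.Nn ∣ φ.t.2) (hm : lv.m ∣ lv.Nn) (own : Λ → PP) (a : HI) :
    (E.map φ hφ).IsHole lv own a ↔ E.IsHole lv own a := by
  unfold GeEnv.IsHole
  simp only [gei_map_ctr, gei_map_rad, gei_map_pat, gei_adj, gei_hrad, gei_cand φ lv hN,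
    gei_node φ ⟨hm.trans hN.1, hm.trans hN.2⟩]

theorem gei_tagOf (own : Λ → PP) (c : ℤ × ℤ) : (E.map φ hφ).tagOf lv own (φ.app c) = E.tagOf lv own c := by
  unfold GeEnv.tagOf
  simp only [gei_adj]

/-- **the hole rule does not depend on the chart** -/
theorem gei_rule (hN : lv.Nn ∣ φ.t.1 ∧ lv.Nn ∣ φ.t.2) (hm : lv.m ∣ lv.Nn) (st : FrState PP SH Λ HI) (s : SH)
    (own : Λ → PP) : (E.map φ hφ).Rule lv st s own ↔ E.Rule lv st s own := by
  unfold GeEnv.Rule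
  simp only [gei_isHole E φ hφ lv hN hm, gei_map_ctr, gei_tagOf]

theorem gei_holesIn (hN : lv.Nn ∣ φ.t.1 ∧ lv.Nn ∣ φ.t.2) (hm : lv.m ∣ lv.Nn) (own : Λ → PP)
    (w0 : ℤ × ℤ) (ρ : ℤ) : (E.map φ hφ).holesIn lv own (φ.app w0) ρ = E.holesIn lv own w0 ρ := by
  classical
  unfold GeEnv.holesIn
  ext a
  rw [mem_filter, mem_filter, gei_isHole E φ hφ lv hN hm, gei_map_ctr, gei_dInf]

theorem gei_net (hN : lv.Nn ∣ φ.t.1 ∧ lv.Nn ∣ φ.t.2) (hm : lv.m ∣ lv.Nn) (h64 : 64 ∣ lv.m)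
    (w0 : ℤ × ℤ) (ρ : ℤ) : (E.map φ hφ).net lv (φ.app w0) ρ = E.net lv w0 ρ := by
  have hu : lv.m / 64 ∣ lv.Nn := (Int.ediv_dvd_of_dvd h64).trans hm
  have := fun c => gei_node φ (m := lv.m / 64) ⟨hu.trans hN.1, hu.trans hN.2⟩ c
  unfold GeNode at this
  unfold GeEnv.net
  simp only [gei_map_ctr, gei_map_rad, gei_dInf, this]

/-- the rewrite operation does not depend on the chart -/
theorem gei_rwOp (hN : lv.Nn ∣ φ.t.1 ∧ lv.Nn ∣ φ.t.2) (hm : lv.m ∣ lv.Nn) (h64 : 64 ∣ lv.m) (s : SH)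
    (own own' : Λ → PP) (w0 : ℤ × ℤ) (ρ : ℤ) (A : Finset PP) :
    (E.map φ hφ).rwOp lv s own own' (φ.app w0) ρ A = E.rwOp lv s own own' w0 ρ A := by
  unfold GeEnv.rwOp
  simp only [gei_holesIn E φ hφ lv hN hm, gei_net E φ hφ lv hN hm h64, gei_map_ctr, gei_tagOf]

/-- sites: same cell in the chart iff same cell -/
theorem gei_sameCell_pt {m : ℤ} (hm : 0 < m) (h256 : 256 ∣ m) (hm' : m ∣ φ.t.1 ∧ m ∣ φ.t.2) (x y : Λ) :
    GeSameCell m ((E.map φ hφ).pt x) ((E.map φ hφ).pt y) ↔ GeSameCell m (E.pt x) (E.pt y) :=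
  gei_sameCell φ hm hm' (gei_off h256 (E.odd x)) (gei_off h256 (E.odd y))

end Inv

end Claimed.Agent.R296
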