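import Claimed.Agent.R296.P2.GeoPar

/-!
# Row 296, paper 2, Section 6.7: routing (auxiliary lemmas of the leaf `P2-GE-ROUTE`, prefix `geoA_`)

Pure combinatorics of dyadic squares.
-/

set_option autoImplicit false

namespace Claimed.Agent.R296

open Finset Claims.C0474

/-! ### powers of two, anchors, lines -/

theorem geoA_pow_pos (j : ℕ) : (0 : ℤ) < 2 ^ j := by positivity

theorem geoA_pow_split {J j : ℕ} (hj : j ≤ J) : (2 : ℤ) ^ J = 2 ^ j * 2 ^ (J - j) := by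
  rw [← pow_add]; congr 1; omega

theorem geoA_mem_skel {J j : ℕ} {σ p : ℤ × ℤ} :
    p ∈ geSkel J j σ ↔ (0 ≤ p.1 ∧ p.1 < 2 ^ J) ∧ (0 ≤ p.2 ∧ p.2 < 2 ^ J) ∧
      dInf p (geAnchor j σ) ≤ 2 * 2 ^ j ∧ (GeLine j p.1 ∨ GeLine j p.2) := by
  simp only [geSkel, mem_filter, mem_product, mem_Ico, and_assoc]

theorem geoA_dInf_le {p a : ℤ × ℤ} {r : ℤ} :
    dInf p a ≤ r ↔ (|p.1 - a.1| ≤ r ∧ |p.2 - a.2| ≤ r) := by
  simp only [dInf, max_le_iff]

/-- range of an anchor coordinate -/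
theorem geoA_anchor_range {J j : ℕ} (hj : j ≤ J) {s : ℤ} (h0 : 0 ≤ s) (h1 : s < 2 ^ (J - j)) :
    0 ≤ 2 ^ j * s + 2 ^ j / 2 ∧ 2 ^ j * s + 2 ^ j / 2 < (2 : ℤ) ^ J := by
  have hA := geoA_pow_pos j
  rw [geoA_pow_split hj]
  generalize (2 : ℤ) ^ j = A at *
  generalize (2 : ℤ) ^ (J - j) = B at *
  have h2 : A * (s + 1) ≤ A * B := mul_le_mul_of_nonneg_left (by omega) hA.le
  have h3 : 0 ≤ A * s := mul_nonneg hA.le h0
  have h4 : A * (s + 1) = A * s + A := by ring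
  constructor <;> omega

theorem geoA_line_anchor (j : ℕ) (s : ℤ) : GeLine j (2 ^ j * s + 2 ^ j / 2) := by
  left
  have hA := geoA_pow_pos j
  rw [add_comm, Int.add_mul_emod_self_left]
  exact Int.emod_eq_of_lt (by omega) (by omega)

theorem geoA_line_parent (j : ℕ) (s : ℤ) : GeLine j (2 ^ (j + 1) * s + 2 ^ (j + 1) / 2) := by
  right
  have hA := geoA_pow_pos j
  have h2 : (2 : ℤ) ^ (j + 1) = 2 * 2 ^ j := by ring
  rw [add_comm, Int.add_mul_emod_self_left, h2]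
  have h3 : (2 * (2 : ℤ) ^ j) / 2 = 2 ^ j := by omega
  rw [h3]
  exact Int.emod_eq_of_lt (by omega) (by omega)

theorem geoA_anchor_mem {J j : ℕ} {σ : ℤ × ℤ} (hj : j ≤ J) (h : GeInR J j σ) :
    geAnchor j σ ∈ geSkel J j σ := by
  obtain ⟨h1, h2, h3, h4⟩ := h
  rw [geoA_mem_skel]
  refine ⟨geoA_anchor_range hj h1 h2, geoA_anchor_range hj h3 h4, ?_, Or.inl (geoA_line_anchor j _)⟩
  have hA := geoA_pow_pos j
  rw [geoA_dInf_le]
  simp only [sub_self, abs_zero]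
  constructor <;> omega

theorem geoA_car_nonempty (L J : ℕ) [NeZero L] {j : ℕ} {σ : ℤ × ℤ} (hj : j < J) (h : GeInR J j σ) :
    (geCar L J j σ).Nonempty :=
  ⟨_, mem_image_of_mem _ (geoA_anchor_mem hj.le h)⟩

/-- the anchors of the squares of the block are in the skeleton -/
theorem geoA_block_mem {J j : ℕ} {σ τ : ℤ × ℤ} (hj : j ≤ J) (hτ : τ ∈ geBlock J j σ) :
    geAnchor j τ ∈ geSkel J j σ := by
  simp only [geBlock, mem_filter, mem_product, mem_Icc] at hτ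
  obtain ⟨⟨⟨a1, a2⟩, b1, b2⟩, h1, h2, h3, h4⟩ := hτ
  rw [geoA_mem_skel]
  refine ⟨geoA_anchor_range hj h1 h2, geoA_anchor_range hj h3 h4, ?_, Or.inl (geoA_line_anchor j _)⟩
  have hA := geoA_pow_pos j
  rw [geoA_dInf_le]
  simp only [geAnchor]
  generalize (2 : ℤ) ^ j = A at *
  have e1 : A * τ.1 + A / 2 - (A * σ.1 + A / 2) = A * (τ.1 - σ.1) := by ring
  have e2 : A * τ.2 + A / 2 - (A * σ.2 + A / 2) = A * (τ.2 - σ.2) := by ring
  rw [e1, e2, abs_mul, abs_mul, abs_of_pos hA]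
  have c1 : |τ.1 - σ.1| ≤ 1 := abs_le.2 ⟨by omega, by omega⟩
  have c2 : |τ.2 - σ.2| ≤ 1 := abs_le.2 ⟨by omega, by omega⟩
  constructor <;> nlinarith

/-- the anchors of the parents of the squares of the block are in the skeleton -/
theorem geoA_parent_mem {J j : ℕ} {σ τ : ℤ × ℤ} (hj : j < J) (hτ : τ ∈ geBlock J j σ) :
    geAnchor (j + 1) (gePar τ) ∈ geSkel J j σ := by
  simp only [geBlock, mem_filter, mem_product, mem_Icc] at hτ
  obtain ⟨⟨⟨a1, a2⟩, b1, b2⟩, h1, h2, h3, h4⟩ := hτ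
  have hs : (2 : ℤ) ^ (J - j) = 2 * 2 ^ (J - (j + 1)) := by
    rw [← pow_succ']; congr 1; omega
  rw [geoA_mem_skel]
  refine ⟨geoA_anchor_range (by omega) (s := τ.1 / 2) (by omega) (by omega),
    geoA_anchor_range (by omega) (s := τ.2 / 2) (by omega) (by omega), ?_,
    Or.inl (geoA_line_parent j _)⟩
  have hA := geoA_pow_pos j
  rw [geoA_dInf_le]
  simp only [geAnchor, gePar]
  have h2' : (2 : ℤ) ^ (j + 1) = 2 * 2 ^ j := by ring
  rw [h2']
  generalize (2 : ℤ) ^ j = A at *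
  have h3' : (2 * A) / 2 = A := by omega
  rw [h3']
  have key : ∀ t s : ℤ, s - 1 ≤ t → t ≤ s + 1 → |2 * A * (t / 2) + A - (A * s + A / 2)| ≤ 2 * A := by
    intro t s l1 l2
    obtain ⟨r, hr0, hr1, hr⟩ : ∃ r : ℤ, 0 ≤ r ∧ r ≤ 1 ∧ t = 2 * (t / 2) + r := ⟨t % 2, by omega, by omega, by omega⟩
    obtain ⟨d, hd0, hd1, hd⟩ : ∃ d : ℤ, -1 ≤ d ∧ d ≤ 1 ∧ t = s + d := ⟨t - s, by omega, by omega, by omega⟩
    have e : 2 * A * (t / 2) = A * s + A * (d - r) := by
      have : 2 * (t / 2) = s + (d - r) := by omega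
      calc 2 * A * (t / 2) = A * (2 * (t / 2)) := by ring
        _ = A * (s + (d - r)) := by rw [this]
        _ = _ := by ring
    rw [e]
    have u1 : A * (d - r) ≤ A * 1 := mul_le_mul_of_nonneg_left (by omega) hA.le
    have u2 : A * (-2) ≤ A * (d - r) := mul_le_mul_of_nonneg_left (by omega) hA.le
    rw [abs_le]
    constructor <;> omega
  exact ⟨key _ _ a1 a2, key _ _ b1 b2⟩

/-! ### the fold and grid steps -/

theorem geoA_fold1_lt {L : ℕ} {x : ℤ} (h0 : 0 ≤ x) (h1 : x < 2 * L) : geFold1 L x < L := by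
  unfold geFold1
  split_ifs <;> omega

theorem geoA_fold1_succ {L : ℕ} {x : ℤ} (h0 : 0 ≤ x) (h1 : x + 1 < 2 * L) :
    geFold1 L (x + 1) = geFold1 L x ∨ geFold1 L (x + 1) = geFold1 L x + 1 ∨
      geFold1 L (x + 1) + 1 = geFold1 L x := by
  unfold geFold1
  split_ifs <;> omega

theorem geoA_fold_fst {L : ℕ} [NeZero L] {p : ℤ × ℤ} (h0 : 0 ≤ p.1) (h1 : p.1 < 2 * L) :
    ((geFold L p).1 : ℕ) = geFold1 L p.1 := by
  simp only [geFold, Fin.val_ofNat]
  exact Nat.mod_eq_of_lt (geoA_fold1_lt h0 h1)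

theorem geoA_fold_snd {L : ℕ} [NeZero L] {p : ℤ × ℤ} (h0 : 0 ≤ p.2) (h1 : p.2 < 2 * L) :
    ((geFold L p).2 : ℕ) = geFold1 L p.2 := by
  simp only [geFold, Fin.val_ofNat]
  exact Nat.mod_eq_of_lt (geoA_fold1_lt h0 h1)

theorem geoA_step_symm {L : ℕ} {S : Finset (GSite L)} {a b : GSite L} (h : AsmStep S a b) :
    AsmStep S b a := by
  obtain ⟨e, h1, h2, h3⟩ := h
  refine ⟨e, h1, h2, ?_⟩
  rcases h3 with ⟨x, y⟩ | ⟨x, y⟩
  · exact Or.inr ⟨y, x⟩
  · exact Or.inl ⟨y, x⟩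

theorem geoA_rel_symm {L : ℕ} {S : Finset (GSite L)} {a b : GSite L}
    (h : Relation.ReflTransGen (AsmStep S) a b) : Relation.ReflTransGen (AsmStep S) b a := by
  induction h with
  | refl => exact Relation.ReflTransGen.refl
  | tail _ h2 ih => exact Relation.ReflTransGen.head (geoA_step_symm h2) ih

theorem geoA_step_of {L : ℕ} {S : Finset (GSite L)} {a b : GSite L} (ha : a ∈ S) (hb : b ∈ S)
    (h1 : (a.1 : ℕ) ≤ b.1) (h2 : (a.2 : ℕ) ≤ b.2) (h3 : (a.1 : ℕ) + a.2 + 1 = (b.1 : ℕ) + b.2) :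
    AsmStep S a b :=
  ⟨⟨(a, b), h1, h2, h3⟩, ha, hb, Or.inl ⟨rfl, rfl⟩⟩

/-- neighbours or equal points are related -/
theorem geoA_rel_of {L : ℕ} {S : Finset (GSite L)} {a b : GSite L} (ha : a ∈ S) (hb : b ∈ S)
    (h : ((a.1 : ℕ) = b.1 ∧ ((b.2 : ℕ) = a.2 ∨ (b.2 : ℕ) = a.2 + 1 ∨ (b.2 : ℕ) + 1 = a.2)) ∨
      ((a.2 : ℕ) = b.2 ∧ ((b.1 : ℕ) = a.1 ∨ (b.1 : ℕ) = a.1 + 1 ∨ (b.1 : ℕ) + 1 = a.1))) :
    Relation.ReflTransGen (AsmStep S) a b := by
  rcases h with ⟨e, h | h | h⟩ | ⟨e, h | h | h⟩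
  · have : a = b := Prod.ext (Fin.ext e) (Fin.ext h.symm)
    rw [this]
  · exact Relation.ReflTransGen.single (geoA_step_of ha hb (by omega) (by omega) (by omega))
  · exact Relation.ReflTransGen.single
      (geoA_step_symm (geoA_step_of hb ha (by omega) (by omega) (by omega)))
  · have : a = b := Prod.ext (Fin.ext h.symm) (Fin.ext e)
    rw [this]
  · exact Relation.ReflTransGen.single (geoA_step_of ha hb (by omega) (by omega) (by omega))
  · exact Relation.ReflTransGen.single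
      (geoA_step_symm (geoA_step_of hb ha (by omega) (by omega) (by omega)))

/-- a segment in the first coordinate -/
theorem geoA_seg1 {L : ℕ} [NeZero L] {S : Finset (GSite L)} (c a : ℤ) (n : ℕ) (hc0 : 0 ≤ c)
    (hc1 : c < 2 * L) (ha0 : 0 ≤ a) (ha1 : a + n < 2 * L)
    (h : ∀ t, a ≤ t → t ≤ a + n → geFold L (t, c) ∈ S) :
    Relation.ReflTransGen (AsmStep S) (geFold L (a, c)) (geFold L (a + n, c)) := by
  induction n with
  | zero => simp only [Nat.cast_zero, add_zero]; exact Relation.ReflTransGen.refl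
  | succ n ih =>
    have ih' := ih (by push_cast at ha1; omega) (fun t h1 h2 => h t h1 (by push_cast; omega))
    refine ih'.trans ?_
    push_cast at ha1
    have e : a + ((n + 1 : ℕ) : ℤ) = a + n + 1 := by push_cast; ring
    rw [e]
    refine geoA_rel_of (h _ (by omega) (by push_cast; omega)) (h _ (by omega) (by push_cast; omega))
      (Or.inr ⟨?_, ?_⟩)
    · rw [geoA_fold_snd (p := (a + n, c)) hc0 hc1, geoA_fold_snd (p := (a + n + 1, c)) hc0 hc1]
    · rw [geoA_fold_fst (p := (a + n, c)) (by simp only; omega) (by simp only; omega),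
        geoA_fold_fst (p := (a + n + 1, c)) (by simp only; omega) (by simp only; omega)]
      exact geoA_fold1_succ (by omega) (by omega)

/-- a segment in the second coordinate -/
theorem geoA_seg2 {L : ℕ} [NeZero L] {S : Finset (GSite L)} (c a : ℤ) (n : ℕ) (hc0 : 0 ≤ c)
    (hc1 : c < 2 * L) (ha0 : 0 ≤ a) (ha1 : a + n < 2 * L)
    (h : ∀ t, a ≤ t → t ≤ a + n → geFold L (c, t) ∈ S) :
    Relation.ReflTransGen (AsmStep S) (geFold L (c, a)) (geFold L (c, a + n)) := by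
  induction n with
  | zero => simp only [Nat.cast_zero, add_zero]; exact Relation.ReflTransGen.refl
  | succ n ih =>
    have ih' := ih (by push_cast at ha1; omega) (fun t h1 h2 => h t h1 (by push_cast; omega))
    refine ih'.trans ?_
    push_cast at ha1
    have e : a + ((n + 1 : ℕ) : ℤ) = a + n + 1 := by push_cast; ring
    rw [e]
    refine geoA_rel_of (h _ (by omega) (by push_cast; omega)) (h _ (by omega) (by push_cast; omega))
      (Or.inl ⟨?_, ?_⟩)
    · rw [geoA_fold_fst (p := (c, a + n)) hc0 hc1, geoA_fold_fst (p := (c, a + n + 1)) hc0 hc1]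
    · rw [geoA_fold_snd (p := (c, a + n)) (by simp only; omega) (by simp only; omega),
        geoA_fold_snd (p := (c, a + n + 1)) (by simp only; omega) (by simp only; omega)]
      exact geoA_fold1_succ (by omega) (by omega)

theorem geoA_path1 {L : ℕ} [NeZero L] {S : Finset (GSite L)} (c x x' : ℤ) (hc0 : 0 ≤ c)
    (hc1 : c < 2 * L) (hx0 : 0 ≤ x) (hx1 : x < 2 * L) (hx0' : 0 ≤ x') (hx1' : x' < 2 * L)
    (h : ∀ t, min x x' ≤ t → t ≤ max x x' → geFold L (t, c) ∈ S) :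
    Relation.ReflTransGen (AsmStep S) (geFold L (x, c)) (geFold L (x', c)) := by
  rcases le_total x x' with hle | hle
  · have := geoA_seg1 (S := S) c x (x' - x).toNat hc0 hc1 hx0 (by omega)
      (fun t h1 h2 => h t (by omega) (by omega))
    have e : x + ((x' - x).toNat : ℤ) = x' := by omega
    rwa [e] at this
  · have := geoA_seg1 (S := S) c x' (x - x').toNat hc0 hc1 hx0' (by omega)
      (fun t h1 h2 => h t (by omega) (by omega))
    have e : x' + ((x - x').toNat : ℤ) = x := by omega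
    rw [e] at this
    exact geoA_rel_symm this

theorem geoA_path2 {L : ℕ} [NeZero L] {S : Finset (GSite L)} (c x x' : ℤ) (hc0 : 0 ≤ c)
    (hc1 : c < 2 * L) (hx0 : 0 ≤ x) (hx1 : x < 2 * L) (hx0' : 0 ≤ x') (hx1' : x' < 2 * L)
    (h : ∀ t, min x x' ≤ t → t ≤ max x x' → geFold L (c, t) ∈ S) :
    Relation.ReflTransGen (AsmStep S) (geFold L (c, x)) (geFold L (c, x')) := by
  rcases le_total x x' with hle | hle
  · have := geoA_seg2 (S := S) c x (x' - x).toNat hc0 hc1 hx0 (by omega)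
      (fun t h1 h2 => h t (by omega) (by omega))
    have e : x + ((x' - x).toNat : ℤ) = x' := by omega
    rwa [e] at this
  · have := geoA_seg2 (S := S) c x' (x - x').toNat hc0 hc1 hx0' (by omega)
      (fun t h1 h2 => h t (by omega) (by omega))
    have e : x' + ((x - x').toNat : ℤ) = x := by omega
    rw [e] at this
    exact geoA_rel_symm this

/-- every point of the skeleton is connected with the anchor -/
theorem geoA_to_anchor (L J : ℕ) [NeZero L] (hJ' : 2 ^ J < 2 * L) {j : ℕ} {σ : ℤ × ℤ}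
    (hj : j < J) (h : GeInR J j σ) {p : ℤ × ℤ} (hp : p ∈ geSkel J j σ) :
    Relation.ReflTransGen (AsmStep (geCar L J j σ)) (geFold L p) (geFold L (geAnchor j σ)) := by
  have hJz : (2 : ℤ) ^ J < 2 * L := by exact_mod_cast hJ'
  have ha := geoA_anchor_mem hj.le h
  rw [geoA_mem_skel, geoA_dInf_le] at ha hp
  obtain ⟨⟨a1, a2⟩, ⟨a3, a4⟩, ⟨a5, a6⟩, -⟩ := ha
  obtain ⟨⟨p1, p2⟩, ⟨p3, p4⟩, ⟨p5, p6⟩, hl⟩ := hp
  have hl1 : GeLine j (geAnchor j σ).1 := geoA_line_anchor j _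
  have hl2 : GeLine j (geAnchor j σ).2 := geoA_line_anchor j _
  rw [abs_le] at a5 a6 p5 p6
  have hmem : ∀ q : ℤ × ℤ, min p.1 (geAnchor j σ).1 ≤ q.1 → q.1 ≤ max p.1 (geAnchor j σ).1 →
      min p.2 (geAnchor j σ).2 ≤ q.2 → q.2 ≤ max p.2 (geAnchor j σ).2 →
      (GeLine j q.1 ∨ GeLine j q.2) → geFold L q ∈ geCar L J j σ := by
    intro q q1 q2 q3 q4 ql
    refine mem_image_of_mem _ ?_
    rw [geoA_mem_skel, geoA_dInf_le, abs_le, abs_le]
    refine ⟨⟨by omega, by omega⟩, ⟨by omega, by omega⟩, ⟨⟨by omega, by omega⟩, by omega, by omega⟩, ql⟩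
  obtain ⟨x, y⟩ := p
  generalize geAnchor j σ = a at *
  obtain ⟨u, v⟩ := a
  simp only at *
  rcases hl with hl | hl
  · -- along the line `x`, then along the row of the anchor
    refine (geoA_path2 x y v p1 (by omega) p3 (by omega) a3 (by omega) ?_).trans
      (geoA_path1 v x u a3 (by omega) p1 (by omega) a1 (by omega) ?_)
    · intro t t1 t2
      exact hmem (x, t) (by simp only; omega) (by simp only; omega) t1 t2 (Or.inl hl)
    · intro t t1 t2
      exact hmem (t, v) t1 t2 (by simp only; omega) (by simp only; omega) (Or.inr hl2)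
  · refine (geoA_path1 y x u p3 (by omega) p1 (by omega) a1 (by omega) ?_).trans
      (geoA_path2 u y v a1 (by omega) p3 (by omega) a3 (by omega) ?_)
    · intro t t1 t2
      exact hmem (t, y) t1 t2 (by simp only; omega) (by simp only; omega) (Or.inr hl)
    · intro t t1 t2
      exact hmem (u, t) (by simp only; omega) (by simp only; omega) t1 t2 (Or.inl hl1)

theorem geoA_car_conn (L J : ℕ) [NeZero L] (hJ' : 2 ^ J < 2 * L) {j : ℕ} {σ : ℤ × ℤ}
    (hj : j < J) (h : GeInR J j σ) : AsmConn (geCar L J j σ) := by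
  intro x hx y hy
  obtain ⟨p, hp, rfl⟩ := mem_image.1 hx
  obtain ⟨q, hq, rfl⟩ := mem_image.1 hy
  exact (geoA_to_anchor L J hJ' hj h hp).trans (geoA_rel_symm (geoA_to_anchor L J hJ' hj h hq))

/-! ### congestion -/

/-- a line of the level `j` consists of multiples of `2 ^ (j - 1)` -/
theorem geoA_line_dvd {i j : ℕ} {x : ℤ} (hij : i + 2 ≤ j) (h : GeLine j x) : (2 : ℤ) ^ (i + 1) ∣ x := by
  obtain ⟨k, rfl⟩ : ∃ k, j = i + 1 + (k + 1) := ⟨j - i - 2, by omega⟩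
  have e1 : (2 : ℤ) ^ (i + 1 + (k + 1)) = 2 ^ (i + 1) * (2 * 2 ^ k) := by ring
  have e2 : (2 : ℤ) ^ (i + 1 + (k + 1) + 1) = 2 ^ (i + 1) * (4 * 2 ^ k) := by ring
  rcases h with h | h
  · rw [e1] at h
    have e3 : (2 : ℤ) ^ (i + 1) * (2 * 2 ^ k) / 2 = 2 ^ (i + 1) * 2 ^ k := by
      have : (2 : ℤ) ^ (i + 1) * (2 * 2 ^ k) = 2 * (2 ^ (i + 1) * 2 ^ k) := by ring
      rw [this]; omega
    rw [e3] at h
    have := Int.emod_add_mul_ediv x (2 ^ (i + 1) * (2 * 2 ^ k))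
    rw [h] at this
    rw [← this]
    exact Dvd.dvd.add (Dvd.intro _ rfl) (by rw [mul_assoc]; exact Dvd.intro _ rfl)
  · rw [e1, e2] at h
    have := Int.emod_add_mul_ediv x (2 ^ (i + 1) * (4 * 2 ^ k))
    rw [h] at this
    rw [← this]
    exact Dvd.dvd.add (Dvd.intro _ rfl) (by rw [mul_assoc]; exact Dvd.intro _ rfl)

theorem geoA_line_excl {i j : ℕ} {x : ℤ} (hi : 1 ≤ i) (hij : i + 2 ≤ j) (h : GeLine j x) :
    ¬ GeLine i x := by
  have hd := geoA_line_dvd hij h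
  obtain ⟨k, rfl⟩ : ∃ k, i = k + 1 := ⟨i - 1, by omega⟩
  have hA := geoA_pow_pos k
  intro h'
  rcases h' with h' | h'
  · have hd' : (2 : ℤ) ^ (k + 1) ∣ x := Dvd.dvd.trans ⟨2, by ring⟩ hd
    rw [Int.emod_eq_zero_of_dvd hd'] at h'
    have : (2 : ℤ) ^ (k + 1) = 2 * 2 ^ k := by ring
    rw [this] at h'
    omega
  · rw [Int.emod_eq_zero_of_dvd hd] at h'
    have := geoA_pow_pos (k + 1)
    omega

/-- at most three levels have a line through `x` -/
theorem geoA_levels (x : ℤ) : ∃ m : ℕ, ∀ j, GeLine j x → j = 0 ∨ j = m ∨ j = m + 1 := by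
  classical
  by_cases hex : ∃ j, 1 ≤ j ∧ GeLine j x
  · refine ⟨Nat.find hex, fun j hj => ?_⟩
    obtain ⟨m1, m2⟩ := Nat.find_spec hex
    by_cases h0 : j = 0
    · exact Or.inl h0
    · have h1 : Nat.find hex ≤ j := Nat.find_min' hex ⟨by omega, hj⟩
      by_cases h2 : Nat.find hex + 2 ≤ j
      · exact absurd m2 (geoA_line_excl m1 h2 hj)
      · omega
  · refine ⟨0, fun j hj => ?_⟩
    by_cases h0 : j = 0
    · exact Or.inl h0
    · exact absurd ⟨j, by omega, hj⟩ hex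

/-- the levels of a point -/
noncomputable def geoALv (J : ℕ) (p : ℤ × ℤ) : Finset ℕ :=
  (range J).filter fun j => GeLine j p.1 ∨ GeLine j p.2

theorem geoA_lv_card (J : ℕ) (p : ℤ × ℤ) : (geoALv J p).card ≤ 6 := by
  obtain ⟨m1, h1⟩ := geoA_levels p.1
  obtain ⟨m2, h2⟩ := geoA_levels p.2
  have hsub : geoALv J p ⊆ ({0, m1, m1 + 1} : Finset ℕ) ∪ {0, m2, m2 + 1} := by
    intro j hj
    simp only [geoALv, mem_filter] at hj
    simp only [mem_union, mem_insert, mem_singleton]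
    rcases hj.2 with h | h
    · exact Or.inl (h1 j h)
    · exact Or.inr (h2 j h)
  calc (geoALv J p).card ≤ _ := card_le_card hsub
    _ ≤ _ := card_union_le _ _
    _ ≤ 3 + 3 := Nat.add_le_add card_le_three card_le_three

/-- the preimages of a site under the fold -/
noncomputable def geoAPre {L : ℕ} (y : GSite L) : Finset (ℤ × ℤ) :=
  ({((y.1 : ℕ) : ℤ), 2 * (L : ℤ) - 1 - ((y.1 : ℕ) : ℤ)} : Finset ℤ) ×ˢ
    ({((y.2 : ℕ) : ℤ), 2 * (L : ℤ) - 1 - ((y.2 : ℕ) : ℤ)} : Finset ℤ)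

theorem geoA_pre_card {L : ℕ} (y : GSite L) : (geoAPre y).card ≤ 4 := by
  unfold geoAPre
  rw [card_product]
  exact Nat.mul_le_mul card_le_two card_le_two

theorem geoA_fold1_inv {L : ℕ} {x : ℤ} {n : ℕ} (h0 : 0 ≤ x) (h1 : x < 2 * L) (h : geFold1 L x = n) :
    x = n ∨ x = 2 * (L : ℤ) - 1 - n := by
  unfold geFold1 at h
  split_ifs at h <;> omega

theorem geoA_mem_pre {L : ℕ} [NeZero L] {y : GSite L} {p : ℤ × ℤ} (h0 : 0 ≤ p.1) (h1 : p.1 < 2 * L)
    (h2 : 0 ≤ p.2) (h3 : p.2 < 2 * L) (h : geFold L p = y) : p ∈ geoAPre y := by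
  subst h
  simp only [geoAPre, mem_product, mem_insert, mem_singleton]
  exact ⟨geoA_fold1_inv h0 h1 (geoA_fold_fst h0 h1).symm, geoA_fold1_inv h2 h3 (geoA_fold_snd h2 h3).symm⟩

/-- the window of the indices of a level whose anchors are near `p` -/
noncomputable def geoAWin (j : ℕ) (p : ℤ × ℤ) : Finset (ℤ × ℤ) :=
  Finset.Icc ((p.1 - 2 ^ j / 2) / 2 ^ j - 2) ((p.1 - 2 ^ j / 2) / 2 ^ j + 2) ×ˢ
    Finset.Icc ((p.2 - 2 ^ j / 2) / 2 ^ j - 2) ((p.2 - 2 ^ j / 2) / 2 ^ j + 2)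

theorem geoA_win_card (j : ℕ) (p : ℤ × ℤ) : (geoAWin j p).card = 25 := by
  unfold geoAWin
  rw [card_product, Int.card_Icc, Int.card_Icc]
  have e : ∀ c : ℤ, (c + 2 + 1 - (c - 2)).toNat = 5 := by intro c; omega
  rw [e, e]

theorem geoA_win_aux {A x s : ℤ} (hA : 0 < A) (h : |x - (A * s + A / 2)| ≤ 2 * A) :
    (x - A / 2) / A - 2 ≤ s ∧ s ≤ (x - A / 2) / A + 2 := by
  rw [abs_le] at h
  obtain ⟨h1, h2⟩ := h
  set u := x - A / 2 with hu
  have d1 : A * (u / A) ≤ u := Int.mul_ediv_self_le hA.ne'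
  have d2 : u < A * (u / A) + A := Int.lt_mul_ediv_self_add hA
  constructor
  · by_contra hc
    push Not at hc
    have : A * (s + 1) ≤ A * (u / A - 2) := mul_le_mul_of_nonneg_left (by omega) hA.le
    have e1 : A * (s + 1) = A * s + A := by ring
    have e2 : A * (u / A - 2) = A * (u / A) - 2 * A := by ring
    omega
  · by_contra hc
    push Not at hc
    have : A * (u / A + 3) ≤ A * s := mul_le_mul_of_nonneg_left (by omega) hA.le
    have e2 : A * (u / A + 3) = A * (u / A) + 3 * A := by ring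
    omega

theorem geoA_mem_win {j : ℕ} {p σ : ℤ × ℤ} (h : dInf p (geAnchor j σ) ≤ 2 * 2 ^ j) :
    σ ∈ geoAWin j p := by
  rw [geoA_dInf_le] at h
  simp only [geoAWin, mem_product, mem_Icc]
  exact ⟨geoA_win_aux (geoA_pow_pos j) h.1, geoA_win_aux (geoA_pow_pos j) h.2⟩

/-- the cover of the homes whose carrier contains `y` -/
noncomputable def geoACov {L : ℕ} (J : ℕ) (y : GSite L) : Finset (ℕ × (ℤ × ℤ)) :=
  (geoAPre y).biUnion fun p => (geoALv J p).biUnion fun j => (geoAWin j p).image fun σ => (j, σ)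

theorem geoA_cov_card {L : ℕ} (J : ℕ) (y : GSite L) : (geoACov J y).card ≤ 600 := by
  unfold geoACov
  calc _ ≤ (geoAPre y).card * (6 * 25) := by
        refine card_biUnion_le_card_mul _ _ _ fun p _ => ?_
        calc _ ≤ (geoALv J p).card * 25 := by
              refine card_biUnion_le_card_mul _ _ _ fun j _ => ?_
              exact card_image_le.trans (geoA_win_card j p).le
          _ ≤ 6 * 25 := Nat.mul_le_mul_right _ (geoA_lv_card J p)
    _ ≤ 4 * (6 * 25) := Nat.mul_le_mul_right _ (geoA_pre_card y)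
    _ = 600 := by norm_num

theorem geoA_mem_cov {L J : ℕ} [NeZero L] (hJ' : 2 ^ J < 2 * L) {y : GSite L} {h : ℕ × (ℤ × ℤ)}
    (h1 : h.1 < J) (h2 : y ∈ geCar L J h.1 h.2) : h ∈ geoACov J y := by
  have hJz : (2 : ℤ) ^ J < 2 * L := by exact_mod_cast hJ'
  obtain ⟨p, hp, rfl⟩ := mem_image.1 h2
  rw [geoA_mem_skel] at hp
  obtain ⟨⟨p1, p2⟩, ⟨p3, p4⟩, p5, hl⟩ := hp
  simp only [geoACov, mem_biUnion, mem_image]
  refine ⟨p, geoA_mem_pre p1 (by omega) p3 (by omega) rfl, h.1, ?_, h.2, geoA_mem_win p5, rfl⟩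
  simp only [geoALv, mem_filter, mem_range]
  exact ⟨h1, hl⟩

theorem geoA_car_cong {L J : ℕ} [NeZero L] (hJ' : 2 ^ J < 2 * L) (y : GSite L)
    (l : List (ℕ × (ℤ × ℤ))) (hl : l.Nodup) (hm : ∀ h ∈ l, h.1 < J ∧ y ∈ geCar L J h.1 h.2) :
    l.length ≤ 600 := by
  classical
  rw [← List.toFinset_card_of_nodup hl]
  refine (card_le_card ?_).trans (geoA_cov_card J y)
  intro h hh
  rw [List.mem_toFinset] at hh
  exact geoA_mem_cov hJ' (hm h hh).1 (hm h hh).2

end Claimed.Agent.R296
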