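import Claimed.Agent.R296.P2.GeoPar
import Claimed.Agent.R296.P2.GeoRouteA

/-!
# Row 296, paper 2, Section 6.7: labels, lifetimes, routing   (LEAVES `P2-GE-LAB`, `P2-GE-ROUTE`, prefix `geo_`)

Pure combinatorics of dyadic squares; no state, no operation, no paper.  Standing hypotheses: `L ≤ 2 ^ J < 2 L`.

`P2-GE-LAB`  : `geo_lab_inj`, `geo_sheet_inj`, `geo_pos_lab`, `geo_part_card`, `geo_part_count`, `geo_homes_*`, `geo_squares_*`.
`P2-GE-ROUTE`: `geo_car_nonempty`, `geo_car_conn`, `geo_car_part`, `geo_car_cong`.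

PROOFS.
* `geo_part_count`: by `geo_lab_inj` a valid label `(i, τ)` is in `gePart j σ` only if `j = i`, `σ` in the `3 × 3` block of `τ`
  (9 homes) or `j + 1 = i`, `σ` in the `3 × 3` block of one of the 4 children of `τ` (16 homes).
* `geo_car_conn`: the skeleton is (box) ∩ (union of full vertical and horizontal lines), and the lines through the anchor of `σ`
  belong to it: walk along the own line to the row/column of the anchor, then to the anchor.  `geFold1` maps neighbours to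
  neighbours or to the same point.
* `geo_car_cong` (VERTEX congestion): a site has at most 4 preimages in `[0, 2 ^ J)²` under the fold; for `x ≠ 0` the relation
  `GeLine j x` holds only for `j ∈ {0, v, v + 1}`, `v` the 2-adic valuation of `x` (if `x % 2 ^ j = 2 ^ (j - 1)` and `x % 2 ^ i = 2 ^ (i - 1)`
  with `1 ≤ i < j` then `2 ^ i ∣ x`, contradiction); for `x = 0` only for `j = 0`: at most 6 levels; on every level at most `5 × 5`
  anchors within `2 · 2 ^ j`.
-/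

set_option autoImplicit false

namespace Claimed.Agent.R296

open Finset

/-- valid labels -/
def GeValid (J j : ℕ) (σ : ℤ × ℤ) : Prop := j ≤ J ∧ GeInR J j σ

/-! ### auxiliary lemmas of `P2-GE-LAB` (helper2) -/

theorem geo_toNat_lt {J j : ℕ} {x : ℤ} (h0 : 0 ≤ x) (h1 : x < 2 ^ (J - j)) : x.toNat < 2 ^ J := by
  have h2 : (2 : ℤ) ^ (J - j) ≤ 2 ^ J := pow_le_pow_right₀ (by norm_num) (Nat.sub_le _ _)
  rw [Int.toNat_lt h0]
  push_cast
  linarith

theorem geo_ofNat_val {n k : ℕ} [NeZero n] (h : k < n) : ((Fin.ofNat n k : Fin n) : ℕ) = k := by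
  rw [Fin.val_ofNat, Nat.mod_eq_of_lt h]

theorem geo_ofNat_inj {n k k' : ℕ} [NeZero n] (h : k < n) (h' : k' < n)
    (he : (Fin.ofNat n k : Fin n) = Fin.ofNat n k') : k = k' := by
  have := congrArg Fin.val he
  rwa [geo_ofNat_val h, geo_ofNat_val h'] at this

theorem geo_lab_inj (L J : ℕ) {j j' : ℕ} {σ σ' : ℤ × ℤ} (h : GeValid J j σ) (h' : GeValid J j' σ')
    (he : geLab L J j σ = geLab L J j' σ') : j = j' ∧ σ = σ' := by
  obtain ⟨hj, a0, a1, b0, b1⟩ := h
  obtain ⟨hj', a0', a1', b0', b1'⟩ := h'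
  have A := geo_toNat_lt a0 a1
  have B := geo_toNat_lt b0 b1
  have A' := geo_toNat_lt a0' a1'
  have B' := geo_toNat_lt b0' b1'
  unfold geLab at he
  split_ifs at he with c c'
  · simp only [Sum.inl.injEq, Prod.mk.injEq, Fin.mk.injEq] at he
    refine ⟨c.1.trans c'.1.symm, Prod.ext ?_ ?_⟩ <;> omega
  · simp only [Sum.inr.injEq, Prod.mk.injEq] at he
    obtain ⟨e1, e2, e3⟩ := he
    have f1 := geo_ofNat_inj (by omega) (by omega) e1
    have f2 := geo_ofNat_inj A A' e2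
    have f3 := geo_ofNat_inj B B' e3
    refine ⟨f1, Prod.ext ?_ ?_⟩ <;> omega

theorem geo_sheet_inj (J : ℕ) {j j' : ℕ} {σ σ' : ℤ × ℤ} {e e' : Fin 4} (h : GeValid J j σ)
    (h' : GeValid J j' σ') (he : geSheet J j σ e = geSheet J j' σ' e') : j = j' ∧ σ = σ' ∧ e = e' := by
  obtain ⟨hj, a0, a1, b0, b1⟩ := h
  obtain ⟨hj', a0', a1', b0', b1'⟩ := h'
  have A := geo_toNat_lt a0 a1
  have B := geo_toNat_lt b0 b1
  have A' := geo_toNat_lt a0' a1'
  have B' := geo_toNat_lt b0' b1'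
  unfold geSheet at he
  simp only [Option.some.injEq, Prod.mk.injEq] at he
  obtain ⟨e1, ⟨e2, e3⟩, e4⟩ := he
  have f1 := geo_ofNat_inj (by omega) (by omega) e1
  have f2 := geo_ofNat_inj A A' e2
  have f3 := geo_ofNat_inj B B' e3
  refine ⟨f1, Prod.ext ?_ ?_, e4⟩ <;> omega

theorem geo_lab_site (L J : ℕ) (x : GSite L) :
    geLab L J 0 (((x.1 : ℕ) : ℤ), ((x.2 : ℕ) : ℤ)) = .inl x := by
  unfold geLab
  rw [dif_pos ⟨rfl, by simp, by simp⟩]
  simp

theorem geo_msh_lab (L J γ : ℕ) {j : ℕ} {σ : ℤ × ℤ} (h : GeValid J j σ) :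
    geMsh L J γ (geLab L J j σ) = geMesh γ j := by
  unfold geLab
  split_ifs with c
  · obtain ⟨c0, _, _⟩ := c
    subst c0
    rfl
  · simp only [geMsh]
    rw [geo_ofNat_val (by have := h.1; omega)]

theorem geo_par_valid {J j : ℕ} {σ : ℤ × ℤ} (hj : j < J) (h : GeInR J j σ) : GeValid J (j + 1) (gePar σ) := by
  obtain ⟨a0, a1, b0, b1⟩ := h
  have e : (2 : ℤ) ^ (J - j) = 2 * 2 ^ (J - (j + 1)) := by
    rw [← pow_succ']
    congr 1
    omega
  rw [e] at a1 b1
  refine ⟨hj, ?_, ?_, ?_, ?_⟩ <;> simp only [gePar] <;> omega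

theorem geo_pos_lab (L J : ℕ) [NeZero L] (hJ : L ≤ 2 ^ J) {j : ℕ} {σ : ℤ × ℤ} (h : GeValid J j σ) :
    gePos L J (geLab L J j σ) = geFold L (geAnchor j σ) := by
  obtain ⟨hj, a0, a1, b0, b1⟩ := h
  have A := geo_toNat_lt a0 a1
  have B := geo_toNat_lt b0 b1
  unfold geLab
  split_ifs with c
  · obtain ⟨c0, c1, c2⟩ := c
    subst c0
    have e : geAnchor 0 σ = σ := by
      unfold geAnchor
      refine Prod.ext ?_ ?_ <;> norm_num
    rw [e]
    simp only [gePos, geFold, geFold1]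
    rw [if_pos c1, if_pos c2]
    refine Prod.ext (Fin.ext ?_) (Fin.ext ?_)
    · exact (geo_ofNat_val c1).symm
    · exact (geo_ofNat_val c2).symm
  · simp only [gePos]
    rw [geo_ofNat_val (by omega), geo_ofNat_val A, geo_ofNat_val B, Int.toNat_of_nonneg a0,
      Int.toNat_of_nonneg b0]

theorem geo_block_card (J j : ℕ) (σ : ℤ × ℤ) : (geBlock J j σ).card ≤ 9 := by
  unfold geBlock
  refine (Finset.card_filter_le _ _).trans ?_
  rw [Finset.card_product, Int.card_Icc, Int.card_Icc]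
  have e1 : (σ.1 + 1 + 1 - (σ.1 - 1)).toNat = 3 := by omega
  have e2 : (σ.2 + 1 + 1 - (σ.2 - 1)).toNat = 3 := by omega
  rw [e1, e2]

theorem geo_part_card (L J j : ℕ) (σ : ℤ × ℤ) : (gePart L J j σ).card ≤ 18 := by
  unfold gePart
  have h := geo_block_card J j σ
  have h1 := Finset.card_image_le (s := geBlock J j σ) (f := geLab L J j)
  have h2 := Finset.card_image_le (s := geBlock J j σ) (f := fun τ => geLab L J (j + 1) (gePar τ))
  have h3 := Finset.card_union_le ((geBlock J j σ).image (geLab L J j))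
    ((geBlock J j σ).image fun τ => geLab L J (j + 1) (gePar τ))
  omega

/-- (the coercion in the definition of `geSquares` was elaborated as a monadic lift of the lists) -/
theorem geo_squares_eq (J j : ℕ) : geSquares J j
    = (List.range (2 ^ (J - j))).flatMap fun a : ℕ =>
        (List.range (2 ^ (J - j))).map fun b : ℕ => ((a : ℤ), (b : ℤ)) := by
  unfold geSquares
  simp only [bind_pure_comp, List.map_eq_map, List.flatMap_map, List.map_map]
  rfl

theorem geo_mem_squares (J j : ℕ) (σ : ℤ × ℤ) : σ ∈ geSquares J j ↔ GeInR J j σ := by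
  rw [geo_squares_eq]
  unfold GeInR
  simp only [List.mem_flatMap, List.mem_range, List.mem_map]
  constructor
  · rintro ⟨a, ha, b, hb, rfl⟩
    have ha' : ((a : ℕ) : ℤ) < 2 ^ (J - j) := by exact_mod_cast ha
    have hb' : ((b : ℕ) : ℤ) < 2 ^ (J - j) := by exact_mod_cast hb
    exact ⟨by positivity, ha', by positivity, hb'⟩
  · rintro ⟨a0, a1, b0, b1⟩
    refine ⟨σ.1.toNat, ?_, σ.2.toNat, ?_, ?_⟩
    · rw [Int.toNat_lt a0]
      exact_mod_cast a1
    · rw [Int.toNat_lt b0]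
      exact_mod_cast b1
    · rw [Int.toNat_of_nonneg a0, Int.toNat_of_nonneg b0]

theorem geo_squares_nodup (J j : ℕ) : (geSquares J j).Nodup := by
  rw [geo_squares_eq]
  rw [List.nodup_flatMap]
  refine ⟨fun a _ => ?_, ?_⟩
  · refine List.Nodup.map ?_ List.nodup_range
    intro b b' hbb
    simpa using hbb
  · refine List.Nodup.pairwise_of_forall_ne List.nodup_range ?_
    intro a _ a' _ haa
    simp only [Function.onFun, List.disjoint_left, List.mem_map, List.mem_range]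
    rintro p ⟨b, _, rfl⟩ ⟨b', _, hb'⟩
    apply haa
    simpa using (congrArg Prod.fst hb').symm

theorem geo_squares_length (J j : ℕ) : (geSquares J j).length = 2 ^ (J - j) * 2 ^ (J - j) := by
  rw [geo_squares_eq]
  simp [List.length_flatMap]

theorem geo_mem_homes (J : ℕ) (h : ℕ × (ℤ × ℤ)) : h ∈ geHomes J ↔ h.1 < J ∧ GeInR J h.1 h.2 := by
  unfold geHomes
  simp only [List.mem_flatMap, List.mem_reverse, List.mem_range, List.mem_map, geo_mem_squares]
  constructor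
  · rintro ⟨j, hj, σ, hσ, rfl⟩
    exact ⟨hj, hσ⟩
  · rintro ⟨hj, hσ⟩
    exact ⟨h.1, hj, h.2, hσ, rfl⟩

theorem geo_homes_nodup (J : ℕ) : (geHomes J).Nodup := by
  unfold geHomes
  rw [List.nodup_flatMap]
  refine ⟨fun j _ => ?_, ?_⟩
  · refine List.Nodup.map ?_ (geo_squares_nodup J j)
    intro σ σ' hσ
    exact (Prod.mk.inj hσ).2
  · refine List.Nodup.pairwise_of_forall_ne (List.nodup_reverse.2 List.nodup_range) ?_
    intro a _ a' _ haa
    simp only [Function.onFun, List.disjoint_left, List.mem_map]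
    rintro p ⟨b, _, rfl⟩ ⟨b', _, hb'⟩
    exact haa (congrArg Prod.fst hb').symm

theorem geo_homes_length (J : ℕ) : (geHomes J).length ≤ J * (2 ^ J * 2 ^ J) := by
  unfold geHomes
  rw [List.length_flatMap]
  have h : ∀ x ∈ (List.range J).reverse.map fun j => ((geSquares J j).map fun σ => (j, σ)).length,
      x ≤ 2 ^ J * 2 ^ J := by
    intro x hx
    simp only [List.mem_map, List.mem_reverse, List.mem_range, List.length_map] at hx
    obtain ⟨j, _, rfl⟩ := hx
    rw [geo_squares_length]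
    have : 2 ^ (J - j) ≤ 2 ^ J := Nat.pow_le_pow_right (by norm_num) (Nat.sub_le _ _)
    exact Nat.mul_le_mul this this
  have h2 := List.sum_le_card_nsmul _ _ h
  simpa using h2

/-- a participant of a home is a valid label of the same level near `σ`, or of the next level near `σ / 2` -/
theorem geo_part_mem (L J : ℕ) {j : ℕ} {σ : ℤ × ℤ} (hj : j < J) {P : APty L (GeAux J)}
    (hP : P ∈ gePart L J j σ) :
    ∃ (i : ℕ) (τ : ℤ × ℤ), GeValid J i τ ∧ geLab L J i τ = P ∧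
      ((i = j ∧ τ.1 - 1 ≤ σ.1 ∧ σ.1 ≤ τ.1 + 1 ∧ τ.2 - 1 ≤ σ.2 ∧ σ.2 ≤ τ.2 + 1) ∨
        (i = j + 1 ∧ 2 * τ.1 - 1 ≤ σ.1 ∧ σ.1 ≤ 2 * τ.1 + 2 ∧ 2 * τ.2 - 1 ≤ σ.2 ∧ σ.2 ≤ 2 * τ.2 + 2)) := by
  unfold gePart geBlock at hP
  simp only [mem_union, mem_image, mem_filter, mem_product, mem_Icc] at hP
  rcases hP with ⟨τ, ⟨⟨⟨a1, a2⟩, b1, b2⟩, hτ⟩, rfl⟩ | ⟨τ, ⟨⟨⟨a1, a2⟩, b1, b2⟩, hτ⟩, rfl⟩
  · exact ⟨j, τ, ⟨hj.le, hτ⟩, rfl, Or.inl ⟨rfl, by omega, by omega, by omega, by omega⟩⟩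
  · refine ⟨j + 1, gePar τ, geo_par_valid hj hτ, rfl, Or.inr ⟨rfl, ?_, ?_, ?_, ?_⟩⟩ <;>
      simp only [gePar] <;> omega

open scoped Classical in
/-- LIFETIMES: a party belongs to the participants of at most 25 homes -/
theorem geo_part_count (L J : ℕ) (P : APty L (GeAux J)) :
    ((geHomes J).filter fun h => P ∈ gePart L J h.1 h.2).length ≤ 25 := by
  set l := (geHomes J).filter fun h => P ∈ gePart L J h.1 h.2 with hl
  have hnd : l.Nodup := (geo_homes_nodup J).filter _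
  have hmem : ∀ h ∈ l, h.1 < J ∧ P ∈ gePart L J h.1 h.2 := by
    intro h hh
    rw [hl, List.mem_filter, geo_mem_homes] at hh
    exact ⟨hh.1.1, by simpa using hh.2⟩
  rcases List.eq_nil_or_concat l with h0 | ⟨l', h0, hl'⟩
  · rw [h0]
    simp
  have hh0 : h0 ∈ l := by rw [hl']; simp
  obtain ⟨i, τ, hv, hlab, -⟩ := geo_part_mem L J (hmem h0 hh0).1 (hmem h0 hh0).2
  set S : Finset (ℕ × (ℤ × ℤ)) :=
    ((Finset.Icc (τ.1 - 1) (τ.1 + 1)) ×ˢ (Finset.Icc (τ.2 - 1) (τ.2 + 1))).image (fun σ => (i, σ)) ∪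
    ((Finset.Icc (2 * τ.1 - 1) (2 * τ.1 + 2)) ×ˢ (Finset.Icc (2 * τ.2 - 1) (2 * τ.2 + 2))).image
      (fun σ => (i - 1, σ)) with hS
  have hsub : l.toFinset ⊆ S := by
    intro h hh
    rw [List.mem_toFinset] at hh
    obtain ⟨i', τ', hv', hlab', hc⟩ := geo_part_mem L J (hmem h hh).1 (hmem h hh).2
    obtain ⟨rfl, rfl⟩ := geo_lab_inj L J hv' hv (hlab'.trans hlab.symm)
    rw [hS, mem_union, mem_image, mem_image]
    rcases hc with ⟨e, c1, c2, c3, c4⟩ | ⟨e, c1, c2, c3, c4⟩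
    · refine Or.inl ⟨h.2, ?_, Prod.ext e rfl⟩
      rw [mem_product, mem_Icc, mem_Icc]
      exact ⟨⟨c1, c2⟩, c3, c4⟩
    · refine Or.inr ⟨h.2, ?_, Prod.ext (by simp only; omega) rfl⟩
      rw [mem_product, mem_Icc, mem_Icc]
      exact ⟨⟨c1, c2⟩, c3, c4⟩
  have hcard : S.card ≤ 25 := by
    refine (Finset.card_union_le _ _).trans ?_
    have h1 := Finset.card_image_le
      (s := (Finset.Icc (τ.1 - 1) (τ.1 + 1)) ×ˢ (Finset.Icc (τ.2 - 1) (τ.2 + 1)))
      (f := fun σ : ℤ × ℤ => (i, σ))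
    have h2 := Finset.card_image_le
      (s := (Finset.Icc (2 * τ.1 - 1) (2 * τ.1 + 2)) ×ˢ (Finset.Icc (2 * τ.2 - 1) (2 * τ.2 + 2)))
      (f := fun σ : ℤ × ℤ => (i - 1, σ))
    rw [Finset.card_product, Int.card_Icc, Int.card_Icc] at h1 h2
    have e1 : (τ.1 + 1 + 1 - (τ.1 - 1)).toNat = 3 := by omega
    have e2 : (τ.2 + 1 + 1 - (τ.2 - 1)).toNat = 3 := by omega
    have e3 : (2 * τ.1 + 2 + 1 - (2 * τ.1 - 1)).toNat = 4 := by omega
    have e4 : (2 * τ.2 + 2 + 1 - (2 * τ.2 - 1)).toNat = 4 := by omega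
    rw [e1, e2] at h1
    rw [e3, e4] at h2
    omega
  calc l.length = l.toFinset.card := (List.toFinset_card_of_nodup hnd).symm
    _ ≤ S.card := Finset.card_le_card hsub
    _ ≤ 25 := hcard

theorem geo_car_nonempty (L J : ℕ) [NeZero L] {j : ℕ} {σ : ℤ × ℤ} (hj : j < J) (h : GeInR J j σ) :
    (geCar L J j σ).Nonempty :=
  geoA_car_nonempty L J hj h

theorem geo_car_conn (L J : ℕ) [NeZero L] (hJ : L ≤ 2 ^ J) (hJ' : 2 ^ J < 2 * L) {j : ℕ} {σ : ℤ × ℤ}
    (hj : j < J) (h : GeInR J j σ) : AsmConn (geCar L J j σ) :=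
  geoA_car_conn L J hJ' hj h

theorem geo_car_part (L J : ℕ) [NeZero L] (hJ : L ≤ 2 ^ J) {j : ℕ} {σ : ℤ × ℤ} (hj : j < J)
    (h : GeInR J j σ) : ∀ P ∈ gePart L J j σ, gePos L J P ∈ geCar L J j σ := by
  intro P hP
  rcases mem_union.1 hP with hP | hP
  · obtain ⟨τ, hτ, rfl⟩ := mem_image.1 hP
    rw [geo_pos_lab L J hJ ⟨hj.le, (mem_filter.1 hτ).2⟩]
    exact mem_image_of_mem _ (geoA_block_mem hj.le hτ)
  · obtain ⟨τ, hτ, rfl⟩ := mem_image.1 hP
    rw [geo_pos_lab L J hJ (geo_par_valid hj (mem_filter.1 hτ).2)]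
    exact mem_image_of_mem _ (geoA_parent_mem hj hτ)

open scoped Classical in
/-- ROUTING: every site lies in the carriers of at most 600 homes -/
theorem geo_car_cong (L J : ℕ) [NeZero L] (hJ : L ≤ 2 ^ J) (hJ' : 2 ^ J < 2 * L) (y : GSite L) :
    ((geHomes J).filter fun h => y ∈ geCar L J h.1 h.2).length ≤ 600 := by
  refine geoA_car_cong hJ' y _ ((geo_homes_nodup J).filter _) fun h hh => ?_
  rw [List.mem_filter, decide_eq_true_eq] at hh
  exact ⟨((geo_mem_homes J h).1 hh.1).1, hh.2⟩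

end Claimed.Agent.R296
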