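import Claimed.Agent.R296.P2.GeoEdge
import Claimed.Agent.R296.P2.GeoIso
import Claimed.Agent.R296.P2.GeoRoute

/-!
# Row 296, paper 2, Section 6: base guides, repaint of a square, THE SCHEDULE   (DEFINITIONS, prefix `ge`)

Sites `GSite L`, parties `APty L (GeAux J)`, sheets `GeSh J` (`none` = main sheet).

* `geBaseLab j dn τ` : label of the square `τ` of the level `j` when the squares `dn` have been repainted:
                       `(j, τ)` if `τ ∈ dn`, otherwise the parent `(j + 1, gePar τ)`;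
* `E.base J j dn`    : the base guide (constant on the squares of the level `j`);
* `geEdgeIso j σ e`  : the chart which brings the edge `e` (0 bottom, 1 right, 2 top, 3 left) of the square `σ` to the standard position;
* `E.gu J j dn σ U`  : the guide `G(U)` during the repaint of `σ`: inside `σ` the old label `A` on the rows `< 1` of the unprocessed
                       edges `U`, the new label `B` elsewhere; outside `σ` the base guide;
* `E.core j σ`       : the set of the central birth (all four rows `≥ 1`);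
* `E.sqOps`          : repaint of a square: LARGE level (`γ + 8 ≤ j`): central birth + 4 × 24 operations; otherwise ONE rewrite;
* `E.hops`           : the schedule = list of (home, operation);   `geSt0` : the initial state.
-/

set_option autoImplicit false

namespace Claimed.Agent.R296

open Finset

/-- index of the square of the level `j` which contains the fine point `p` -/
def geSqOf (j : ℕ) (p : ℤ × ℤ) : ℤ × ℤ := (p.1 / geNn j, p.2 / geNn j)

/-- label of a square of the level `j` when the squares `dn` have been repainted -/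
def geBaseLab (L J j : ℕ) (dn : Finset (ℤ × ℤ)) (τ : ℤ × ℤ) : APty L (GeAux J) :=
  if τ ∈ dn then geLab L J j τ else geLab L J (j + 1) (gePar τ)

/-- the chart of the edge `e` of the square `σ` of the level `j` -/
def geEdgeIso (j : ℕ) (σ : ℤ × ℤ) (e : Fin 4) : GeIso :=
  match e with
  | 0 => ⟨false, false, false, (-(geNn j * σ.1), -(geNn j * σ.2))⟩
  | 1 => ⟨true, false, true, (-(geNn j * σ.2), geNn j * σ.1 + geNn j)⟩
  | 2 => ⟨false, true, true, (geNn j * σ.1 + geNn j, geNn j * σ.2 + geNn j)⟩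
  | 3 => ⟨true, true, false, (geNn j * σ.2 + geNn j, -(geNn j * σ.1))⟩

theorem ge_edgeIso_dvd (j : ℕ) (σ : ℤ × ℤ) (e : Fin 4) :
    geNn j ∣ (geEdgeIso j σ e).t.1 ∧ geNn j ∣ (geEdgeIso j σ e).t.2 := by
  fin_cases e
  · exact ⟨⟨-σ.1, by simp [geEdgeIso]⟩, ⟨-σ.2, by simp [geEdgeIso]⟩⟩
  · exact ⟨⟨-σ.2, by simp [geEdgeIso]⟩, ⟨σ.1 + 1, by simp [geEdgeIso]; ring⟩⟩
  · exact ⟨⟨σ.1 + 1, by simp [geEdgeIso]; ring⟩, ⟨σ.2 + 1, by simp [geEdgeIso]; ring⟩⟩
  · exact ⟨⟨σ.2 + 1, by simp [geEdgeIso]; ring⟩, ⟨-σ.1, by simp [geEdgeIso]⟩⟩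

theorem ge_edgeIso_dvd' (j : ℕ) (σ : ℤ × ℤ) (e : Fin 4) :
    256 ∣ (geEdgeIso j σ e).t.1 ∧ 256 ∣ (geEdgeIso j σ e).t.2 :=
  have h : (256 : ℤ) ∣ geNn j := ⟨2 ^ j, rfl⟩
  ⟨h.trans (ge_edgeIso_dvd j σ e).1, h.trans (ge_edgeIso_dvd j σ e).2⟩

/-- the neighbour across the edge `e` -/
def geDir (e : Fin 4) : ℤ × ℤ :=
  match e with
  | 0 => (0, -1)
  | 1 => (1, 0)
  | 2 => (0, 1)
  | 3 => (-1, 0)

/-- the label `C` of the square across the edge `e`; the old label of `σ` if there is no such square -/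
def geNbLab (L J j : ℕ) (dn : Finset (ℤ × ℤ)) (σ : ℤ × ℤ) (e : Fin 4) : APty L (GeAux J) :=
  if GeInR J j (σ + geDir e) then geBaseLab L J j dn (σ + geDir e) else geLab L J (j + 1) (gePar σ)

/-- the squares which are repainted before `σ` -/
def geDone (J j : ℕ) (σ : ℤ × ℤ) : Finset (ℤ × ℤ) := ((geSquares J j).takeWhile fun τ => τ ≠ σ).toFinset

section Env

variable {L : ℕ} {HI : Type} [Fintype HI] [DecidableEq HI] {q : ℕ} {Ω : (GSite L → Fin q) → ℂ} {ε δ : ℝ}

namespace GeEnv

variable (E : GeEnv (GSite L) HI Ω ε δ) (J γ : ℕ)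

/-- the chart of an edge -/
def chart (j : ℕ) (σ : ℤ × ℤ) (e : Fin 4) : GeEnv (GSite L) HI Ω ε δ :=
  E.map (geEdgeIso j σ e) (ge_edgeIso_dvd' j σ e)

/-- the base guide -/
def base (j : ℕ) (dn : Finset (ℤ × ℤ)) : GSite L → APty L (GeAux J) :=
  fun x => geBaseLab L J j dn (geSqOf j (E.pt x))

/-- the row of the site `x` with respect to the edge `e` of the square `σ` -/
def rowE (j : ℕ) (σ : ℤ × ℤ) (e : Fin 4) (x : GSite L) : ℤ :=
  geRow E.G (geNn j) ((E.chart j σ e).pt x)

/-- the guide `G(U)` -/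
def gu (j : ℕ) (dn : Finset (ℤ × ℤ)) (σ : ℤ × ℤ) (U : Finset (Fin 4)) : GSite L → APty L (GeAux J) :=
  fun x =>
    if geSqOf j (E.pt x) = σ then
      (if ∃ e ∈ U, E.rowE j σ e x < 1 then geLab L J (j + 1) (gePar σ) else geLab L J j σ)
    else E.base J j dn x

/-- the set of the central birth -/
def core (j : ℕ) (σ : ℤ × ℤ) : Finset (GSite L) := univ.filter fun x => ∀ e : Fin 4, 1 ≤ E.rowE j σ e x

/-- repaint of a square of a large level -/
noncomputable def sqOpsL (j : ℕ) (dn : Finset (ℤ × ℤ)) (σ : ℤ × ℤ) :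
    List (FrOp (APty L (GeAux J)) (GeSh J) (GSite L) HI) :=
  FrOp.birth none (E.core j σ) (geLab L J (j + 1) (gePar σ)) (geLab L J j σ) ::
    (List.finRange 4).flatMap fun e =>
      (E.chart j σ e).edgeOps (geLvl L J γ j) none (geSheet J j σ e) (geLab L J (j + 1) (gePar σ))
        (geLab L J j σ) (geNbLab L J j dn σ e) (E.gu J j dn σ (univ.filter fun e' => e ≤ e'))
        (E.gu J j dn σ (univ.filter fun e' => e < e')) (gePart L J j σ)

/-- repaint of a square of a medium or small level: one rewrite, window = the square -/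
noncomputable def sqOpsS (j : ℕ) (dn : Finset (ℤ × ℤ)) (σ : ℤ × ℤ) :
    List (FrOp (APty L (GeAux J)) (GeSh J) (GSite L) HI) :=
  [E.rwOp (geLvl L J γ j) none (E.base J j dn) (E.base J j (insert σ dn))
    (geNn j * σ.1 + geNn j / 2, geNn j * σ.2 + geNn j / 2) (geNn j / 2) (gePart L J j σ)]

/-- repaint of a square -/
noncomputable def sqOps (j : ℕ) (dn : Finset (ℤ × ℤ)) (σ : ℤ × ℤ) :
    List (FrOp (APty L (GeAux J)) (GeSh J) (GSite L) HI) :=
  if γ + 8 ≤ j then E.sqOpsL J γ j dn σ else E.sqOpsS J γ j dn σ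

/-- THE SCHEDULE with homes -/
noncomputable def hops : List ((ℕ × (ℤ × ℤ)) × FrOp (APty L (GeAux J)) (GeSh J) (GSite L) HI) :=
  (geHomes J).flatMap fun h => (E.sqOps J γ h.1 (geDone J h.1 h.2) h.2).map fun o => (h, o)

/-- THE SCHEDULE -/
noncomputable def ops : List (FrOp (APty L (GeAux J)) (GeSh J) (GSite L) HI) := (E.hops J γ).map Prod.snd

end GeEnv

/-- THE INITIAL STATE: the main sheet belongs to the root `(J, (0,0))`, the auxiliary sheet of an edge to the label across the edge -/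
def geSt0 (L J : ℕ) (HI : Type) : FrState (APty L (GeAux J)) (GeSh J) (GSite L) HI where
  own r :=
    match r with
    | .inl (some a, _) =>
        geNbLab L J a.1 (geDone J a.1 (((a.2.1.1 : ℕ) : ℤ), ((a.2.1.2 : ℕ) : ℤ)))
          (((a.2.1.1 : ℕ) : ℤ), ((a.2.1.2 : ℕ) : ℤ)) a.2.2
    | _ => geLab L J J (0, 0)
  hol := ∅

end Env

end Claimed.Agent.R296
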