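import Claimed.Agent.R296.P2.GeoSmall
import Claimed.Agent.R296.P2.GeoCentral
import Claimed.Agent.R296.P2.GeoSqDefs

/-!
# Row 296, paper 2, Section 6: the guides `G(U)` of a large square in the four charts   (prefix `gqf_`)

Owner: helper6.  `gqf_edgeHyp` : the hypotheses `GeEdgeHyp` of `ge_edge` for the chart of the edge `e` of the square `σ`, with the guides
`E.gu J j dn σ {e' ≥ e}` and `E.gu J j dn σ {e' > e}`;  `gqf_centralHyp`, `gqf_core`, `gqf_gu_univ`, `gqf_gu_empty` : the central birth and the end.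

* `geRotQ` : the chart of the edge `e + 1` is the chart of the edge `e` followed by the rotation `(s, d) ↦ (d, Nn - s)`;
* in the strip of an edge (rows `0`, `1`, outside the zones) the rows with respect to the three other edges are `≥ 1`;
* within `14 G` of a corner all four rows are `⌊· / G⌋`: the guides are constant on the `G`-cells.
-/

set_option autoImplicit false
set_option linter.unusedSectionVars false

namespace Claimed.Agent.R296

open Finset

/-! ### pure part -/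

section Pure

variable {G Nn : ℤ}

/-- the rotation of the standard square -/
def geRotQ (Nn : ℤ) (p : ℤ × ℤ) : ℤ × ℤ := (p.2, Nn - p.1)

/-- in the strip of an edge the rows with respect to the other edges are `≥ 1` -/
theorem gqf_strip_rows (h : GeLoc G Nn) {p : ℤ × ℤ} (hb : geBand G Nn (-8) 2 p) (h0 : 0 ≤ geRow G Nn p) :
    0 ≤ p.2 ∧ p.2 < Nn ∧ 1 ≤ geRow G Nn (geRotQ Nn p) ∧ 1 ≤ geRow G Nn (geRotQ Nn (geRotQ Nn p)) ∧
      1 ≤ geRow G Nn (geRotQ Nn (geRotQ Nn (geRotQ Nn p))) := by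
  obtain ⟨⟨s0, s1, z0, z1⟩, -, r2⟩ := hb
  have hG := h.G_pos
  have hN := h.Nn_ge
  rw [geb_le_row_iff h] at h0 ⊢
  rw [geb_le_row_iff h, geb_le_row_iff h]
  rw [geb_row_lt_iff h] at r2
  unfold geZone at z0 z1
  rw [geo_dInf_lt] at z0 z1
  simp only [geRotQ] at *
  unfold geBw at *
  omega

/-- below the edge -/
theorem gqf_strip_below (h : GeLoc G Nn) {p : ℤ × ℤ} (hb : geBand G Nn (-8) 2 p) (h0 : geRow G Nn p < 0) :
    0 < p.1 ∧ p.1 < Nn ∧ -Nn < p.2 ∧ p.2 < 0 := by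
  obtain ⟨⟨s0, s1, -, -⟩, r1, -⟩ := hb
  have hG := h.G_pos
  have hN := h.Nn_ge
  rw [geb_le_row_iff h] at r1
  rw [geb_row_lt_iff h] at h0
  unfold geBw at *
  omega

/-- a point of the square, outside the zones, in the row `0` lies in the strip -/
theorem gqf_in_strip (h : GeLoc G Nn) {p : ℤ × ℤ} (hp : geInS Nn p) (z0 : ¬ geZone G (0, 0) p)
    (z1 : ¬ geZone G (Nn, 0) p) (hr : geRow G Nn p < 1) : geBand G Nn (-8) 2 p := by
  obtain ⟨p1, p2, p3, p4⟩ := hp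
  have hb := geb_bw_pos h p.1
  refine ⟨⟨p1, p2, z0, z1⟩, ?_, by omega⟩
  rw [geb_le_row_iff h]
  omega

theorem gqf_row_nonneg (h : GeLoc G Nn) {p : ℤ × ℤ} (hp : 0 ≤ p.2) : 0 ≤ geRow G Nn p := by
  rw [geb_le_row_iff h]
  omega

/-- near a corner the row is constant on the cells -/
theorem gqf_row_cell (h : GeLoc G Nn) {p p' v : ℤ × ℤ} (hv : v ∈ geCorners Nn) (hp : dInf p v < 14 * G)
    (hc : GeSameCell G p p') : geRow G Nn p = geRow G Nn p' := by
  have hG := h.G_pos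
  rw [gec_mem_corners] at hv
  rw [geo_dInf_lt] at hp
  obtain ⟨c1, c2⟩ := ges_cell_close hG hc.1
  rw [geb_row_near h (by omega), geb_row_near h (by omega), hc.2]

theorem gqf_rot_corner {v : ℤ × ℤ} (hv : v ∈ geCorners Nn) : geRotQ Nn v ∈ geCorners Nn := by
  rw [gec_mem_corners] at hv ⊢
  simp only [geRotQ]
  omega

theorem gqf_rot_dInf (p p' : ℤ × ℤ) : dInf (geRotQ Nn p) (geRotQ Nn p') = dInf p p' := by
  apply le_antisymm
  · rw [geo_dInf_le]
    have := (geo_dInf_le (x := p) (y := p') (r := dInf p p')).1 le_rfl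
    simp only [geRotQ]
    omega
  · have := (geo_dInf_le (x := geRotQ Nn p) (y := geRotQ Nn p') (r := dInf (geRotQ Nn p) (geRotQ Nn p'))).1 le_rfl
    generalize dInf (geRotQ Nn p) (geRotQ Nn p') = D at this ⊢
    rw [geo_dInf_le]
    simp only [geRotQ] at this
    omega

theorem gqf_core_iff (h : GeLoc G Nn) (p : ℤ × ℤ) :
    geCore G Nn p ↔ (1 ≤ geRow G Nn p ∧ 1 ≤ geRow G Nn (geRotQ Nn p) ∧ 1 ≤ geRow G Nn (geRotQ Nn (geRotQ Nn p)) ∧
      1 ≤ geRow G Nn (geRotQ Nn (geRotQ Nn (geRotQ Nn p)))) := by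
  rw [geb_le_row_iff h, geb_le_row_iff h, geb_le_row_iff h, geb_le_row_iff h]
  simp only [geRotQ, geCore, geb_bw_symm, one_mul, sub_sub_cancel]
  constructor
  · rintro ⟨a1, a2, a3, a4⟩
    exact ⟨a1, a4, a2, a3⟩
  · rintro ⟨a1, a4, a2, a3⟩
    exact ⟨a1, a2, a3, a4⟩

end Pure

/-! ### the charts -/

theorem gqf_iso_succ (j : ℕ) (σ : ℤ × ℤ) (e : Fin 4) (p : ℤ × ℤ) :
    (geEdgeIso j σ (e + 1)).app p = geRotQ (geNn j) ((geEdgeIso j σ e).app p) := by
  fin_cases e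
  all_goals
    ext
    all_goals
      simp [geEdgeIso, GeIso.app, geRotQ]
      try ring

theorem gqf_fin4 (e e' : Fin 4) (h : e' ≠ e) : e' = e + 1 ∨ e' = e + 1 + 1 ∨ e' = e + 1 + 1 + 1 := by
  revert e e'
  decide

theorem gqf_fin4' (e e' : Fin 4) : e' = e ∨ e' = e + 1 ∨ e' = e + 1 + 1 ∨ e' = e + 1 + 1 + 1 := by
  revert e e'
  decide

section Env

variable {L : ℕ} {HI : Type} [Fintype HI] [DecidableEq HI] {q : ℕ} {Ω : (GSite L → Fin q) → ℂ} {ε δ : ℝ}
  (E : GeEnv (GSite L) HI Ω ε δ) {J γ : ℕ}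

theorem gqf_chart_pt (j : ℕ) (σ : ℤ × ℤ) (e : Fin 4) (x : GSite L) :
    (E.chart j σ e).pt x = (geEdgeIso j σ e).app (E.pt x) := rfl

theorem gqf_chart_G (j : ℕ) (σ : ℤ × ℤ) (e : Fin 4) : (E.chart j σ e).G = E.G := rfl

theorem gqf_chart_succ (j : ℕ) (σ : ℤ × ℤ) (e : Fin 4) (x : GSite L) :
    (E.chart j σ (e + 1)).pt x = geRotQ (geNn j) ((E.chart j σ e).pt x) := gqf_iso_succ j σ e _

theorem gqf_rowE (j : ℕ) (σ : ℤ × ℤ) (e : Fin 4) (x : GSite L) :
    E.rowE j σ e x = geRow E.G (geNn j) ((E.chart j σ e).pt x) := rfl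

/-- `GeLoc` for a large level -/
theorem gqf_loc (hG : E.G = 256 * 2 ^ γ) {j : ℕ} (hl : γ + 8 ≤ j) : GeLoc E.G (geNn j) := by
  obtain ⟨k, rfl⟩ := Nat.exists_eq_add_of_le hl
  have e1 : geNn (γ + 8 + k) = E.G * (256 * 2 ^ k) := by
    rw [hG]; unfold geNn; rw [pow_add, pow_add]; ring
  have hp : (0 : ℤ) < 2 ^ γ := by positivity
  have hk : (1 : ℤ) ≤ 2 ^ k := one_le_pow₀ (by norm_num)
  refine ⟨by rw [hG]; positivity, ⟨2 ^ γ, hG⟩, ⟨_, e1⟩, ?_⟩
  rw [e1]
  have hG0 : 0 < E.G := by rw [hG]; positivity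
  nlinarith

theorem gqf_large (hG : E.G = 256 * 2 ^ γ) (hmax : geNn J ≤ E.nmax) {j : ℕ} (hj : j ≤ J) (hl : γ + 8 ≤ j)
    (σ : ℤ × ℤ) (e : Fin 4) : (E.chart j σ e).Large (geLvl L J γ j) := by
  refine ⟨gqf_loc E hG hl, ?_, ?_⟩
  · show geMesh γ j = E.G
    rw [gsm_mesh_large (by omega), hG]
  · show geNn j ≤ E.nmax
    refine le_trans ?_ hmax
    unfold geNn
    have : (2 : ℤ) ^ j ≤ 2 ^ J := pow_le_pow_right₀ (by norm_num) hj
    omega

/-- the square `σ` in the chart of an edge -/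
theorem gqf_sq_iff (j : ℕ) (σ : ℤ × ℤ) (e : Fin 4) (x : GSite L) :
    geSqOf j (E.pt x) = σ ↔ geInS (geNn j) ((E.chart j σ e).pt x) := by
  obtain ⟨o1, o2⟩ := E.odd x
  have d1 : (256 : ℤ) ∣ geNn j * σ.1 := Dvd.dvd.mul_right (gsm_256_dvd_Nn j) _
  have d2 : (256 : ℤ) ∣ geNn j * σ.2 := Dvd.dvd.mul_right (gsm_256_dvd_Nn j) _
  have d3 := gsm_256_dvd_Nn j
  rw [gsm_sqOf_iff, gqf_chart_pt]
  fin_cases e
  all_goals
    simp only [geEdgeIso, GeIso.app, geInS]
    simp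
    omega

/-- the square across the edge -/
theorem gqf_sq_below (j : ℕ) (σ : ℤ × ℤ) (e : Fin 4) (x : GSite L)
    (h : 0 < ((E.chart j σ e).pt x).1 ∧ ((E.chart j σ e).pt x).1 < geNn j ∧
      -geNn j < ((E.chart j σ e).pt x).2 ∧ ((E.chart j σ e).pt x).2 < 0) :
    geSqOf j (E.pt x) = σ + geDir e := by
  rw [gsm_sqOf_iff]
  rw [gqf_chart_pt] at h
  fin_cases e
  all_goals
    simp only [geEdgeIso, GeIso.app, geDir] at h ⊢
    simp [mul_add] at h ⊢
    omega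

/-- in the strip of the edge `e` the rows with respect to the other edges are `≥ 1` -/
theorem gqf_other_rows {j : ℕ} (hloc : GeLoc E.G (geNn j)) (σ : ℤ × ℤ) (e : Fin 4) (x : GSite L)
    (hb : geBand E.G (geNn j) (-8) 2 ((E.chart j σ e).pt x)) (h0 : 0 ≤ E.rowE j σ e x) (e' : Fin 4)
    (he : e' ≠ e) : 1 ≤ E.rowE j σ e' x := by
  obtain ⟨-, -, a1, a2, a3⟩ := gqf_strip_rows hloc hb h0
  rcases gqf_fin4 e e' he with rfl | rfl | rfl
  · rw [gqf_rowE, gqf_chart_succ]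
    exact a1
  · rw [gqf_rowE, gqf_chart_succ, gqf_chart_succ]
    exact a2
  · rw [gqf_rowE, gqf_chart_succ, gqf_chart_succ, gqf_chart_succ]
    exact a3

theorem gqf_gu_in (j : ℕ) (dn : Finset (ℤ × ℤ)) (σ : ℤ × ℤ) (U : Finset (Fin 4)) {x : GSite L}
    (h : geSqOf j (E.pt x) = σ) :
    E.gu J j dn σ U x =
      if ∃ e ∈ U, E.rowE j σ e x < 1 then geLab L J (j + 1) (gePar σ) else geLab L J j σ := by
  unfold GeEnv.gu
  rw [if_pos h]

theorem gqf_gu_out (j : ℕ) (dn : Finset (ℤ × ℤ)) (σ : ℤ × ℤ) (U : Finset (Fin 4)) {x : GSite L}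
    (h : geSqOf j (E.pt x) ≠ σ) : E.gu J j dn σ U x = E.base J j dn x := by
  unfold GeEnv.gu
  rw [if_neg h]

theorem gqf_dir_ne (σ : ℤ × ℤ) (e : Fin 4) : σ + geDir e ≠ σ := by
  intro h
  have h1 := congrArg Prod.fst h
  have h2 := congrArg Prod.snd h
  fin_cases e <;> simp [geDir] at h1 h2

/-- **the guide on the strip of the edge `e`** -/
theorem gqf_gu_strip (hpt : E.pt = fpt) (hL : L ≤ 2 ^ J) {j : ℕ} (hj : j ≤ J) (hloc : GeLoc E.G (geNn j))
    (dn : Finset (ℤ × ℤ)) (σ : ℤ × ℤ) (U : Finset (Fin 4)) (e : Fin 4) (x : GSite L)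
    (hb : geBand E.G (geNn j) (-8) 2 ((E.chart j σ e).pt x)) :
    E.gu J j dn σ U x =
      geW0 (if e ∈ U then geLab L J (j + 1) (gePar σ) else geLab L J j σ) (geLab L J j σ)
        (geNbLab L J j dn σ e) (geRow E.G (geNn j) ((E.chart j σ e).pt x)) := by
  by_cases h0 : geRow E.G (geNn j) ((E.chart j σ e).pt x) < 0
  · have hsq := gqf_sq_below E j σ e x (gqf_strip_below hloc hb h0)
    have hin : GeInR J j (σ + geDir e) := by
      rw [← hsq, hpt]
      exact gsm_sqOf_inR hL hj x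
    rw [gqf_gu_out E j dn σ U (by rw [hsq]; exact gqf_dir_ne σ e)]
    unfold geW0 geNbLab GeEnv.base
    rw [if_pos h0, if_pos hin, hsq]
  · have h0' : 0 ≤ E.rowE j σ e x := by rw [gqf_rowE]; omega
    obtain ⟨b1, b2, -⟩ := gqf_strip_rows hloc hb h0'
    have hoff := (ges_site_off (E.chart j σ e) (m := 256) (dvd_refl _) x).2
    have hne : ((E.chart j σ e).pt x).2 ≠ 0 := fun h => hoff (by rw [h]; exact dvd_zero _)
    have hsq : geSqOf j (E.pt x) = σ :=
      (gqf_sq_iff E j σ e x).2 ⟨hb.1.1, hb.1.2.1, by omega, b2⟩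
    have hoth := gqf_other_rows E hloc σ e x hb h0'
    have hiff : (∃ e' ∈ U, E.rowE j σ e' x < 1) ↔ (e ∈ U ∧ E.rowE j σ e x = 0) := by
      constructor
      · rintro ⟨e', he', hr⟩
        by_cases hee : e' = e
        · subst hee
          exact ⟨he', by omega⟩
        · have := hoth e' hee
          omega
      · rintro ⟨he, hr⟩
        exact ⟨e, he, by omega⟩
    rw [gqf_gu_in E j dn σ U hsq]
    unfold geW0
    rw [if_neg h0, ← gqf_rowE]
    by_cases hr : E.rowE j σ e x = 0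
    · rw [if_pos hr]
      by_cases he : e ∈ U
      · rw [if_pos (hiff.2 ⟨he, hr⟩), if_pos he]
      · rw [if_neg (fun h => he (hiff.1 h).1), if_neg he]
    · rw [if_neg hr, if_neg (fun h => hr (hiff.1 h).2)]

/-- **far from the strip of the edge `e` the guide does not depend on `e ∈ U`** -/
theorem gqf_gu_far {j : ℕ} (hloc : GeLoc E.G (geNn j)) (dn : Finset (ℤ × ℤ)) (σ : ℤ × ℤ)
    (U U' : Finset (Fin 4)) (e : Fin 4) (hU : ∀ e', e' ≠ e → (e' ∈ U ↔ e' ∈ U')) (x : GSite L)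
    (z0 : ¬ geZone E.G (0, 0) ((E.chart j σ e).pt x)) (z1 : ¬ geZone E.G (geNn j, 0) ((E.chart j σ e).pt x))
    (hb : ¬ geBand E.G (geNn j) (-8) 2 ((E.chart j σ e).pt x)) :
    E.gu J j dn σ U x = E.gu J j dn σ U' x := by
  by_cases hsq : geSqOf j (E.pt x) = σ
  · have hin := (gqf_sq_iff E j σ e x).1 hsq
    have hr : 1 ≤ E.rowE j σ e x := by
      by_contra hlt
      exact hb (gqf_in_strip hloc hin z0 z1 (by rw [gqf_rowE] at hlt; omega))
    have hiff : (∃ e' ∈ U, E.rowE j σ e' x < 1) ↔ (∃ e' ∈ U', E.rowE j σ e' x < 1) := by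
      constructor
      · rintro ⟨e', he', hr'⟩
        have hne : e' ≠ e := by
          rintro rfl
          omega
        exact ⟨e', (hU e' hne).1 he', hr'⟩
      · rintro ⟨e', he', hr'⟩
        have hne : e' ≠ e := by
          rintro rfl
          omega
        exact ⟨e', (hU e' hne).2 he', hr'⟩
    rw [gqf_gu_in E j dn σ U hsq, gqf_gu_in E j dn σ U' hsq]
    simp only [hiff]
  · rw [gqf_gu_out E j dn σ U hsq, gqf_gu_out E j dn σ U' hsq]

/-! ### near the corners -/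

theorem gqf_sqOf_cell (j : ℕ) {m : ℤ} (hm : 0 < m) (hd : m ∣ geNn j) {p p' : ℤ × ℤ}
    (h : GeSameCell m p p') : geSqOf j p = geSqOf j p' := by
  obtain ⟨k, hk⟩ := hd
  unfold geSqOf
  rw [hk, ← Int.ediv_ediv_of_nonneg hm.le, ← Int.ediv_ediv_of_nonneg hm.le,
    ← Int.ediv_ediv_of_nonneg hm.le, ← Int.ediv_ediv_of_nonneg hm.le, h.1, h.2]

/-- a site near a corner in one chart is near a corner in all charts -/
theorem gqf_corner_all (j : ℕ) (σ : ℤ × ℤ) (e e' : Fin 4) (x : GSite L) (r : ℤ)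
    (h : ∃ v ∈ geCorners (geNn j), dInf ((E.chart j σ e).pt x) v < r) :
    ∃ v ∈ geCorners (geNn j), dInf ((E.chart j σ e').pt x) v < r := by
  have step : ∀ e : Fin 4, (∃ v ∈ geCorners (geNn j), dInf ((E.chart j σ e).pt x) v < r) →
      ∃ v ∈ geCorners (geNn j), dInf ((E.chart j σ (e + 1)).pt x) v < r := by
    rintro e ⟨v, hv, hd⟩
    exact ⟨geRotQ (geNn j) v, gqf_rot_corner hv, by rwa [gqf_chart_succ, gqf_rot_dInf]⟩
  rcases gqf_fin4' e e' with rfl | rfl | rfl | rfl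
  · exact h
  · exact step _ h
  · exact step _ (step _ h)
  · exact step _ (step _ (step _ h))

theorem gqf_cell_chart {j : ℕ} (hloc : GeLoc E.G (geNn j)) (σ : ℤ × ℤ) (e : Fin 4) (x y : GSite L) :
    GeSameCell E.G ((E.chart j σ e).pt x) ((E.chart j σ e).pt y) ↔ GeSameCell E.G (E.pt x) (E.pt y) :=
  gei_sameCell_pt E (geEdgeIso j σ e) (ge_edgeIso_dvd' j σ e) hloc.G_pos hloc.G_dvd
    ⟨hloc.Nn_dvd.trans (ge_edgeIso_dvd j σ e).1, hloc.Nn_dvd.trans (ge_edgeIso_dvd j σ e).2⟩ x y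

/-- **the guides are constant on the cells near the corners** -/
theorem gqf_gu_pix {j : ℕ} (hloc : GeLoc E.G (geNn j)) (dn : Finset (ℤ × ℤ)) (σ : ℤ × ℤ)
    (U : Finset (Fin 4)) (e : Fin 4) {v : ℤ × ℤ} (hv : v ∈ geCorners (geNn j)) :
    (E.chart j σ e).Pix v (14 * E.G) (E.gu J j dn σ U) := by
  intro x y hx hc
  have hc0 : GeSameCell E.G (E.pt x) (E.pt y) := (gqf_cell_chart E hloc σ e x y).1 hc
  have hrow : ∀ e', E.rowE j σ e' x = E.rowE j σ e' y := by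
    intro e'
    obtain ⟨v', hv', hd'⟩ := gqf_corner_all E j σ e e' x _ ⟨v, hv, hx⟩
    exact gqf_row_cell hloc hv' hd' ((gqf_cell_chart E hloc σ e' x y).2 hc0)
  have hsq := gqf_sqOf_cell j hloc.G_pos hloc.Nn_dvd hc0
  have hbase := gsm_base_pix E J j dn hloc.G_pos hloc.Nn_dvd hc0
  unfold GeEnv.gu
  simp only [hrow, hsq, hbase]

theorem gqf_self_block {j : ℕ} {σ : ℤ × ℤ} (hσ : GeInR J j σ) : σ ∈ geBlock J j σ := by
  rw [gsm_mem_block]
  exact ⟨⟨by omega, by omega⟩, ⟨by omega, by omega⟩, hσ⟩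

theorem gqf_memA {j : ℕ} {σ : ℤ × ℤ} (hσ : GeInR J j σ) : geLab L J (j + 1) (gePar σ) ∈ gePart L J j σ :=
  Finset.mem_union_right _ (Finset.mem_image_of_mem (fun τ => geLab L J (j + 1) (gePar τ)) (gqf_self_block hσ))

theorem gqf_memB {j : ℕ} {σ : ℤ × ℤ} (hσ : GeInR J j σ) : geLab L J j σ ∈ gePart L J j σ :=
  Finset.mem_union_left _ (Finset.mem_image_of_mem _ (gqf_self_block hσ))

theorem gqf_memC {j : ℕ} {σ : ℤ × ℤ} (hσ : GeInR J j σ) (dn : Finset (ℤ × ℤ)) (e : Fin 4) :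
    geNbLab L J j dn σ e ∈ gePart L J j σ := by
  unfold geNbLab
  split_ifs with h
  · refine gsm_baseLab_mem L J j dn ?_
    rw [gsm_mem_block]
    refine ⟨?_, ?_, h⟩
    · fin_cases e <;> simp [geDir] <;> omega
    · fin_cases e <;> simp [geDir] <;> omega
  · exact gqf_memA hσ

/-- a corner of the standard square is at the distance `Nn / 2` of the centre -/
theorem gqf_corner_ctr (j : ℕ) (σ : ℤ × ℤ) (e : Fin 4) {v : ℤ × ℤ} (hv : v ∈ geCorners (geNn j)) (p : ℤ × ℤ)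
    (r : ℤ) (h : dInf ((geEdgeIso j σ e).app p) v < r) : dInf p (geCtr j σ) < geNn j / 2 + r := by
  have hh := gsm_Nn_half j
  have hN := gsm_Nn_pos j
  rw [gec_mem_corners] at hv
  rw [geo_dInf_lt] at h ⊢
  fin_cases e
  all_goals
    simp only [geEdgeIso, GeIso.app, geCtr] at h ⊢
    simp at h
    omega

/-- **the values of the guides near the corners are participants** -/
theorem gqf_gu_mem (hpt : E.pt = fpt) (hL : L ≤ 2 ^ J) {j : ℕ} (hj : j ≤ J) (hloc : GeLoc E.G (geNn j))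
    (dn : Finset (ℤ × ℤ)) {σ : ℤ × ℤ} (hσ : GeInR J j σ) (U : Finset (Fin 4)) (e : Fin 4) {v : ℤ × ℤ}
    (hv : v ∈ geCorners (geNn j)) (x : GSite L) (hx : dInf ((E.chart j σ e).pt x) v < 14 * E.G) :
    E.gu J j dn σ U x ∈ gePart L J j σ := by
  unfold GeEnv.gu
  split_ifs
  · exact gqf_memA hσ
  · exact gqf_memB hσ
  · refine gsm_base_part E J hpt hL hj dn ?_
    have := gqf_corner_ctr j σ e hv (E.pt x) _ hx
    have := hloc.Nn_ge
    have := hloc.G_pos
    omega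

theorem gqf_gu_adm (hpt : E.pt = fpt) (hL : L ≤ 2 ^ J) {j : ℕ} (hj : j ≤ J) (hloc : GeLoc E.G (geNn j))
    (dn : Finset (ℤ × ℤ)) {σ : ℤ × ℤ} (hσ : GeInR J j σ) (U : Finset (Fin 4)) (e : Fin 4) :
    (E.chart j σ e).Adm (geNn j) (gePart L J j σ) (E.gu J j dn σ U) where
  pix0 := gqf_gu_pix E hloc dn σ U e (by simp [geCorners])
  pix1 := gqf_gu_pix E hloc dn σ U e (by simp [geCorners])
  mem0 := gqf_gu_mem E hpt hL hj hloc dn hσ U e (by simp [geCorners])
  mem1 := gqf_gu_mem E hpt hL hj hloc dn hσ U e (by simp [geCorners])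

/-- **the hypotheses of `ge_edge` in the chart of the edge `e`** -/
theorem gqf_edgeHyp (hpt : E.pt = fpt) (hG : E.G = 256 * 2 ^ γ) (hmax : geNn J ≤ E.nmax) (hL : L ≤ 2 ^ J)
    {j : ℕ} (hj : j ≤ J) (hl : γ + 8 ≤ j) (dn : Finset (ℤ × ℤ)) {σ : ℤ × ℤ} (hσ : GeInR J j σ) (e : Fin 4) :
    GeEdgeHyp (E.chart j σ e) (geLvl L J γ j) (geLab L J (j + 1) (gePar σ)) (geLab L J j σ)
      (geNbLab L J j dn σ e) (E.gu J j dn σ (univ.filter fun e' => e ≤ e'))
      (E.gu J j dn σ (univ.filter fun e' => e < e')) (gePart L J j σ) where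
  large := gqf_large E hG hmax hj hl σ e
  strip_in x hb := by
    have := gqf_gu_strip E hpt hL hj (gqf_loc E hG hl) dn σ (univ.filter fun e' => e ≤ e') e x hb
    rwa [if_pos (by simp)] at this
  strip_out x hb := by
    have := gqf_gu_strip E hpt hL hj (gqf_loc E hG hl) dn σ (univ.filter fun e' => e < e') e x hb
    rwa [if_neg (by simp)] at this
  far x z0 z1 hb := by
    refine gqf_gu_far E (gqf_loc E hG hl) dn σ _ _ e ?_ x z0 z1 hb
    intro e' he'
    simp only [mem_filter, mem_univ, true_and]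
    exact ⟨le_of_lt, fun h => lt_of_le_of_ne h (Ne.symm he')⟩
  adm_in := gqf_gu_adm E hpt hL hj (gqf_loc E hG hl) dn hσ _ e
  adm_out := gqf_gu_adm E hpt hL hj (gqf_loc E hG hl) dn hσ _ e
  memA := gqf_memA hσ
  memB := gqf_memB hσ
  memC := gqf_memC hσ dn e

/-! ### the central birth and the end -/

/-- the hole rule in a chart -/
theorem gqf_rule (J γ j : ℕ) (σ : ℤ × ℤ) (e : Fin 4) {SH : Type} [DecidableEq SH]
    (st : FrState (APty L (GeAux J)) SH (GSite L) HI) (s : SH) (own : GSite L → APty L (GeAux J)) :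
    (E.chart j σ e).Rule (geLvl L J γ j) st s own ↔ E.Rule (geLvl L J γ j) st s own :=
  gei_rule E (geEdgeIso j σ e) (ge_edgeIso_dvd' j σ e) (geLvl L J γ j) (ge_edgeIso_dvd j σ e)
    (gsm_mesh_dvd_Nn γ j) st s own

theorem gqf_rows_iff {j : ℕ} (hloc : GeLoc E.G (geNn j)) (σ : ℤ × ℤ) (x : GSite L) :
    (∀ e : Fin 4, 1 ≤ E.rowE j σ e x) ↔ geCore E.G (geNn j) ((E.chart j σ 0).pt x) := by
  have h1 : (E.chart j σ 1).pt x = geRotQ (geNn j) ((E.chart j σ 0).pt x) := gqf_chart_succ E j σ 0 x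
  have h2 : (E.chart j σ 2).pt x = geRotQ (geNn j) ((E.chart j σ 1).pt x) := gqf_chart_succ E j σ 1 x
  have h3 : (E.chart j σ 3).pt x = geRotQ (geNn j) ((E.chart j σ 2).pt x) := gqf_chart_succ E j σ 2 x
  rw [gqf_core_iff hloc, ← h1, ← h2, ← h3]
  constructor
  · intro h
    exact ⟨h 0, h 1, h 2, h 3⟩
  · rintro ⟨a0, a1, a2, a3⟩ e
    fin_cases e
    exacts [a0, a1, a2, a3]

/-- the set of the central birth -/
theorem gqf_core_eq {j : ℕ} (hloc : GeLoc E.G (geNn j)) (σ : ℤ × ℤ) :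
    E.core j σ = (E.chart j σ 0).coreS (geNn j) := by
  ext x
  rw [gec_mem_coreS]
  unfold GeEnv.core
  rw [mem_filter]
  simp only [mem_univ, true_and]
  exact gqf_rows_iff E hloc σ x

theorem gqf_base_in (J : ℕ) {j : ℕ} {σ : ℤ × ℤ} {dn : Finset (ℤ × ℤ)} (hdn : σ ∉ dn) {x : GSite L}
    (h : geSqOf j (E.pt x) = σ) : E.base J j dn x = geLab L J (j + 1) (gePar σ) := by
  unfold GeEnv.base geBaseLab
  rw [h, if_neg hdn]

/-- hypotheses of the central birth -/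
theorem gqf_central_hyp (hG : E.G = 256 * 2 ^ γ) (hmax : geNn J ≤ E.nmax) {j : ℕ} (hj : j ≤ J)
    (hl : γ + 8 ≤ j) {σ : ℤ × ℤ} {dn : Finset (ℤ × ℤ)} (hdn : σ ∉ dn) :
    GeCentralHyp (E.chart j σ 0) (geLvl L J γ j) (E.base J j dn) (geLab L J (j + 1) (gePar σ)) where
  large := gqf_large E hG hmax hj hl σ 0
  inS x hx := gqf_base_in E J hdn ((gqf_sq_iff E j σ 0 x).2 hx)

/-- the guide after the central birth -/
theorem gqf_updC_eq {j : ℕ} (hloc : GeLoc E.G (geNn j)) {σ : ℤ × ℤ} {dn : Finset (ℤ × ℤ)} (hdn : σ ∉ dn) :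
    (E.chart j σ 0).updC (geNn j) (E.base J j dn) (geLab L J j σ) = E.gu J j dn σ univ := by
  funext x
  unfold GeEnv.updC
  rw [gqf_chart_G]
  by_cases hc : geCore E.G (geNn j) ((E.chart j σ 0).pt x)
  · have hsq : geSqOf j (E.pt x) = σ := (gqf_sq_iff E j σ 0 x).2 (gec_core_inS hloc hc)
    have hr := (gqf_rows_iff E hloc σ x).2 hc
    have hne : ¬ ∃ e ∈ (univ : Finset (Fin 4)), E.rowE j σ e x < 1 := by
      rintro ⟨e, -, he⟩
      have := hr e
      omega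
    rw [gqf_gu_in E j dn σ univ hsq, if_neg hne, if_pos hc]
  · rw [if_neg hc]
    by_cases hsq : geSqOf j (E.pt x) = σ
    · rw [gqf_gu_in E j dn σ univ hsq, if_pos, gqf_base_in E J hdn hsq]
      by_contra hne
      refine hc ((gqf_rows_iff E hloc σ x).1 fun e => ?_)
      by_contra hlt
      exact hne ⟨e, mem_univ e, by omega⟩
    · rw [gqf_gu_out E j dn σ univ hsq]

/-- the guide after the four edges -/
theorem gqf_gu_empty (J j : ℕ) (σ : ℤ × ℤ) (dn : Finset (ℤ × ℤ)) :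
    E.gu J j dn σ ∅ = E.base J j (insert σ dn) := by
  funext x
  by_cases hsq : geSqOf j (E.pt x) = σ
  · rw [gqf_gu_in E j dn σ ∅ hsq, if_neg (by simp)]
    unfold GeEnv.base geBaseLab
    rw [hsq, if_pos (mem_insert_self σ dn)]
  · rw [gqf_gu_out E j dn σ ∅ hsq, gsm_base_insert E J j dn σ hsq]

end Env

end Claimed.Agent.R296
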