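import Claimed.Agent.R296.P2.GeoSqDefs
import Claimed.Agent.R296.P2.GeoCentral
import Claimed.Agent.R296.P2.GeoSqEdge

/-!
# Row 296, paper 2, Section 6: the four charts of a square, integer geometry   (prefix `gq_`)

Architect: helper197; proofs: helper43 (no sorry in this file).  Pure facts on `ℤ × ℤ`, labels and ranges; no state, no environment.

`geLocP j σ p` = local coordinates of `p` in the square `σ` (= chart of the edge `0`), `geRot Nn e` = passage from the chart of the edge `0`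
to the chart of the edge `e`; `geNearC Nn r` = at distance `< r` of one of the four corners.
-/

set_option autoImplicit false

namespace Claimed.Agent.R296

open Finset

/-- passage from the chart of the edge `0` to the chart of the edge `e` -/
def geRot (Nn : ℤ) (e : Fin 4) (p : ℤ × ℤ) : ℤ × ℤ :=
  match e with
  | 0 => p
  | 1 => (p.2, Nn - p.1)
  | 2 => (Nn - p.1, Nn - p.2)
  | 3 => (Nn - p.2, p.1)

/-- local coordinates in the square `σ` of the level `j` -/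
def geLocP (j : ℕ) (σ p : ℤ × ℤ) : ℤ × ℤ := (p.1 - geNn j * σ.1, p.2 - geNn j * σ.2)

/-- at distance `< r` of one of the four corners of `(0, Nn)²` -/
def geNearC (Nn r : ℤ) (p : ℤ × ℤ) : Prop :=
  ((-r < p.1 ∧ p.1 < r) ∨ (Nn - r < p.1 ∧ p.1 < Nn + r)) ∧
    ((-r < p.2 ∧ p.2 < r) ∨ (Nn - r < p.2 ∧ p.2 < Nn + r))

theorem gq_app (j : ℕ) (σ : ℤ × ℤ) (e : Fin 4) (p : ℤ × ℤ) :
    (geEdgeIso j σ e).app p = geRot (geNn j) e (geLocP j σ p) := by
  fin_cases e <;> simp [geEdgeIso, GeIso.app, geRot, geLocP] <;> constructor <;> ring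

section Pure

variable {G Nn : ℤ}

theorem gq_rot_inS (Nn : ℤ) (e : Fin 4) (p : ℤ × ℤ) : geInS Nn (geRot Nn e p) ↔ geInS Nn p := by
  fin_cases e <;> simp only [geRot, geInS] <;> omega

theorem gq_rot_nearC (Nn r : ℤ) (e : Fin 4) (p : ℤ × ℤ) :
    geNearC Nn r (geRot Nn e p) ↔ geNearC Nn r p := by
  fin_cases e <;> simp only [geRot, geNearC] <;> omega

theorem gq_mark_nearC {r : ℤ} {p : ℤ × ℤ} (h : dInf p (0, 0) < r ∨ dInf p (Nn, 0) < r) :
    geNearC Nn r p := by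
  rw [geo_dInf_lt, geo_dInf_lt] at h
  unfold geNearC
  simp only at h
  omega

/-- the core = the four rows are `≥ 1` -/
theorem gq_core_iff (h : GeLoc G Nn) (p : ℤ × ℤ) :
    (∀ e : Fin 4, 1 ≤ geRow G Nn (geRot Nn e p)) ↔ geCore G Nn p := by
  constructor
  · intro H
    have h0 := (geb_le_row_iff h _ 1).1 (H 0)
    have h1 := (geb_le_row_iff h _ 1).1 (H 1)
    have h2 := (geb_le_row_iff h _ 1).1 (H 2)
    have h3 := (geb_le_row_iff h _ 1).1 (H 3)
    simp only [geRot, geb_bw_symm, one_mul] at h0 h1 h2 h3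
    exact ⟨h0, h2, h3, h1⟩
  · rintro ⟨h0, h2, h3, h1⟩ e
    rw [geb_le_row_iff h]
    fin_cases e <;> simp only [geRot, geb_bw_symm, one_mul] <;> assumption

/-- a point of the rows `0, 1` of an edge (outside the zones) has rows `≥ 1` with respect to the three other edges -/
theorem gq_rows_other (h : GeLoc G Nn) {p : ℤ × ℤ} {e e' : Fin 4} (hne : e' ≠ e)
    (hb : geBand G Nn 0 2 (geRot Nn e p)) : 1 ≤ geRow G Nn (geRot Nn e' p) := by
  have hs := geb_band_s h (by norm_num) (by norm_num) hb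
  obtain ⟨-, r1, r2⟩ := (geb_band_iff h _ _ _).1 hb
  have hG := h.G_pos
  have hN := h.Nn_ge
  rw [geb_le_row_iff h]
  fin_cases e <;> fin_cases e' <;> simp only [geRot, geBw] at hs r1 r2 ⊢ <;>
    first
    | exact absurd rfl hne
    | omega

theorem gq_band_neg (h : GeLoc G Nn) {p : ℤ × ℤ} (hb : geBand G Nn (-8) 2 p) (hr : geRow G Nn p < 0) :
    0 < p.1 ∧ p.1 < Nn ∧ -Nn < p.2 ∧ p.2 < 0 := by
  obtain ⟨⟨s1, s2, -, -⟩, r1, -⟩ := (geb_band_iff h _ _ _).1 hb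
  rw [geb_row_lt_iff h] at hr
  have hB := geb_bw_le h p.1
  have hN := h.Nn_ge
  have hG := h.G_pos
  refine ⟨s1, s2, ?_, ?_⟩ <;> omega

theorem gq_band_pos (h : GeLoc G Nn) {p : ℤ × ℤ} (hb : geBand G Nn (-8) 2 p) (hr : 0 ≤ geRow G Nn p) :
    0 < p.1 ∧ p.1 < Nn ∧ 0 ≤ p.2 ∧ p.2 < Nn := by
  obtain ⟨⟨s1, s2, -, -⟩, -, r2⟩ := (geb_band_iff h _ _ _).1 hb
  rw [geb_le_row_iff h] at hr
  have hB := geb_bw_le h p.1
  refine ⟨s1, s2, ?_, ?_⟩ <;> omega

theorem gq_inS_band (h : GeLoc G Nn) {p : ℤ × ℤ} (hp : geInS Nn p) (hz0 : ¬ geZone G (0, 0) p)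
    (hz1 : ¬ geZone G (Nn, 0) p) (hr : geRow G Nn p < 1) : geBand G Nn 0 1 p := by
  obtain ⟨h1, h2, h3, -⟩ := hp
  refine ⟨⟨h1, h2, hz0, hz1⟩, ?_, hr⟩
  rw [geb_le_row_iff h]
  omega

/-- near the corners the predicate `row < 1` is constant on the cells -/
theorem gq_row_cell (h : GeLoc G Nn) {p p' : ℤ × ℤ} (hn : geNearC Nn (14 * G) p)
    (hc : GeSameCell G p p') : geRow G Nn p < 1 ↔ geRow G Nn p' < 1 := by
  have hG := h.G_pos
  obtain ⟨k, hk⟩ := h.Nn_dvd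
  obtain ⟨c1, c2⟩ := hc
  have key : ∀ q : ℤ × ℤ, q.1 / G = p.1 / G → (q.1 ≤ 16 * G ∨ Nn - 16 * G ≤ q.1) := by
    intro q hq
    rcases hn.1 with ⟨-, a2⟩ | ⟨a1, -⟩
    · left
      have b1 : p.1 / G < 14 := (Int.ediv_lt_iff_lt_mul hG).2 a2
      rw [← hq] at b1
      have b2 := (Int.ediv_lt_iff_lt_mul hG).1 b1
      omega
    · right
      have b0 : (k - 14) * G ≤ p.1 := by
        have : (k - 14) * G = Nn - 14 * G := by rw [hk]; ring
        omega
      have b1 : k - 14 ≤ p.1 / G := (Int.le_ediv_iff_mul_le hG).2 b0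
      rw [← hq] at b1
      have b2 := (Int.le_ediv_iff_mul_le hG).1 b1
      have : (k - 14) * G = Nn - 14 * G := by rw [hk]; ring
      omega
  rw [geb_row_near h (key p rfl), geb_row_near h (key p' c1.symm), c2]

end Pure

/-! ### squares -/

theorem gq_Nn_pos (j : ℕ) : 0 < geNn j := by
  unfold geNn
  positivity

theorem gq_sqOf_eq (j : ℕ) (p τ : ℤ × ℤ) :
    geSqOf j p = τ ↔ (geNn j * τ.1 ≤ p.1 ∧ p.1 < geNn j * τ.1 + geNn j ∧
      geNn j * τ.2 ≤ p.2 ∧ p.2 < geNn j * τ.2 + geNn j) := by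
  have hN := gq_Nn_pos j
  have key : ∀ a t : ℤ, a / geNn j = t ↔ (geNn j * t ≤ a ∧ a < geNn j * t + geNn j) := by
    intro a t
    constructor
    · rintro rfl
      exact ⟨Int.mul_ediv_self_le hN.ne', Int.lt_mul_ediv_self_add hN⟩
    · rintro ⟨h1, h2⟩
      apply le_antisymm
      · have : a / geNn j < t + 1 := by
          rw [Int.ediv_lt_iff_lt_mul hN]
          have e : (t + 1) * geNn j = geNn j * t + geNn j := by ring
          omega
        omega
      · rw [Int.le_ediv_iff_mul_le hN]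
        have e : t * geNn j = geNn j * t := by ring
        omega
  unfold geSqOf
  rw [Prod.ext_iff, key, key]
  tauto

theorem gq_sq_in (j : ℕ) (σ p : ℤ × ℤ) (h1 : ¬ geNn j ∣ p.1) (h2 : ¬ geNn j ∣ p.2) :
    geSqOf j p = σ ↔ geInS (geNn j) (geLocP j σ p) := by
  rw [gq_sqOf_eq]
  have a1 : p.1 ≠ geNn j * σ.1 := fun e => h1 ⟨σ.1, e⟩
  have a2 : p.2 ≠ geNn j * σ.2 := fun e => h2 ⟨σ.2, e⟩
  simp only [geInS, geLocP]
  omega

theorem gq_sq_nb (j : ℕ) (σ : ℤ × ℤ) (e : Fin 4) (p : ℤ × ℤ)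
    (h1 : 0 < (geRot (geNn j) e (geLocP j σ p)).1) (h2 : (geRot (geNn j) e (geLocP j σ p)).1 < geNn j)
    (h3 : -geNn j < (geRot (geNn j) e (geLocP j σ p)).2) (h4 : (geRot (geNn j) e (geLocP j σ p)).2 < 0) :
    geSqOf j p = σ + geDir e := by
  rw [gq_sqOf_eq]
  fin_cases e <;> simp only [geRot, geLocP, geDir, Prod.fst_add, Prod.snd_add, mul_add, mul_neg,
    mul_one, mul_zero] at h1 h2 h3 h4 ⊢ <;> omega

theorem gq_sq_block (j : ℕ) (σ p : ℤ × ℤ) {r : ℤ} (hr : r ≤ geNn j)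
    (hn : geNearC (geNn j) r (geLocP j σ p)) :
    geSqOf j p ∈ (Finset.Icc (σ.1 - 1) (σ.1 + 1)) ×ˢ (Finset.Icc (σ.2 - 1) (σ.2 + 1)) := by
  have hN := gq_Nn_pos j
  have key : ∀ a t : ℤ, -geNn j < a - geNn j * t → a - geNn j * t < 2 * geNn j →
      a / geNn j ∈ Finset.Icc (t - 1) (t + 1) := by
    intro a t b1 b2
    rw [Finset.mem_Icc]
    constructor
    · rw [Int.le_ediv_iff_mul_le hN]
      have e : (t - 1) * geNn j = geNn j * t - geNn j := by ring
      omega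
    · have : a / geNn j < t + 2 := by
        rw [Int.ediv_lt_iff_lt_mul hN]
        have e : (t + 2) * geNn j = geNn j * t + 2 * geNn j := by ring
        omega
      omega
  obtain ⟨n1, n2⟩ := hn
  simp only [geLocP] at n1 n2
  unfold geSqOf
  rw [Finset.mem_product]
  exact ⟨key _ _ (by omega) (by omega), key _ _ (by omega) (by omega)⟩

theorem gq_sq_cell (j : ℕ) {G : ℤ} (hG : 0 < G) (hd : G ∣ geNn j) {p p' : ℤ × ℤ}
    (hc : GeSameCell G p p') : geSqOf j p = geSqOf j p' := by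
  obtain ⟨k, hk⟩ := hd
  obtain ⟨c1, c2⟩ := hc
  unfold geSqOf
  rw [hk, ← Int.ediv_ediv_of_nonneg hG.le, ← Int.ediv_ediv_of_nonneg hG.le,
    ← Int.ediv_ediv_of_nonneg hG.le, ← Int.ediv_ediv_of_nonneg hG.le, c1, c2]

theorem gq_inR {L J j : ℕ} (hL : L ≤ 2 ^ J) (hj : j ≤ J) (x : GSite L) :
    GeInR J j (geSqOf j (fpt x)) := by
  have hN := gq_Nn_pos j
  have hpow : (2 : ℤ) ^ (J - j) * geNn j = 256 * 2 ^ J := by
    unfold geNn
    have : (2 : ℤ) ^ J = 2 ^ (J - j) * 2 ^ j := by rw [← pow_add, Nat.sub_add_cancel hj]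
    rw [this]
    ring
  have hL' : (L : ℤ) ≤ 2 ^ J := by exact_mod_cast hL
  have key : ∀ a : Fin L, 0 ≤ (256 * ((a : ℕ) : ℤ) + 128) / geNn j ∧
      (256 * ((a : ℕ) : ℤ) + 128) / geNn j < 2 ^ (J - j) := by
    intro a
    have ha : ((a : ℕ) : ℤ) < L := by exact_mod_cast a.2
    constructor
    · exact Int.ediv_nonneg (by omega) hN.le
    · rw [Int.ediv_lt_iff_lt_mul hN, hpow]
      omega
  exact ⟨(key x.1).1, (key x.1).2, (key x.2).1, (key x.2).2⟩

/-! ### labels -/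

section Lab

variable (L : ℕ) {J j : ℕ} {σ : ℤ × ℤ}

theorem gq_self_block (hσ : GeInR J j σ) : σ ∈ geBlock J j σ := by
  unfold geBlock
  rw [Finset.mem_filter, Finset.mem_product, Finset.mem_Icc, Finset.mem_Icc]
  exact ⟨⟨⟨by omega, by omega⟩, ⟨by omega, by omega⟩⟩, hσ⟩

theorem gq_base_mem {τ : ℤ × ℤ} (hτ : τ ∈ geBlock J j σ) (dn : Finset (ℤ × ℤ)) :
    geBaseLab L J j dn τ ∈ gePart L J j σ := by
  unfold geBaseLab gePart
  split_ifs
  · exact Finset.mem_union_left _ (Finset.mem_image_of_mem _ hτ)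
  · exact Finset.mem_union_right _ (Finset.mem_image_of_mem (fun τ => geLab L J (j + 1) (gePar τ)) hτ)

theorem gq_A_mem (hσ : GeInR J j σ) : geLab L J (j + 1) (gePar σ) ∈ gePart L J j σ := by
  unfold gePart
  exact Finset.mem_union_right _
    (Finset.mem_image_of_mem (fun τ => geLab L J (j + 1) (gePar τ)) (gq_self_block hσ))

theorem gq_B_mem (hσ : GeInR J j σ) : geLab L J j σ ∈ gePart L J j σ := by
  unfold gePart
  exact Finset.mem_union_left _ (Finset.mem_image_of_mem _ (gq_self_block hσ))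

theorem gq_C_mem (hσ : GeInR J j σ) (dn : Finset (ℤ × ℤ)) (e : Fin 4) :
    geNbLab L J j dn σ e ∈ gePart L J j σ := by
  unfold geNbLab
  split_ifs with hr
  · refine gq_base_mem L ?_ dn
    unfold geBlock
    rw [Finset.mem_filter, Finset.mem_product, Finset.mem_Icc, Finset.mem_Icc]
    refine ⟨?_, hr⟩
    fin_cases e <;> simp only [geDir, Prod.fst_add, Prod.snd_add] <;> omega
  · exact gq_A_mem L hσ

end Lab

/-! ### parameters -/

theorem gq_loc {γ j : ℕ} (hγ : γ + 8 ≤ j) : GeLoc (256 * 2 ^ γ) (geNn j) := by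
  have h1 : (2 : ℤ) ^ j = 2 ^ γ * 2 ^ (j - γ) := by
    rw [← pow_add, Nat.add_sub_cancel' (by omega)]
  have h2 : (256 : ℤ) * 2 ^ γ ≤ 2 ^ j := by
    have : (256 : ℤ) * 2 ^ γ = 2 ^ (γ + 8) := by rw [pow_add]; norm_num; ring
    rw [this]
    exact pow_le_pow_right₀ (by norm_num) hγ
  refine ⟨by positivity, Dvd.intro _ rfl, ?_, ?_⟩
  · unfold geNn
    rw [h1]
    exact ⟨2 ^ (j - γ), by ring⟩
  · unfold geNn
    omega

theorem gq_mesh {γ j : ℕ} (h : γ ≤ j) : geMesh γ j = 256 * 2 ^ γ := by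
  unfold geMesh
  rw [min_eq_right h]

theorem gq_Nn_mono {j J : ℕ} (h : j ≤ J) : geNn j ≤ geNn J := by
  unfold geNn
  have : (2 : ℤ) ^ j ≤ 2 ^ J := pow_le_pow_right₀ (by norm_num) h
  omega

end Claimed.Agent.R296
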