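import Claimed.Agent.R296.P2.FrMain

/-!
# Row 296, paper 2, Section 6 (geometry of the protocol): DEFINITIONS   (prefix `ge` / `Ge`)

Architect: helper163 (captain), co-architects helper68, helper292.
Blueprint: `git show origin/helper163:P2Sec6Design.md`.  Target: the hypotheses of `fr_main` (`FrMain.lean`).

Everything is written in FINE INTEGER COORDINATES: the site `(i, j)` is the point `(256 i + 128, 256 j + 128)`, all grid
lines are multiples of `256`, so a site never lies on a grid line.

* `GeEnv`   : the environment = sites as fine points, a family of patches indexed by (centre, radius), and the angular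
              decay of the mutual information in integer form.  NOTHING else of the model is used in Section 6.
* `GeIso`   : the isometries of the fine grid (used to bring every edge of every square to the standard position).
* `GeLvl`   : data of a level (mesh `m`, fine side `Nn` of the squares, mesh of a label).
* THE HOLE RULE: the frame (holes, tag owners) of a sheet is a FUNCTION of its owner map: `GeEnv.IsHole`, `GeEnv.tagOf`;
  `GeEnv.Rule lv st s own` says that the sheet `s` of the state `st` is the rule frame of `own`.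
* `GeEnv.rwOp` : the rewrite operation from `own` to `own'` in a square window.
* `GeTrip`  : Hoare triples for schedules.
-/

set_option autoImplicit false

namespace Claimed.Agent.R296

open Finset

/-! ### the environment -/

/-- geometric environment; `G` is the fine logarithmic unit, `nmax` the largest admissible scale -/
structure GeEnv (Λ HI : Type) [Fintype Λ] [DecidableEq Λ] {q : ℕ} (Ω : (Λ → Fin q) → ℂ) (ε δ : ℝ) where
  /-- fine coordinates of a site -/
  pt : Λ → ℤ × ℤ
  /-- the patches -/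
  pat : HI → FrPatch Ω ε
  /-- fine centre of a patch -/
  ctr : HI → ℤ × ℤ
  /-- fine inner radius of a patch -/
  rad : HI → ℤ
  /-- the logarithmic unit -/
  G : ℤ
  /-- the largest scale -/
  nmax : ℤ
  pt_inj : Function.Injective pt
  odd : ∀ x, (pt x).1 % 256 = 128 ∧ (pt x).2 % 256 = 128
  /-- the sites form a box -/
  conv : ∀ (x y : Λ) (p : ℤ × ℤ), p.1 % 256 = 128 → p.2 % 256 = 128 →
    min (pt x).1 (pt y).1 ≤ p.1 → p.1 ≤ max (pt x).1 (pt y).1 →
    min (pt x).2 (pt y).2 ≤ p.2 → p.2 ≤ max (pt x).2 (pt y).2 → ∃ z, pt z = p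
  mem_inn : ∀ a x, x ∈ (pat a).inn ↔ dInf (pt x) (ctr a) ≤ rad a
  mem_out : ∀ a x, x ∈ (pat a).out ↔ dInf (pt x) (ctr a) ≤ 2 * rad a
  inj : ∀ a a', ctr a = ctr a' → rad a = rad a' → a = a'
  /-- every (centre, radius) with a centre near a site and a radius `≤ G / 8` is the index of a patch -/
  surj : ∀ (c : ℤ × ℤ) (r : ℤ) (x : Λ), dInf (pt x) c ≤ 2 * G → 0 < r → 8 * r ≤ G →
    ∃ a, ctr a = c ∧ rad a = r
  /-- `prop:angular` with `a = 1/64`, `A0 = 4`, at most four marks -/
  ang : ∀ (VV : Finset (ℤ × ℤ)) (X F : Finset Λ) (n : ℤ), VV.card ≤ 4 → 4 * G ≤ n → n ≤ nmax →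
    (∀ x ∈ X, ∀ y ∈ X, dInf (pt x) (pt y) ≤ 4 * n) →
    (∀ x ∈ X, ∀ e ∈ F, G ≤ 16 * dInf (pt x) (pt e)) →
    (∀ x ∈ X, ∀ e ∈ F, n ≤ 64 * dInf (pt x) (pt e) ∨
      ∃ v ∈ VV, dInf (pt x) v ≤ 64 * dInf (pt x) (pt e)) →
    minfo (io := fun _ : Λ => Fin q) (pureOp Ω) X F ≤ δ

/-! ### isometries of the fine grid -/

/-- `p ↦ (± p'.1 + t.1, ± p'.2 + t.2)`, `p' = p` or `p` with exchanged coordinates -/
structure GeIso where
  /-- exchange the coordinates first -/
  sw : Bool
  /-- change the sign of the first coordinate -/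
  n1 : Bool
  /-- change the sign of the second coordinate -/
  n2 : Bool
  /-- translation -/
  t : ℤ × ℤ

/-- the action of an isometry -/
def GeIso.app (φ : GeIso) (p : ℤ × ℤ) : ℤ × ℤ :=
  ((if φ.n1 then -(if φ.sw then p.2 else p.1) else (if φ.sw then p.2 else p.1)) + φ.t.1,
   (if φ.n2 then -(if φ.sw then p.1 else p.2) else (if φ.sw then p.1 else p.2)) + φ.t.2)

/-- the inverse isometry -/
def GeIso.inv (φ : GeIso) : GeIso :=
  if φ.sw then
    { sw := true, n1 := φ.n2, n2 := φ.n1
      t := ((if φ.n2 then φ.t.2 else -φ.t.2), (if φ.n1 then φ.t.1 else -φ.t.1)) }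
  else
    { sw := false, n1 := φ.n1, n2 := φ.n2
      t := ((if φ.n1 then φ.t.1 else -φ.t.1), (if φ.n2 then φ.t.2 else -φ.t.2)) }

/-! ### levels and the hole rule -/

/-- data of a level -/
structure GeLvl (PP : Type) where
  /-- the mesh -/
  m : ℤ
  /-- fine side of the squares of the level -/
  Nn : ℤ
  /-- the mesh of a label -/
  msh : PP → ℤ
  /-- a default party -/
  dflt : PP

/-- a node of the grid of mesh `m` -/
def GeNode (m : ℤ) (c : ℤ × ℤ) : Prop := m ∣ c.1 ∧ m ∣ c.2

/-- the two points lie in the same cell of mesh `m` -/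
def GeSameCell (m : ℤ) (p p' : ℤ × ℤ) : Prop := p.1 / m = p'.1 / m ∧ p.2 / m = p'.2 / m

/-- candidate nodes: within `14 m` of a node of the grid of the level -/
def GeLvl.Cand {PP : Type} (lv : GeLvl PP) (c : ℤ × ℤ) : Prop :=
  ∃ w : ℤ × ℤ, GeNode lv.Nn w ∧ dInf c w ≤ 14 * lv.m

section Rule

variable {Λ HI PP SH : Type} [Fintype Λ] [DecidableEq Λ] [Fintype HI] [DecidableEq HI]
  [DecidableEq PP] [DecidableEq SH] {q : ℕ} {Ω : (Λ → Fin q) → ℂ} {ε δ : ℝ}

namespace GeEnv

variable (E : GeEnv Λ HI Ω ε δ) (lv : GeLvl PP)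

/-- the sites in the closed fine square of radius `r` about `c` -/
def fsq (c : ℤ × ℤ) (r : ℤ) : Finset Λ := univ.filter fun x => dInf (E.pt x) c ≤ r

/-- the owners adjacent to the node `c`: owners of the sites at distance `< m` -/
def adj (own : Λ → PP) (c : ℤ × ℤ) : Finset PP :=
  (univ.filter fun x => dInf (E.pt x) c < lv.m).image own

/-- inner radius of the hole at the node `c` -/
def hrad (own : Λ → PP) (c : ℤ × ℤ) : ℤ :=
  if ∀ P ∈ E.adj lv own c, lv.msh P = 2 * lv.m then lv.m / 8 else lv.m / 16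

/-- THE HOLE RULE -/
def IsHole (own : Λ → PP) (a : HI) : Prop :=
  GeNode lv.m (E.ctr a) ∧ lv.Cand (E.ctr a) ∧ 3 ≤ (E.adj lv own (E.ctr a)).card ∧
    E.rad a = E.hrad lv own (E.ctr a) ∧ ((E.pat a).out).Nonempty

/-- THE TAG RULE: a choice among the adjacent owners, which depends only on the set of adjacent owners -/
noncomputable def tagOf (own : Λ → PP) (c : ℤ × ℤ) : PP :=
  if h : (E.adj lv own c).Nonempty then h.choose else lv.dflt

/-- the sheet `s` of `st` is the rule frame of the owner map `own` -/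
def Rule (st : FrState PP SH Λ HI) (s : SH) (own : Λ → PP) : Prop :=
  (∀ x, st.ow s x = own x) ∧ (∀ a, a ∈ st.hs s ↔ E.IsHole lv own a) ∧
    ∀ a, E.IsHole lv own a → st.tw s a = E.tagOf lv own (E.ctr a)

open scoped Classical in
/-- the holes of `own` with centre in the closed window -/
noncomputable def holesIn (own : Λ → PP) (w0 : ℤ × ℤ) (ρ : ℤ) : Finset HI :=
  univ.filter fun a => E.IsHole lv own a ∧ dInf (E.ctr a) w0 ≤ ρ

/-- the net of small patches of a window: radius `u = m / 64`, centres in `u ℤ²` -/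
def net (w0 : ℤ × ℤ) (ρ : ℤ) : Finset HI :=
  univ.filter fun a => E.rad a = lv.m / 64 ∧ (lv.m / 64 ∣ (E.ctr a).1 ∧ lv.m / 64 ∣ (E.ctr a).2) ∧
    dInf (E.ctr a) w0 ≤ ρ + lv.m / 4 + lv.m / 64

/-- THE REWRITE from `own` to `own'` in the window `{dInf · w0 < ρ}`, participants `A` -/
noncomputable def rwOp (s : SH) (own own' : Λ → PP) (w0 : ℤ × ℤ) (ρ : ℤ) (A : Finset PP) :
    FrOp PP SH Λ HI :=
  .rewrite s own' (fun a => E.tagOf lv own' (E.ctr a)) (E.holesIn lv own w0 ρ) (E.holesIn lv own' w0 ρ)
    (E.net lv w0 ρ).toList A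

end GeEnv

/-! ### sheets, Hoare triples -/

/-- the sheet `s` is the same in both states -/
def FrState.SameOn (st st' : FrState PP SH Λ HI) (s : SH) : Prop :=
  (∀ x, st'.ow s x = st.ow s x) ∧ (∀ a, st'.tw s a = st.tw s a) ∧ st'.hs s = st.hs s

/-- the sheets touched by an operation -/
def FrOp.sheets : FrOp PP SH Λ HI → Finset SH
  | .birth s _ _ _ => {s}
  | .death s _ _ _ => {s}
  | .rewrite s _ _ _ _ _ _ => {s}
  | .exch s1 s2 _ _ => {s1, s2}

/-- the universal bounds for the numbers of patches / holes of one rewrite -/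
def geM0 : ℕ := 16419 ^ 2

/-- see `geM0` -/
def geH0 : ℕ := 257 ^ 2

/-- Hoare triple: from every state with `pre` the schedule is admissible and leads to a state with `post` -/
def GeTrip (pat : HI → FrPatch Ω ε) (δ : ℝ) (b : ℕ) (pre : FrState PP SH Λ HI → Prop)
    (ops : List (FrOp PP SH Λ HI)) (post : FrState PP SH Λ HI → Prop) : Prop :=
  ∀ st, pre st → FrSchedOk pat δ geM0 geH0 b ops st ∧ post (frRun pat ops st)

end Rule

end Claimed.Agent.R296
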