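import Claimed.Agent.R296.P2.GeoStage

/-!
# Row 296, paper 2, Section 6: one edge of a large square   (LEAF `P2-GE-EDGE`, prefix `gee_`)

`ge_edge`: the 24 operations `E.edgeOps` lead from the guide `gin` (rows `< 0`: `C`, row 0: `A`, row 1: `B`) to `gout` (rows `< 0`: `C`,
rows 0, 1: `B`).  MECHANICAL CHAIN: compose with `get_trip_append` the triples
 * `ges_zoneOps` (9 times), * `ge_bulk_birth` / `ge_bulk_death` with `ges_bulk_hyp`, `ges_upd_sg` (7 times), * `ge_exch` with `ges_exch_hyp`,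
   `ges_swp_sg` (once);
the sheet which is not touched is carried along by `get_trip_frame` / `get_next_sameOn` + `get_rule_of_sameOn`.

Stages (zones in brackets):
 aux : `w0 = C…` [C] -birth B [-6,-1)-> `w1` [C→B] -birth A [-5,-2)-> `w2` [B→A] -birth C [-4,-3)-> `w3` [A→C]
       (`w3`: -6:B -5:A -4:C -3:A -2:B, all other rows C);
 main: `v0 = geW0 A B C` [gin→C] -exchange-> `v1` (-6:B -5:A added) [C→A] -death [-4,0) C→A-> `v2` [A→B] -death [-5,1) A→B-> `v3`
       -birth C [-3,0)-> `v4` [B→C] -death [-6,-3) B→C-> `v5 = geW0 B B C` on the strip [C→gout].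
Start: `gin = E.sg v0 gin gin gin` (`ges_sg_self`), `fun _ => C = E.sg w0 cC cC cC`.  End: `E.sg v5 gout gout gin = gout`.
The words are compared on the rows `-8 ≤ r < 2` only (`ges_sg_congr`; `interval_cases r` or `omega` after `simp [geFill, geW0]`).
-/

set_option autoImplicit false

namespace Claimed.Agent.R296

open Finset

variable {Λ HI PP SH : Type} [Fintype Λ] [DecidableEq Λ] [Fintype HI] [DecidableEq HI]
  [DecidableEq PP] [DecidableEq SH] {q : ℕ} {Ω : (Λ → Fin q) → ℂ} {ε δ : ℝ}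

/-- hypotheses on the guides of the main sheet before and after an edge is processed -/
structure GeEdgeHyp (E : GeEnv Λ HI Ω ε δ) (lv : GeLvl PP) (A B C : PP) (gin gout : Λ → PP)
    (Ap : Finset PP) : Prop where
  large : E.Large lv
  strip_in : ∀ x, geBand E.G lv.Nn (-8) 2 (E.pt x) → gin x = geW0 A B C (geRow E.G lv.Nn (E.pt x))
  strip_out : ∀ x, geBand E.G lv.Nn (-8) 2 (E.pt x) → gout x = geW0 B B C (geRow E.G lv.Nn (E.pt x))
  far : ∀ x, ¬ geZone E.G (0, 0) (E.pt x) → ¬ geZone E.G (lv.Nn, 0) (E.pt x) →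
    ¬ geBand E.G lv.Nn (-8) 2 (E.pt x) → gout x = gin x
  adm_in : E.Adm lv.Nn Ap gin
  adm_out : E.Adm lv.Nn Ap gout
  memA : A ∈ Ap
  memB : B ∈ Ap
  memC : C ∈ Ap

/-! ### elementary triples -/

theorem gee_birth (E : GeEnv Λ HI Ω ε δ) (lv : GeLvl PP) (hL : E.Large lv) (s : SH) (b : ℕ) {w : ℤ → PP}
    {al be : ℤ} {P0 : PP} (Q : PP) (ha : -7 ≤ al) (hab : al < be) (hb : be ≤ 1) (h1 : w (al - 1) = P0)
    (h2 : w be = P0) (h3 : ∀ r, al ≤ r → r < be → w r = P0) (out : Λ → PP) :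
    GeTrip E.pat δ b
      (fun st : FrState PP SH Λ HI => E.Rule lv st s (E.sg lv.Nn w (fun _ => P0) (fun _ => P0) out))
      [FrOp.birth s (E.band lv.Nn al be) P0 Q]
      (fun st => E.Rule lv st s (E.sg lv.Nn (geFill w al be Q) (fun _ => P0) (fun _ => P0) out)) := by
  refine get_trip_one E.pat δ b _ fun st hst => ?_
  have h := ge_bulk_birth E lv s (ges_bulk_hyp E lv hL ha hab hb h1 h2 h3 out) Q geM0 geH0 b st hst
  rw [ges_upd_sg E lv.Nn w _ _ out (by omega) (by omega) Q] at h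
  exact h

theorem gee_death (E : GeEnv Λ HI Ω ε δ) (lv : GeLvl PP) (hL : E.Large lv) (s : SH) (b : ℕ) {w : ℤ → PP}
    {al be : ℤ} {P0 Q : PP} (ha : -7 ≤ al) (hab : al < be) (hb : be ≤ 1) (h1 : w (al - 1) = P0)
    (h2 : w be = P0) (h3 : ∀ r, al ≤ r → r < be → w r = Q) (out : Λ → PP) :
    GeTrip E.pat δ b
      (fun st : FrState PP SH Λ HI => E.Rule lv st s (E.sg lv.Nn w (fun _ => P0) (fun _ => P0) out))
      [FrOp.death s (E.band lv.Nn al be) P0 Q]
      (fun st => E.Rule lv st s (E.sg lv.Nn (geFill w al be P0) (fun _ => P0) (fun _ => P0) out)) := by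
  refine get_trip_one E.pat δ b _ fun st hst => ?_
  have h := ge_bulk_death E lv s (ges_bulk_hyp E lv hL ha hab hb h1 h2 h3 out) geM0 geH0 b st hst
  rw [ges_upd_sg E lv.Nn w _ _ out (by omega) (by omega) P0] at h
  exact h

/-- a schedule on the sheet `s` carries along the rule frame of another sheet -/
theorem gee_frame (E : GeEnv Λ HI Ω ε δ) (lv : GeLvl PP) {b : ℕ} {pre post : FrState PP SH Λ HI → Prop}
    {l : List (FrOp PP SH Λ HI)} (h : GeTrip E.pat δ b pre l post) {s s' : SH}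
    (hl : ∀ o ∈ l, o.sheets ⊆ {s}) (hs : s' ≠ s) (g : Λ → PP) :
    GeTrip E.pat δ b (fun st => pre st ∧ E.Rule lv st s' g) l (fun st => post st ∧ E.Rule lv st s' g) :=
  get_trip_frame h {s} hl _ fun _ _ hsame hr =>
    get_rule_of_sameOn E lv (hsame s' (by simpa using hs)) hr

theorem gee_zone_sheets (E : GeEnv Λ HI Ω ε δ) (lv : GeLvl PP) (s : SH) (w : ℤ → PP) (z z' out : Λ → PP)
    (Ap : Finset PP) : ∀ o ∈ E.zoneOps lv s w z z' out Ap, o.sheets ⊆ {s} := by
  simp [GeEnv.zoneOps, GeEnv.rwOp, FrOp.sheets]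

theorem gee_mem_fill {Ap : Finset PP} {w : ℤ → PP} (hw : ∀ r, w r ∈ Ap) (al be : ℤ) {P : PP}
    (hP : P ∈ Ap) : ∀ r, geFill w al be P r ∈ Ap := by
  intro r
  unfold geFill
  split_ifs
  exacts [hP, hw r]

theorem gee_mem_w0 {Ap : Finset PP} {A B C : PP} (hA : A ∈ Ap) (hB : B ∈ Ap) (hC : C ∈ Ap) :
    ∀ r, geW0 A B C r ∈ Ap := by
  intro r
  unfold geW0
  split_ifs
  exacts [hC, hA, hB]

/-- **one edge** -/
theorem ge_edge (E : GeEnv Λ HI Ω ε δ) (lv : GeLvl PP) {sm sa : SH} (hs : sm ≠ sa) {A B C : PP}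
    {gin gout : Λ → PP} {Ap : Finset PP} (h : GeEdgeHyp E lv A B C gin gout Ap) {b : ℕ} (hb : Ap.card ≤ b) :
    GeTrip E.pat δ b
      (fun st : FrState PP SH Λ HI => E.Rule lv st sm gin ∧ E.Rule lv st sa fun _ => C)
      (E.edgeOps lv sm sa A B C gin gout Ap) (fun st => E.Rule lv st sm gout) := by
  have hL := h.large
  have hA := h.memA
  have hB := h.memB
  have hC := h.memC
  have aA : E.Adm lv.Nn Ap (fun _ => A) := ges_adm_const E lv.Nn hA
  have aB : E.Adm lv.Nn Ap (fun _ => B) := ges_adm_const E lv.Nn hB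
  have aC : E.Adm lv.Nn Ap (fun _ => C) := ges_adm_const E lv.Nn hC
  set cA : Λ → PP := fun _ => A with hcA
  set cB : Λ → PP := fun _ => B with hcB
  set cC : Λ → PP := fun _ => C with hcC
  set w0 : ℤ → PP := fun _ => C with hw0
  set w1 := geFill w0 (-6) (-1) B with hw1
  set w2 := geFill w1 (-5) (-2) A with hw2
  set w3 := geFill w2 (-4) (-3) C with hw3
  set v0 := geW0 A B C with hv0
  set v1 := geFill (geFill v0 (-6) (-5) B) (-5) (-4) A with hv1
  set v2 := geFill v1 (-4) 0 A with hv2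
  set v3 := geFill v2 (-5) 1 B with hv3
  set v4 := geFill v3 (-3) 0 C with hv4
  set v5 := geFill v4 (-6) (-3) C with hv5
  -- the words take their values in `Ap`
  have mw0 : ∀ r, w0 r ∈ Ap := fun _ => hC
  have mw1 : ∀ r, w1 r ∈ Ap := gee_mem_fill mw0 _ _ hB
  have mw2 : ∀ r, w2 r ∈ Ap := gee_mem_fill mw1 _ _ hA
  have mw3 : ∀ r, w3 r ∈ Ap := gee_mem_fill mw2 _ _ hC
  have mv0 : ∀ r, v0 r ∈ Ap := gee_mem_w0 hA hB hC
  have mv1 : ∀ r, v1 r ∈ Ap := gee_mem_fill (gee_mem_fill mv0 _ _ hB) _ _ hA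
  have mv2 : ∀ r, v2 r ∈ Ap := gee_mem_fill mv1 _ _ hA
  have mv3 : ∀ r, v3 r ∈ Ap := gee_mem_fill mv2 _ _ hB
  have mv4 : ∀ r, v4 r ∈ Ap := gee_mem_fill mv3 _ _ hC
  have mv5 : ∀ r, v5 r ∈ Ap := gee_mem_fill mv4 _ _ hC
  -- the auxiliary sheet
  have S0 : E.sg lv.Nn w0 cC cC cC = cC := ges_sg_self E lv.Nn w0 cC fun _ _ => rfl
  have T1 := gee_birth E lv hL sa b (w := w0) (al := -6) (be := -1) (P0 := C) B (by norm_num)
    (by norm_num) (by norm_num) rfl rfl (fun _ _ _ => rfl) cC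
  have T2 := ges_zoneOps E lv hL sa hb (w := w1) (fun r _ _ => mw1 r) aC aB aC
  have T3 := gee_birth E lv hL sa b (w := w1) (al := -5) (be := -2) (P0 := B) A (by norm_num)
    (by norm_num) (by norm_num) (by simp [hw1, geFill]) (by simp [hw1, geFill])
    (fun r h1 h2 => by interval_cases r <;> simp [hw1, geFill]) cC
  have T4 := ges_zoneOps E lv hL sa hb (w := w2) (fun r _ _ => mw2 r) aB aA aC
  have T5 := gee_birth E lv hL sa b (w := w2) (al := -4) (be := -3) (P0 := A) C (by norm_num)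
    (by norm_num) (by norm_num) (by simp [hw2, geFill]) (by simp [hw2, geFill])
    (fun r h1 h2 => by interval_cases r <;> simp [hw2, geFill]) cC
  have T6 := ges_zoneOps E lv hL sa hb (w := w3) (fun r _ _ => mw3 r) aA aC aC
  have TA := get_trip_append (get_trip_append (get_trip_append (get_trip_append
    (get_trip_append T1 T2) T3) T4) T5) T6
  have TA' := gee_frame E lv TA (s := sa) (s' := sm) (by
    intro o ho
    simp only [List.mem_append] at ho
    rcases ho with ((((ho | ho) | ho) | ho) | ho) | ho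
    · simp only [List.mem_singleton] at ho
      subst ho
      simp [FrOp.sheets]
    · exact gee_zone_sheets E lv sa _ _ _ _ _ o ho
    · simp only [List.mem_singleton] at ho
      subst ho
      simp [FrOp.sheets]
    · exact gee_zone_sheets E lv sa _ _ _ _ _ o ho
    · simp only [List.mem_singleton] at ho
      subst ho
      simp [FrOp.sheets]
    · exact gee_zone_sheets E lv sa _ _ _ _ _ o ho) hs gin
  -- the main sheet
  have Sin : E.sg lv.Nn v0 gin gin gin = gin := ges_sg_self E lv.Nn v0 gin h.strip_in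
  have T7 := ges_zoneOps E lv hL sm hb (w := v0) (fun r _ _ => mv0 r) h.adm_in aC h.adm_in
  have T7' := gee_frame E lv T7 (s := sm) (s' := sa) (gee_zone_sheets E lv sm _ _ _ _ _) hs.symm
    (E.sg lv.Nn w3 cC cC cC)
  have T8 : GeTrip E.pat δ b
      (fun st : FrState PP SH Λ HI => E.Rule lv st sm (E.sg lv.Nn v0 cC cC gin) ∧
        E.Rule lv st sa (E.sg lv.Nn w3 cC cC cC))
      [FrOp.exch sm sa (E.ySet lv.Nn) C] (fun st => E.Rule lv st sm (E.sg lv.Nn v1 cC cC gin)) := by
    refine get_trip_one E.pat δ b _ fun st hst => ?_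
    have hx := ge_exch E lv hs (ges_exch_hyp E lv hL (w1 := v0) (w2 := w3) (C := C)
      ⟨by simp [hv0, geW0], by simp [hv0, geW0], by simp [hv0, geW0]⟩
      ⟨by simp [hw3, hw2, hw1, hw0, geFill], by simp [hw3, hw2, hw1, hw0, geFill], by simp [hw3, geFill]⟩ gin cC)
      geM0 geH0 b st hst.1 hst.2
    refine ⟨hx.1, ?_⟩
    have e := ges_swp_sg E hL.loc (w1 := v0) (w2 := w3) (C := C)
      (by simp [hv0, geW0, hw3, geFill]) gin cC
    have e' : E.sg lv.Nn (fun r => if -7 ≤ r ∧ r < -4 then w3 r else v0 r) cC cC gin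
        = E.sg lv.Nn v1 cC cC gin := by
      refine ges_sg_congr E lv.Nn _ _ _ fun r h1 h2 => ?_
      interval_cases r <;> simp [hv1, hv0, geW0, hw3, hw2, hw1, hw0, geFill]
    have hx2 := hx.2.1
    rw [e, e'] at hx2
    exact hx2
  have T9 := ges_zoneOps E lv hL sm hb (w := v1) (fun r _ _ => mv1 r) aC aA h.adm_in
  have T10 := gee_death E lv hL sm b (w := v1) (al := -4) (be := 0) (P0 := A) (Q := C) (by norm_num)
    (by norm_num) (by norm_num) (by simp [hv1, geFill]) (by simp [hv1, hv0, geW0, geFill])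
    (fun r h1 h2 => by interval_cases r <;> simp [hv1, hv0, geW0, geFill]) gin
  have T11 := ges_zoneOps E lv hL sm hb (w := v2) (fun r _ _ => mv2 r) aA aB h.adm_in
  have T12 := gee_death E lv hL sm b (w := v2) (al := -5) (be := 1) (P0 := B) (Q := A) (by norm_num)
    (by norm_num) (by norm_num) (by simp [hv2, hv1, geFill]) (by simp [hv2, hv1, hv0, geW0, geFill])
    (fun r h1 h2 => by interval_cases r <;> simp [hv2, hv1, hv0, geW0, geFill]) gin
  have T13 := gee_birth E lv hL sm b (w := v3) (al := -3) (be := 0) (P0 := B) C (by norm_num)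
    (by norm_num) (by norm_num) (by simp [hv3, geFill]) (by simp [hv3, geFill])
    (fun r h1 h2 => by interval_cases r <;> simp [hv3, geFill]) gin
  have T14 := ges_zoneOps E lv hL sm hb (w := v4) (fun r _ _ => mv4 r) aB aC h.adm_in
  have T15 := gee_death E lv hL sm b (w := v4) (al := -6) (be := -3) (P0 := C) (Q := B) (by norm_num)
    (by norm_num) (by norm_num) (by simp [hv4, hv3, hv2, hv1, hv0, geW0, geFill]) (by simp [hv4, geFill])
    (fun r h1 h2 => by interval_cases r <;> simp [hv4, hv3, hv2, hv1, geFill]) gin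
  have T16 := ges_zoneOps E lv hL sm hb (w := v5) (fun r _ _ => mv5 r) aC h.adm_out h.adm_in
  have hv5' : ∀ r, v5 r = geW0 B B C r := by
    intro r
    simp only [hv5, hv4, hv3, hv2, hv1, hv0, geFill, geW0]
    split_ifs <;> first | rfl | (exfalso; omega)
  have Send : E.sg lv.Nn v5 gout gout gin = gout := by
    funext x
    unfold GeEnv.sg
    split_ifs with c0 c1 c2
    · rfl
    · rfl
    · rw [h.strip_out x c2]
      exact hv5' _
    · exact (h.far x c0 c1 c2).symm
  rw [S0] at TA'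
  rw [Sin] at T7'
  rw [Send] at T16
  exact get_trip_append (get_trip_append (get_trip_append (get_trip_append (get_trip_append
    (get_trip_append (get_trip_append (get_trip_append (get_trip_append
      (get_trip_conseq TA' (fun st hst => ⟨hst.2, hst.1⟩) fun _ hst => hst)
      (get_trip_conseq T7' (fun st hst => ⟨hst.2, hst.1⟩) fun _ hst => hst))
      T8) T9) T10) T11) (get_trip_append T12 T13)) T14) T15) T16

theorem gee_length (E : GeEnv Λ HI Ω ε δ) (lv : GeLvl PP) (sm sa : SH) (A B C : PP) (gin gout : Λ → PP)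
    (Ap : Finset PP) : (E.edgeOps lv sm sa A B C gin gout Ap).length = 24 := by
  simp [GeEnv.edgeOps, GeEnv.zoneOps]

theorem gee_sheets (E : GeEnv Λ HI Ω ε δ) (lv : GeLvl PP) (sm sa : SH) (A B C : PP) (gin gout : Λ → PP)
    (Ap : Finset PP) : ∀ o ∈ E.edgeOps lv sm sa A B C gin gout Ap, o.sheets ⊆ {sm, sa} := by
  simp [GeEnv.edgeOps, GeEnv.zoneOps, GeEnv.rwOp, FrOp.sheets]

theorem gee_part (E : GeEnv Λ HI Ω ε δ) (lv : GeLvl PP) (sm sa : SH) {A B C : PP} (gin gout : Λ → PP)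
    {Ap : Finset PP} (hA : A ∈ Ap) (hB : B ∈ Ap) (hC : C ∈ Ap) :
    ∀ o ∈ E.edgeOps lv sm sa A B C gin gout Ap, o.part ⊆ Ap := by
  simp [GeEnv.edgeOps, GeEnv.zoneOps, GeEnv.rwOp, FrOp.part, Finset.insert_subset_iff, hA, hB, hC]

end Claimed.Agent.R296
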