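import Claimed.Agent.R296.P2.GeoPar

/-!
# Row 296, paper 2, Section 6: existence of the geometric environment (prefix `gex_`; helper189)

`ge_env_exists`: from `GAngularStmt q J Δ (1/64) 4 4 p D L0` (Proposition 2.4) and `GPatchStmt q J Δ B0 p C c` (Proposition 3.1) we build,
for every grid model with `L ≥ max L0 2` and every `γ` with `D log L ≤ 4 · 2^γ` and `2^γ ≤ 8 B0 log L`, an environment
`E : GeEnv (GSite L) (GeHI L γ) M.Ω (L^-p) (L^-p)` with `E.pt = fpt`, `E.G = 256 · 2^γ`, `E.nmax = 1024 L` and at most `C L^c` cylinders per patch.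
The index type is `GeHI L γ = Fin A × Fin A × Fin (32 · 2^γ)`, `A = 256 L + 1024 · 2^γ + 1`:
`ctr a = (a.1 - 512 · 2^γ, a.2.1 - 512 · 2^γ)`, `rad a = a.2.2 + 1`.
Dictionary: the fine point `c` is the point `((c.1 - 128)/256, (c.2 - 128)/256)` of the plane, fine lengths are `256 ×` lattice lengths.
-/

set_option autoImplicit false
set_option linter.unusedSectionVars false

namespace Claimed.Agent.R296

open Matrix

variable {q : ℕ} [NeZero q] {J Δ : ℝ} {L : ℕ}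

/-- the point of the plane with fine coordinates `c` -/
noncomputable def gexPl (c : ℤ × ℤ) : ℝ × ℝ := (((c.1 : ℝ) - 128) / 256, ((c.2 : ℝ) - 128) / 256)

theorem gex_gdR (x : GSite L) (c : ℤ × ℤ) :
    gdR x (gexPl c) = ((dInf (fpt x) c : ℤ) : ℝ) / 256 := by
  unfold gdR gexPl dInf fpt
  push_cast
  have h : ∀ (a b : ℝ), |a - (b - 128) / 256| = |256 * a + 128 - b| / 256 := by
    intro a b
    have : a - (b - 128) / 256 = (256 * a + 128 - b) / 256 := by ring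
    rw [this, abs_div, abs_of_pos (show (0 : ℝ) < 256 by norm_num)]
  rw [h, h, max_div_div_right (by norm_num)]

theorem gex_dInf_fpt (x y : GSite L) : dInf (fpt x) (fpt y) = 256 * gd x y := by
  unfold gd dInf fpt gpt
  have h : ∀ a b : ℤ, |256 * a + 128 - (256 * b + 128)| = 256 * |a - b| := by
    intro a b
    have : 256 * a + 128 - (256 * b + 128) = 256 * (a - b) := by ring
    rw [this, abs_mul, abs_of_pos (show (0 : ℤ) < 256 by norm_num)]
  simp only [h]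
  rw [mul_max_of_nonneg _ _ (by norm_num)]

theorem gex_mem_sqr (x : GSite L) (c : ℤ × ℤ) (r : ℤ) :
    x ∈ sqr (gexPl c) ((r : ℝ) / 256) ↔ dInf (fpt x) c ≤ r := by
  unfold sqr
  rw [Finset.mem_filter, gex_gdR, div_le_div_iff_of_pos_right (by norm_num)]
  simp

theorem gex_sqr_mono (z : ℝ × ℝ) {r r' : ℝ} (h : r ≤ r') : (sqr z r : Finset (GSite L)) ⊆ sqr z r' := by
  intro x hx
  unfold sqr at hx ⊢
  rw [Finset.mem_filter] at hx ⊢
  exact ⟨hx.1, hx.2.trans h⟩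

/-- one patch -/
theorem gex_patch {B0 p C c : ℝ} (hpat : GPatchStmt q J Δ B0 p C c) (hL : 2 ≤ L)
    (M : GModel q J Δ L) (z : ℝ × ℝ) (u : ℝ) (hu : 0 < u) (huB : u ≤ B0 * Real.log L) :
    ∃ P : FrPatch M.Ω ((L : ℝ) ^ (-p)), P.inn = sqr z u ∧ P.out = sqr z (2 * u) ∧
      (P.nb : ℝ) ≤ C * (L : ℝ) ^ c := by
  obtain ⟨N, hN, r, v, hr, hv, horth, herr⟩ := hpat L hL M z u hu huB
  exact ⟨{ inn := sqr z u, out := sqr z (2 * u), nb := N, D := fun b => sqr z (r b), v := v,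
           inn_sub := fun b => gex_sqr_mono z (hr b).1, sub_out := fun b => gex_sqr_mono z (hr b).2,
           inn_out := gex_sqr_mono z (by linarith),
           unit := hv, orth := horth, err := herr }, rfl, rfl, hN⟩

/-- index type of the patches -/
abbrev GeHI (L γ : ℕ) : Type :=
  Fin (256 * L + 1024 * 2 ^ γ + 1) × Fin (256 * L + 1024 * 2 ^ γ + 1) × Fin (32 * 2 ^ γ)

/-- fine centre -/
def gexCtr {L γ : ℕ} (a : GeHI L γ) : ℤ × ℤ :=
  (((a.1 : ℕ) : ℤ) - 512 * 2 ^ γ, ((a.2.1 : ℕ) : ℤ) - 512 * 2 ^ γ)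

/-- fine inner radius -/
def gexRad {L γ : ℕ} (a : GeHI L γ) : ℤ := ((a.2.2 : ℕ) : ℤ) + 1

theorem gex_card (L γ : ℕ) :
    Fintype.card (GeHI L γ) = (256 * L + 1024 * 2 ^ γ + 1) ^ 2 * (32 * 2 ^ γ) := by
  simp only [Fintype.card_prod, Fintype.card_fin]
  ring

/-- the angular estimate in integer form -/
theorem gex_ang {p D : ℝ} {L0 : ℕ} (hang : GAngularStmt q J Δ (1 / 64) 4 4 p D L0) (hL : L0 ≤ L)
    (M : GModel q J Δ L) (γ : ℕ) (h1 : D * Real.log L ≤ 4 * (2 : ℝ) ^ γ)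
    (VV : Finset (ℤ × ℤ)) (X F : Finset (GSite L)) (n : ℤ) (hVV : VV.card ≤ 4)
    (hn : 4 * (256 * 2 ^ γ) ≤ n) (hn' : n ≤ 1024 * (L : ℤ))
    (hX : ∀ x ∈ X, ∀ y ∈ X, dInf (fpt x) (fpt y) ≤ 4 * n)
    (hG : ∀ x ∈ X, ∀ e ∈ F, (256 * 2 ^ γ : ℤ) ≤ 16 * dInf (fpt x) (fpt e))
    (hsep : ∀ x ∈ X, ∀ e ∈ F, n ≤ 64 * dInf (fpt x) (fpt e) ∨
      ∃ v ∈ VV, dInf (fpt x) v ≤ 64 * dInf (fpt x) (fpt e)) :
    minfo (io := fun _ : GSite L => Fin q) (pureOp M.Ω) X F ≤ (L : ℝ) ^ (-p) := by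
  classical
  have hnR : 4 * (256 * (2 : ℝ) ^ γ) ≤ (n : ℝ) := by exact_mod_cast hn
  have hnR' : (n : ℝ) ≤ 1024 * (L : ℝ) := by exact_mod_cast hn'
  refine hang L hL M (VV.image gexPl) (Finset.card_image_le.trans hVV) X F ((n : ℝ) / 256)
    ?_ ?_ ?_ ?_ ?_
  · rw [le_div_iff₀ (by norm_num)]
    linarith
  · rw [div_le_iff₀ (by norm_num)]
    linarith
  · intro x hx y hy
    have h := hX x hx y hy
    rw [gex_dInf_fpt] at h
    have hR : 256 * ((gd x y : ℤ) : ℝ) ≤ 4 * (n : ℝ) := by exact_mod_cast h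
    linarith
  · intro x hx e he
    have h := hG x hx e he
    rw [gex_dInf_fpt] at h
    have hR : 256 * (2 : ℝ) ^ γ ≤ 16 * (256 * ((gd x e : ℤ) : ℝ)) := by exact_mod_cast h
    linarith
  · intro x hx e he τ hτ hv
    rcases hsep x hx e he with h | ⟨v, hvV, h⟩
    · rw [gex_dInf_fpt] at h
      have hR : (n : ℝ) ≤ 64 * (256 * ((gd x e : ℤ) : ℝ)) := by exact_mod_cast h
      have : τ ≤ 64 * ((gd x e : ℤ) : ℝ) := by
        refine hτ.trans ?_
        rw [div_le_iff₀ (by norm_num)]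
        linarith
      linarith
    · rw [gex_dInf_fpt] at h
      have hR : ((dInf (fpt x) v : ℤ) : ℝ) ≤ 64 * (256 * ((gd x e : ℤ) : ℝ)) := by exact_mod_cast h
      have h2 := hv (gexPl v) (Finset.mem_image_of_mem _ hvV)
      rw [gex_gdR] at h2
      have : τ ≤ 64 * ((gd x e : ℤ) : ℝ) := by
        refine h2.trans ?_
        rw [div_le_iff₀ (by norm_num)]
        linarith
      linarith

theorem fpt_injective : Function.Injective (fpt : GSite L → ℤ × ℤ) := by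
  intro x y h
  simp only [fpt, Prod.mk.injEq] at h
  exact Prod.ext (Fin.ext (by omega)) (Fin.ext (by omega))

/-- **existence of the environment** -/
theorem ge_env_exists {p D B0 C c : ℝ} {L0 : ℕ} (hang : GAngularStmt q J Δ (1 / 64) 4 4 p D L0)
    (hpat : GPatchStmt q J Δ B0 p C c) (hL : L0 ≤ L) (hL2 : 2 ≤ L) (M : GModel q J Δ L) (γ : ℕ)
    (h1 : D * Real.log L ≤ 4 * (2 : ℝ) ^ γ) (h2 : (2 : ℝ) ^ γ ≤ 8 * B0 * Real.log L) :
    ∃ E : GeEnv (GSite L) (GeHI L γ) M.Ω ((L : ℝ) ^ (-p)) ((L : ℝ) ^ (-p)),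
      E.pt = fpt ∧ E.ctr = gexCtr ∧ E.rad = gexRad ∧ E.G = 256 * 2 ^ γ ∧ E.nmax = 1024 * (L : ℤ) ∧
      ∀ a, ((E.pat a).nb : ℝ) ≤ C * (L : ℝ) ^ c := by
  classical
  have hrad : ∀ a : GeHI L γ, 0 < gexRad a ∧ gexRad a ≤ 32 * 2 ^ γ := by
    intro a
    have h := a.2.2.2
    unfold gexRad
    constructor
    · positivity
    · have : ((a.2.2 : ℕ) : ℤ) < ((32 * 2 ^ γ : ℕ) : ℤ) := by exact_mod_cast h
      push_cast at this
      omega
  have hex : ∀ a : GeHI L γ, ∃ P : FrPatch M.Ω ((L : ℝ) ^ (-p)),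
      P.inn = sqr (gexPl (gexCtr a)) ((gexRad a : ℝ) / 256) ∧
      P.out = sqr (gexPl (gexCtr a)) (2 * ((gexRad a : ℝ) / 256)) ∧
      (P.nb : ℝ) ≤ C * (L : ℝ) ^ c := by
    intro a
    have hr0 : (0 : ℝ) < (gexRad a : ℝ) := by exact_mod_cast (hrad a).1
    have hr1 : (gexRad a : ℝ) ≤ 32 * (2 : ℝ) ^ γ := by exact_mod_cast (hrad a).2
    refine gex_patch hpat hL2 M _ _ (by positivity) ?_
    rw [div_le_iff₀ (by norm_num)]
    nlinarith
  choose P hPi hPo hPn using hex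
  refine ⟨{ pt := fpt, pat := P, ctr := gexCtr, rad := gexRad, G := 256 * 2 ^ γ,
            nmax := 1024 * (L : ℤ), pt_inj := fpt_injective, odd := ?_, conv := ?_, mem_inn := ?_,
            mem_out := ?_, inj := ?_, surj := ?_, ang := ?_ }, rfl, rfl, rfl, rfl, rfl, hPn⟩
  · intro x
    simp only [fpt]
    constructor <;> omega
  · intro x y pp hp1 hp2 a1 a2 b1 b2
    simp only [fpt] at a1 a2 b1 b2
    have hx1 := x.1.2
    have hx2 := x.2.2
    have hy1 := y.1.2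
    have hy2 := y.2.2
    have c1 : 0 ≤ pp.1 / 256 ∧ pp.1 / 256 < L := by
      rcases le_total (256 * ((x.1 : ℕ) : ℤ) + 128) (256 * ((y.1 : ℕ) : ℤ) + 128) with h | h
      · rw [min_eq_left h] at a1; rw [max_eq_right h] at a2; omega
      · rw [min_eq_right h] at a1; rw [max_eq_left h] at a2; omega
    have c2 : 0 ≤ pp.2 / 256 ∧ pp.2 / 256 < L := by
      rcases le_total (256 * ((x.2 : ℕ) : ℤ) + 128) (256 * ((y.2 : ℕ) : ℤ) + 128) with h | h
      · rw [min_eq_left h] at b1; rw [max_eq_right h] at b2; omega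
      · rw [min_eq_right h] at b1; rw [max_eq_left h] at b2; omega
    refine ⟨(⟨(pp.1 / 256).toNat, by omega⟩, ⟨(pp.2 / 256).toNat, by omega⟩), ?_⟩
    simp only [fpt]
    refine Prod.ext ?_ ?_
    · simp only []
      rw [Int.toNat_of_nonneg c1.1]
      omega
    · simp only []
      rw [Int.toNat_of_nonneg c2.1]
      omega
  · intro a x
    rw [hPi a]
    exact gex_mem_sqr x _ _
  · intro a x
    rw [hPo a]
    have : 2 * ((gexRad a : ℝ) / 256) = (((2 * gexRad a : ℤ) : ℝ)) / 256 := by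
      push_cast; ring
    rw [this]
    exact gex_mem_sqr x _ _
  · intro a a' hc hr
    simp only [gexCtr, Prod.mk.injEq] at hc
    simp only [gexRad] at hr
    refine Prod.ext (Fin.ext (by omega)) (Prod.ext (Fin.ext (by omega)) (Fin.ext (by omega)))
  · intro cc r x hx hr0 hr8
    have hx1 := x.1.2
    have hx2 := x.2.2
    unfold dInf at hx
    simp only [fpt, max_le_iff, abs_le] at hx
    obtain ⟨g, hg⟩ : ∃ g : ℕ, g = 2 ^ γ := ⟨_, rfl⟩
    have hgZ : (2 : ℤ) ^ γ = (g : ℤ) := by rw [hg]; push_cast; rfl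
    rw [hgZ] at hx hr8
    refine ⟨(⟨(cc.1 + 512 * g).toNat, ?_⟩, ⟨(cc.2 + 512 * g).toNat, ?_⟩, ⟨(r - 1).toNat, ?_⟩),
      ?_, ?_⟩
    · rw [← hg]; omega
    · rw [← hg]; omega
    · rw [← hg]; omega
    · simp only [gexCtr, hgZ]
      refine Prod.ext ?_ ?_
      · simp only []
        rw [Int.toNat_of_nonneg (by omega)]
        ring
      · simp only []
        rw [Int.toNat_of_nonneg (by omega)]
        ring
    · simp only [gexRad]
      rw [Int.toNat_of_nonneg (by omega)]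
      ring
  · intro VV X F n hVV hn hn' hX hG hsep
    exact gex_ang hang hL M γ h1 VV X F n hVV hn hn' hX hG hsep

end Claimed.Agent.R296
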