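import Claimed.Agent.R296.P2.ResetSite
import Claimed.Agent.R296.P2.ResetDS
import Claimed.Agent.R296.EntSiteAFW
import Claimed.Agent.R296.EntSiteChange
import Claimed.Agent.R296.EntSite

/-!
# Row 296, paper 2, Lemma 2.3: from the local unitary to the mutual information (package RE; proofs helper46, auxiliary lemmas `rent*`)

With `A₀ = dcopy 0 (R0 ∪ C0)`:
* `ent (U Ψ) A₀ = ent Ψ A₀ = S(R0 ∪ C0)`      (`ent_conj_suppIn_disjoint`, `pureOp_mulVec`, `ent_kronecker`);
* `ent Φ A₀ = ent Ψ (dcopy 1 R0 ∪ dcopy 0 C0) = S(R0) + S(C0)`   (`ent_submatrix_equiv` for the partial swap, `ent_kronecker`);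
* `ent_afw_pureOp` (FAN) with `logDim A₀ ≤ L² log q`.
-/

set_option autoImplicit false
set_option linter.unusedSectionVars false

namespace Claimed.Agent.R296

open Matrix
open scoped MatrixOrder Matrix.Norms.L2Operator ComplexOrder Kronecker

variable {q : ℕ} [NeZero q] {J Δ : ℝ} {L : ℕ}

/-- the two copies of a configuration of the doubled grid -/
def rentE (q L : ℕ) : DCfg q L ≃ Cfg (gio q L) × Cfg (gio q L) where
  toFun c := (rcopy c 0, rcopy c 1)
  invFun p := fun x => if x.1 = 0 then p.1 x.2 else p.2 x.2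
  left_inv c := by
    funext ⟨j, y⟩
    fin_cases j <;> simp [rcopy]
  right_inv p := by
    refine Prod.ext ?_ ?_ <;> funext y <;> simp [rcopy]

theorem rent_mem_dcopy (j i : Fin 2) (A : Finset (GSite L)) (y : GSite L) :
    (i, y) ∈ dcopy j A ↔ i = j ∧ y ∈ A := by
  rw [dcopy, Finset.mem_product, Finset.mem_singleton]

theorem rent_norm (M : GModel q J Δ L) : ∑ i, ‖M.Ω i‖ ^ 2 = 1 := by
  have h := M.nrm
  rw [star_dotProduct_self_eq] at h
  exact_mod_cast h

theorem rent_pureOp_Ψ2 (M : GModel q J Δ L) :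
    pureOp M.Ψ2 = (pureOp M.Ω ⊗ₖ pureOp M.Ω).submatrix (rentE q L) (rentE q L) := by
  ext c c'
  simp only [pureOp_apply, GModel.Ψ2, tpow, Fin.prod_univ_two, submatrix_apply, kroneckerMap_apply,
    rentE, Equiv.coe_fn_mk, star_mul']
  ring

theorem GModel.ent_Ψ2 (M : GModel q J Δ L) (A A' : Finset (GSite L)) :
    ent (io := rio (gio q L) (Fin 2)) (pureOp M.Ψ2) (dcopy 0 A ∪ dcopy 1 A') = M.S A + M.S A' := by
  rw [rent_pureOp_Ψ2]
  refine ent_kronecker (io := rio (gio q L) (Fin 2)) (io' := gio q L) (io'' := gio q L)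
    (rentE q L) _ A A' ?_ ?_ (pureOp_isDensity (rent_norm M)) (pureOp_isDensity (rent_norm M))
  · intro σ τ
    constructor
    · intro h
      exact ⟨fun y hy => h (0, y) (Finset.mem_union_left _ ((rent_mem_dcopy _ _ _ _).2 ⟨rfl, hy⟩)),
        fun y hy => h (1, y) (Finset.mem_union_right _ ((rent_mem_dcopy _ _ _ _).2 ⟨rfl, hy⟩))⟩
    · rintro ⟨h0, h1⟩ ⟨j, y⟩ hx
      rw [Finset.mem_union, rent_mem_dcopy, rent_mem_dcopy] at hx
      rcases hx with ⟨rfl, hy⟩ | ⟨rfl, hy⟩
      · exact h0 y hy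
      · exact h1 y hy
  · intro σ τ
    constructor
    · intro h
      refine ⟨fun y hy => h (0, y) ?_, fun y hy => h (1, y) ?_⟩
      · rw [Finset.mem_union, rent_mem_dcopy, rent_mem_dcopy]
        simp [hy]
      · rw [Finset.mem_union, rent_mem_dcopy, rent_mem_dcopy]
        simp [hy]
    · rintro ⟨h0, h1⟩ ⟨j, y⟩ hx
      rw [Finset.mem_union, rent_mem_dcopy, rent_mem_dcopy] at hx
      push Not at hx
      fin_cases j
      · exact h0 y (hx.1 rfl)
      · exact h1 y (hx.2 rfl)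


/-- the action of the partial swap on configurations -/
def rentSw (q : ℕ) (R : Finset (GSite L)) : Equiv.Perm (DCfg q L) :=
  rperm (io := gio q L) R (Equiv.swap (0 : Fin 2) 1)⁻¹

theorem rentSw_apply (R : Finset (GSite L)) (c : DCfg q L) (j : Fin 2) (y : GSite L) :
    rentSw q R c (j, y) = if y ∈ R then c (Equiv.swap (0 : Fin 2) 1 j, y) else c (j, y) := by
  rw [rentSw, rperm_apply]
  simp

theorem rent_Φ2 (M : GModel q J Δ L) (R : Finset (GSite L)) : M.Φ2 R = M.Ψ2 ∘ rentSw q R := by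
  funext c
  exact UQ_mulVec (io := gio q L) R _ M.Ψ2 c

theorem GModel.ent_Φ2 (M : GModel q J Δ L) (R R0 C0 : Finset (GSite L)) (h0 : R0 ⊆ R)
    (h1 : Disjoint C0 R) :
    ent (io := rio (gio q L) (Fin 2)) (pureOp (M.Φ2 R)) (dcopy 0 (R0 ∪ C0)) = M.S R0 + M.S C0 := by
  have hC : ∀ y, y ∈ C0 → y ∉ R := fun y hy => Finset.disjoint_left.1 h1 hy
  rw [rent_Φ2, ← pureOp_submatrix, add_comm, ← M.ent_Ψ2 C0 R0]
  refine ent_submatrix_equiv (io := rio (gio q L) (Fin 2)) (io' := rio (gio q L) (Fin 2))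
    (rentSw q R) _ _ ?_ ?_ _
  · intro σ τ
    constructor
    · rintro h ⟨j, y⟩ hy
      rw [Finset.mem_union, rent_mem_dcopy, rent_mem_dcopy] at hy
      rw [rentSw_apply, rentSw_apply]
      rcases hy with ⟨rfl, hy⟩ | ⟨rfl, hy⟩
      · rw [if_neg (hC y hy), if_neg (hC y hy)]
        exact h _ ((rent_mem_dcopy _ _ _ _).2 ⟨rfl, Finset.mem_union_right _ hy⟩)
      · rw [if_pos (h0 hy), if_pos (h0 hy)]
        exact h _ ((rent_mem_dcopy _ _ _ _).2 ⟨by simp, Finset.mem_union_left _ hy⟩)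
    · rintro h ⟨j, y⟩ hy
      rw [rent_mem_dcopy, Finset.mem_union] at hy
      obtain ⟨rfl, hy⟩ := hy
      rcases hy with hy | hy
      · have := h (1, y) (Finset.mem_union_right _ ((rent_mem_dcopy _ _ _ _).2 ⟨rfl, hy⟩))
        rw [rentSw_apply, rentSw_apply, if_pos (h0 hy), if_pos (h0 hy),
          Equiv.swap_apply_right] at this
        exact this
      · have := h (0, y) (Finset.mem_union_left _ ((rent_mem_dcopy _ _ _ _).2 ⟨rfl, hy⟩))
        rw [rentSw_apply, rentSw_apply, if_neg (hC y hy), if_neg (hC y hy)] at this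
        exact this
  · intro σ τ
    constructor
    · rintro h ⟨j, y⟩ hy
      rw [Finset.mem_union, rent_mem_dcopy, rent_mem_dcopy] at hy
      push Not at hy
      rw [rentSw_apply, rentSw_apply]
      by_cases hR : y ∈ R
      · rw [if_pos hR, if_pos hR]
        refine h _ ?_
        rw [rent_mem_dcopy, Finset.mem_union]
        rintro ⟨hj, hy'⟩
        have hj1 : j = 1 := by
          fin_cases j
          · simp at hj
          · rfl
        rcases hy' with hy' | hy'
        · exact hy.2 hj1 hy'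
        · exact hC y hy' hR
      · rw [if_neg hR, if_neg hR]
        refine h _ ?_
        rw [rent_mem_dcopy, Finset.mem_union]
        rintro ⟨hj, hy'⟩
        rcases hy' with hy' | hy'
        · exact hR (h0 hy')
        · exact hy.1 hj hy'
    · rintro h ⟨j, y⟩ hy
      rw [rent_mem_dcopy, Finset.mem_union] at hy
      push Not at hy
      by_cases hR : y ∈ R
      · have := h (Equiv.swap (0 : Fin 2) 1 j, y) (by
          rw [Finset.mem_union, rent_mem_dcopy, rent_mem_dcopy]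
          rintro (⟨hj, hy'⟩ | ⟨hj, hy'⟩)
          · exact hC y hy' hR
          · have hj0 : j = 0 := by
              fin_cases j
              · rfl
              · simp at hj
            exact (hy hj0).1 hy')
        rw [rentSw_apply, rentSw_apply, if_pos hR, if_pos hR, Equiv.swap_apply_self] at this
        exact this
      · have := h (j, y) (by
          rw [Finset.mem_union, rent_mem_dcopy, rent_mem_dcopy]
          rintro (⟨hj, hy'⟩ | ⟨hj, hy'⟩)
          · exact (hy hj).2 hy'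
          · exact hR (h0 hy'))
        rw [rentSw_apply, rentSw_apply, if_neg hR, if_neg hR] at this
        exact this


theorem rent_sq_of_dot {n : Type} [Fintype n] {v : n → ℂ} (h : star v ⬝ᵥ v = 1) :
    ∑ i, ‖v i‖ ^ 2 = 1 := by
  classical
  rw [star_dotProduct_self_eq] at h
  exact_mod_cast h

theorem rent_logDim (A : Finset (GSite L)) (j : Fin 2) :
    logDim (rio (gio q L) (Fin 2)) (dcopy j A) ≤ (L : ℝ) ^ 2 * Real.log q := by
  have h1 : logDim (rio (gio q L) (Fin 2)) (dcopy j A) = ((dcopy j A).card : ℝ) * Real.log q := by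
    unfold logDim
    simp
  have h2 : (dcopy j A).card ≤ L ^ 2 := by
    rw [dcopy, Finset.card_product, Finset.card_singleton, one_mul]
    calc A.card ≤ Fintype.card (GSite L) := Finset.card_le_univ A
      _ = L ^ 2 := by simp [sq]
  rw [h1]
  refine mul_le_mul_of_nonneg_right ?_ (Real.log_natCast_nonneg q)
  exact_mod_cast h2

theorem GModel.reset_entropy (M : GModel q J Δ L) (R R0 C0 S : Finset (GSite L)) (h0 : R0 ⊆ R)
    (h1 : Disjoint C0 R) (hS : Disjoint S (R0 ∪ C0))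
    (U : Matrix (DCfg q L) (DCfg q L) ℂ) (hU : U * Uᴴ = 1)
    (hUS : SuppIn (io := rio (gio q L) (Fin 2)) (dreg S) U) (ε : ℝ)
    (hε : ‖U * colV M.Ψ2 - colV (M.Φ2 R)‖ ≤ ε) :
    M.I R0 C0 ≤ afwFun ε ((L : ℝ) ^ 2 * Real.log q) := by
  have hε0 : 0 ≤ ε := (norm_nonneg _).trans hε
  have hU' : Uᴴ * U = 1 := mul_eq_one_comm.mp hU
  set A₀ := dcopy (0 : Fin 2) (R0 ∪ C0) with hA₀
  -- disjointness of the supports
  have hdis : Disjoint (dreg S) A₀ := by
    rw [Finset.disjoint_left]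
    rintro ⟨j, y⟩ hy hy'
    rw [dreg, Finset.mem_product] at hy
    rw [hA₀, rent_mem_dcopy] at hy'
    exact Finset.disjoint_left.1 hS hy.2 hy'.2
  have e1 : ent (io := rio (gio q L) (Fin 2)) (pureOp (U *ᵥ M.Ψ2)) A₀ = M.S (R0 ∪ C0) := by
    rw [pureOp_mulVec, ent_conj_suppIn_disjoint (io := rio (gio q L) (Fin 2)) hU hUS hdis]
    have h2 := M.ent_Ψ2 (R0 ∪ C0) ∅
    have h3 : dcopy (1 : Fin 2) (∅ : Finset (GSite L)) = ∅ := by simp [dcopy]
    have h4 : M.S ∅ = 0 := ent_empty (pureOp_isDensity (rent_norm M))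
    rw [h3, Finset.union_empty, h4, add_zero] at h2
    exact h2
  have e2 := M.ent_Φ2 R R0 C0 h0 h1
  have n1 : ∑ i, ‖(U *ᵥ M.Ψ2) i‖ ^ 2 = 1 := by
    apply rent_sq_of_dot
    rw [star_mulVec, ← dotProduct_mulVec, mulVec_mulVec, hU', one_mulVec]
    exact M.ds_Ψ2_dot
  have n2 : ∑ i, ‖(M.Φ2 R) i‖ ^ 2 = 1 := by
    rw [← norm_colV_sq, M.norm_Φ2, one_pow]
  have hd : Real.sqrt (∑ i, ‖(U *ᵥ M.Ψ2) i - (M.Φ2 R) i‖ ^ 2) ≤ ε := by
    have h5 : ∑ i, ‖(U *ᵥ M.Ψ2) i - (M.Φ2 R) i‖ ^ 2 = ‖U * colV M.Ψ2 - colV (M.Φ2 R)‖ ^ 2 := by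
      rw [← colV_mulVec, ← colV_sub, norm_colV_sq]
      rfl
    rw [h5, Real.sqrt_sq (norm_nonneg _)]
    exact hε
  have h6 := ent_afw_pureOp (io := rio (gio q L) (Fin 2)) n1 n2 hd A₀
  rw [e1, e2] at h6
  have h7 := afwFun_mono_right hε0 (rent_logDim (q := q) (R0 ∪ C0) 0)
  have h8 := (abs_le.1 h6).1
  unfold GModel.I
  linarith

end Claimed.Agent.R296
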