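import Claimed.Agent.R296.P2.ResetSite
import Claimed.Agent.R296.EntAfwFun

/-!
# Row 296, paper 2, Lemma 2.3: the scalar estimates (one-owner file, package P2-ResetRC; owner helper271)
-/

set_option autoImplicit false
set_option linter.unusedSectionVars false

namespace Claimed.Agent.R296

open Matrix
open scoped MatrixOrder Matrix.Norms.L2Operator ComplexOrder

variable {q : ℕ} [NeZero q] {J Δ : ℝ} {L : ℕ}

/-- the localisation error is `≤ exp (-r B)` when `ℓ ≥ K B`. -/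
theorem resetRC_epsG_le {J T0 r B : ℝ} {L ℓ : ℕ} (hJ : 0 < J) (hT0 : 0 < T0) (hB : 1 ≤ B)
    (hL : 1 ≤ L) (hLB : Real.log L ≤ B)
    (hℓ : (24 * J * T0 * (1 + 12 * J * T0) + 7 + 40 * Real.exp 1 * J * T0 + r) * B ≤ (ℓ : ℝ)) :
    epsG J L ℓ (T0 * B) ≤ Real.exp (-(r * B)) := by
  set y : ℝ := Real.exp B with hy
  set c1 : ℝ := 24 * J * T0 * (1 + 12 * J * T0) with hc1
  have hc1pos : 0 < c1 := by positivity
  have hB0 : 0 < B := by linarith
  have hy1 : 1 ≤ y := Real.one_le_exp hB0.le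
  have hBy : B ≤ y := by
    have := Real.add_one_le_exp B
    linarith
  have hLpos : (0 : ℝ) < L := by exact_mod_cast hL
  have hLy : (L : ℝ) ≤ y := by
    rw [hy, ← Real.exp_log hLpos]
    exact Real.exp_le_exp.mpr hLB
  have hL2 : (L : ℝ) ^ 2 ≤ y ^ 2 := pow_le_pow_left₀ hLpos.le hLy 2
  have hT : T0 * B ≤ T0 * y := mul_le_mul_of_nonneg_left hBy hT0.le
  have hy3 : 1 ≤ y ^ 3 := one_le_pow₀ hy1
  have hy0 : 0 < y := by linarith
  have hP : T0 * B * (3 * (L : ℝ) ^ 2) * (2 * (2 * J) * 2) *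
      (1 + 2 * (2 * J) * (3 * (L : ℝ) ^ 2) * (T0 * B)) ≤ c1 * y ^ 6 := by
    have h1 : 1 + 2 * (2 * J) * (3 * (L : ℝ) ^ 2) * (T0 * B)
        ≤ y ^ 3 + 2 * (2 * J) * (3 * y ^ 2) * (T0 * y) := by gcongr
    calc T0 * B * (3 * (L : ℝ) ^ 2) * (2 * (2 * J) * 2) *
          (1 + 2 * (2 * J) * (3 * (L : ℝ) ^ 2) * (T0 * B))
        ≤ T0 * y * (3 * y ^ 2) * (2 * (2 * J) * 2) *
          (y ^ 3 + 2 * (2 * J) * (3 * y ^ 2) * (T0 * y)) := by gcongr
      _ = c1 * y ^ 6 := by rw [hc1]; ring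
  have hc1e : c1 ≤ Real.exp (c1 * B) := by
    have h1 := Real.add_one_le_exp (c1 * B)
    nlinarith
  have hy6 : y ^ 6 = Real.exp (6 * B) := by
    rw [hy, ← Real.exp_nat_mul]
    norm_num
  unfold epsG
  calc T0 * B * (3 * (L : ℝ) ^ 2) * (2 * (2 * J) * 2) *
        (1 + 2 * (2 * J) * (3 * (L : ℝ) ^ 2) * (T0 * B)) *
        Real.exp (2 * Real.exp 1 * 2 * (5 * (2 * J)) * (T0 * B) - ((ℓ : ℝ) - 1))
      ≤ (Real.exp (c1 * B) * Real.exp (6 * B)) *
        Real.exp (2 * Real.exp 1 * 2 * (5 * (2 * J)) * (T0 * B) - ((ℓ : ℝ) - 1)) := by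
        apply mul_le_mul_of_nonneg_right _ (Real.exp_pos _).le
        calc _ ≤ c1 * y ^ 6 := hP
          _ ≤ Real.exp (c1 * B) * Real.exp (6 * B) := by
              rw [hy6]
              exact mul_le_mul_of_nonneg_right hc1e (Real.exp_pos _).le
    _ = Real.exp (c1 * B + 6 * B +
          (2 * Real.exp 1 * 2 * (5 * (2 * J)) * (T0 * B) - ((ℓ : ℝ) - 1))) := by
        rw [← Real.exp_add, ← Real.exp_add]
    _ ≤ Real.exp (-(r * B)) := by
        apply Real.exp_le_exp.mpr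
        nlinarith

/-- the final step: from `δ ≤ 16 exp (-(2p+6) B)` to the bound `L^{-p}`. -/
theorem resetRC_afw_le {p B δ : ℝ} {q L : ℕ} (hp : 0 < p) (_hB : 1 ≤ B) (hLB : Real.log L ≤ B)
    (hL : 8 * (1 + Real.log q) ≤ (L : ℝ)) (hδ0 : 0 ≤ δ)
    (hδ : δ ≤ 16 * Real.exp (-((2 * p + 6) * B))) :
    afwFun δ ((L : ℝ) ^ 2 * Real.log q) ≤ (L : ℝ) ^ (-p) := by
  have hq : 0 ≤ Real.log q := Real.log_natCast_nonneg q
  have hLpos : (0 : ℝ) < L := by linarith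
  have hX : 0 ≤ (L : ℝ) ^ 2 * Real.log q := by positivity
  set e : ℝ := Real.exp (-((p + 3) * B)) with he
  have he0 : 0 < e := Real.exp_pos _
  have hδ' : 16 * Real.exp (-((2 * p + 6) * B)) = (4 * e) ^ 2 := by
    rw [he, mul_pow, ← Real.exp_nat_mul]
    norm_num
    ring_nf
  have heL : e ≤ (L : ℝ) ^ (-(p + 3)) := by
    rw [he, Real.rpow_def_of_pos hLpos]
    apply Real.exp_le_exp.mpr
    nlinarith
  have hL8 : (8 : ℝ) ≤ L := by linarith
  have hsplit : (L : ℝ) ^ (-(p + 3)) = (L : ℝ) ^ (-p) * ((L : ℝ) ^ 3)⁻¹ := by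
    rw [show -(p + 3) = -p + -(3 : ℝ) by ring, Real.rpow_add hLpos, Real.rpow_neg hLpos.le (3 : ℝ)]
    norm_cast
  have hLp : 0 < (L : ℝ) ^ (-p) := Real.rpow_pos_of_pos hLpos _
  have hLp1 : (L : ℝ) ^ (-p) ≤ 1 :=
    Real.rpow_le_one_of_one_le_of_nonpos (by linarith) (by linarith)
  have hL3 : (0 : ℝ) < (L : ℝ) ^ 3 := by positivity
  have he4 : 4 * e ≤ 1 := by
    have h1 : ((L : ℝ) ^ 3)⁻¹ ≤ 1 / 4 := by
      rw [inv_le_comm₀ hL3 (by norm_num)]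
      have : (8 : ℝ) ^ 3 ≤ (L : ℝ) ^ 3 := pow_le_pow_left₀ (by norm_num) hL8 3
      norm_num at this ⊢
      linarith
    have h2 : e ≤ 1 * (1 / 4) := by
      refine heL.trans ?_
      rw [hsplit]
      exact mul_le_mul hLp1 h1 (by positivity) (by norm_num)
    linarith
  have hle1 : (4 * e) ^ 2 ≤ 1 := pow_le_one₀ (by positivity) he4
  calc afwFun δ ((L : ℝ) ^ 2 * Real.log q)
      ≤ afwFun ((4 * e) ^ 2) ((L : ℝ) ^ 2 * Real.log q) := afwFun_mono hδ0 (hδ' ▸ hδ) hX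
    _ ≤ 2 * Real.sqrt ((4 * e) ^ 2) * (1 + (L : ℝ) ^ 2 * Real.log q) :=
        afwFun_le_sqrt (by positivity) hle1 hX
    _ = 8 * e * (1 + (L : ℝ) ^ 2 * Real.log q) := by
        rw [Real.sqrt_sq (by positivity)]
        ring
    _ ≤ 8 * ((L : ℝ) ^ (-p) * ((L : ℝ) ^ 3)⁻¹) * (1 + (L : ℝ) ^ 2 * Real.log q) := by
        rw [← hsplit]
        gcongr
    _ = (L : ℝ) ^ (-p) * (8 * (1 + (L : ℝ) ^ 2 * Real.log q) / (L : ℝ) ^ 3) := by
        field_simp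
    _ ≤ (L : ℝ) ^ (-p) * 1 := by
        apply mul_le_mul_of_nonneg_left _ hLp.le
        rw [div_le_one hL3]
        have h1 : (1 : ℝ) ≤ (L : ℝ) ^ 2 := one_le_pow₀ (by linarith)
        have h2 : 8 * (1 + Real.log q) * (L : ℝ) ^ 2 ≤ L * (L : ℝ) ^ 2 :=
          mul_le_mul_of_nonneg_right hL (by positivity)
        nlinarith
    _ = (L : ℝ) ^ (-p) := mul_one _

/-- scalar estimates: with `B = 1 + b + log L` take `h = A B`, `T = T₀ B`, `ℓ = ⌈K B⌉`. -/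
theorem reset_constants (q : ℕ) (J Δ p : ℝ) (hJ : 0 < J) (hΔ : 0 < Δ) (hp : 0 < p) :
    ∃ (Cp : ℝ) (L0 : ℕ), ∀ (L : ℕ), L0 ≤ L → ∀ b : ℝ, 0 ≤ b →
      ∃ (ℓ : ℕ) (h T : ℝ), 1 ≤ ℓ ∧ (ℓ : ℝ) + 1 ≤ Cp * (1 + b + Real.log L) ∧ 0 < h ∧ 0 < T ∧
        afwFun (4 * (Real.exp (-(2 * h * Δ ^ 2 / Real.pi ^ 2)) + 2 * Real.exp (-(T ^ 2) / (2 * h)) +
          epsG J L ℓ T) * Real.exp (4 * b)) ((L : ℝ) ^ 2 * Real.log q) ≤ (L : ℝ) ^ (-p) := by
  have hpi := Real.pi_pos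
  set r : ℝ := 2 * p + 10 with hr
  have hr0 : 0 < r := by positivity
  set A : ℝ := r * Real.pi ^ 2 / (2 * Δ ^ 2) with hA
  have hA0 : 0 < A := by positivity
  set T0 : ℝ := Real.sqrt (2 * A * r) with hT0
  have hT00 : 0 < T0 := Real.sqrt_pos.mpr (by positivity)
  have hT0sq : T0 ^ 2 = 2 * A * r := Real.sq_sqrt (by positivity)
  set K : ℝ := 24 * J * T0 * (1 + 12 * J * T0) + 7 + 40 * Real.exp 1 * J * T0 + r with hK
  have hK0 : 0 < K := by positivity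
  have hq : 0 ≤ Real.log q := Real.log_natCast_nonneg q
  refine ⟨K + 2, ⌈8 * (1 + Real.log q)⌉₊, fun L hL b hb => ?_⟩
  have hL8 : 8 * (1 + Real.log q) ≤ (L : ℝ) := (Nat.le_ceil _).trans (by exact_mod_cast hL)
  have hL1 : (1 : ℝ) ≤ L := by linarith
  have hL1' : 1 ≤ L := by exact_mod_cast hL1
  have hlog : 0 ≤ Real.log L := Real.log_nonneg hL1
  set B : ℝ := 1 + b + Real.log L with hB
  have hB1 : 1 ≤ B := by linarith
  have hB0 : 0 < B := by linarith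
  have hLB : Real.log L ≤ B := by linarith
  have hKB : 0 < K * B := by positivity
  refine ⟨⌈K * B⌉₊, A * B, T0 * B, Nat.ceil_pos.mpr hKB, ?_, by positivity, by positivity, ?_⟩
  · have := Nat.ceil_lt_add_one hKB.le
    nlinarith
  · have hE1 : Real.exp (-(2 * (A * B) * Δ ^ 2 / Real.pi ^ 2)) = Real.exp (-(r * B)) := by
      congr 2
      rw [hA]
      field_simp
    have hE2 : Real.exp (-((T0 * B) ^ 2) / (2 * (A * B))) = Real.exp (-(r * B)) := by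
      congr 1
      rw [mul_pow, hT0sq]
      field_simp
    have hE3 : epsG J L ⌈K * B⌉₊ (T0 * B) ≤ Real.exp (-(r * B)) :=
      resetRC_epsG_le hJ hT00 hB1 hL1' hLB (Nat.le_ceil _)
    have hE30 : 0 ≤ epsG J L ⌈K * B⌉₊ (T0 * B) := by
      unfold epsG
      positivity
    rw [hE1, hE2]
    apply resetRC_afw_le hp hB1 hLB hL8 (by positivity)
    have h4b : Real.exp (4 * b) ≤ Real.exp (4 * B) := Real.exp_le_exp.mpr (by linarith)
    calc 4 * (Real.exp (-(r * B)) + 2 * Real.exp (-(r * B)) + epsG J L ⌈K * B⌉₊ (T0 * B))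
          * Real.exp (4 * b)
        ≤ 4 * (Real.exp (-(r * B)) + 2 * Real.exp (-(r * B)) + Real.exp (-(r * B)))
          * Real.exp (4 * B) := by gcongr
      _ = 16 * (Real.exp (-(r * B)) * Real.exp (4 * B)) := by ring
      _ = 16 * Real.exp (-((2 * p + 6) * B)) := by
          rw [← Real.exp_add]
          congr 2
          rw [hr]
          ring

end Claimed.Agent.R296
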