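import Claimed.Agent.R296.P2.ResetRA
import Claimed.Agent.R296.P2.ResetRC
import Claimed.Agent.R296.P2.ResetEnt

/-!
# Row 296, paper 2, Lemma 2.3 (`lem:reset`): final assembly
-/

set_option autoImplicit false
set_option linter.unusedSectionVars false

namespace Claimed.Agent.R296

open Matrix
open scoped MatrixOrder Matrix.Norms.L2Operator ComplexOrder

variable {q : ℕ} [NeZero q] {J Δ : ℝ} {L : ℕ}

/-- **Lemma 2.3 of paper 2** -/
theorem gReset (q : ℕ) [NeZero q] (J Δ p : ℝ) (hJ : 0 < J) (hΔ : 0 < Δ) (hp : 0 < p) :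
    ∃ (Cp : ℝ) (L0 : ℕ), GResetStmt q J Δ p Cp L0 := by
  obtain ⟨Cp, L0, hC⟩ := reset_constants q J Δ p hJ hΔ hp
  refine ⟨Cp, L0, ?_⟩
  intro L hL M b hb R Cc R0 C0 hd h0 h1 hI hR hCc
  obtain ⟨ℓ, h, T, hℓ, hℓw, hh, hT, hfin⟩ := hC L hL b hb
  obtain ⟨U, hU, hUS, hUε⟩ := M.exists_local_unitary hJ.le hΔ R Cc hd ℓ hℓ b hI h T hh hT
  have hS : Disjoint (resetS R Cc ℓ) (R0 ∪ C0) :=
    reset_support_check R Cc R0 C0 hd h0 h1 _ ℓ hℓw hR hCc
  have hC0R : Disjoint C0 R := (Finset.disjoint_of_subset_right h1 hd).symm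
  exact (M.reset_entropy R R0 C0 _ h0 hC0R hS U hU hUS _ hUε).trans hfin

end Claimed.Agent.R296
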