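import Claimed.Agent.R296.P2.GBridge
import Claimed.Agent.R296.P2.Cell
import Claimed.Agent.R296.P2.Reset
import Claimed.Agent.R296.P2.Angular

/-!
# Row 296, paper 2, Section 2: the section-level theorem

`prop:angular` from the two imports of paper 1 (`AreaStmt q 1 J Δ`, `InfoDecayStmt q 1 J Δ Ctpl D0`) and the entropy calculus.
-/

set_option autoImplicit false

namespace Claimed.Agent.R296

/-- **Proposition 2.4 of paper 2** (`prop:angular`) -/
theorem p2_angular (hE : EntApiStmt) (q : ℕ) [NeZero q] (J Δ : ℝ) (hJ : 0 < J) (hΔ : 0 < Δ)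
    (hArea : AreaStmt q 1 J Δ) {Ctpl D0 : ℕ} (hInfo : InfoDecayStmt q 1 J Δ Ctpl D0)
    (a A0 : ℝ) (m0 : ℕ) (p : ℝ) (ha : 0 < a) (hA0 : 1 ≤ A0) (hp : 0 < p) :
    ∃ (D : ℝ) (L0 : ℕ), 0 < D ∧ GAngularStmt q J Δ a A0 m0 p D L0 := by
  obtain ⟨CA, hCA, hA⟩ := gArea hArea
  obtain ⟨β, C, u0, hβ, hC, hCo⟩ := gCoarse hE hInfo 5 1 le_rfl
  have hcell := gCell hE hCA hA hCo
  exact gAngular hE hβ (by positivity) (by positivity) hcell
    (fun p hp => gReset q J Δ p hJ hΔ hp) a A0 m0 p ha hA0 hp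

end Claimed.Agent.R296
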