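import Claimed.Agent.R296.EntSite
import Claimed.Agent.R296.BufDefs

/-!
# Row 296, paper 2, Proposition 3.1: Markov's inequality for the surprisal (LEAF `P2-PT-MARKOV`, prefix `ptm_`; helper2)

`ptm_markov` = statement of `patch_markov` (PatchGeo.lean), verbatim.

`ρ = U diag(p) Uᴴ` density with `S(ρ) ≤ S₀`; `T = {i | e^{-16 S₀} ≤ p_i}`, `Q = U 1_T Uᴴ`.  Then `|T| e^{-16 S₀} ≤ ∑ p = 1` and for
`i ∉ T`: `16 S₀ p_i ≤ - p_i log p_i`, so `Tr ρ (1 - Q) = ∑_{i ∉ T} p_i ≤ S(ρ)/(16 S₀) ≤ 1/16`.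
-/

set_option autoImplicit false
set_option linter.unusedSectionVars false
set_option linter.unusedDecidableInType false

namespace Claimed.Agent.R296

open Matrix
open scoped ComplexOrder

/-- abstract form -/
theorem ptm_proj {n : Type} [Fintype n] [DecidableEq n] {ρ : Matrix n n ℂ} (hρ : IsDensity ρ)
    (S₀ : ℝ) (hS₀ : 0 < S₀) (hS : vnEnt ρ ≤ S₀) :
    ∃ Q : Matrix n n ℂ, Q.IsHermitian ∧ Q * Q = Q ∧ Q.trace.re ≤ Real.exp (16 * S₀) ∧
      (ρ * (1 - Q)).trace.re ≤ 1 / 16 := by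
  have hH := hρ.1.1
  set p : n → ℝ := hH.eigenvalues with hp
  have hp0 : ∀ i, 0 ≤ p i := hρ.eigenvalues_nonneg
  have hp1 : ∀ i, p i ≤ 1 := hρ.eigenvalues_le_one
  have hsum : ∑ i, p i = 1 := hρ.sum_eigenvalues
  have hent : ∑ i, Real.negMulLog (p i) ≤ S₀ := by
    rw [← vnEnt_eq_sum_eigenvalues hH]
    exact hS
  set U : Matrix n n ℂ := (hH.eigenvectorUnitary : Matrix n n ℂ) with hU
  have hU1 : Uᴴ * U = 1 := Unitary.coe_star_mul_self _
  have hU2 : U * Uᴴ = 1 := Unitary.coe_mul_star_self _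
  have hspec : ρ = U * diagonal (fun i => ((p i : ℝ) : ℂ)) * Uᴴ := by
    have h := hH.spectral_theorem
    rw [Unitary.conjStarAlgAut_apply] at h
    exact h
  set T : Finset n := Finset.univ.filter (fun i => Real.exp (-(16 * S₀)) ≤ p i) with hT
  set d : n → ℂ := fun i => if i ∈ T then 1 else 0 with hd
  refine ⟨U * diagonal d * Uᴴ, ?_, ?_, ?_, ?_⟩
  · have h : (diagonal d)ᴴ = diagonal d := by
      rw [diagonal_conjTranspose]
      congr 1
      ext i
      simp only [hd, Pi.star_apply]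
      split_ifs <;> simp
    rw [IsHermitian, conjTranspose_mul, conjTranspose_mul, conjTranspose_conjTranspose, h,
      Matrix.mul_assoc]
  · have h : diagonal d * diagonal d = diagonal d := by
      rw [diagonal_mul_diagonal]
      congr 1
      ext i
      simp only [hd]
      split_ifs <;> simp
    calc U * diagonal d * Uᴴ * (U * diagonal d * Uᴴ)
        = U * diagonal d * (Uᴴ * U) * diagonal d * Uᴴ := by simp only [Matrix.mul_assoc]
      _ = U * (diagonal d * diagonal d) * Uᴴ := by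
        rw [hU1, Matrix.mul_one]
        simp only [Matrix.mul_assoc]
      _ = U * diagonal d * Uᴴ := by rw [h]
  · have htr : (U * diagonal d * Uᴴ).trace = ((T.card : ℝ) : ℂ) := by
      rw [trace_mul_comm, ← Matrix.mul_assoc, hU1, Matrix.one_mul, trace_diagonal]
      simp only [hd, Finset.sum_ite_mem, Finset.univ_inter, Finset.sum_const, nsmul_eq_mul, mul_one]
      push_cast
      rfl
    rw [htr, Complex.ofReal_re]
    have h1 : (T.card : ℝ) * Real.exp (-(16 * S₀)) ≤ ∑ i ∈ T, p i := by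
      rw [← nsmul_eq_mul]
      exact Finset.card_nsmul_le_sum _ _ _ (fun i hi => (Finset.mem_filter.1 hi).2)
    have h2 : ∑ i ∈ T, p i ≤ 1 := by
      rw [← hsum]
      exact Finset.sum_le_sum_of_subset_of_nonneg (Finset.subset_univ _) (fun i _ _ => hp0 i)
    have h3 : (T.card : ℝ) * Real.exp (-(16 * S₀)) ≤ 1 := h1.trans h2
    rw [Real.exp_neg] at h3
    have hpos := Real.exp_pos (16 * S₀)
    rwa [← div_eq_mul_inv, div_le_one hpos] at h3
  · have htr : (ρ * (1 - U * diagonal d * Uᴴ)).trace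
        = ((∑ i, (if i ∈ T then 0 else p i) : ℝ) : ℂ) := by
      have e1 : (1 : Matrix n n ℂ) - U * diagonal d * Uᴴ = U * diagonal (fun i => 1 - d i) * Uᴴ := by
        have : diagonal (fun i => 1 - d i) = 1 - diagonal d := by
          rw [← diagonal_one, diagonal_sub]
        rw [this, Matrix.mul_sub, Matrix.sub_mul, Matrix.mul_one, hU2]
      rw [e1, hspec]
      calc (U * diagonal (fun i => ((p i : ℝ) : ℂ)) * Uᴴ * (U * diagonal (fun i => 1 - d i) * Uᴴ)).trace
          = (U * (diagonal (fun i => ((p i : ℝ) : ℂ)) * (Uᴴ * U) * diagonal (fun i => 1 - d i)) * Uᴴ).trace := by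
            simp only [Matrix.mul_assoc]
        _ = (diagonal (fun i => ((p i : ℝ) : ℂ)) * diagonal (fun i => 1 - d i)).trace := by
            rw [hU1, Matrix.mul_one, trace_mul_comm, ← Matrix.mul_assoc, hU1, Matrix.one_mul]
        _ = _ := by
            rw [diagonal_mul_diagonal, trace_diagonal]
            push_cast
            refine Finset.sum_congr rfl fun i _ => ?_
            simp only [hd]
            split_ifs <;> simp
    rw [htr, Complex.ofReal_re]
    have hterm : ∀ i, (if i ∈ T then 0 else p i) ≤ Real.negMulLog (p i) / (16 * S₀) := by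
      intro i
      have hnn : 0 ≤ Real.negMulLog (p i) := Real.negMulLog_nonneg (hp0 i) (hp1 i)
      split_ifs with hi
      · positivity
      · have hlt : p i < Real.exp (-(16 * S₀)) := by
          by_contra hcon
          exact hi (Finset.mem_filter.2 ⟨Finset.mem_univ _, not_lt.1 hcon⟩)
        rw [le_div_iff₀ (by positivity)]
        rcases eq_or_lt_of_le (hp0 i) with h0 | h0
        · rw [← h0]; simp
        · have hlog : Real.log (p i) < -(16 * S₀) := by
            rw [← Real.log_exp (-(16 * S₀))]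
            exact Real.log_lt_log h0 hlt
          rw [Real.negMulLog]
          nlinarith
    calc (∑ i, if i ∈ T then 0 else p i) ≤ ∑ i, Real.negMulLog (p i) / (16 * S₀) :=
          Finset.sum_le_sum fun i _ => hterm i
      _ = (∑ i, Real.negMulLog (p i)) / (16 * S₀) := by rw [Finset.sum_div]
      _ ≤ S₀ / (16 * S₀) := by gcongr
      _ = 1 / 16 := by field_simp

section Site

variable {s : Type} [DecidableEq s] [Fintype s] {io : s → Type}
  [∀ x, Fintype (io x)] [∀ x, DecidableEq (io x)]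

/-- the squared norm of `(K ⊗ 1) Ω` for a Hermitian projection `K` -/
theorem ptm_nsq_emb (Ω : Cfg io → ℂ) (A : Finset s) {K : Matrix (CfgOn io A) (CfgOn io A) ℂ}
    (hK : K.IsHermitian) (hKK : K * K = K) :
    bf_nsq (emb A K *ᵥ Ω) = (ptr A (pureOp Ω) * K).trace.re := by
  have hE : (emb A K)ᴴ * emb A K = emb A K := by
    rw [← emb_conjTranspose, hK.eq, ← emb_mul, hKK]
  have h1 : star (emb A K *ᵥ Ω) ⬝ᵥ (emb A K *ᵥ Ω) = star Ω ⬝ᵥ (emb A K *ᵥ Ω) := by
    rw [star_mulVec, ← dotProduct_mulVec, mulVec_mulVec, hE]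
  have h2 : (pureOp Ω * emb A K).trace = star Ω ⬝ᵥ (emb A K *ᵥ Ω) := by
    rw [pureOp, vecMulVec_mul, trace_vecMulVec, dotProduct_comm, ← dotProduct_mulVec]
  rw [bf_nsq, h1, ← h2, emb_eq_embE, trace_mul_embE, ← ptr_eq_ptrE]

/-- Markov's inequality for the surprisal of a marginal (statement of `patch_markov`) -/
theorem ptm_markov (Ω : Cfg io → ℂ) (hΩ : star Ω ⬝ᵥ Ω = 1)
    (A : Finset s) (S₀ : ℝ) (hS₀ : 0 < S₀) (hS : ent (pureOp Ω) A ≤ S₀) :
    ∃ Q : Matrix (CfgOn io A) (CfgOn io A) ℂ, Q.IsHermitian ∧ Q * Q = Q ∧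
      Q.trace.re ≤ Real.exp (16 * S₀) ∧ bf_nsq (emb A (1 - Q) *ᵥ Ω) ≤ 1 / 16 := by
  have hd : IsDensity (pureOp Ω) := by
    refine ⟨pureOp_posSemidef Ω, ?_⟩
    rw [pureOp, trace_vecMulVec, dotProduct_comm, hΩ]
  obtain ⟨Q, hQ1, hQ2, hQ3, hQ4⟩ := ptm_proj (ptr_isDensity hd A) S₀ hS₀ hS
  refine ⟨Q, hQ1, hQ2, hQ3, ?_⟩
  rw [ptm_nsq_emb Ω A (isHermitian_one.sub hQ1)
    (by rw [Matrix.mul_sub, Matrix.sub_mul, Matrix.sub_mul, hQ2]; simp)]
  exact hQ4

end Site

end Claimed.Agent.R296
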