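import Claimed.Agent.R296.P2.ModelFacts
import Claimed.Agent.R296.P2.EntSet
import Claimed.Agent.R296.BufDefs
import Claimed.Agent.R296.P2.PatchMarkov
import Claimed.Agent.R296.BufAsm

/-!
# Row 296, paper 2, Proposition 3.1: lattice input of the patch theorem (proofs: helper2)

* `patchY z u m j = sqr z (u + 2 min(j, m-1))`: the nested squares;
* `patch_hyp` (package P2-PT-GEO, 700-1000 lines): `bf_Hyp` for the grid model: a grid edge crosses at most one of the squares (radii differ by 2), it is then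
  outside the smaller and inside the larger ones; split cost `q² J` (expansion in matrix units at the inner end point); at most `16u + 4`
  crossing edges per square (`gbd_rect_le`); with `a_j = κ/m`, `m = ⌊u/2⌋ + 1`, `u ≥ 4`: budget `≤ 36 q² J κ²`;
* `patch_markov` (package P2-PT-MARKOV, 400-600 lines): a region of entropy `≤ S₀` has a spectral projection `Q` of its marginal with `Tr Q ≤ e^{16 S₀}` and
  `‖(1 - Q) Ω‖² ≤ 1/16` (Markov's inequality for the surprisal).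
-/

set_option autoImplicit false
set_option linter.unusedSectionVars false
set_option linter.unusedVariables false

namespace Claimed.Agent.R296

open Matrix
open scoped MatrixOrder Matrix.Norms.L2Operator ComplexOrder

variable {q : ℕ} [NeZero q] {J Δ : ℝ} {L : ℕ}

/-- the nested squares -/
noncomputable def patchY (z : ℝ × ℝ) (u : ℝ) (m : ℕ) (j : ℕ) : Finset (GSite L) :=
  sqr z (u + 2 * (min j (m - 1) : ℕ))

/-- split cost of the term `i` at the level `j` -/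
noncomputable def patchCost (q : ℕ) (J : ℝ) (z : ℝ × ℝ) (u : ℝ) (m : ℕ) (i : GTerm L) (j : ℕ) : ℝ :=
  if gsupp i ⊆ patchY z u m j ∨ Disjoint (gsupp i) (patchY z u m j) then 0 else (q : ℝ) ^ 2 * J

/-! ### geometry of square samples (prefix `ptg_`) -/

theorem ptg_sqr_mono (z : ℝ × ℝ) {r r' : ℝ} (h : r ≤ r') : sqr (L := L) z r ⊆ sqr z r' := by
  intro x hx
  simp only [sqr, Finset.mem_filter, Finset.mem_univ, true_and] at hx ⊢
  exact hx.trans h

theorem patchY_mono (z : ℝ × ℝ) (u : ℝ) (m : ℕ) : Monotone (patchY (L := L) z u m) := by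
  intro j j' hjj
  refine ptg_sqr_mono z ?_
  have h : min j (m - 1) ≤ min j' (m - 1) := min_le_min_right _ hjj
  have h' : ((min j (m - 1) : ℕ) : ℝ) ≤ ((min j' (m - 1) : ℕ) : ℝ) := by exact_mod_cast h
  linarith

/-- a square sample is an integer rectangle -/
theorem ptg_sqr_rect (z : ℝ × ℝ) (r : ℝ) (x : GSite L) :
    x ∈ sqr z r ↔ InRect ((⌈z.1 - r⌉, ⌈z.2 - r⌉), (⌊z.1 + r⌋, ⌊z.2 + r⌋)) (gpt x) := by
  simp only [sqr, Finset.mem_filter, Finset.mem_univ, true_and, gdR, max_le_iff, abs_le, InRect, gpt,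
    Int.ceil_le, Int.le_floor, Int.cast_natCast]
  constructor
  · rintro ⟨⟨h1, h2⟩, h3, h4⟩
    refine ⟨?_, ?_, ?_, ?_⟩ <;> linarith
  · rintro ⟨h1, h2, h3, h4⟩
    refine ⟨⟨?_, ?_⟩, ?_, ?_⟩ <;> linarith

theorem ptg_ceil_le_floor (a r : ℝ) (hr : 0 ≤ r) : ⌈a - r⌉ ≤ ⌊a + r⌋ + 1 := by
  have h1 := Int.ceil_lt_add_one (a - r)
  have h2 := Int.lt_floor_add_one (a + r)
  have h3 : ((⌈a - r⌉ : ℤ) : ℝ) < ((⌊a + r⌋ + 2 : ℤ) : ℝ) := by
    push_cast
    linarith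
  have h4 : ⌈a - r⌉ < ⌊a + r⌋ + 2 := by exact_mod_cast h3
  omega

/-- a square sample of radius `r` has at most `8 r + 4` crossing edges -/
theorem ptg_gbd_sqr_le (z : ℝ × ℝ) (r : ℝ) (hr : 0 ≤ r) :
    ((gbd (sqr (L := L) z r) : ℕ) : ℝ) ≤ 8 * r + 4 := by
  have h := gbd_rect_le ((⌈z.1 - r⌉, ⌈z.2 - r⌉), (⌊z.1 + r⌋, ⌊z.2 + r⌋)) (sqr (L := L) z r)
    (ptg_sqr_rect z r) (ptg_ceil_le_floor z.1 r hr) (ptg_ceil_le_floor z.2 r hr)
  have h' : (((gbd (sqr (L := L) z r) : ℕ) : ℤ) : ℝ)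
      ≤ ((2 * (⌊z.1 + r⌋ - ⌈z.1 - r⌉ + 1) + 2 * (⌊z.2 + r⌋ - ⌈z.2 - r⌉ + 1) : ℤ) : ℝ) := by
    exact_mod_cast h
  push_cast at h'
  have a1 := Int.floor_le (z.1 + r)
  have a2 := Int.le_ceil (z.1 - r)
  have a3 := Int.floor_le (z.2 + r)
  have a4 := Int.le_ceil (z.2 - r)
  linarith

/-- the terms which cross a region are crossing edges -/
theorem ptg_cross_card (Y : Finset (GSite L)) :
    (Finset.univ.filter fun i : GTerm L => ¬ (gsupp i ⊆ Y ∨ Disjoint (gsupp i) Y)).card ≤ gbd Y := by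
  unfold gbd
  rw [← Finset.card_map ⟨(Sum.inr : Claims.C0474.GridEdge L → GTerm L), Sum.inr_injective⟩]
  refine Finset.card_le_card fun i hi => ?_
  simp only [Finset.mem_filter, Finset.mem_univ, true_and] at hi
  cases i with
  | inl v =>
    exfalso
    apply hi
    by_cases hv : v ∈ Y
    · left; simpa [gsupp] using hv
    · right; simpa [gsupp] using hv
  | inr e =>
    simp only [Finset.mem_map, Finset.mem_filter, Finset.mem_univ, true_and,
      Function.Embedding.coeFn_mk, Sum.inr.injEq, exists_eq_right]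
    intro hiff
    apply hi
    by_cases ha : e.1.1 ∈ Y
    · left
      intro x hx
      simp only [gsupp, Claims.C0474.GridEdge.support, Finset.mem_insert, Finset.mem_singleton] at hx
      rcases hx with rfl | rfl
      · exact ha
      · exact hiff.1 ha
    · right
      rw [Finset.disjoint_left]
      intro x hx
      simp only [gsupp, Claims.C0474.GridEdge.support, Finset.mem_insert, Finset.mem_singleton] at hx
      rcases hx with rfl | rfl
      · exact ha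
      · exact fun h => ha (hiff.2 h)

theorem ptg_radius_le {u : ℝ} (hu : 0 ≤ u) (j : ℕ) :
    u + 2 * ((min j (⌊u / 2⌋₊ + 1 - 1) : ℕ) : ℝ) ≤ 2 * u := by
  have h1 : ((min j (⌊u / 2⌋₊ + 1 - 1) : ℕ) : ℝ) ≤ ((⌊u / 2⌋₊ : ℕ) : ℝ) := by
    have : min j (⌊u / 2⌋₊ + 1 - 1) ≤ ⌊u / 2⌋₊ := by
      rw [Nat.add_sub_cancel]
      exact min_le_right _ _
    exact_mod_cast this
  have h2 : ((⌊u / 2⌋₊ : ℕ) : ℝ) ≤ u / 2 := Nat.floor_le (by linarith)
  linarith

/-- triangle inequality -/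
theorem ptg_gdR_le (x y : GSite L) (z : ℝ × ℝ) : gdR y z ≤ gdR x z + ((gd x y : ℤ) : ℝ) := by
  have h1 : |(((x.1 : ℕ) : ℝ)) - ((y.1 : ℕ) : ℝ)| ≤ ((gd x y : ℤ) : ℝ) := by
    have : |(((x.1 : ℕ) : ℤ)) - ((y.1 : ℕ) : ℤ)| ≤ gd x y := le_max_left _ _
    have h : ((|(((x.1 : ℕ) : ℤ)) - ((y.1 : ℕ) : ℤ)| : ℤ) : ℝ) ≤ ((gd x y : ℤ) : ℝ) := by
      exact_mod_cast this
    simpa using h
  have h2 : |(((x.2 : ℕ) : ℝ)) - ((y.2 : ℕ) : ℝ)| ≤ ((gd x y : ℤ) : ℝ) := by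
    have : |(((x.2 : ℕ) : ℤ)) - ((y.2 : ℕ) : ℤ)| ≤ gd x y := le_max_right _ _
    have h : ((|(((x.2 : ℕ) : ℤ)) - ((y.2 : ℕ) : ℤ)| : ℤ) : ℝ) ≤ ((gd x y : ℤ) : ℝ) := by
      exact_mod_cast this
    simpa using h
  have h3 : |(((x.1 : ℕ) : ℝ)) - z.1| ≤ gdR x z := le_max_left _ _
  have h4 : |(((x.2 : ℕ) : ℝ)) - z.2| ≤ gdR x z := le_max_right _ _
  refine max_le ?_ ?_
  · have := abs_sub_le (((y.1 : ℕ) : ℝ)) ((x.1 : ℕ) : ℝ) z.1
    have e := abs_sub_comm (((y.1 : ℕ) : ℝ)) ((x.1 : ℕ) : ℝ)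
    linarith
  · have := abs_sub_le (((y.2 : ℕ) : ℝ)) ((x.2 : ℕ) : ℝ) z.2
    have e := abs_sub_comm (((y.2 : ℕ) : ℝ)) ((x.2 : ℕ) : ℝ)
    linarith

theorem patchCost_nonneg (hJ : 0 ≤ J) (z : ℝ × ℝ) (u : ℝ) (m : ℕ) (i : GTerm L) (j : ℕ) :
    0 ≤ patchCost q J z u m i j := by
  unfold patchCost
  split_ifs
  · exact le_rfl
  · positivity

/-- total split cost of one level -/
theorem ptg_level_cost (hJ : 0 ≤ J) (z : ℝ × ℝ) (u : ℝ) (hu : 0 ≤ u) (j : ℕ) :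
    ∑ i : GTerm L, patchCost q J z u (⌊u / 2⌋₊ + 1) i j ≤ (q : ℝ) ^ 2 * J * (16 * u + 4) := by
  have e : ∑ i : GTerm L, patchCost q J z u (⌊u / 2⌋₊ + 1) i j
      = ((Finset.univ.filter fun i : GTerm L => ¬ (gsupp i ⊆ patchY z u (⌊u / 2⌋₊ + 1) j ∨
          Disjoint (gsupp i) (patchY z u (⌊u / 2⌋₊ + 1) j))).card : ℝ) * ((q : ℝ) ^ 2 * J) := by
    unfold patchCost
    rw [Finset.sum_ite, Finset.sum_const_zero, zero_add, Finset.sum_const, nsmul_eq_mul]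
  rw [e, mul_comm]
  refine mul_le_mul_of_nonneg_left ?_ (by positivity)
  have h1 := ptg_cross_card (patchY (L := L) z u (⌊u / 2⌋₊ + 1) j)
  have h1' : ((Finset.univ.filter fun i : GTerm L => ¬ (gsupp i ⊆ patchY z u (⌊u / 2⌋₊ + 1) j ∨
      Disjoint (gsupp i) (patchY z u (⌊u / 2⌋₊ + 1) j))).card : ℝ)
      ≤ ((gbd (patchY (L := L) z u (⌊u / 2⌋₊ + 1) j) : ℕ) : ℝ) := by exact_mod_cast h1
  have h2 : ((gbd (patchY (L := L) z u (⌊u / 2⌋₊ + 1) j) : ℕ) : ℝ)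
      ≤ 8 * (u + 2 * ((min j (⌊u / 2⌋₊ + 1 - 1) : ℕ) : ℝ)) + 4 :=
    ptg_gbd_sqr_le (L := L) z (u + 2 * ((min j (⌊u / 2⌋₊ + 1 - 1) : ℕ) : ℝ)) (by positivity)
  have h3 := ptg_radius_le hu j
  linarith

/-- the budget (eq:patch-energy-bound) -/
theorem patch_budget (hJ : 0 ≤ J) (z : ℝ × ℝ) (u κ : ℝ) (hu : 4 ≤ u) (hκ : 0 ≤ κ) :
    ∑ i : GTerm L, ∑ j ∈ Finset.range (⌊u / 2⌋₊ + 1),
      patchCost q J z u (⌊u / 2⌋₊ + 1) i j * (κ / (⌊u / 2⌋₊ + 1 : ℕ)) ^ 2 ≤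
      36 * (q : ℝ) ^ 2 * J * κ ^ 2 := by
  set m : ℕ := ⌊u / 2⌋₊ + 1 with hm
  have hm0 : (0 : ℝ) < (m : ℝ) := by positivity
  have hmu : u / 2 < (m : ℝ) := by
    rw [hm]
    push_cast
    exact Nat.lt_floor_add_one _
  rw [Finset.sum_comm]
  calc ∑ j ∈ Finset.range m, ∑ i : GTerm L, patchCost q J z u m i j * (κ / (m : ℕ)) ^ 2
      = ∑ j ∈ Finset.range m, (∑ i : GTerm L, patchCost q J z u m i j) * (κ / (m : ℕ)) ^ 2 := by
        refine Finset.sum_congr rfl fun j _ => ?_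
        rw [Finset.sum_mul]
    _ ≤ ∑ _j ∈ Finset.range m, (q : ℝ) ^ 2 * J * (16 * u + 4) * (κ / (m : ℕ)) ^ 2 := by
        refine Finset.sum_le_sum fun j _ => ?_
        exact mul_le_mul_of_nonneg_right (ptg_level_cost hJ z u (by linarith) j) (by positivity)
    _ = (q : ℝ) ^ 2 * J * κ ^ 2 * ((16 * u + 4) / m) := by
        rw [Finset.sum_const, Finset.card_range, nsmul_eq_mul]
        field_simp
    _ ≤ (q : ℝ) ^ 2 * J * κ ^ 2 * 36 := by
        refine mul_le_mul_of_nonneg_left ?_ (by positivity)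
        rw [div_le_iff₀ hm0]
        linarith
    _ = 36 * (q : ℝ) ^ 2 * J * κ ^ 2 := by ring

theorem patch_hyp (hJ : 0 ≤ J) (hΔ : 0 < Δ) (M : GModel q J Δ L) (z : ℝ × ℝ) (u κ : ℝ)
    (hu : 4 ≤ u) (hκ : 0 < κ) (hκ1 : κ ≤ 1 / 2)
    (hbud : 36 * (q : ℝ) ^ 2 * J * κ ^ 2 ≤ Δ / 1024) :
    bf_Hyp (io := gio q L) M.term M.E₀ Δ M.Ω (patchY z u (⌊u / 2⌋₊ + 1))
      (fun _ => κ / (⌊u / 2⌋₊ + 1 : ℕ)) (patchCost q J z u (⌊u / 2⌋₊ + 1)) (⌊u / 2⌋₊ + 1) := by
  set m : ℕ := ⌊u / 2⌋₊ + 1 with hm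
  have hm1 : (1 : ℝ) ≤ (m : ℝ) := by
    rw [hm]
    push_cast
    linarith [(Nat.cast_nonneg ⌊u / 2⌋₊ : (0 : ℝ) ≤ _)]
  have hm0 : (0 : ℝ) < (m : ℝ) := by linarith
  refine ⟨M.nrm, M.term_herm, ?_, hΔ, ?_, patchY_mono z u m, fun _ => by positivity, fun _ => ?_,
    fun i j => patchCost_nonneg hJ z u m i j, ?_, ?_⟩
  · rw [← M.H_eq_sum]
    exact M.eig
  · have h := M.gap_le
    rw [Matrix.le_iff] at h
    rw [← M.H_eq_sum]
    exact h
  · rw [div_le_one hm0]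
    linarith
  · intro i j hj
    by_cases h1 : gsupp i ⊆ patchY z u m j
    · exact Or.inl ((M.term_suppIn i).mono h1)
    by_cases h2 : Disjoint (gsupp i) (patchY z u m j)
    · exact Or.inr (Or.inl ((M.term_suppIn i).sp_off h2))
    refine Or.inr (Or.inr ⟨?_, fun hj1 => ?_⟩)
    · have hs := ba_split (io := gio q L) (patchY z u m j) (M.term_suppIn i) (M.term_norm_le hJ i)
      refine hs.ba_mono ?_
      have hcost : patchCost q J z u m i j = (q : ℝ) ^ 2 * J := by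
        unfold patchCost
        rw [if_neg (by tauto)]
      rw [hcost, mul_comm]
      refine mul_le_mul_of_nonneg_right ?_ hJ
      have hcard : (gsupp i ∩ patchY z u m j).card ≤ 1 := by
        have h3 : gsupp i ∩ patchY z u m j ⊂ gsupp i := by
          refine Finset.ssubset_iff_subset_ne.2 ⟨Finset.inter_subset_left, fun h => h1 ?_⟩
          exact Finset.inter_eq_left.1 h
        have h4 := Finset.card_lt_card h3
        have h5 := gsupp_card_le i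
        omega
      have hq : 1 ≤ q := Nat.one_le_iff_ne_zero.2 (NeZero.ne q)
      have hc : Fintype.card (CfgOn (gio q L) (gsupp i ∩ patchY z u m j)) ≤ q := by
        rw [Fintype.card_pi]
        simp only [Fintype.card_fin, Finset.prod_const, Finset.card_univ, Fintype.card_coe]
        calc q ^ (gsupp i ∩ patchY z u m j).card ≤ q ^ 1 := Nat.pow_le_pow_right hq hcard
          _ = q := pow_one q
      have hc' : (Fintype.card (CfgOn (gio q L) (gsupp i ∩ patchY z u m j)) : ℝ) ≤ (q : ℝ) := by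
        exact_mod_cast hc
      exact pow_le_pow_left₀ (Nat.cast_nonneg _) hc' 2
    · refine (M.term_suppIn i).mono fun y hy => ?_
      obtain ⟨x, hx1, hx2⟩ := Finset.not_disjoint_iff.1 h2
      have hd := gd_le_one_of_mem_gsupp i hx1 hy
      have e1 : min j (m - 1) = j := min_eq_left (by omega)
      have e2 : min (j + 1) (m - 1) = j + 1 := min_eq_left (by omega)
      simp only [patchY, sqr, Finset.mem_filter, Finset.mem_univ, true_and, e1, e2] at hx2 ⊢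
      have hd' : ((gd x y : ℤ) : ℝ) ≤ 1 := by exact_mod_cast hd
      have ht := ptg_gdR_le x y z
      push_cast
      linarith
  · have h := patch_budget (q := q) (L := L) hJ z u κ hu hκ.le
    linarith

/-- Markov's inequality for the surprisal of a marginal -/
theorem patch_markov {s : Type} [DecidableEq s] [Fintype s] {io : s → Type}
    [∀ x, Fintype (io x)] [∀ x, DecidableEq (io x)] (Ω : Cfg io → ℂ) (hΩ : star Ω ⬝ᵥ Ω = 1)
    (A : Finset s) (S₀ : ℝ) (hS₀ : 0 < S₀) (hS : ent (pureOp Ω) A ≤ S₀) :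
    ∃ Q : Matrix (CfgOn io A) (CfgOn io A) ℂ, Q.IsHermitian ∧ Q * Q = Q ∧
      Q.trace.re ≤ Real.exp (16 * S₀) ∧ bf_nsq (emb A (1 - Q) *ᵥ Ω) ≤ 1 / 16 :=
  ptm_markov Ω hΩ A S₀ hS₀ hS

/-- entropy of a square sample from the area law -/
theorem patch_entropy {CA : ℝ} (hCA : 0 ≤ CA) (hA : GAreaStmt q J Δ CA) (M : GModel q J Δ L)
    (z : ℝ × ℝ) (r : ℝ) (hr : 0 ≤ r) : M.S (sqr z r) ≤ CA * (8 * r + 4) :=
  (hA L M (sqr z r)).trans (mul_le_mul_of_nonneg_left (ptg_gbd_sqr_le z r hr) hCA)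

end Claimed.Agent.R296
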