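import Claimed.Agent.R296.P2.PatchAbs
import Claimed.Agent.R296.P2.PatchGeo

/-!
# Row 296, paper 2, Proposition 3.1 (`prop:patch`): assembly (PROVED by helper189, modulo the leaves of Patch*.lean)

* `patch_small` (package P2-PT-SMALL, 250-400 lines): `u < 4`: `P = 1`, expanded in the product basis of `sqr z u` (at most `81` sites);
* `patch_large` (package P2-PT-LARGE, 500-800 lines): `u ≥ 4`: `pt_patch_abs` with `κ = min(1/2, √(Δ/(36864 q² J)))`, `m = ⌊u/2⌋ + 1`, `a_j = κ/m`,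
  `S₀ = CA (16u + 4) + 1`, `r = e^{16 S₀}`, `R₀ = 16 S₀ + log 8`, `R = K log L` with `K` as in (eq:patch-explicit-radius);
* `gPatch` : glue.
-/

set_option autoImplicit false
set_option linter.unusedSectionVars false

namespace Claimed.Agent.R296

open Matrix
open scoped MatrixOrder Matrix.Norms.L2Operator ComplexOrder

variable {q : ℕ} [NeZero q] {J Δ : ℝ}

/-- the conclusion of `prop:patch` for one instance -/
def PatchConcl {L : ℕ} (M : GModel q J Δ L) (z : ℝ × ℝ) (u p C c : ℝ) : Prop :=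
  ∃ N : ℕ, (N : ℝ) ≤ C * (L : ℝ) ^ c ∧
    ∃ (r : Fin N → ℝ)
      (v : ∀ k : Fin N, CfgOn (fun _ : GSite L => Fin q) (sqr z (r k)) → ℂ),
      (∀ k, u ≤ r k ∧ r k ≤ 2 * u) ∧
      (∀ k, star (v k) ⬝ᵥ v k = 1) ∧
      (∀ k k', k ≠ k' →
        emb (io := fun _ : GSite L => Fin q) (sqr z (r k)) (pureOp (v k)) *
          emb (io := fun _ : GSite L => Fin q) (sqr z (r k')) (pureOp (v k')) = 0) ∧
      ∑ σ, ‖(M.Ω - (∑ k, emb (io := fun _ : GSite L => Fin q) (sqr z (r k))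
          (pureOp (v k))) *ᵥ M.Ω) σ‖ ^ 2 ≤ ((L : ℝ) ^ (-p)) ^ 2

theorem patch_sqr_card_le {L : ℕ} (z : ℝ × ℝ) (u : ℝ) (hu4 : u < 4) :
    (sqr (L := L) z u).card ≤ 81 := by
  have h : (sqr (L := L) z u).card ≤ ((Finset.Icc ⌈z.1 - 4⌉ (⌈z.1 - 4⌉ + 8)) ×ˢ
      (Finset.Icc ⌈z.2 - 4⌉ (⌈z.2 - 4⌉ + 8))).card := by
    apply Finset.card_le_card_of_injOn gpt
    · intro x hx
      have hx' : gdR x z ≤ u := by
        have := Finset.mem_coe.1 hx
        simpa [sqr] using this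
      have h1 : |(((x.1 : ℕ) : ℝ)) - z.1| ≤ u := (le_max_left _ _).trans hx'
      have h2 : |(((x.2 : ℕ) : ℝ)) - z.2| ≤ u := (le_max_right _ _).trans hx'
      rw [abs_le] at h1 h2
      simp only [gpt, Finset.coe_product, Finset.coe_Icc, Set.mem_prod, Set.mem_Icc]
      refine ⟨⟨?_, ?_⟩, ⟨?_, ?_⟩⟩
      · apply Int.ceil_le.2
        push_cast
        linarith
      · have := Int.le_ceil (z.1 - 4)
        have h3 : (((x.1 : ℕ) : ℤ) : ℝ) < ((⌈z.1 - 4⌉ + 8 : ℤ) : ℝ) := by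
          push_cast
          linarith
        exact (Int.cast_lt.1 h3).le
      · apply Int.ceil_le.2
        push_cast
        linarith
      · have := Int.le_ceil (z.2 - 4)
        have h3 : (((x.2 : ℕ) : ℤ) : ℝ) < ((⌈z.2 - 4⌉ + 8 : ℤ) : ℝ) := by
          push_cast
          linarith
        exact (Int.cast_lt.1 h3).le
    · intro x _ y _ hxy
      simp only [gpt, Prod.mk.injEq, Nat.cast_inj] at hxy
      exact Prod.ext (Fin.ext hxy.1) (Fin.ext hxy.2)
  refine h.trans ?_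
  rw [Finset.card_product, Int.card_Icc, Int.card_Icc]
  have e1 : ⌈z.1 - 4⌉ + 8 + 1 - ⌈z.1 - 4⌉ = 9 := by ring
  have e2 : ⌈z.2 - 4⌉ + 8 + 1 - ⌈z.2 - 4⌉ = 9 := by ring
  rw [e1, e2]
  decide

theorem patch_pureOp_single {n : Type} [DecidableEq n] (a : n) :
    pureOp (Pi.single a (1 : ℂ)) = Matrix.single a a (1 : ℂ) := by
  ext i j
  simp only [pureOp, Matrix.vecMulVec_apply, Matrix.single_apply, Pi.single_apply, Pi.star_apply]
  by_cases hi : i = a
  · by_cases hj : j = a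
    · simp [hi, hj]
    · have hj' : ¬ a = j := fun h => hj h.symm
      simp [hi, hj, hj']
  · have hi' : ¬ a = i := fun h => hi h.symm
    simp [hi, hi']

theorem patch_small {L : ℕ} (hL : 2 ≤ L) (M : GModel q J Δ L) (z : ℝ × ℝ) (u p : ℝ) (hu : 0 < u)
    (hu4 : u < 4) : PatchConcl M z u p ((q : ℝ) ^ 81) 0 := by
  classical
  set A : Finset (GSite L) := sqr z u with hA
  set N : ℕ := Fintype.card (CfgOn (fun _ : GSite L => Fin q) A) with hN
  let e : Fin N ≃ CfgOn (fun _ : GSite L => Fin q) A := (Fintype.equivFin _).symm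
  have hq1 : (1 : ℝ) ≤ (q : ℝ) := by exact_mod_cast Nat.pos_of_ne_zero (NeZero.ne q)
  refine ⟨N, ?_, fun _ => u, fun k => Pi.single (e k) 1, fun _ => ⟨le_rfl, by linarith⟩, ?_, ?_, ?_⟩
  · rw [Real.rpow_zero, mul_one]
    have h1 : N = q ^ A.card := by
      rw [hN]
      simp [Fintype.card_pi]
    rw [h1]
    push_cast
    exact pow_le_pow_right₀ hq1 (patch_sqr_card_le z u hu4)
  · intro k
    simp [dotProduct, Pi.single_apply]
  · intro k k' hk
    rw [← emb_mul, patch_pureOp_single, patch_pureOp_single,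
      Matrix.single_mul_single_of_ne _ _ _ _ (fun h => hk (e.injective h)), emb_zero]
  · have h1 : (∑ k, emb (io := fun _ : GSite L => Fin q) A
        (pureOp (Pi.single (e k) (1 : ℂ)))) = 1 := by
      have h2 : ∀ (t : Finset (Fin N)), (∑ k ∈ t, emb (io := fun _ : GSite L => Fin q) A
          (pureOp (Pi.single (e k) (1 : ℂ)))) = emb (io := fun _ : GSite L => Fin q) A
          (∑ k ∈ t, pureOp (Pi.single (e k) (1 : ℂ))) := by
        intro t
        induction t using Finset.induction_on with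
        | empty => simp [emb_zero]
        | insert a t ha ih => rw [Finset.sum_insert ha, Finset.sum_insert ha, ih, emb_add]
      rw [h2]
      have h3 : (∑ k, pureOp (Pi.single (e k) (1 : ℂ))) =
          (1 : Matrix (CfgOn (fun _ : GSite L => Fin q) A) (CfgOn (fun _ : GSite L => Fin q) A) ℂ) := by
        rw [Equiv.sum_comp e (fun a => pureOp (Pi.single a (1 : ℂ)))]
        simp_rw [patch_pureOp_single]
        ext i j
        rw [Matrix.sum_apply]
        by_cases hij : i = j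
        · subst hij
          simp [Matrix.single_apply]
        · simp [Matrix.single_apply, Matrix.one_apply_ne hij, hij]
      rw [h3, emb_one]
    rw [h1]
    simp only [Matrix.one_mulVec, sub_self, Pi.zero_apply, norm_zero]
    simp
    positivity

/-- the exponent `κ` of the patch filters -/
noncomputable def patchKappa (q : ℕ) (J Δ : ℝ) : ℝ :=
  min (1 / 2) (Real.sqrt (Δ / (36864 * (q : ℝ) ^ 2 * J)))

theorem patchKappa_pos (hJ : 0 < J) (hΔ : 0 < Δ) : 0 < patchKappa q J Δ := by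
  have hq : (0 : ℝ) < (q : ℝ) := by exact_mod_cast Nat.pos_of_ne_zero (NeZero.ne q)
  unfold patchKappa
  apply lt_min (by norm_num)
  apply Real.sqrt_pos.2
  positivity

theorem patchKappa_budget (hJ : 0 < J) (hΔ : 0 < Δ) :
    36 * (q : ℝ) ^ 2 * J * (patchKappa q J Δ) ^ 2 ≤ Δ / 1024 := by
  have hq : (0 : ℝ) < (q : ℝ) := by exact_mod_cast Nat.pos_of_ne_zero (NeZero.ne q)
  have h0 := (patchKappa_pos (q := q) hJ hΔ).le
  have h1 : patchKappa q J Δ ≤ Real.sqrt (Δ / (36864 * (q : ℝ) ^ 2 * J)) := min_le_right _ _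
  have h2 : (patchKappa q J Δ) ^ 2 ≤ Δ / (36864 * (q : ℝ) ^ 2 * J) := by
    calc (patchKappa q J Δ) ^ 2 ≤ (Real.sqrt (Δ / (36864 * (q : ℝ) ^ 2 * J))) ^ 2 :=
          pow_le_pow_left₀ h0 h1 2
      _ = _ := Real.sq_sqrt (by positivity)
  calc 36 * (q : ℝ) ^ 2 * J * (patchKappa q J Δ) ^ 2
      ≤ 36 * (q : ℝ) ^ 2 * J * (Δ / (36864 * (q : ℝ) ^ 2 * J)) :=
        mul_le_mul_of_nonneg_left h2 (by positivity)
    _ = Δ / 1024 := by field_simp; norm_num

theorem patch_large (hJ : 0 < J) (hΔ : 0 < Δ) {CA : ℝ} (hCA : 0 ≤ CA) (hA : GAreaStmt q J Δ CA)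
    (B0 p : ℝ) (hB0 : 0 < B0) (hp : 0 < p) :
    ∃ C c : ℝ, 0 < C ∧ 0 < c ∧ ∀ (L : ℕ), 2 ≤ L → ∀ (M : GModel q J Δ L) (z : ℝ × ℝ) (u : ℝ),
      4 ≤ u → u ≤ B0 * Real.log L → PatchConcl M z u p C c := by
  set κ := patchKappa q J Δ with hκdef
  have hκ : 0 < κ := patchKappa_pos hJ hΔ
  have hκ1 : κ ≤ 1 / 2 := min_le_left _ _
  have hbud0 := patchKappa_budget (q := q) hJ hΔ
  refine ⟨B0 * Real.exp (16 * (4 * CA + 1) + Real.log 8 + 4 / 3 * Real.log 2),
    1 + 256 * CA * B0 + 8 * p / (3 * κ), by positivity, by positivity, ?_⟩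
  intro L hL M z u hu huB
  have hLr : (2 : ℝ) ≤ (L : ℝ) := by exact_mod_cast hL
  have hL0 : (0 : ℝ) < (L : ℝ) := by linarith
  have hlog : 0 < Real.log L := Real.log_pos (by linarith)
  set m : ℕ := ⌊u / 2⌋₊ + 1 with hm
  have hm0 : (0 : ℝ) < (m : ℝ) := by positivity
  have hfl : ((⌊u / 2⌋₊ : ℕ) : ℝ) ≤ u / 2 := Nat.floor_le (by linarith)
  have H := patch_hyp hJ.le hΔ M z u κ hu hκ hκ1 hbud0
  have hbud := (patch_budget (q := q) (L := L) hJ.le z u κ hu hκ.le).trans hbud0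
  -- radii
  have hrad : ∀ j : ℕ, u ≤ u + 2 * ((min j (m - 1) : ℕ) : ℝ) ∧
      u + 2 * ((min j (m - 1) : ℕ) : ℝ) ≤ 2 * u := by
    intro j
    constructor
    · have : (0 : ℝ) ≤ ((min j (m - 1) : ℕ) : ℝ) := Nat.cast_nonneg _
      linarith
    · have h1 : ((min j (m - 1) : ℕ) : ℝ) ≤ ((m - 1 : ℕ) : ℝ) := by
        exact_mod_cast min_le_right _ _
      have h2 : ((m - 1 : ℕ) : ℝ) = ((⌊u / 2⌋₊ : ℕ) : ℝ) := by
        rw [hm]; simp
      linarith
  set S₀ : ℝ := CA * (16 * u + 4) + 1 with hS₀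
  have hS₀pos : 0 < S₀ := by positivity
  have hent : ∀ j : ℕ, ent (io := gio q L) (pureOp M.Ω) (patchY z u m j) ≤ S₀ := by
    intro j
    have h1 := patch_entropy hCA hA M z (u + 2 * ((min j (m - 1) : ℕ) : ℝ))
      (by linarith [(hrad j).1])
    have h2 : CA * (8 * (u + 2 * ((min j (m - 1) : ℕ) : ℝ)) + 4) ≤ CA * (16 * u + 4) :=
      mul_le_mul_of_nonneg_left (by linarith [(hrad j).2]) hCA
    have h3 : ent (io := gio q L) (pureOp M.Ω) (patchY z u m j)
        = M.S (sqr z (u + 2 * ((min j (m - 1) : ℕ) : ℝ))) := rfl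
    rw [h3]
    linarith
  choose Q hQ hQ2 hQr hQΩ using fun j =>
    patch_markov (io := gio q L) M.Ω M.nrm (patchY z u m j) S₀ hS₀pos (hent j)
  set R₀ : ℝ := 16 * S₀ + Real.log 8 with hR₀
  set R : ℝ := R₀ + 4 / 3 * (Real.log 2 + 2 * p * Real.log L / κ) with hR
  have hRR : R₀ ≤ R := by
    have : 0 ≤ Real.log 2 + 2 * p * Real.log L / κ := by
      have := Real.log_pos (show (1 : ℝ) < 2 by norm_num)
      positivity
    linarith
  have hR₀' : Real.exp (-R₀) * Real.exp (16 * S₀) ≤ 1 / 8 := by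
    rw [← Real.exp_add, hR₀]
    have : -(16 * S₀ + Real.log 8) + 16 * S₀ = -Real.log 8 := by ring
    rw [this, Real.exp_neg, Real.exp_log (by norm_num)]
    norm_num
  obtain ⟨N, lev, v, hN, hlev, hv, horth, herr⟩ :=
    pt_patch_abs H hbud Q hQ hQ2 (Real.exp (16 * S₀)) (fun j _ => hQr j) (fun j _ => hQΩ j)
      R₀ R hR₀' hRR
  have hsum : ∑ j ∈ Finset.range m, κ / (m : ℝ) = κ := by
    rw [Finset.sum_const, Finset.card_range, nsmul_eq_mul]
    field_simp
  refine ⟨N, ?_, fun k => u + 2 * ((min (lev k) (m - 1) : ℕ) : ℝ), v, fun k => hrad _, hv, horth, ?_⟩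
  · -- the count
    refine hN.trans ?_
    have hmu : (m : ℝ) ≤ B0 * (L : ℝ) := by
      have h1 : (m : ℝ) ≤ u := by
        rw [hm]; push_cast; linarith
      have h2 : Real.log L ≤ (L : ℝ) := (Real.log_le_sub_one_of_pos hL0).trans (by linarith)
      calc (m : ℝ) ≤ u := h1
        _ ≤ B0 * Real.log L := huB
        _ ≤ B0 * L := mul_le_mul_of_nonneg_left h2 hB0.le
    have hRle : R ≤ (16 * (4 * CA + 1) + Real.log 8 + 4 / 3 * Real.log 2) +
        (256 * CA * B0 + 8 * p / (3 * κ)) * Real.log L := by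
      have h1 : CA * u ≤ CA * (B0 * Real.log L) := mul_le_mul_of_nonneg_left huB hCA
      have h2 : 4 / 3 * (2 * p * Real.log L / κ) = 8 * p / (3 * κ) * Real.log L := by
        field_simp; ring
      rw [hR, hR₀, hS₀]
      nlinarith
    have hexp : Real.exp R ≤ Real.exp (16 * (4 * CA + 1) + Real.log 8 + 4 / 3 * Real.log 2) *
        (L : ℝ) ^ (256 * CA * B0 + 8 * p / (3 * κ)) := by
      rw [Real.rpow_def_of_pos hL0, ← Real.exp_add]
      apply Real.exp_le_exp.2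
      linarith
    calc (m : ℝ) * Real.exp R
        ≤ (B0 * (L : ℝ)) * (Real.exp (16 * (4 * CA + 1) + Real.log 8 + 4 / 3 * Real.log 2) *
          (L : ℝ) ^ (256 * CA * B0 + 8 * p / (3 * κ))) :=
          mul_le_mul hmu hexp (Real.exp_pos _).le (by positivity)
      _ = B0 * Real.exp (16 * (4 * CA + 1) + Real.log 8 + 4 / 3 * Real.log 2) *
          (L : ℝ) ^ (1 + 256 * CA * B0 + 8 * p / (3 * κ)) := by
          have e1 : (1 + 256 * CA * B0 + 8 * p / (3 * κ) : ℝ)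
              = 1 + (256 * CA * B0 + 8 * p / (3 * κ)) := by ring
          rw [e1, Real.rpow_add hL0 1, Real.rpow_one]
          ring
  · -- the error
    have e := herr
    rw [bf_nsq_eq_sum] at e
    refine le_trans e ?_
    have hs : (∑ j ∈ Finset.range m, κ / ((m : ℕ) : ℝ)) = κ := hsum
    rw [hs]
    have hx : κ * (Real.log 2 + 3 / 4 * R₀ - 3 / 4 * R) = -(2 * p * Real.log L) := by
      rw [hR]
      field_simp
      ring
    rw [hx, ← Real.rpow_natCast, ← Real.rpow_mul hL0.le, Real.rpow_def_of_pos hL0]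
    apply le_of_eq
    congr 1
    push_cast
    ring

theorem PatchConcl.mono {L : ℕ} (hL : 1 ≤ L) {M : GModel q J Δ L} {z : ℝ × ℝ} {u p C c C' c' : ℝ}
    (h : PatchConcl M z u p C c) (hC0 : 0 ≤ C) (hC : C ≤ C') (hc : c ≤ c') :
    PatchConcl M z u p C' c' := by
  obtain ⟨N, hN, rest⟩ := h
  refine ⟨N, hN.trans ?_, rest⟩
  have hL' : (1 : ℝ) ≤ (L : ℝ) := by exact_mod_cast hL
  have h1 : (L : ℝ) ^ c ≤ (L : ℝ) ^ c' := Real.rpow_le_rpow_of_exponent_le hL' hc
  have h2 : 0 ≤ (L : ℝ) ^ c := Real.rpow_nonneg (by linarith) _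
  calc C * (L : ℝ) ^ c ≤ C' * (L : ℝ) ^ c := mul_le_mul_of_nonneg_right hC h2
    _ ≤ C' * (L : ℝ) ^ c' := mul_le_mul_of_nonneg_left h1 (hC0.trans hC)

/-- **Proposition 3.1 of paper 2** -/
theorem gPatch (q : ℕ) [NeZero q] (J Δ : ℝ) (hJ : 0 < J) (hΔ : 0 < Δ) {CA : ℝ} (hCA : 0 ≤ CA)
    (hA : GAreaStmt q J Δ CA) (B0 p : ℝ) (hB0 : 0 < B0) (hp : 0 < p) :
    ∃ C c : ℝ, 0 < C ∧ 0 < c ∧ GPatchStmt q J Δ B0 p C c := by
  obtain ⟨C, c, hC, hc, hlarge⟩ := patch_large hJ hΔ hCA hA B0 p hB0 hp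
  refine ⟨max C ((q : ℝ) ^ 81), c, lt_max_of_lt_left hC, hc, ?_⟩
  intro L hL M z u hu huB
  have hL1 : 1 ≤ L := by omega
  rcases lt_or_ge u 4 with h4 | h4
  · exact (patch_small hL M z u p hu h4).mono hL1 (by positivity) (le_max_right _ _) hc.le
  · exact (hlarge L hL M z u h4 huB).mono hL1 hC.le (le_max_left _ _) le_rfl

end Claimed.Agent.R296
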