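import Claimed.Agent.R296.P2.GeoSqDefs
import Claimed.Agent.R296.P2.GeoEnvEx
import Claimed.Agent.R296.P2.AsmGlue
import Claimed.Agent.R296.P2.InfoTop
import Claimed.Agent.R296.P2.Patch
import Claimed.Agent.R296.Chain

/-!
# Row 296, paper 2: from the schedule of Section 6 to `GeoStmt`  (prefix `gef_`; owner helper178)

`GeMainStmt` is the TARGET of `GeoMain.lean` (helper9): for every environment in standard form the schedule `E.ops J γ` is admissible, leads from `geSt0`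
to a final state, has bounded lifetimes, length and routing.
`gef_geoStmt`: `GAngularStmt (1/64) 4 4 p D L0`, `GPatchStmt D p C c`, `GeMainStmt`  ⟹  `GeoStmt` with `cLen = cAux = 4`, `cHI = 8`
(choice of `J = Nat.clog 2 L`, of `γ` with `D log L ≤ 4·2^γ ≤ 2 D log L`, cardinalities).
`gef_top`: the statement of `S0546` from these three inputs (`p ≥ 22`).
-/

set_option autoImplicit false

namespace Claimed.Agent.R296

open Matrix Claims.C0474

/-- **target of `GeoMain.lean`** -/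
def GeMainStmt : Prop :=
  ∀ (L J γ q : ℕ) [NeZero L] (HI : Type) [Fintype HI] [DecidableEq HI] (Ω : (GSite L → Fin q) → ℂ)
    (ε δ : ℝ) (E : GeEnv (GSite L) HI Ω ε δ),
    E.pt = fpt → E.G = 256 * 2 ^ γ → E.nmax = 1024 * (L : ℤ) → L ≤ 2 ^ J → 2 ^ J < 2 * L →
    (geSt0 L J HI).Init ∧ FrSchedOk E.pat δ geM0 geH0 18 (E.ops J γ) (geSt0 L J HI) ∧
    (frRun E.pat (E.ops J γ) (geSt0 L J HI)).Final none Sum.inl ∧
    (∀ P, frCostly (E.ops J γ) P ≤ 25 * 97) ∧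
    (E.ops J γ).length ≤ J * (2 ^ J * 2 ^ J) * 97 ∧
    ∃ carO : Fin (E.ops J γ).length → Finset (GSite L),
      (∀ i, (carO i).Nonempty ∧ AsmConn (carO i) ∧
        ∀ P ∈ ((E.ops J γ).get i).part, gePos L J P ∈ carO i) ∧
      ∀ e, asmCong carO e ≤ 600 * 97

/-- `log x ≤ 2 √x` -/
theorem gef_log_le (x : ℝ) (hx : 0 < x) : Real.log x ≤ 2 * Real.sqrt x := by
  have h1 : Real.log (Real.sqrt x) ≤ Real.sqrt x - 1 :=
    Real.log_le_sub_one_of_pos (Real.sqrt_pos.2 hx)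
  rw [Real.log_sqrt hx.le] at h1
  linarith

/-- choice of `γ` -/
theorem gef_gamma (X : ℝ) (hX : 4 ≤ X) : ∃ γ : ℕ, X ≤ 4 * (2 : ℝ) ^ γ ∧ (2 : ℝ) ^ γ ≤ X / 2 := by
  obtain ⟨n, h1, h2⟩ := exists_nat_pow_near (x := X / 4) (y := (2 : ℝ)) (by linarith) (by norm_num)
  refine ⟨n + 1, by linarith, ?_⟩
  rw [pow_succ]
  linarith

/-- choice of `J` -/
theorem gef_J (L : ℕ) (hL : 2 ≤ L) : ∃ J : ℕ, L ≤ 2 ^ J ∧ 2 ^ J < 2 * L ∧ J < L := by
  refine ⟨Nat.clog 2 L, Nat.le_pow_clog (by norm_num) L, ?_, ?_⟩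
  · have h := Nat.pow_pred_clog_lt_self (b := 2) (by norm_num) (x := L) (by omega)
    have hpos : 0 < Nat.clog 2 L := Nat.clog_pos (by norm_num) hL
    obtain ⟨k, hk⟩ : ∃ k, Nat.clog 2 L = k + 1 := ⟨Nat.clog 2 L - 1, by omega⟩
    rw [hk] at h ⊢
    simp only [Nat.pred_eq_sub_one, Nat.add_sub_cancel] at h
    rw [pow_succ]
    omega
  · have h := Nat.pow_pred_clog_lt_self (b := 2) (by norm_num) (x := L) (by omega)
    have h2 : (Nat.clog 2 L).pred < 2 ^ (Nat.clog 2 L).pred := Nat.lt_two_pow_self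
    have hpos : 0 < Nat.clog 2 L := Nat.clog_pos (by norm_num) hL
    simp only [Nat.pred_eq_sub_one] at h h2
    omega

/-- threshold -/
noncomputable def gefL0 (D C : ℝ) (L0 : ℕ) : ℕ :=
  L0 + ⌈C⌉₊ + ⌈Real.exp (4 / D)⌉₊ + ⌈(D : ℝ) ^ 2⌉₊ + 60000000

theorem gef_geoStmt (q : ℕ) [NeZero q] (J Δ p D C c : ℝ) (L0 : ℕ) (hD : 0 < D)
    (hang : GAngularStmt q J Δ (1 / 64) 4 4 p D L0) (hpat : GPatchStmt q J Δ D p C c)
    (hmain : GeMainStmt) :
    GeoStmt q J Δ p (⌈c⌉₊ + 1) 4 4 8 geM0 geH0 18 (25 * 97) (600 * 97) (gefL0 D C L0) := by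
  intro L hL M
  unfold gefL0 at hL
  have hL2 : 2 ≤ L := by omega
  have hLbig : 60000000 ≤ L := by omega
  have : NeZero L := ⟨by omega⟩
  have hLr : (0 : ℝ) < L := by
    have : 0 < L := by omega
    exact_mod_cast this
  -- `D log L ≥ 4`
  have hlog : 4 ≤ D * Real.log L := by
    have h1 : Real.exp (4 / D) ≤ L := by
      refine (Nat.le_ceil _).trans ?_
      have : ⌈Real.exp (4 / D)⌉₊ ≤ L := by omega
      exact_mod_cast this
    have h2 : 4 / D ≤ Real.log L := (Real.le_log_iff_exp_le hLr).2 h1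
    rw [div_le_iff₀ hD] at h2
    linarith
  obtain ⟨γ, hγ1, hγ2⟩ := gef_gamma _ hlog
  obtain ⟨JJ, hJ1, hJ2, hJ3⟩ := gef_J L hL2
  -- `2^γ ≤ L`
  have hγL : 2 ^ γ ≤ L := by
    have h1 : (D : ℝ) ^ 2 ≤ L := by
      refine (Nat.le_ceil _).trans ?_
      have : ⌈(D : ℝ) ^ 2⌉₊ ≤ L := by omega
      exact_mod_cast this
    have h2 : D ≤ Real.sqrt L := Real.le_sqrt_of_sq_le h1
    have h3 := gef_log_le L hLr
    have h4 : Real.sqrt L * Real.sqrt L = L := Real.mul_self_sqrt hLr.le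
    have h5 : (2 : ℝ) ^ γ ≤ L := by
      have hs := Real.sqrt_nonneg (L : ℝ)
      calc (2 : ℝ) ^ γ ≤ D * Real.log L / 2 := hγ2
        _ ≤ D * (2 * Real.sqrt L) / 2 := by
            have := mul_le_mul_of_nonneg_left h3 hD.le
            linarith
        _ = D * Real.sqrt L := by ring
        _ ≤ Real.sqrt L * Real.sqrt L := mul_le_mul_of_nonneg_right h2 hs
        _ = L := h4
    exact_mod_cast h5
  obtain ⟨E, hpt, -, -, hG, hnmax, hnb⟩ := ge_env_exists hang hpat (by omega) hL2 M γ hγ1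
    (by nlinarith [pow_pos (show (0 : ℝ) < 2 by norm_num) γ])
  obtain ⟨hinit, hok, hfin, hw, hlen, carO, hcar, hχ⟩ :=
    hmain L JJ γ q (GeHI L γ) M.Ω _ _ E hpt hG hnmax hJ1 hJ2
  refine ⟨GeAux JJ, GeSh JJ, GeHI L γ, inferInstance, inferInstance, inferInstance, inferInstance,
    inferInstance, inferInstance, E.pat, E.ops JJ γ, geSt0 L JJ (GeHI L γ), none, gePos L JJ, carO,
    ?_, hinit, hok, hfin, hw, fun _ => rfl, hcar, hχ, ?_, ?_, ?_⟩
  · intro a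
    exact asg_poly_nat _ L C c (hnb a) (by omega) (by omega)
  · refine hlen.trans ?_
    have h1 : JJ * (2 ^ JJ * 2 ^ JJ) * 97 ≤ L * ((2 * L) * (2 * L)) * 97 :=
      Nat.mul_le_mul_right _ (Nat.mul_le_mul hJ3.le (Nat.mul_le_mul hJ2.le hJ2.le))
    refine h1.trans ?_
    have : L ^ 4 = L * (L * L) * L := by ring
    rw [this]
    nlinarith [Nat.zero_le (L * (L * L))]
  · have h1 : Fintype.card (GeAux JJ) = (JJ + 1) * (2 ^ JJ * 2 ^ JJ) := by
      simp [GeAux, Fintype.card_prod]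
    rw [h1]
    have h2 : (JJ + 1) * (2 ^ JJ * 2 ^ JJ) ≤ L * ((2 * L) * (2 * L)) :=
      Nat.mul_le_mul hJ3 (Nat.mul_le_mul hJ2.le hJ2.le)
    refine h2.trans ?_
    have : L ^ 4 = L * (L * L) * L := by ring
    rw [this]
    nlinarith [Nat.zero_le (L * (L * L))]
  · rw [Fintype.card_prod, gex_card]
    have h1 : Fintype.card (GeSh JJ) = (JJ + 1) * ((2 ^ JJ * 2 ^ JJ) * 4) + 1 := by
      simp [GeSh, Fintype.card_option, Fintype.card_prod]
    rw [h1]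
    have h2 : (JJ + 1) * ((2 ^ JJ * 2 ^ JJ) * 4) + 1 ≤ L * (((2 * L) * (2 * L)) * 4) + 1 :=
      Nat.add_le_add_right (Nat.mul_le_mul hJ3
        (Nat.mul_le_mul_right _ (Nat.mul_le_mul hJ2.le hJ2.le))) 1
    have h3 : L * (((2 * L) * (2 * L)) * 4) + 1 ≤ L ^ 4 := by
      have : L ^ 4 = L * (L * L) * L := by ring
      rw [this]
      have h0 : 1 ≤ L * (L * L) := Nat.one_le_iff_ne_zero.2 (by positivity)
      nlinarith
    have h4 : (256 * L + 1024 * 2 ^ γ + 1) ^ 2 * (32 * 2 ^ γ) ≤ (1281 * L) ^ 2 * (32 * L) := by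
      refine Nat.mul_le_mul (Nat.pow_le_pow_left ?_ 2) (Nat.mul_le_mul_left _ hγL)
      omega
    have h5 : (1281 * L) ^ 2 * (32 * L) ≤ L ^ 4 := by
      have e1 : (1281 * L) ^ 2 * (32 * L) = 52510752 * (L * (L * L)) := by ring
      have e2 : L ^ 4 = L * (L * (L * L)) := by ring
      rw [e1, e2]
      exact Nat.mul_le_mul_right _ (by omega)
    calc _ ≤ L ^ 4 * L ^ 4 := Nat.mul_le_mul (h2.trans h3) (h4.trans h5)
      _ = L ^ 8 := by ring

/-- **`S0546` from the angular decay, the patches and the schedule.** -/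
theorem gef_top (q : ℕ) [NeZero q] (hq : 2 ≤ q) (J Δ : ℝ) (hJ : 0 < J) (hΔ : 0 < Δ)
    (p D C c : ℝ) (L0 : ℕ) (hp : 22 ≤ p) (hD : 0 < D)
    (hang : GAngularStmt q J Δ (1 / 64) 4 4 p D L0) (hpat : GPatchStmt q J Δ D p C c)
    (hmain : GeMainStmt) :
    ∃ C c : ℝ, 0 < C ∧ 0 < c ∧ ∀ L : ℕ, 2 ≤ L →
      ∀ (hv : Fin L × Fin L → Matrix (Fin L × Fin L → Fin q) (Fin L × Fin L → Fin q) ℂ)
        (he : GridEdge L → Matrix (Fin L × Fin L → Fin q) (Fin L × Fin L → Fin q) ℂ),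
        (∀ v, HermNormLE (embedAt {v} (hv v)) J) →
        (∀ e, HermNormLE (embedAt e.support (he e)) J) →
        ∀ (E₀ : ℝ) (Ω : (Fin L × Fin L → Fin q) → ℂ),
          star Ω ⬝ᵥ Ω = 1 →
          gridHamiltonian L q hv he *ᵥ Ω = (E₀ : ℂ) • Ω →
          IsPSD (gridHamiltonian L q hv he - (E₀ : ℂ) • 1 -
              (Δ : ℂ) • (1 - vecMulVec Ω (star Ω))) →
          ∃ D : ℕ, (D : ℝ) ≤ C * (L : ℝ) ^ c ∧
            ∃ A : ∀ v : Fin L × Fin L, Fin q → (IncidentEdge v → Fin D) → ℂ,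
              pepsVector A ≠ 0 ∧
              ∃ θ : ℝ,
                ∑ σ, ‖pepsVector A σ / (Real.sqrt (∑ τ, ‖pepsVector A τ‖ ^ 2) : ℂ) -
                    Complex.exp ((θ : ℂ) * Complex.I) * Ω σ‖ ^ 2 ≤ (1 / (L : ℝ)) ^ 2 :=
  asg_top q hq J Δ hJ hΔ p _ 4 4 8 _ _ _ _ _ _ (by push_cast; linarith) (by push_cast; linarith)
    (gef_geoStmt q J Δ p D C c L0 hD hang hpat hmain)

/-- **The master chain of S0546**: the four providers of `ch_area` (paper 1) and the schedule of Section 6 (paper 2). -/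
theorem gef_p2 (hEnt : EntApiStmt) (hbase : GeoBaseStmt)
    (hScan : ∀ (q R : ℕ) [NeZero q] (J Δ : ℝ), 2 ≤ q → 1 ≤ R → 0 < J → 0 < Δ →
      Scan.ScanConclStmt q R J Δ)
    (hAmp : ∀ (q R : ℕ) [NeZero q] (J Δ : ℝ), 2 ≤ q → 1 ≤ R → 0 < J → 0 < Δ → AmplStmt q R J Δ)
    (hmain : GeMainStmt)
    (q : ℕ) [NeZero q] (hq : 2 ≤ q) (J Δ : ℝ) (hJ : 0 < J) (hΔ : 0 < Δ) :
    ∃ C c : ℝ, 0 < C ∧ 0 < c ∧ ∀ L : ℕ, 2 ≤ L →
      ∀ (hv : Fin L × Fin L → Matrix (Fin L × Fin L → Fin q) (Fin L × Fin L → Fin q) ℂ)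
        (he : GridEdge L → Matrix (Fin L × Fin L → Fin q) (Fin L × Fin L → Fin q) ℂ),
        (∀ v, HermNormLE (embedAt {v} (hv v)) J) →
        (∀ e, HermNormLE (embedAt e.support (he e)) J) →
        ∀ (E₀ : ℝ) (Ω : (Fin L × Fin L → Fin q) → ℂ),
          star Ω ⬝ᵥ Ω = 1 →
          gridHamiltonian L q hv he *ᵥ Ω = (E₀ : ℂ) • Ω →
          IsPSD (gridHamiltonian L q hv he - (E₀ : ℂ) • 1 -
              (Δ : ℂ) • (1 - vecMulVec Ω (star Ω))) →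
          ∃ D : ℕ, (D : ℝ) ≤ C * (L : ℝ) ^ c ∧
            ∃ A : ∀ v : Fin L × Fin L, Fin q → (IncidentEdge v → Fin D) → ℂ,
              pepsVector A ≠ 0 ∧
              ∃ θ : ℝ,
                ∑ σ, ‖pepsVector A σ / (Real.sqrt (∑ τ, ‖pepsVector A τ‖ ^ 2) : ℂ) -
                    Complex.exp ((θ : ℂ) * Complex.I) * Ω σ‖ ^ 2 ≤ (1 / (L : ℝ)) ^ 2 := by
  have hI : InfoDecayStmt q 1 J Δ 12 (1 + 2) :=
    ch_infoDecay hEnt q 1 J Δ hJ hΔ (hScan q 1 J Δ hq le_rfl hJ hΔ) (hAmp q 1 J Δ hq le_rfl hJ hΔ)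
  have hArea : AreaStmt q 1 J Δ :=
    top_area_core hEnt q 1 J Δ hΔ 12 (1 + 2) hI (fun n => geo_twoFam hbase 12 (1 + 2) n)
  obtain ⟨D, L0, hD, hang⟩ := p2_angular hEnt q J Δ hJ hΔ hArea hI (1 / 64) 4 4 60 (by norm_num)
    (by norm_num) (by norm_num)
  obtain ⟨CA, hCA, hA⟩ := gArea hArea
  obtain ⟨C, c, -, -, hpat⟩ := gPatch q J Δ hJ hΔ hCA hA D 60 hD (by norm_num)
  exact gef_top q hq J Δ hJ hΔ 60 D C c L0 (by norm_num) hD hang hpat hmain

end Claimed.Agent.R296
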