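import Claimed.Agent.R296.P2.GeoSmall

/-!
# Row 296, paper 2, Section 6: the guides `G(U)` of a large square near the corners   (prefix `gqa_`; helper68)

* `gqa_loc`, `gqa_large` : a large level in a chart satisfies `GeLoc`, `GeEnv.Large`;
* `gqa_chart_pt`         : the four charts in the local coordinates `(u, v)` of the square: `(u, v)`, `(v, N - u)`, `(N - u, N - v)`, `(N - v, u)`;
* `gqa_pix`              : within `14 G` of a corner the guide `G(U)` is constant on the `G`-cells (all rows are rows of cells there);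
* `gqa_adm`              : `(E.chart j σ e).Adm (geNn j) (gePart L J j σ) (E.gu J j dn σ U)` for every `U`;
* `gqa_memA/B/C`         : the three labels of an edge are participants.
-/

set_option autoImplicit false
set_option linter.unusedSectionVars false

namespace Claimed.Agent.R296

open Finset

/-- `κ` is a corner of the square `σ` of the level `j` -/
def GeCorner (j : ℕ) (σ κ : ℤ × ℤ) : Prop :=
  (κ.1 = geNn j * σ.1 ∨ κ.1 = geNn j * σ.1 + geNn j) ∧ (κ.2 = geNn j * σ.2 ∨ κ.2 = geNn j * σ.2 + geNn j)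

theorem gqa_cell_near {G a b t : ℤ} (hG : 0 < G) (ht : G ∣ t) (hab : a / G = b / G) :
    (t ≤ a → t ≤ b) ∧ (a < t → b < t) := by
  obtain ⟨k, rfl⟩ := ht
  constructor
  · intro h
    have : k ≤ a / G := by rw [Int.le_ediv_iff_mul_le hG]; linarith
    rw [hab, Int.le_ediv_iff_mul_le hG] at this
    linarith
  · intro h
    have : a / G < k := by rw [Int.ediv_lt_iff_lt_mul hG]; linarith
    rw [hab, Int.ediv_lt_iff_lt_mul hG] at this
    linarith

/-- the four charts -/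
theorem gqa_iso_app (j : ℕ) (σ p : ℤ × ℤ) :
    (geEdgeIso j σ 0).app p = (p.1 - geNn j * σ.1, p.2 - geNn j * σ.2) ∧
    (geEdgeIso j σ 1).app p = (p.2 - geNn j * σ.2, geNn j - (p.1 - geNn j * σ.1)) ∧
    (geEdgeIso j σ 2).app p = (geNn j - (p.1 - geNn j * σ.1), geNn j - (p.2 - geNn j * σ.2)) ∧
    (geEdgeIso j σ 3).app p = (geNn j - (p.2 - geNn j * σ.2), p.1 - geNn j * σ.1) := by
  refine ⟨?_, ?_, ?_, ?_⟩ <;> simp only [geEdgeIso, GeIso.app] <;> ext <;> simp <;> ring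

/-- the marks of a chart are corners -/
theorem gqa_mark_corner (j : ℕ) (σ : ℤ × ℤ) (e : Fin 4) (p : ℤ × ℤ) :
    (∃ κ, GeCorner j σ κ ∧ dInf ((geEdgeIso j σ e).app p) (0, 0) = dInf p κ) ∧
      ∃ κ, GeCorner j σ κ ∧ dInf ((geEdgeIso j σ e).app p) (geNn j, 0) = dInf p κ := by
  constructor
  · refine ⟨(geEdgeIso j σ e).inv.app (0, 0), ?_, gei_dInf_inv _ _ _⟩
    fin_cases e <;> simp [GeCorner, geEdgeIso, GeIso.inv, GeIso.app]
  · refine ⟨(geEdgeIso j σ e).inv.app (geNn j, 0), ?_, gei_dInf_inv _ _ _⟩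
    fin_cases e <;> simp [GeCorner, geEdgeIso, GeIso.inv, GeIso.app] <;> ring_nf <;> simp

/-- near a corner the first coordinate in every chart is close to a mark -/
theorem gqa_corner_s {j : ℕ} {σ κ p : ℤ × ℤ} {G : ℤ} (hκ : GeCorner j σ κ) (hp : dInf p κ ≤ 14 * G)
    (_hG : 0 < G) (e : Fin 4) :
    ((geEdgeIso j σ e).app p).1 ≤ 16 * G ∨ geNn j - 16 * G ≤ ((geEdgeIso j σ e).app p).1 := by
  obtain ⟨a0, a1, a2, a3⟩ := gqa_iso_app j σ p
  rw [geo_dInf_le] at hp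
  obtain ⟨h1, h2⟩ := hκ
  fin_cases e
  · show ((geEdgeIso j σ 0).app p).1 ≤ _ ∨ _ ≤ ((geEdgeIso j σ 0).app p).1
    rw [a0]; simp only; omega
  · show ((geEdgeIso j σ 1).app p).1 ≤ _ ∨ _ ≤ ((geEdgeIso j σ 1).app p).1
    rw [a1]; simp only; omega
  · show ((geEdgeIso j σ 2).app p).1 ≤ _ ∨ _ ≤ ((geEdgeIso j σ 2).app p).1
    rw [a2]; simp only; omega
  · show ((geEdgeIso j σ 3).app p).1 ≤ _ ∨ _ ≤ ((geEdgeIso j σ 3).app p).1
    rw [a3]; simp only; omega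

section Env

variable {L : ℕ} {HI : Type} [Fintype HI] [DecidableEq HI] {q : ℕ} {Ω : (GSite L → Fin q) → ℂ} {ε δ : ℝ}

variable (E : GeEnv (GSite L) HI Ω ε δ) (J γ : ℕ)

theorem gqa_loc {γ : ℕ} (hG : E.G = 256 * 2 ^ γ) {j : ℕ} (hlarge : γ + 8 ≤ j) : GeLoc E.G (geNn j) where
  G_pos := by rw [hG]; positivity
  G_dvd := ⟨2 ^ γ, hG⟩
  Nn_dvd := by rw [hG]; unfold geNn; exact mul_dvd_mul_left _ (pow_dvd_pow _ (by omega))
  Nn_ge := by
    rw [hG]; unfold geNn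
    have : (2 : ℤ) ^ (γ + 8) ≤ 2 ^ j := pow_le_pow_right₀ (by norm_num) hlarge
    rw [pow_add] at this
    omega

theorem gqa_Nn_mono {j J : ℕ} (h : j ≤ J) : geNn j ≤ geNn J := by
  unfold geNn
  have : (2 : ℤ) ^ j ≤ 2 ^ J := pow_le_pow_right₀ (by norm_num) h
  omega

theorem gqa_large (hG : E.G = 256 * 2 ^ γ) (hmax : geNn J ≤ E.nmax) {j : ℕ} (hj : j ≤ J)
    (hlarge : γ + 8 ≤ j) (σ : ℤ × ℤ) (e : Fin 4) : (E.chart j σ e).Large (geLvl L J γ j) where
  loc := gqa_loc E hG hlarge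
  m_eq := by
    show geMesh γ j = E.G
    rw [hG, gsm_mesh_large (by omega)]
  le_max := (gqa_Nn_mono hj).trans hmax

theorem gqa_chart_pt (j : ℕ) (σ : ℤ × ℤ) (e : Fin 4) (x : GSite L) :
    (E.chart j σ e).pt x = (geEdgeIso j σ e).app (E.pt x) := rfl

/-- near a corner all rows are rows of cells -/
theorem gqa_row_corner {j : ℕ} (hloc : GeLoc E.G (geNn j)) {σ κ : ℤ × ℤ} (hκ : GeCorner j σ κ) {x : GSite L}
    (hx : dInf (E.pt x) κ ≤ 14 * E.G) (e : Fin 4) :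
    E.rowE j σ e x = ((E.chart j σ e).pt x).2 / E.G :=
  geb_row_near hloc (gqa_corner_s hκ hx hloc.G_pos e)

/-- a corner is a node of the mesh `G` -/
theorem gqa_corner_node {j : ℕ} {G : ℤ} (hd : G ∣ geNn j) {σ κ : ℤ × ℤ} (hκ : GeCorner j σ κ) : GeNode G κ := by
  obtain ⟨h1, h2⟩ := hκ
  constructor
  · rcases h1 with h | h <;> rw [h]
    · exact hd.mul_right _
    · exact dvd_add (hd.mul_right _) hd
  · rcases h2 with h | h <;> rw [h]
    · exact hd.mul_right _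
    · exact dvd_add (hd.mul_right _) hd

/-- the cell of a point within `< 14 G` of a node lies within `≤ 14 G` -/
theorem gqa_near_cell {G : ℤ} (hG : 0 < G) {κ p p' : ℤ × ℤ} (hκ : GeNode G κ) (hp : dInf p κ < 14 * G)
    (hc : GeSameCell G p p') : dInf p' κ ≤ 14 * G := by
  rw [geo_dInf_lt] at hp
  rw [geo_dInf_le]
  obtain ⟨k1, k2⟩ := hκ
  have a1 := (gqa_cell_near hG (dvd_add k1 (Dvd.intro_left 14 rfl) : G ∣ κ.1 + 14 * G) hc.1).2 (by omega)
  have a2 := (gqa_cell_near hG (dvd_sub k1 (Dvd.intro_left 14 rfl) : G ∣ κ.1 - 14 * G) hc.1).1 (by omega)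
  have a3 := (gqa_cell_near hG (dvd_add k2 (Dvd.intro_left 14 rfl) : G ∣ κ.2 + 14 * G) hc.2).2 (by omega)
  have a4 := (gqa_cell_near hG (dvd_sub k2 (Dvd.intro_left 14 rfl) : G ∣ κ.2 - 14 * G) hc.2).1 (by omega)
  omega

/-- **pixel property of the guides near a corner** -/
theorem gqa_pix {j : ℕ} (hloc : GeLoc E.G (geNn j)) (dn : Finset (ℤ × ℤ)) {σ κ : ℤ × ℤ} (hκ : GeCorner j σ κ)
    (U : Finset (Fin 4)) {x y : GSite L} (hx : dInf (E.pt x) κ < 14 * E.G)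
    (hc : GeSameCell E.G (E.pt x) (E.pt y)) : E.gu J j dn σ U x = E.gu J j dn σ U y := by
  have hG := hloc.G_pos
  have hy := gqa_near_cell hG (gqa_corner_node hloc.Nn_dvd hκ) hx hc
  have hrow : ∀ e, E.rowE j σ e x = E.rowE j σ e y := by
    intro e
    rw [gqa_row_corner E hloc hκ hx.le e, gqa_row_corner E hloc hκ hy e]
    have hd := ge_edgeIso_dvd j σ e
    exact ((gei_sameCell_pt E (geEdgeIso j σ e) (ge_edgeIso_dvd' j σ e) hG hloc.G_dvd
      ⟨hloc.Nn_dvd.trans hd.1, hloc.Nn_dvd.trans hd.2⟩ x y).2 hc).2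
  have hsq : geSqOf j (E.pt x) = geSqOf j (E.pt y) := by
    obtain ⟨k, hk⟩ := hloc.Nn_dvd
    unfold geSqOf
    rw [hk, ← Int.ediv_ediv_of_nonneg hG.le, ← Int.ediv_ediv_of_nonneg hG.le,
      ← Int.ediv_ediv_of_nonneg hG.le, ← Int.ediv_ediv_of_nonneg hG.le, hc.1, hc.2]
  unfold GeEnv.gu
  simp only [hrow, hsq, gsm_base_pix E J j dn hG hloc.Nn_dvd hc]

theorem gqa_self_block {J j : ℕ} {σ : ℤ × ℤ} (hσ : GeInR J j σ) : σ ∈ geBlock J j σ := by
  rw [gsm_mem_block]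
  exact ⟨⟨by omega, by omega⟩, ⟨by omega, by omega⟩, hσ⟩

theorem gqa_memA (L : ℕ) {J j : ℕ} {σ : ℤ × ℤ} (hσ : GeInR J j σ) : geLab L J (j + 1) (gePar σ) ∈ gePart L J j σ :=
  Finset.mem_union_right _ (Finset.mem_image_of_mem (fun τ => geLab L J (j + 1) (gePar τ)) (gqa_self_block hσ))

theorem gqa_memB (L : ℕ) {J j : ℕ} {σ : ℤ × ℤ} (hσ : GeInR J j σ) : geLab L J j σ ∈ gePart L J j σ :=
  Finset.mem_union_left _ (Finset.mem_image_of_mem _ (gqa_self_block hσ))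

theorem gqa_memC (L : ℕ) {J j : ℕ} (dn : Finset (ℤ × ℤ)) {σ : ℤ × ℤ} (hσ : GeInR J j σ) (e : Fin 4) :
    geNbLab L J j dn σ e ∈ gePart L J j σ := by
  unfold geNbLab
  split_ifs with h
  · refine gsm_baseLab_mem L J j dn ?_
    rw [gsm_mem_block]
    refine ⟨?_, ?_, h⟩ <;> fin_cases e <;> simp [geDir] <;> omega
  · exact gqa_memA L hσ

/-- the values of the guides near a corner are participants -/
theorem gqa_mem (hpt : E.pt = fpt) (hL : L ≤ 2 ^ J) {j : ℕ} (hj : j ≤ J) (hloc : GeLoc E.G (geNn j))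
    (dn : Finset (ℤ × ℤ)) {σ κ : ℤ × ℤ} (hσ : GeInR J j σ) (hκ : GeCorner j σ κ) (U : Finset (Fin 4))
    {x : GSite L} (hx : dInf (E.pt x) κ < 14 * E.G) : E.gu J j dn σ U x ∈ gePart L J j σ := by
  unfold GeEnv.gu
  split_ifs
  · exact gqa_memA L hσ
  · exact gqa_memB L hσ
  · refine gsm_base_part E J hpt hL hj dn ?_
    have hh := gsm_Nn_half j
    have h1 := hloc.Nn_ge
    have h2 := hloc.G_pos
    rw [geo_dInf_lt] at hx ⊢
    obtain ⟨k1, k2⟩ := hκ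
    simp only [geCtr]
    omega

/-- **the guides are admissible near the marks of every chart** -/
theorem gqa_adm (hpt : E.pt = fpt) (hG : E.G = 256 * 2 ^ γ) (hL : L ≤ 2 ^ J) {j : ℕ} (hj : j ≤ J)
    (hlarge : γ + 8 ≤ j) (dn : Finset (ℤ × ℤ)) {σ : ℤ × ℤ} (hσ : GeInR J j σ) (e : Fin 4) (U : Finset (Fin 4)) :
    (E.chart j σ e).Adm (geNn j) (gePart L J j σ) (E.gu J j dn σ U) := by
  have hloc := gqa_loc E hG hlarge
  have hd := ge_edgeIso_dvd j σ e
  have hcell : ∀ x y, GeSameCell E.G ((E.chart j σ e).pt x) ((E.chart j σ e).pt y) →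
      GeSameCell E.G (E.pt x) (E.pt y) := fun x y h =>
    (gei_sameCell_pt E (geEdgeIso j σ e) (ge_edgeIso_dvd' j σ e) hloc.G_pos hloc.G_dvd
      ⟨hloc.Nn_dvd.trans hd.1, hloc.Nn_dvd.trans hd.2⟩ x y).1 h
  refine ⟨?_, ?_, ?_, ?_⟩
  · intro x y hx hc
    obtain ⟨κ, hκ, hk⟩ := (gqa_mark_corner j σ e (E.pt x)).1
    rw [gqa_chart_pt, hk] at hx
    exact gqa_pix E J hloc dn hκ U hx (hcell x y hc)
  · intro x y hx hc
    obtain ⟨κ, hκ, hk⟩ := (gqa_mark_corner j σ e (E.pt x)).2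
    rw [gqa_chart_pt, hk] at hx
    exact gqa_pix E J hloc dn hκ U hx (hcell x y hc)
  · intro x hx
    obtain ⟨κ, hκ, hk⟩ := (gqa_mark_corner j σ e (E.pt x)).1
    rw [gqa_chart_pt, hk] at hx
    exact gqa_mem E J hpt hL hj hloc dn hσ hκ U hx
  · intro x hx
    obtain ⟨κ, hκ, hk⟩ := (gqa_mark_corner j σ e (E.pt x)).2
    rw [gqa_chart_pt, hk] at hx
    exact gqa_mem E J hpt hL hj hloc dn hσ hκ U hx

end Env

end Claimed.Agent.R296
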