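import Claimed.Agent.R296.P2.GeoChart
import Claimed.Agent.R296.P2.GeoSqAdm

/-!
# Row 296, paper 2, Section 6: the guides `G(U)` of a large square   (prefix `gqe_`)

Architect: helper197.  Verification of the hypotheses of `ge_central` (chart `0`) and of `ge_edge` (chart `e`) for the guides `E.gu`.

Everything is reduced to `GeoChart.lean` by `gqe_chart_pt` : `(E.chart j σ e).pt x = geRot (geNn j) e (geLocP j σ (E.pt x))`.
 * strip: rows `< 0` lie in the square across the edge (`gq_band_neg`, `gq_sq_nb`; the square is in the range because it contains a site,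
   `gq_inR`), rows `0, 1` lie in `σ` (`gq_band_pos`, sites are not on grid lines) and have rows `≥ 1` for the other edges (`gq_rows_other`);
 * far: `gin` and `gout` differ only on the sites of `σ` with `row_e < 1`: these are in a zone or in the row `0` (`gq_inS_band`);
 * pixels: `gq_sq_cell`, `gq_row_cell` in each of the four charts (`gq_rot_nearC`, `gei_sameCell_pt`);
 * participants: `gq_sq_block`, `gq_inR`, `gq_base_mem`.
-/

set_option autoImplicit false
set_option linter.unusedSectionVars false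

namespace Claimed.Agent.R296

open Finset

variable {L : ℕ} {HI : Type} [Fintype HI] [DecidableEq HI] {q : ℕ} {Ω : (GSite L → Fin q) → ℂ} {ε δ : ℝ}

variable (E : GeEnv (GSite L) HI Ω ε δ) (J γ : ℕ)

theorem gqe_chart_pt (j : ℕ) (σ : ℤ × ℤ) (e : Fin 4) (x : GSite L) :
    (E.chart j σ e).pt x = geRot (geNn j) e (geLocP j σ (E.pt x)) :=
  gq_app j σ e (E.pt x)

theorem gqe_chart_G (j : ℕ) (σ : ℤ × ℤ) (e : Fin 4) : (E.chart j σ e).G = E.G := rfl

theorem gqe_chart_pat (j : ℕ) (σ : ℤ × ℤ) (e : Fin 4) : (E.chart j σ e).pat = E.pat := rfl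

theorem gqe_rowE (j : ℕ) (σ : ℤ × ℤ) (e : Fin 4) (x : GSite L) :
    E.rowE j σ e x = geRow E.G (geNn j) (geRot (geNn j) e (geLocP j σ (E.pt x))) := by
  unfold GeEnv.rowE
  rw [gqe_chart_pt]

/-- the hole rule in a chart -/
theorem gqe_rule (j : ℕ) (σ : ℤ × ℤ) (e : Fin 4)
    (st : FrState (APty L (GeAux J)) (GeSh J) (GSite L) HI) (s : GeSh J)
    (own : GSite L → APty L (GeAux J)) :
    (E.chart j σ e).Rule (geLvl L J γ j) st s own ↔ E.Rule (geLvl L J γ j) st s own := by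
  exact gei_rule E (geEdgeIso j σ e) (ge_edgeIso_dvd' j σ e) (geLvl L J γ j) (ge_edgeIso_dvd j σ e)
    (gsm_mesh_dvd_Nn γ j) st s own

variable {J γ}

theorem gqe_large (hG : E.G = 256 * 2 ^ γ) (hmax : geNn J ≤ E.nmax) {j : ℕ} (hj : j < J)
    (hγ : γ + 8 ≤ j) (σ : ℤ × ℤ) (e : Fin 4) : (E.chart j σ e).Large (geLvl L J γ j) := by
  exact gqa_large E J γ hG hmax hj.le hγ σ e

/-- a site lies in `σ` iff it lies in the open square in one (every) chart -/
theorem gqe_sq_in (j : ℕ) (σ : ℤ × ℤ) (e : Fin 4) (x : GSite L) :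
    geSqOf j (E.pt x) = σ ↔ geInS (geNn j) ((E.chart j σ e).pt x) := by
  rw [gqe_chart_pt, gq_rot_inS]
  obtain ⟨h1, h2⟩ := ges_site_off E (gsm_256_dvd_Nn j) x
  exact gq_sq_in j σ (E.pt x) h1 h2

/-- the set of the central birth -/
theorem gqe_core_eq {j : ℕ} (hloc : GeLoc E.G (geNn j)) (σ : ℤ × ℤ) :
    E.core j σ = (E.chart j σ 0).coreS (geNn j) := by
  ext x
  rw [gec_mem_coreS, gqe_chart_pt, gqe_chart_G]
  simp only [GeEnv.core, Finset.mem_filter, Finset.mem_univ, true_and, gqe_rowE]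
  exact gq_core_iff hloc _

/-- hypotheses of the central birth -/
theorem gqe_central_hyp (hG : E.G = 256 * 2 ^ γ) (hmax : geNn J ≤ E.nmax) {j : ℕ} (hj : j < J)
    (hγ : γ + 8 ≤ j) {σ : ℤ × ℤ} {dn : Finset (ℤ × ℤ)} (hdn : σ ∉ dn) :
    GeCentralHyp (E.chart j σ 0) (geLvl L J γ j) (E.base J j dn) (geLab L J (j + 1) (gePar σ)) := by
  refine ⟨gqe_large E hG hmax hj hγ σ 0, fun x hx => ?_⟩
  have h := (gqe_sq_in E j σ 0 x).2 hx
  unfold GeEnv.base geBaseLab
  rw [h, if_neg hdn]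

/-- the guide after the central birth -/
theorem gqe_updC_eq {j : ℕ} (hloc : GeLoc E.G (geNn j)) {σ : ℤ × ℤ} {dn : Finset (ℤ × ℤ)} (hdn : σ ∉ dn) :
    (E.chart j σ 0).updC (geNn j) (E.base J j dn) (geLab L J j σ) = E.gu J j dn σ univ := by
  funext x
  have hcore := gq_core_iff hloc (geLocP j σ (E.pt x))
  have hpt0 : (E.chart j σ 0).pt x = geLocP j σ (E.pt x) := gqe_chart_pt E j σ 0 x
  unfold GeEnv.updC GeEnv.gu
  rw [gqe_chart_G, hpt0]
  by_cases hc : geCore E.G (geNn j) (geLocP j σ (E.pt x))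
  · have hin : geSqOf j (E.pt x) = σ := (gqe_sq_in E j σ 0 x).2 (by rw [hpt0]; exact gec_core_inS hloc hc)
    have hrow : ¬ ∃ e ∈ (univ : Finset (Fin 4)), E.rowE j σ e x < 1 := by
      rintro ⟨e, -, he⟩
      have := hcore.2 hc e
      rw [gqe_rowE] at he
      omega
    rw [if_pos hc, if_pos hin, if_neg hrow]
  · rw [if_neg hc]
    by_cases hin : geSqOf j (E.pt x) = σ
    · have hrow : ∃ e ∈ (univ : Finset (Fin 4)), E.rowE j σ e x < 1 := by
        by_contra hno
        apply hc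
        apply hcore.1
        intro e
        by_contra hlt
        exact hno ⟨e, Finset.mem_univ _, by rw [gqe_rowE]; omega⟩
      rw [if_pos hin, if_pos hrow]
      unfold GeEnv.base geBaseLab
      rw [hin, if_neg hdn]
    · rw [if_neg hin]

/-- the guide after the four edges -/
theorem gqe_gu_empty (j : ℕ) (σ : ℤ × ℤ) (dn : Finset (ℤ × ℤ)) :
    E.gu J j dn σ ∅ = E.base J j (insert σ dn) := by
  funext x
  unfold GeEnv.gu
  by_cases hin : geSqOf j (E.pt x) = σ
  · rw [if_pos hin, if_neg (by simp)]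
    unfold GeEnv.base geBaseLab
    rw [hin, if_pos (Finset.mem_insert_self _ _)]
  · rw [if_neg hin, gsm_base_insert E J j dn σ hin]

/-- the guides are admissible near the marks of every edge -/
theorem gqe_gu_adm (hpt : ∀ x, E.pt x = fpt x) (hL : L ≤ 2 ^ J) {j : ℕ} (hj : j < J)
    (hloc : GeLoc E.G (geNn j)) {σ : ℤ × ℤ} (hσ : GeInR J j σ) (dn : Finset (ℤ × ℤ)) (U : Finset (Fin 4))
    (e : Fin 4) : (E.chart j σ e).Adm (geNn j) (gePart L J j σ) (E.gu J j dn σ U) := by
  have hpt' : E.pt = fpt := funext hpt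
  have hd := ge_edgeIso_dvd j σ e
  have hcell : ∀ x y, GeSameCell E.G ((E.chart j σ e).pt x) ((E.chart j σ e).pt y) →
      GeSameCell E.G (E.pt x) (E.pt y) := fun x y h =>
    (gei_sameCell_pt E (geEdgeIso j σ e) (ge_edgeIso_dvd' j σ e) hloc.G_pos hloc.G_dvd
      ⟨hloc.Nn_dvd.trans hd.1, hloc.Nn_dvd.trans hd.2⟩ x y).1 h
  refine ⟨?_, ?_, ?_, ?_⟩
  · intro x y hx hc
    obtain ⟨κ, hκ, hk⟩ := (gqa_mark_corner j σ e (E.pt x)).1
    rw [gqa_chart_pt, hk] at hx
    exact gqa_pix E J hloc dn hκ U hx (hcell x y hc)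
  · intro x y hx hc
    obtain ⟨κ, hκ, hk⟩ := (gqa_mark_corner j σ e (E.pt x)).2
    rw [gqa_chart_pt, hk] at hx
    exact gqa_pix E J hloc dn hκ U hx (hcell x y hc)
  · intro x hx
    obtain ⟨κ, hκ, hk⟩ := (gqa_mark_corner j σ e (E.pt x)).1
    rw [gqa_chart_pt, hk] at hx
    exact gqa_mem E J hpt' hL hj.le hloc dn hσ hκ U hx
  · intro x hx
    obtain ⟨κ, hκ, hk⟩ := (gqa_mark_corner j σ e (E.pt x)).2
    rw [gqa_chart_pt, hk] at hx
    exact gqa_mem E J hpt' hL hj.le hloc dn hσ hκ U hx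

/-- the guide on the strip of the edge `e` -/
theorem gqe_gu_strip (hpt : ∀ x, E.pt x = fpt x) (hL : L ≤ 2 ^ J) {j : ℕ} (hj : j < J)
    (hloc : GeLoc E.G (geNn j)) (σ : ℤ × ℤ) (dn : Finset (ℤ × ℤ)) (U : Finset (Fin 4))
    (e : Fin 4) (x : GSite L) (hx : geBand E.G (geNn j) (-8) 2 ((E.chart j σ e).pt x)) :
    E.gu J j dn σ U x =
      geW0 (if e ∈ U then geLab L J (j + 1) (gePar σ) else geLab L J j σ) (geLab L J j σ)
        (geNbLab L J j dn σ e) (geRow E.G (geNn j) ((E.chart j σ e).pt x)) := by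
  have hpe := gqe_chart_pt E j σ e x
  by_cases hr : geRow E.G (geNn j) ((E.chart j σ e).pt x) < 0
  · -- the square across the edge
    obtain ⟨b1, b2, b3, b4⟩ := gq_band_neg hloc hx hr
    rw [hpe] at b1 b2 b3 b4
    have hsq := gq_sq_nb j σ e (E.pt x) b1 b2 b3 b4
    have hne : geSqOf j (E.pt x) ≠ σ := by
      rw [hsq]
      intro h
      have h1 := congrArg Prod.fst h
      have h2 := congrArg Prod.snd h
      fin_cases e <;> simp [geDir] at h1 h2
    have hR : GeInR J j (σ + geDir e) := by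
      rw [← hsq, hpt x]
      exact gq_inR hL hj.le x
    unfold GeEnv.gu geW0
    rw [if_neg hne, if_pos hr]
    unfold GeEnv.base geNbLab
    rw [if_pos hR, hsq]
  · -- inside the square
    have hr0 : 0 ≤ geRow E.G (geNn j) ((E.chart j σ e).pt x) := by omega
    obtain ⟨b1, b2, b3, b4⟩ := gq_band_pos hloc hx hr0
    have hodd := ((E.chart j σ e).odd x).2
    have hin : geSqOf j (E.pt x) = σ := (gqe_sq_in E j σ e x).2 ⟨b1, b2, by omega, b4⟩
    have hb02 : geBand E.G (geNn j) 0 2 (geRot (geNn j) e (geLocP j σ (E.pt x))) := by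
      rw [← hpe]
      exact ⟨hx.1, hr0, hx.2.2⟩
    have hiff : (∃ e' ∈ U, E.rowE j σ e' x < 1) ↔
        (e ∈ U ∧ geRow E.G (geNn j) ((E.chart j σ e).pt x) < 1) := by
      constructor
      · rintro ⟨e', he', hlt⟩
        by_cases hee : e' = e
        · subst hee
          exact ⟨he', hlt⟩
        · have := gq_rows_other hloc hee hb02
          rw [gqe_rowE] at hlt
          omega
      · rintro ⟨he, hlt⟩
        exact ⟨e, he, hlt⟩
    have hlt2 := hx.2.2
    unfold GeEnv.gu geW0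
    rw [if_pos hin, if_neg hr]
    by_cases h0 : geRow E.G (geNn j) ((E.chart j σ e).pt x) = 0
    · rw [if_pos h0]
      by_cases heU : e ∈ U
      · rw [if_pos heU, if_pos (hiff.2 ⟨heU, by omega⟩)]
      · rw [if_neg heU, if_neg (fun h => heU (hiff.1 h).1)]
    · rw [if_neg h0, if_neg (fun h => by have := (hiff.1 h).2; omega)]

/-- removing the edge `e` changes the guide only in the zones and in the strip of `e` -/
theorem gqe_gu_far {j : ℕ} (hloc : GeLoc E.G (geNn j)) (σ : ℤ × ℤ) (dn : Finset (ℤ × ℤ))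
    (U : Finset (Fin 4)) (e : Fin 4) (x : GSite L)
    (h0 : ¬ geZone E.G (0, 0) ((E.chart j σ e).pt x)) (h1 : ¬ geZone E.G (geNn j, 0) ((E.chart j σ e).pt x))
    (h2 : ¬ geBand E.G (geNn j) (-8) 2 ((E.chart j σ e).pt x)) :
    E.gu J j dn σ (U.erase e) x = E.gu J j dn σ U x := by
  unfold GeEnv.gu
  by_cases hin : geSqOf j (E.pt x) = σ
  · have hS := (gqe_sq_in E j σ e x).1 hin
    have hrow : ¬ E.rowE j σ e x < 1 := by
      intro hlt
      obtain ⟨c1, c2, c3⟩ := gq_inS_band hloc hS h0 h1 hlt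
      exact h2 ⟨c1, by omega, by omega⟩
    have hiff : (∃ e' ∈ U.erase e, E.rowE j σ e' x < 1) ↔ (∃ e' ∈ U, E.rowE j σ e' x < 1) := by
      constructor
      · rintro ⟨e', he', hlt⟩
        exact ⟨e', Finset.mem_of_mem_erase he', hlt⟩
      · rintro ⟨e', he', hlt⟩
        refine ⟨e', Finset.mem_erase.2 ⟨?_, he'⟩, hlt⟩
        rintro rfl
        exact hrow hlt
    simp only [hiff]
  · rw [if_neg hin, if_neg hin]

/-- **hypotheses of `ge_edge`** -/
theorem gqe_edge_hyp (hpt : ∀ x, E.pt x = fpt x) (hG : E.G = 256 * 2 ^ γ) (hmax : geNn J ≤ E.nmax)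
    (hL : L ≤ 2 ^ J) {j : ℕ} (hj : j < J) (hγ : γ + 8 ≤ j) {σ : ℤ × ℤ} (hσ : GeInR J j σ)
    (dn : Finset (ℤ × ℤ)) (e : Fin 4) :
    GeEdgeHyp (E.chart j σ e) (geLvl L J γ j) (geLab L J (j + 1) (gePar σ)) (geLab L J j σ)
      (geNbLab L J j dn σ e) (E.gu J j dn σ (univ.filter fun e' => e ≤ e'))
      (E.gu J j dn σ (univ.filter fun e' => e < e')) (gePart L J j σ) := by
  have hloc : GeLoc E.G (geNn j) := gqa_loc E hG hγ
  have hers : (univ.filter fun e' : Fin 4 => e < e') = (univ.filter fun e' : Fin 4 => e ≤ e').erase e := by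
    ext e'
    simp only [Finset.mem_filter, Finset.mem_univ, true_and, Finset.mem_erase]
    constructor
    · intro h
      exact ⟨h.ne', h.le⟩
    · rintro ⟨h1, h2⟩
      exact lt_of_le_of_ne h2 (Ne.symm h1)
  refine ⟨gqe_large E hG hmax hj hγ σ e, ?_, ?_, ?_, gqe_gu_adm E hpt hL hj hloc hσ dn _ e,
    gqe_gu_adm E hpt hL hj hloc hσ dn _ e, gqa_memA L hσ, gqa_memB L hσ, gqa_memC L dn hσ e⟩
  · intro x hx
    have := gqe_gu_strip E hpt hL hj hloc σ dn (univ.filter fun e' => e ≤ e') e x hx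
    rw [if_pos (by simp)] at this
    exact this
  · intro x hx
    have := gqe_gu_strip E hpt hL hj hloc σ dn (univ.filter fun e' => e < e') e x hx
    rw [if_neg (by simp)] at this
    exact this
  · intro x h0 h1 h2
    rw [hers]
    exact gqe_gu_far E hloc σ dn _ e x h0 h1 h2

end Claimed.Agent.R296
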