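import Claimed.Agent.R296.P2.GeoSqDefs

/-!
# Row 296, paper 2, Section 6: repaint of a square of a medium or small level   (prefix `gsm_`; helper68)

`E.sqOpsS` is ONE rewrite whose window is the square: we verify `GeRwHyp` for `base dn → base (insert σ dn)`.
The first part (arithmetic of `geNn`, `geMesh`, `geSqOf`, membership of base labels in `gePart`) is independent of the size of the level.
-/

set_option autoImplicit false
set_option linter.unusedSectionVars false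

namespace Claimed.Agent.R296

open Finset

/-! ### arithmetic of the scales -/

theorem gsm_Nn_pos (j : ℕ) : 0 < geNn j := by unfold geNn; positivity

theorem gsm_mesh_pos (γ j : ℕ) : 0 < geMesh γ j := by unfold geMesh; positivity

theorem gsm_256_dvd_mesh (γ j : ℕ) : 256 ∣ geMesh γ j := ⟨2 ^ (min j γ), rfl⟩

theorem gsm_256_dvd_Nn (j : ℕ) : 256 ∣ geNn j := ⟨2 ^ j, rfl⟩

theorem gsm_mesh_dvd_Nn (γ j : ℕ) : geMesh γ j ∣ geNn j := by
  unfold geMesh geNn
  exact mul_dvd_mul_left _ (pow_dvd_pow _ (min_le_left _ _))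

theorem gsm_mesh_le (γ j : ℕ) : geMesh γ j ≤ 256 * 2 ^ γ := by
  unfold geMesh
  have : (2 : ℤ) ^ (min j γ) ≤ 2 ^ γ := pow_le_pow_right₀ (by norm_num) (min_le_right _ _)
  omega

theorem gsm_mesh_small {γ j : ℕ} (h : j ≤ γ) : geMesh γ j = geNn j := by
  unfold geMesh geNn; rw [min_eq_left h]

theorem gsm_mesh_large {γ j : ℕ} (h : γ ≤ j) : geMesh γ j = 256 * 2 ^ γ := by
  unfold geMesh; rw [min_eq_right h]

theorem gsm_Nn_succ (j : ℕ) : geNn (j + 1) = 2 * geNn j := by unfold geNn; ring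

theorem gsm_Nn_half (j : ℕ) : geNn j / 2 + geNn j / 2 = geNn j := by
  have : geNn j = 2 * (128 * 2 ^ j) := by unfold geNn; ring
  omega

theorem gsm_Nn_le_mesh {γ j : ℕ} (h : j < γ + 8) : geNn j ≤ 128 * geMesh γ j := by
  rcases le_total j γ with h1 | h1
  · rw [gsm_mesh_small h1]; have := gsm_Nn_pos j; omega
  · rw [gsm_mesh_large h1]
    unfold geNn
    have : (2 : ℤ) ^ j ≤ 2 ^ (γ + 7) := pow_le_pow_right₀ (by norm_num) (by omega)
    rw [pow_add] at this
    omega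

/-! ### squares -/

theorem gsm_sqOf_iff (j : ℕ) (p τ : ℤ × ℤ) :
    geSqOf j p = τ ↔ (geNn j * τ.1 ≤ p.1 ∧ p.1 < geNn j * τ.1 + geNn j) ∧
      (geNn j * τ.2 ≤ p.2 ∧ p.2 < geNn j * τ.2 + geNn j) := by
  have hN := gsm_Nn_pos j
  have key : ∀ a t : ℤ, a / geNn j = t ↔ (geNn j * t ≤ a ∧ a < geNn j * t + geNn j) := by
    intro a t
    rw [Int.ediv_eq_iff_of_pos hN]
    constructor
    · rintro ⟨h1, h2⟩; constructor <;> nlinarith
    · rintro ⟨h1, h2⟩; constructor <;> nlinarith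
  unfold geSqOf
  rw [Prod.ext_iff]
  simp only [key]

/-- the square of a site is in the range -/
theorem gsm_sqOf_inR {L J j : ℕ} (hL : L ≤ 2 ^ J) (hj : j ≤ J) (x : GSite L) : GeInR J j (geSqOf j (fpt x)) := by
  have hN := gsm_Nn_pos j
  have hsplit : (2 : ℤ) ^ J = 2 ^ j * 2 ^ (J - j) := geoA_pow_split hj
  have hL' : (L : ℤ) ≤ 2 ^ J := by exact_mod_cast hL
  have key : ∀ a : Fin L, 0 ≤ (256 * ((a : ℕ) : ℤ) + 128) / geNn j ∧
      (256 * ((a : ℕ) : ℤ) + 128) / geNn j < 2 ^ (J - j) := by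
    intro a
    have ha : ((a : ℕ) : ℤ) < L := by exact_mod_cast a.2
    have ha0 : (0 : ℤ) ≤ ((a : ℕ) : ℤ) := Int.natCast_nonneg _
    constructor
    · exact Int.ediv_nonneg (by omega) hN.le
    · rw [Int.ediv_lt_iff_lt_mul hN]
      have : (2 : ℤ) ^ (J - j) * geNn j = 256 * 2 ^ J := by rw [hsplit]; unfold geNn; ring
      rw [this]
      omega
  exact ⟨(key x.1).1, (key x.1).2, (key x.2).1, (key x.2).2⟩

theorem gsm_mem_block {J j : ℕ} {σ τ : ℤ × ℤ} :
    τ ∈ geBlock J j σ ↔ (σ.1 - 1 ≤ τ.1 ∧ τ.1 ≤ σ.1 + 1) ∧ (σ.2 - 1 ≤ τ.2 ∧ τ.2 ≤ σ.2 + 1) ∧ GeInR J j τ := by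
  unfold geBlock
  rw [Finset.mem_filter, Finset.mem_product, Finset.mem_Icc, Finset.mem_Icc, and_assoc]

theorem gsm_baseLab_mem (L J j : ℕ) (dn : Finset (ℤ × ℤ)) {σ τ : ℤ × ℤ} (h : τ ∈ geBlock J j σ) :
    geBaseLab L J j dn τ ∈ gePart L J j σ := by
  unfold geBaseLab gePart
  split_ifs
  · exact Finset.mem_union_left _ (Finset.mem_image_of_mem _ h)
  · exact Finset.mem_union_right _ (Finset.mem_image_of_mem (fun τ => geLab L J (j + 1) (gePar τ)) h)

/-- centre of a square -/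
def geCtr (j : ℕ) (σ : ℤ × ℤ) : ℤ × ℤ := (geNn j * σ.1 + geNn j / 2, geNn j * σ.2 + geNn j / 2)

/-- a point within `Nn / 2 + Nn` of the centre of `σ` lies in the `3 × 3` block -/
theorem gsm_near_block {j : ℕ} {σ p : ℤ × ℤ} (h : dInf p (geCtr j σ) < geNn j / 2 + geNn j) :
    (σ.1 - 1 ≤ (geSqOf j p).1 ∧ (geSqOf j p).1 ≤ σ.1 + 1) ∧
      (σ.2 - 1 ≤ (geSqOf j p).2 ∧ (geSqOf j p).2 ≤ σ.2 + 1) := by
  have hN := gsm_Nn_pos j
  have hh := gsm_Nn_half j
  rw [geo_dInf_lt] at h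
  simp only [geCtr] at h
  obtain ⟨h1, h2, h3, h4⟩ := h
  have key : ∀ a s : ℤ, a - (geNn j * s + geNn j / 2) < geNn j / 2 + geNn j →
      (geNn j * s + geNn j / 2) - a < geNn j / 2 + geNn j → s - 1 ≤ a / geNn j ∧ a / geNn j ≤ s + 1 := by
    intro a s g1 g2
    constructor
    · rw [Int.le_ediv_iff_mul_le hN]; nlinarith
    · have : a / geNn j < s + 2 := by rw [Int.ediv_lt_iff_lt_mul hN]; nlinarith
      omega
  exact ⟨key _ _ h1 h2, key _ _ h3 h4⟩

/-! ### nodes which are not nodes of the level grid -/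

theorem gsm_two_le {N m c : ℤ} (hm : 0 < m) (hN : 0 < N) (hd : m ∣ N) (hc : m ∣ c) (hn : ¬ N ∣ c) :
    2 * m ≤ N := by
  obtain ⟨k, rfl⟩ := hd
  have hk : 0 < k := by
    by_contra h
    have : m * k ≤ 0 := mul_nonpos_of_nonneg_of_nonpos hm.le (by omega)
    omega
  have hk1 : k ≠ 1 := by
    rintro rfl
    exact hn (by simpa using hc)
  have : 2 ≤ k := by omega
  nlinarith

theorem gsm_cell_one {N m c a : ℤ} (hN : 0 < N) (hd : m ∣ N) (hc : m ∣ c) (hn : ¬ N ∣ c)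
    (h1 : c - a < m) (h2 : a - c < m) : a / N = c / N := by
  have e1 : N * (c / N) ≤ c := Int.mul_ediv_self_le hN.ne'
  have e2 : c < N * (c / N) + N := by
    have := Int.lt_ediv_add_one_mul_self c hN
    nlinarith
  have e3 : N * (c / N) ≠ c := fun h => hn ⟨c / N, h.symm⟩
  have g1 := ger_gap (hd.mul_right (c / N)) hc (lt_of_le_of_ne e1 e3)
  have g2 := ger_gap hc (dvd_add (hd.mul_right (c / N)) hd) e2
  rw [Int.ediv_eq_iff_of_pos hN]
  constructor <;> nlinarith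

theorem gsm_cell_two {N m c a : ℤ} (hN : 0 < N) (h2m : 2 * m ≤ N) (h1 : c - a < m) (h2 : a - c < m) :
    a / N = (c - m) / N ∨ a / N = (c - m) / N + 1 :=
  ger_cell_two hN (by omega) (by omega)

section Env

variable {L : ℕ} {HI : Type} [Fintype HI] [DecidableEq HI] {q : ℕ} {Ω : (GSite L → Fin q) → ℂ} {ε δ : ℝ}

variable (E : GeEnv (GSite L) HI Ω ε δ) (J γ : ℕ)

/-- the base guide is constant on the cells of a mesh which divides `Nn` -/
theorem gsm_base_pix (j : ℕ) (dn : Finset (ℤ × ℤ)) {m : ℤ} (hm : 0 < m) (hd : m ∣ geNn j) {x y : GSite L}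
    (h : GeSameCell m (E.pt x) (E.pt y)) : E.base J j dn x = E.base J j dn y := by
  obtain ⟨k, hk⟩ := hd
  unfold GeEnv.base geSqOf
  rw [hk, ← Int.ediv_ediv_of_nonneg hm.le, ← Int.ediv_ediv_of_nonneg hm.le,
    ← Int.ediv_ediv_of_nonneg hm.le, ← Int.ediv_ediv_of_nonneg hm.le, h.1, h.2]

/-- a node of the mesh which is not a node of the level grid has at most two adjacent owners, for every owner map which is constant
on the squares of the level -/
theorem gsm_adj_le_two {PP : Type} [DecidableEq PP] (lv : GeLvl PP) (j : ℕ) (hm : 0 < lv.m) (hd : lv.m ∣ geNn j)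
    (f : ℤ × ℤ → PP) {c : ℤ × ℤ} (hc : GeNode lv.m c) (hn : ¬ GeNode (geNn j) c) :
    (E.adj lv (fun x => f (geSqOf j (E.pt x))) c).card ≤ 2 := by
  have hN := gsm_Nn_pos j
  by_cases h1 : geNn j ∣ c.1
  · have h2 : ¬ geNn j ∣ c.2 := fun h => hn ⟨h1, h⟩
    have h2m := gsm_two_le hm hN hd hc.2 h2
    refine (Finset.card_le_card (t := {f ((c.1 - lv.m) / geNn j, c.2 / geNn j),
      f ((c.1 - lv.m) / geNn j + 1, c.2 / geNn j)}) ?_).trans Finset.card_le_two
    intro P hP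
    simp only [GeEnv.adj, Finset.mem_image, Finset.mem_filter, Finset.mem_univ, true_and] at hP
    obtain ⟨z, hz, rfl⟩ := hP
    rw [geo_dInf_lt] at hz
    have a2 := gsm_cell_one hN hd hc.2 h2 hz.2.2.2 hz.2.2.1
    rcases gsm_cell_two hN h2m hz.2.1 hz.1 with a1 | a1
    · simp [geSqOf, a1, a2]
    · simp [geSqOf, a1, a2]
  · have h2m := gsm_two_le hm hN hd hc.1 h1
    refine (Finset.card_le_card (t := {f (c.1 / geNn j, (c.2 - lv.m) / geNn j),
      f (c.1 / geNn j, (c.2 - lv.m) / geNn j + 1)}) ?_).trans Finset.card_le_two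
    intro P hP
    simp only [GeEnv.adj, Finset.mem_image, Finset.mem_filter, Finset.mem_univ, true_and] at hP
    obtain ⟨z, hz, rfl⟩ := hP
    rw [geo_dInf_lt] at hz
    have a1 := gsm_cell_one hN hd hc.1 h1 hz.2.1 hz.1
    rcases gsm_cell_two hN h2m hz.2.2.2 hz.2.2.1 with a2 | a2
    · simp [geSqOf, a1, a2]
    · simp [geSqOf, a1, a2]

/-- a site of the square `σ` is at distance `< Nn / 2` from the centre -/
theorem gsm_in_square {j : ℕ} {σ : ℤ × ℤ} {x : GSite L} (h : geSqOf j (E.pt x) = σ) :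
    dInf (E.pt x) (geCtr j σ) < geNn j / 2 := by
  rw [gsm_sqOf_iff] at h
  obtain ⟨⟨h1, h2⟩, h3, h4⟩ := h
  have hh := gsm_Nn_half j
  obtain ⟨o1, o2⟩ := E.odd x
  obtain ⟨k, hk⟩ := gsm_256_dvd_Nn j
  have n1 : geNn j * σ.1 ≠ (E.pt x).1 := by
    intro h; rw [hk, mul_assoc] at h; omega
  have n2 : geNn j * σ.2 ≠ (E.pt x).2 := by
    intro h; rw [hk, mul_assoc] at h; omega
  rw [geo_dInf_lt]
  simp only [geCtr]
  refine ⟨by omega, by omega, by omega, by omega⟩

theorem gsm_base_insert (j : ℕ) (dn : Finset (ℤ × ℤ)) (σ : ℤ × ℤ) {x : GSite L}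
    (h : geSqOf j (E.pt x) ≠ σ) : E.base J j (insert σ dn) x = E.base J j dn x := by
  unfold GeEnv.base geBaseLab
  simp [Finset.mem_insert, h]

/-- labels of the sites near the square are participants -/
theorem gsm_base_part (hpt : E.pt = fpt) (hL : L ≤ 2 ^ J) {j : ℕ} (hj : j ≤ J) (dn : Finset (ℤ × ℤ)) {σ : ℤ × ℤ}
    {x : GSite L} (h : dInf (E.pt x) (geCtr j σ) < geNn j / 2 + geNn j) :
    E.base J j dn x ∈ gePart L J j σ := by
  refine gsm_baseLab_mem L J j dn ?_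
  rw [gsm_mem_block]
  obtain ⟨a1, a2⟩ := gsm_near_block h
  refine ⟨a1, a2, ?_⟩
  rw [hpt]
  exact gsm_sqOf_inR hL hj x

/-- the hypotheses of the generic rewrite lemma for the repaint of a medium or small square -/
theorem gsm_hyp (hpt : E.pt = fpt) (hG : E.G = 256 * 2 ^ γ) (hL : L ≤ 2 ^ J) {j : ℕ} (hj : j ≤ J)
    (hs : j < γ + 8) (dn : Finset (ℤ × ℤ)) (σ : ℤ × ℤ) :
    GeRwHyp E (geLvl L J γ j) (E.base J j dn) (E.base J j (insert σ dn)) (geCtr j σ) (geNn j / 2)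
      (gePart L J j σ) where
  m_pos := gsm_mesh_pos γ j
  m_dvd := (by norm_num : (64 : ℤ) ∣ 256).trans (gsm_256_dvd_mesh γ j)
  m_le := by rw [hG]; exact gsm_mesh_le γ j
  rho_pos := by have := gsm_Nn_half j; have := gsm_Nn_pos j; omega
  rho_le := by
    have := gsm_Nn_half j; have := gsm_Nn_pos j; have := gsm_Nn_le_mesh hs
    show geNn j / 2 ≤ 128 * geMesh γ j
    omega
  grid := by
    have hh := gsm_Nn_half j
    have hd := gsm_mesh_dvd_Nn γ j
    have e1 : ∀ s : ℤ, geNn j * s + geNn j / 2 - geNn j / 2 = geNn j * s := fun s => by ring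
    have e2 : ∀ s : ℤ, geNn j * s + geNn j / 2 + geNn j / 2 = geNn j * s + geNn j := fun s => by omega
    simp only [geCtr, e1, e2]
    exact ⟨hd.mul_right _, dvd_add (hd.mul_right _) hd, hd.mul_right _, dvd_add (hd.mul_right _) hd⟩
  agree := by
    intro x hx
    refine gsm_base_insert E J j dn σ fun h => ?_
    have := gsm_in_square E h
    omega
  pix := fun x y _ h => gsm_base_pix E J j dn (gsm_mesh_pos γ j) (gsm_mesh_dvd_Nn γ j) h
  pix' := fun x y _ h => gsm_base_pix E J j _ (gsm_mesh_pos γ j) (gsm_mesh_dvd_Nn γ j) h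
  cand := by
    intro c hc _
    by_cases hn : GeNode (geNn j) c
    · left
      refine ⟨c, hn, ?_⟩
      have : dInf c c = 0 := by simp [dInf]
      rw [this]
      have := gsm_mesh_pos γ j
      show 0 ≤ 14 * geMesh γ j
      omega
    · right
      exact ⟨gsm_adj_le_two E (geLvl L J γ j) j (gsm_mesh_pos γ j) (gsm_mesh_dvd_Nn γ j) _ hc hn,
        gsm_adj_le_two E (geLvl L J γ j) j (gsm_mesh_pos γ j) (gsm_mesh_dvd_Nn γ j) _ hc hn⟩
  part := by
    intro x hx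
    have hle : geMesh γ j ≤ geNn j := Int.le_of_dvd (gsm_Nn_pos j) (gsm_mesh_dvd_Nn γ j)
    have hx' : dInf (E.pt x) (geCtr j σ) < geNn j / 2 + geNn j := lt_of_lt_of_le hx (by
      show geNn j / 2 + geMesh γ j ≤ _
      omega)
    exact ⟨gsm_base_part E J hpt hL hj dn hx', gsm_base_part E J hpt hL hj _ hx'⟩

/-- **repaint of a square of a medium or small level** -/
theorem ge_square_small (hpt : E.pt = fpt) (hG : E.G = 256 * 2 ^ γ) (hL : L ≤ 2 ^ J) {j : ℕ} (hj : j ≤ J)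
    (hs : j < γ + 8) (dn : Finset (ℤ × ℤ)) (σ : ℤ × ℤ) :
    GeTrip E.pat δ 18 (fun st => E.Rule (geLvl L J γ j) st none (E.base J j dn)) (E.sqOpsS J γ j dn σ)
      (fun st => E.Rule (geLvl L J γ j) st none (E.base J j (insert σ dn))) :=
  ge_rewrite_trip E (geLvl L J γ j) none (gsm_hyp E J γ hpt hG hL hj hs dn σ) (geo_part_card L J j σ)

theorem gsm_length (j : ℕ) (dn : Finset (ℤ × ℤ)) (σ : ℤ × ℤ) : (E.sqOpsS J γ j dn σ).length = 1 := rfl

theorem gsm_sheets (j : ℕ) (dn : Finset (ℤ × ℤ)) (σ : ℤ × ℤ) : ∀ o ∈ E.sqOpsS J γ j dn σ, o.sheets = {none} := by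
  intro o ho
  simp only [GeEnv.sqOpsS, List.mem_singleton] at ho
  subst ho
  rfl

theorem gsm_part (j : ℕ) (dn : Finset (ℤ × ℤ)) (σ : ℤ × ℤ) :
    ∀ o ∈ E.sqOpsS J γ j dn σ, o.part = gePart L J j σ := by
  intro o ho
  simp only [GeEnv.sqOpsS, List.mem_singleton] at ho
  subst ho
  rfl

end Env

end Claimed.Agent.R296
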