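import Claimed.Agent.R296.P2.GeoSqDefs
import Claimed.Agent.R296.P2.GeoSmall

/-!
# Row 296, paper 2, Section 6: change of level, initial and final state   (LEAF `P2-GE-LEVEL`, prefix `gel_`)

Architect: helper9.  Standing hypotheses `GeGlob E J γ`: `E.pt = fpt`, `E.G = 256 * 2 ^ γ`, `geNn J ≤ E.nmax`, `L ≤ 2 ^ J`.

* `E.fin J j` : the guide of a FINISHED level: the site `x` belongs to the label `(j, square of x)`;
* `gel_base_empty` : `E.base J j ∅ = E.fin J (j + 1)`;   `gel_base_full` : `E.base J j (all squares) = E.fin J j`;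
* `gel_level` : THE RULE FRAME OF `E.fin J (j + 1)` IS THE SAME FOR THE LEVELS `j + 1` AND `j`;
* `gel_init`, `gel_fresh0`, `gel_st0_init` : the initial state;   `gel_final` : the rule frame of `E.fin J 0` at the level 0 is final.

## Proof of `gel_level`
Write `own = E.fin J (j + 1)`, `N' = geNn (j + 1)`, `m = geMesh γ j`, `m' = geMesh γ (j + 1)`: `256 ∣ m ∣ m' ∣ N'`, `m' = m` (`γ ≤ j`) or `m' = 2 m` (`j < γ`).
 * `gel_node` : let `μ ∣ N'`, `0 < μ`, `c` a node of mesh `μ` with at least 3 owners among the sites at distance `< μ`.  Then `c` is a node of mesh `N'`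
   (if `N' ∤ c.1` all these sites have the same first index `(pt x).1 / N'`, so there are at most two squares).
 * `gel_near` : let `c` be a node of mesh `N'`, `μ ≤ N'`, at least 3 owners among the sites at distance `< μ`.  The owner of such a site depends only on its
   quadrant `(c.1 < (pt x).1, c.2 < (pt x).2)`; three quadrants contain two opposite ones; `E.conv` gives the four sites `c + (± 128, ± 128)`.
 * `gel_adj_eq` : hence for `128 < μ ≤ N'` the set of adjacent owners is the set of the owners of these four sites: it does not depend on `μ`.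
 * radius: all labels have the mesh `m'` (`geo_msh_lab`).  Level `j + 1`: `m' ≠ 2 m'`, radius `m' / 16`.  Level `j`: `m' = 2 m`: radius `m / 8 = m' / 16`;
   `m' = m`: radius `m / 16`.
 * candidates: a node of mesh `N'` is a node of mesh `geNn j` and a candidate of both levels (distance `0`).
-/

set_option autoImplicit false

namespace Claimed.Agent.R296

open Finset

section Env

variable {L : ℕ} {HI : Type} [Fintype HI] [DecidableEq HI] {q : ℕ} {Ω : (GSite L → Fin q) → ℂ} {ε δ : ℝ}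

/-- standing hypotheses of the global part of Section 6 -/
structure GeGlob (E : GeEnv (GSite L) HI Ω ε δ) (J γ : ℕ) : Prop where
  pt : E.pt = fpt
  G : E.G = 256 * 2 ^ γ
  nmax : geNn J ≤ E.nmax
  hJ : L ≤ 2 ^ J

/-- the guide of a finished level -/
def GeEnv.fin (E : GeEnv (GSite L) HI Ω ε δ) (J j : ℕ) : GSite L → APty L (GeAux J) :=
  fun x => geLab L J j (geSqOf j (E.pt x))

variable (E : GeEnv (GSite L) HI Ω ε δ) {J γ : ℕ}

/-! ### squares -/

theorem gel_Nn_pos (j : ℕ) : 0 < geNn j := by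
  unfold geNn; positivity

theorem gel_Nn_succ (j : ℕ) : geNn (j + 1) = geNn j * 2 := by
  unfold geNn; ring

theorem gel_par_sq (j : ℕ) (p : ℤ × ℤ) : gePar (geSqOf j p) = geSqOf (j + 1) p := by
  unfold gePar geSqOf
  rw [gel_Nn_succ]
  rw [Int.ediv_ediv_of_nonneg (gel_Nn_pos j).le, Int.ediv_ediv_of_nonneg (gel_Nn_pos j).le]

/-- the square of a site -/
theorem gel_sq_fpt (j : ℕ) (x : GSite L) :
    geSqOf j (fpt x) = ((((x.1 : ℕ) / 2 ^ j : ℕ) : ℤ), (((x.2 : ℕ) / 2 ^ j : ℕ) : ℤ)) := by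
  have key : ∀ n : ℕ, (256 * (n : ℤ) + 128) / geNn j = ((n / 2 ^ j : ℕ) : ℤ) := by
    intro n
    unfold geNn
    rw [← Int.ediv_ediv_of_nonneg (by norm_num : (0 : ℤ) ≤ 256)]
    have h1 : (256 * (n : ℤ) + 128) / 256 = n := by omega
    rw [h1]
    push_cast
    rfl
  unfold geSqOf fpt
  simp only [key]

/-- the square of a site is in the range -/
theorem gel_sq_inR (h : GeGlob E J γ) {j : ℕ} (hj : j ≤ J) (x : GSite L) : GeInR J j (geSqOf j (E.pt x)) := by
  rw [h.pt, gel_sq_fpt]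
  have key : ∀ n : Fin L, (((n : ℕ) / 2 ^ j : ℕ) : ℤ) < 2 ^ (J - j) := by
    intro n
    have h1 : (n : ℕ) < 2 ^ J := lt_of_lt_of_le n.2 h.hJ
    have h2 : 2 ^ J = 2 ^ (J - j) * 2 ^ j := by
      rw [← pow_add]
      congr 1
      omega
    have h3 : (n : ℕ) / 2 ^ j < 2 ^ (J - j) := by
      rw [Nat.div_lt_iff_lt_mul (by positivity)]
      omega
    exact_mod_cast h3
  exact ⟨by positivity, key _, by positivity, key _⟩

theorem gel_base_empty (J j : ℕ) : E.base J j ∅ = E.fin J (j + 1) := by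
  funext x
  unfold GeEnv.base GeEnv.fin geBaseLab
  rw [if_neg (Finset.notMem_empty _), gel_par_sq]

theorem gel_base_full (h : GeGlob E J γ) {j : ℕ} (hj : j ≤ J) :
    E.base J j (geSquares J j).toFinset = E.fin J j := by
  funext x
  unfold GeEnv.base GeEnv.fin geBaseLab
  rw [if_pos]
  rw [List.mem_toFinset, geo_mem_squares]
  exact gel_sq_inR E h hj x

theorem gel_fin_top (h : GeGlob E J γ) : E.fin J J = fun _ => geLab L J J (0, 0) := by
  funext x
  unfold GeEnv.fin
  rw [h.pt, gel_sq_fpt, Nat.div_eq_of_lt (lt_of_lt_of_le x.1.2 h.hJ),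
    Nat.div_eq_of_lt (lt_of_lt_of_le x.2.2 h.hJ)]
  rfl

theorem gel_fin_zero (h : GeGlob E J γ) : E.fin J 0 = Sum.inl := by
  funext x
  unfold GeEnv.fin
  rw [h.pt, gel_sq_fpt, pow_zero, Nat.div_one, Nat.div_one]
  exact geo_lab_site L J x

/-! ### meshes -/

theorem gel_mesh_pos (γ j : ℕ) : 0 < geMesh γ j := by
  unfold geMesh; positivity

theorem gel_mesh_256 (γ j : ℕ) : (256 : ℤ) ∣ geMesh γ j := ⟨_, rfl⟩

theorem gel_mesh_dvd_Nn (γ j : ℕ) : geMesh γ j ∣ geNn j := by
  unfold geMesh geNn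
  exact mul_dvd_mul_left _ (pow_dvd_pow _ (min_le_left _ _))

theorem gel_mesh_succ (γ j : ℕ) :
    (γ ≤ j ∧ geMesh γ (j + 1) = geMesh γ j) ∨ (j < γ ∧ geMesh γ (j + 1) = 2 * geMesh γ j) := by
  unfold geMesh
  rcases le_or_gt γ j with h | h
  · refine Or.inl ⟨h, ?_⟩
    rw [min_eq_right h, min_eq_right (by omega)]
  · refine Or.inr ⟨h, ?_⟩
    rw [min_eq_left h.le, min_eq_left (by omega)]
    ring

/-! ### nodes with three owners -/

/-- a node of mesh `μ` with three adjacent squares of side `N` is a node of mesh `N` -/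
theorem gel_node {PP : Type} [DecidableEq PP] (f : ℤ × ℤ → PP) {μ N : ℤ} (hμ : 0 < μ) (hd : μ ∣ N) (hN : 0 < N)
    {c : ℤ × ℤ} (hc : GeNode μ c)
    (h3 : 3 ≤ ((univ.filter fun x => dInf (E.pt x) c < μ).image
      fun x => f ((E.pt x).1 / N, (E.pt x).2 / N)).card) : GeNode N c := by
  by_contra hn
  have h2 : ((univ.filter fun x => dInf (E.pt x) c < μ).image
      fun x => f ((E.pt x).1 / N, (E.pt x).2 / N)).card ≤ 2 := by
    by_cases h1 : N ∣ c.1
    · have h2 : ¬ N ∣ c.2 := fun h => hn ⟨h1, h⟩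
      have h2m := gsm_two_le hμ hN hd hc.2 h2
      refine (Finset.card_le_card (t := {f ((c.1 - μ) / N, c.2 / N),
        f ((c.1 - μ) / N + 1, c.2 / N)}) ?_).trans Finset.card_le_two
      intro P hP
      simp only [Finset.mem_image, Finset.mem_filter, Finset.mem_univ, true_and] at hP
      obtain ⟨z, hz, rfl⟩ := hP
      rw [geo_dInf_lt] at hz
      have a2 := gsm_cell_one hN hd hc.2 h2 hz.2.2.2 hz.2.2.1
      rcases gsm_cell_two hN h2m hz.2.1 hz.1 with a1 | a1
      · simp [a1, a2]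
      · simp [a1, a2]
    · have h2m := gsm_two_le hμ hN hd hc.1 h1
      refine (Finset.card_le_card (t := {f (c.1 / N, (c.2 - μ) / N),
        f (c.1 / N, (c.2 - μ) / N + 1)}) ?_).trans Finset.card_le_two
      intro P hP
      simp only [Finset.mem_image, Finset.mem_filter, Finset.mem_univ, true_and] at hP
      obtain ⟨z, hz, rfl⟩ := hP
      rw [geo_dInf_lt] at hz
      have a1 := gsm_cell_one hN hd hc.1 h1 hz.2.1 hz.1
      rcases gsm_cell_two hN h2m hz.2.2.2 hz.2.2.1 with a2 | a2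
      · simp [a1, a2]
      · simp [a1, a2]
  omega

omit [Fintype HI] [DecidableEq HI] in
theorem gel_div_eq {N k t : ℤ} (hN : 0 < N) (h1 : N * k ≤ t) (h2 : t < N * k + N) : t / N = k := by
  rw [Int.ediv_eq_iff_of_pos hN]
  constructor <;> nlinarith

omit [Fintype HI] [DecidableEq HI] in
/-- three quadrants contain two opposite ones -/
theorem gel_opposite : ∀ Q : Finset (Bool × Bool), 3 ≤ Q.card →
    ((true, true) ∈ Q ∧ (false, false) ∈ Q) ∨ ((true, false) ∈ Q ∧ (false, true) ∈ Q) := by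
  decide

/-- three adjacent squares: the four nearest sites exist -/
theorem gel_near {PP : Type} [DecidableEq PP] (f : ℤ × ℤ → PP) {μ N : ℤ} (hμ : μ ≤ N) (h256 : 256 ∣ N)
    {c : ℤ × ℤ} (hc : GeNode N c)
    (h3 : 3 ≤ ((univ.filter fun x => dInf (E.pt x) c < μ).image
      fun x => f ((E.pt x).1 / N, (E.pt x).2 / N)).card) :
    ∀ s1 s2 : ℤ, (s1 = 128 ∨ s1 = -128) → (s2 = 128 ∨ s2 = -128) → ∃ z, E.pt z = (c.1 + s1, c.2 + s2) := by
  obtain ⟨⟨k, hk⟩, ⟨l, hl⟩⟩ := hc
  obtain ⟨n, hn⟩ := h256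
  -- `N` is positive
  have hne : ((univ.filter fun x => dInf (E.pt x) c < μ).image
      fun x => f ((E.pt x).1 / N, (E.pt x).2 / N)).Nonempty := Finset.card_pos.1 (by omega)
  obtain ⟨x0, hx0⟩ := (Finset.image_nonempty.1 hne)
  have hx0' : dInf (E.pt x0) c < μ := (Finset.mem_filter.1 hx0).2
  have hN : 0 < N := by
    have : 0 ≤ dInf (E.pt x0) c := le_max_of_le_left (abs_nonneg _)
    omega
  -- the owner depends only on the quadrant
  let quad : GSite L → Bool × Bool := fun x => (decide (c.1 < (E.pt x).1), decide (c.2 < (E.pt x).2))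
  let g : Bool × Bool → PP := fun b => f (if b.1 then k else k - 1, if b.2 then l else l - 1)
  have hfac : ∀ x ∈ univ.filter (fun x => dInf (E.pt x) c < μ),
      f ((E.pt x).1 / N, (E.pt x).2 / N) = g (quad x) := by
    intro x hx
    have hx' : dInf (E.pt x) c < μ := (Finset.mem_filter.1 hx).2
    rw [geo_dInf_lt] at hx'
    obtain ⟨o1, o2⟩ := E.odd x
    have e1 : (E.pt x).1 / N = if c.1 < (E.pt x).1 then k else k - 1 := by
      split_ifs with hlt
      · exact gel_div_eq hN (by omega) (by omega)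
      · have : (E.pt x).1 ≠ c.1 := by
          intro h; rw [h, hk, hn, mul_assoc] at o1; omega
        exact gel_div_eq hN (by rw [mul_sub]; omega) (by rw [mul_sub]; omega)
    have e2 : (E.pt x).2 / N = if c.2 < (E.pt x).2 then l else l - 1 := by
      split_ifs with hlt
      · exact gel_div_eq hN (by omega) (by omega)
      · have : (E.pt x).2 ≠ c.2 := by
          intro h; rw [h, hl, hn, mul_assoc] at o2; omega
        exact gel_div_eq hN (by rw [mul_sub]; omega) (by rw [mul_sub]; omega)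
    simp only [g, quad, e1, e2, decide_eq_true_eq]
  have hQ : 3 ≤ ((univ.filter fun x => dInf (E.pt x) c < μ).image quad).card := by
    refine h3.trans ?_
    rw [Finset.image_congr hfac]
    have e : (univ.filter fun x => dInf (E.pt x) c < μ).image (fun x => g (quad x)) =
        ((univ.filter fun x => dInf (E.pt x) c < μ).image quad).image g := by
      rw [Finset.image_image]; rfl
    rw [e]
    exact Finset.card_image_le
  have hopp := gel_opposite _ hQ
  have hmem : ∀ b : Bool × Bool, b ∈ (univ.filter fun x => dInf (E.pt x) c < μ).image quad →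
      ∃ x : GSite L, (c.1 < (E.pt x).1 ↔ b.1 = true) ∧ (c.2 < (E.pt x).2 ↔ b.2 = true) := by
    intro b hb
    obtain ⟨x, -, hx⟩ := Finset.mem_image.1 hb
    refine ⟨x, ?_, ?_⟩
    · rw [← hx]; simp [quad]
    · rw [← hx]; simp [quad]
  intro s1 s2 hs1 hs2
  have hc1 : c.1 = 256 * (n * k) := by rw [hk, hn, mul_assoc]
  have hc2 : c.2 = 256 * (n * l) := by rw [hl, hn, mul_assoc]
  rcases hopp with ⟨ha, hb⟩ | ⟨ha, hb⟩
  · obtain ⟨x, x1, x2⟩ := hmem _ ha
    obtain ⟨y, y1, y2⟩ := hmem _ hb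
    simp only [iff_true, Bool.false_eq_true, iff_false, not_lt] at x1 x2 y1 y2
    obtain ⟨ox1, ox2⟩ := E.odd x
    obtain ⟨oy1, oy2⟩ := E.odd y
    exact E.conv x y (c.1 + s1, c.2 + s2) (by simp only; omega) (by simp only; omega)
      (by simp only; omega) (by simp only; omega) (by simp only; omega) (by simp only; omega)
  · obtain ⟨x, x1, x2⟩ := hmem _ ha
    obtain ⟨y, y1, y2⟩ := hmem _ hb
    simp only [iff_true, Bool.false_eq_true, iff_false, not_lt] at x1 x2 y1 y2
    obtain ⟨ox1, ox2⟩ := E.odd x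
    obtain ⟨oy1, oy2⟩ := E.odd y
    exact E.conv x y (c.1 + s1, c.2 + s2) (by simp only; omega) (by simp only; omega)
      (by simp only; omega) (by simp only; omega) (by simp only; omega) (by simp only; omega)

/-- the adjacent owners of a node of mesh `N` all of whose four nearest sites exist -/
theorem gel_adj_four {PP : Type} [DecidableEq PP] (f : ℤ × ℤ → PP) {μ N : ℤ} (hμ : 128 < μ) (hμN : μ ≤ N)
    {c : ℤ × ℤ} (hc : GeNode N c)
    (h4 : ∀ s1 s2 : ℤ, (s1 = 128 ∨ s1 = -128) → (s2 = 128 ∨ s2 = -128) → ∃ z, E.pt z = (c.1 + s1, c.2 + s2)) :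
    (univ.filter fun x => dInf (E.pt x) c < μ).image (fun x => f ((E.pt x).1 / N, (E.pt x).2 / N)) =
      {f (c.1 / N, c.2 / N), f (c.1 / N - 1, c.2 / N), f (c.1 / N, c.2 / N - 1),
        f (c.1 / N - 1, c.2 / N - 1)} := by
  obtain ⟨⟨k, hk⟩, ⟨l, hl⟩⟩ := hc
  have hN : 0 < N := by omega
  have ek : c.1 / N = k := by rw [hk]; exact Int.mul_ediv_cancel_left _ hN.ne'
  have el : c.2 / N = l := by rw [hl]; exact Int.mul_ediv_cancel_left _ hN.ne'
  rw [ek, el]
  ext P
  simp only [Finset.mem_image, Finset.mem_filter, Finset.mem_univ, true_and, Finset.mem_insert,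
    Finset.mem_singleton]
  constructor
  · rintro ⟨x, hx, rfl⟩
    rw [geo_dInf_lt] at hx
    have e1 : (E.pt x).1 / N = k ∨ (E.pt x).1 / N = k - 1 := by
      by_cases hlt : c.1 ≤ (E.pt x).1
      · exact Or.inl (gel_div_eq hN (by omega) (by omega))
      · exact Or.inr (gel_div_eq hN (by rw [mul_sub]; omega) (by rw [mul_sub]; omega))
    have e2 : (E.pt x).2 / N = l ∨ (E.pt x).2 / N = l - 1 := by
      by_cases hlt : c.2 ≤ (E.pt x).2
      · exact Or.inl (gel_div_eq hN (by omega) (by omega))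
      · exact Or.inr (gel_div_eq hN (by rw [mul_sub]; omega) (by rw [mul_sub]; omega))
    rcases e1 with e1 | e1 <;> rcases e2 with e2 | e2 <;> simp [e1, e2]
  · have hz : ∀ s1 s2 : ℤ, (s1 = 128 ∨ s1 = -128) → (s2 = 128 ∨ s2 = -128) →
        ∃ x, dInf (E.pt x) c < μ ∧ f ((E.pt x).1 / N, (E.pt x).2 / N) =
          f ((c.1 + s1) / N, (c.2 + s2) / N) := by
      intro s1 s2 hs1 hs2
      obtain ⟨z, hz⟩ := h4 s1 s2 hs1 hs2
      refine ⟨z, ?_, by rw [hz]⟩
      rw [hz, geo_dInf_lt]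
      simp only
      refine ⟨by omega, by omega, by omega, by omega⟩
    have p1 : (c.1 + 128) / N = k := gel_div_eq hN (by omega) (by omega)
    have p2 : (c.1 + -128) / N = k - 1 := gel_div_eq hN (by rw [mul_sub]; omega) (by rw [mul_sub]; omega)
    have p3 : (c.2 + 128) / N = l := gel_div_eq hN (by omega) (by omega)
    have p4 : (c.2 + -128) / N = l - 1 := gel_div_eq hN (by rw [mul_sub]; omega) (by rw [mul_sub]; omega)
    rintro (rfl | rfl | rfl | rfl)
    · have := hz 128 128 (Or.inl rfl) (Or.inl rfl); rwa [p1, p3] at this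
    · have := hz (-128) 128 (Or.inr rfl) (Or.inl rfl); rwa [p2, p3] at this
    · have := hz 128 (-128) (Or.inl rfl) (Or.inr rfl); rwa [p1, p4] at this
    · have := hz (-128) (-128) (Or.inr rfl) (Or.inr rfl); rwa [p2, p4] at this

/-- if the four nearest sites exist, the set of the adjacent owners does not depend on the radius -/
theorem gel_adj_eq {PP : Type} [DecidableEq PP] (f : ℤ × ℤ → PP) {μ μ' N : ℤ} (hμ : 128 < μ) (hμN : μ ≤ N)
    (hμ' : 128 < μ') (hμN' : μ' ≤ N) {c : ℤ × ℤ} (hc : GeNode N c)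
    (h4 : ∀ s1 s2 : ℤ, (s1 = 128 ∨ s1 = -128) → (s2 = 128 ∨ s2 = -128) → ∃ z, E.pt z = (c.1 + s1, c.2 + s2)) :
    (univ.filter fun x => dInf (E.pt x) c < μ).image (fun x => f ((E.pt x).1 / N, (E.pt x).2 / N)) =
      (univ.filter fun x => dInf (E.pt x) c < μ').image (fun x => f ((E.pt x).1 / N, (E.pt x).2 / N)) := by
  rw [gel_adj_four E f hμ hμN hc h4, gel_adj_four E f hμ' hμN' hc h4]

/-- the two levels see the same holes -/
theorem gel_hole (h : GeGlob E J γ) {j : ℕ} (hj : j < J) (a : HI) :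
    (E.IsHole (geLvl L J γ (j + 1)) (E.fin J (j + 1)) a ↔ E.IsHole (geLvl L J γ j) (E.fin J (j + 1)) a) ∧
      (E.IsHole (geLvl L J γ j) (E.fin J (j + 1)) a →
        E.tagOf (geLvl L J γ (j + 1)) (E.fin J (j + 1)) (E.ctr a) =
          E.tagOf (geLvl L J γ j) (E.fin J (j + 1)) (E.ctr a)) := by
  have hN' := gel_Nn_pos (j + 1)
  have d2 : geNn j ∣ geNn (j + 1) := ⟨2, gel_Nn_succ j⟩
  have hmesh : ∀ i, (i = j ∨ i = j + 1) → geMesh γ i ∣ geNn (j + 1) := by
    rintro i (rfl | rfl)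
    · exact (gel_mesh_dvd_Nn γ i).trans d2
    · exact gel_mesh_dvd_Nn γ (j + 1)
  have hbig : ∀ i, 128 < geMesh γ i := by
    intro i
    obtain ⟨t, ht⟩ := gel_mesh_256 γ i
    have := gel_mesh_pos γ i
    omega
  -- a node with three adjacent owners (at one of the two levels)
  have key : ∀ i, (i = j ∨ i = j + 1) → GeNode (geMesh γ i) (E.ctr a) →
      3 ≤ (E.adj (geLvl L J γ i) (E.fin J (j + 1)) (E.ctr a)).card →
      GeNode (geNn (j + 1)) (E.ctr a) ∧
        E.adj (geLvl L J γ (j + 1)) (E.fin J (j + 1)) (E.ctr a) =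
          E.adj (geLvl L J γ j) (E.fin J (j + 1)) (E.ctr a) := by
    intro i hi hn h3
    have hnode : GeNode (geNn (j + 1)) (E.ctr a) :=
      gel_node E (geLab L J (j + 1)) (gel_mesh_pos γ i) (hmesh i hi) hN' hn h3
    have h4 := gel_near E (geLab L J (j + 1)) (Int.le_of_dvd hN' (hmesh i hi)) ⟨2 ^ (j + 1), rfl⟩ hnode h3
    exact ⟨hnode, gel_adj_eq E (geLab L J (j + 1)) (hbig (j + 1))
      (Int.le_of_dvd hN' (hmesh _ (Or.inr rfl))) (hbig j) (Int.le_of_dvd hN' (hmesh _ (Or.inl rfl))) hnode h4⟩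
  -- the meshes of the adjacent owners
  have hmsh : ∀ i, ∀ P ∈ E.adj (geLvl L J γ i) (E.fin J (j + 1)) (E.ctr a),
      geMsh L J γ P = geMesh γ (j + 1) := by
    intro i P hP
    simp only [GeEnv.adj, Finset.mem_image] at hP
    obtain ⟨x, -, rfl⟩ := hP
    exact geo_msh_lab L J γ ⟨by omega, gel_sq_inR E h (by omega) x⟩
  -- the radii
  have hrad : 3 ≤ (E.adj (geLvl L J γ j) (E.fin J (j + 1)) (E.ctr a)).card →
      E.adj (geLvl L J γ (j + 1)) (E.fin J (j + 1)) (E.ctr a) =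
          E.adj (geLvl L J γ j) (E.fin J (j + 1)) (E.ctr a) →
      E.hrad (geLvl L J γ (j + 1)) (E.fin J (j + 1)) (E.ctr a) =
        E.hrad (geLvl L J γ j) (E.fin J (j + 1)) (E.ctr a) := by
    intro h3 hadj
    obtain ⟨P, hP⟩ : (E.adj (geLvl L J γ j) (E.fin J (j + 1)) (E.ctr a)).Nonempty :=
      Finset.card_pos.1 (by omega)
    have hm' := gel_mesh_pos γ (j + 1)
    have hm := gel_mesh_pos γ j
    have e1 : E.hrad (geLvl L J γ (j + 1)) (E.fin J (j + 1)) (E.ctr a) = geMesh γ (j + 1) / 16 := by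
      unfold GeEnv.hrad
      rw [if_neg]
      · rfl
      · intro hall
        have h1 : geMsh L J γ P = 2 * geMesh γ (j + 1) := hall P (hadj ▸ hP)
        rw [hmsh j P hP] at h1
        omega
    rw [e1]
    unfold GeEnv.hrad
    rcases gel_mesh_succ γ j with ⟨-, hs⟩ | ⟨-, hs⟩
    · rw [if_neg]
      · rw [hs]; rfl
      · intro hall
        have h1 : geMsh L J γ P = 2 * geMesh γ j := hall P hP
        rw [hmsh j P hP] at h1
        omega
    · rw [if_pos]
      · obtain ⟨t, ht⟩ := gel_mesh_256 γ j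
        show geMesh γ (j + 1) / 16 = geMesh γ j / 8
        omega
      · intro Q hQ
        show geMsh L J γ Q = 2 * geMesh γ j
        rw [hmsh j Q hQ, hs]
  have hzero : dInf (E.ctr a) (E.ctr a) = 0 := by simp [dInf]
  refine ⟨⟨?_, ?_⟩, ?_⟩
  · rintro ⟨n1, -, h3, hr, ho⟩
    obtain ⟨hn, hadj⟩ := key (j + 1) (Or.inr rfl) n1 h3
    have h3' : 3 ≤ (E.adj (geLvl L J γ j) (E.fin J (j + 1)) (E.ctr a)).card := hadj ▸ h3
    refine ⟨⟨(hmesh j (Or.inl rfl)).trans hn.1, (hmesh j (Or.inl rfl)).trans hn.2⟩,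
      ⟨E.ctr a, ⟨d2.trans hn.1, d2.trans hn.2⟩, ?_⟩, h3', hr.trans (hrad h3' hadj), ho⟩
    rw [hzero]
    have := gel_mesh_pos γ j
    show 0 ≤ 14 * geMesh γ j
    omega
  · rintro ⟨n1, -, h3, hr, ho⟩
    obtain ⟨hn, hadj⟩ := key j (Or.inl rfl) n1 h3
    refine ⟨⟨(hmesh _ (Or.inr rfl)).trans hn.1, (hmesh _ (Or.inr rfl)).trans hn.2⟩,
      ⟨E.ctr a, hn, ?_⟩, hadj ▸ h3, hr.trans (hrad h3 hadj).symm, ho⟩
    rw [hzero]
    have := gel_mesh_pos γ (j + 1)
    show 0 ≤ 14 * geMesh γ (j + 1)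
    omega
  · rintro ⟨n1, -, h3, -, -⟩
    obtain ⟨-, hadj⟩ := key j (Or.inl rfl) n1 h3
    unfold GeEnv.tagOf
    rw [hadj]
    rfl

/-- **change of level** -/
theorem gel_level (h : GeGlob E J γ) {j : ℕ} (hj : j < J) {SH : Type} [DecidableEq SH]
    (st : FrState (APty L (GeAux J)) SH (GSite L) HI) (s : SH) :
    E.Rule (geLvl L J γ (j + 1)) st s (E.fin J (j + 1)) ↔ E.Rule (geLvl L J γ j) st s (E.fin J (j + 1)) := by
  unfold GeEnv.Rule
  constructor
  · rintro ⟨h1, h2, h3⟩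
    refine ⟨h1, fun a => (h2 a).trans (gel_hole E h hj a).1, fun a ha => ?_⟩
    rw [h3 a ((gel_hole E h hj a).1.2 ha), (gel_hole E h hj a).2 ha]
  · rintro ⟨h1, h2, h3⟩
    refine ⟨h1, fun a => (h2 a).trans (gel_hole E h hj a).1.symm, fun a ha => ?_⟩
    rw [h3 a ((gel_hole E h hj a).1.1 ha), (gel_hole E h hj a).2 ((gel_hole E h hj a).1.1 ha)]

/-! ### the initial and the final state -/

theorem gel_st0_init (L J : ℕ) (HI : Type) [Fintype HI] [DecidableEq HI] : (geSt0 L J HI).Init := by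
  refine ⟨rfl, fun s => ?_⟩
  cases s with
  | none => exact ⟨geLab L J J (0, 0), fun _ => rfl⟩
  | some a => exact ⟨_, fun _ => rfl⟩

theorem gel_hs_of_hol {PP SH Λ HI : Type} [DecidableEq SH] [Fintype HI] [DecidableEq HI]
    (st : FrState PP SH Λ HI) (h : st.hol = ∅) (s : SH) : st.hs s = ∅ := by
  refine Finset.eq_empty_of_forall_notMem fun a ha => ?_
  unfold FrState.hs at ha
  rw [Finset.mem_filter, h] at ha
  exact absurd ha.2 (Finset.notMem_empty _)

theorem gel_st0_hs (L J : ℕ) (HI : Type) [Fintype HI] [DecidableEq HI] (s : GeSh J) :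
    (geSt0 L J HI).hs s = ∅ := gel_hs_of_hol _ rfl s

/-- the main sheet of the initial state -/
theorem gel_init (h : GeGlob E J γ) : E.Rule (geLvl L J γ J) (geSt0 L J HI) none (E.fin J J) := by
  rw [gel_fin_top E h]
  exact get_rule_const E _ _ _ _ (fun _ => rfl) (gel_st0_hs L J HI none)

/-- the auxiliary sheets of the initial state -/
theorem gel_fresh0 {j : ℕ} {σ : ℤ × ℤ} (hv : GeValid J j σ) (e : Fin 4) :
    (∀ x, (geSt0 L J HI).ow (geSheet J j σ e) x = geNbLab L J j (geDone J j σ) σ e) ∧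
      (geSt0 L J HI).hs (geSheet J j σ e) = ∅ := by
  refine ⟨fun x => ?_, gel_st0_hs L J HI _⟩
  obtain ⟨hj, a0, a1, b0, b1⟩ := hv
  have A := geo_toNat_lt a0 a1
  have B := geo_toNat_lt b0 b1
  show geNbLab L J ((Fin.ofNat (J + 1) j : Fin (J + 1)) : ℕ)
    (geDone J ((Fin.ofNat (J + 1) j : Fin (J + 1)) : ℕ)
      ((((Fin.ofNat (2 ^ J) σ.1.toNat : Fin (2 ^ J)) : ℕ) : ℤ), (((Fin.ofNat (2 ^ J) σ.2.toNat : Fin (2 ^ J)) : ℕ) : ℤ)))
      ((((Fin.ofNat (2 ^ J) σ.1.toNat : Fin (2 ^ J)) : ℕ) : ℤ), (((Fin.ofNat (2 ^ J) σ.2.toNat : Fin (2 ^ J)) : ℕ) : ℤ)) e = _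
  rw [geo_ofNat_val (by omega), geo_ofNat_val A, geo_ofNat_val B, Int.toNat_of_nonneg a0,
    Int.toNat_of_nonneg b0]

/-- at the level 0 there are no holes: the outer squares have radius `≤ 64 < 128` -/
theorem gel_no_hole0 (own : GSite L → APty L (GeAux J)) (a : HI) : ¬ E.IsHole (geLvl L J γ 0) own a := by
  rintro ⟨⟨hn, -⟩, -, -, hr, x, hx⟩
  rw [E.mem_out] at hx
  have hm : (geLvl L J γ 0).m = 256 := by
    show geMesh γ 0 = 256
    unfold geMesh
    simp
  have hr2 : E.rad a ≤ 32 := by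
    rw [hr]
    unfold GeEnv.hrad
    rw [hm]
    split_ifs <;> norm_num
  rw [hm] at hn
  have ho := (E.odd x).1
  have h1 : |(E.pt x).1 - (E.ctr a).1| ≤ 64 := by
    have := le_max_left |(E.pt x).1 - (E.ctr a).1| |(E.pt x).2 - (E.ctr a).2|
    unfold dInf at hx
    omega
  rw [abs_le] at h1
  omega

theorem gel_final (h : GeGlob E J γ) (st : FrState (APty L (GeAux J)) (GeSh J) (GSite L) HI)
    (hst : E.Rule (geLvl L J γ 0) st none (E.fin J 0)) : st.Final none Sum.inl := by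
  refine ⟨fun x => ?_, ?_⟩
  · rw [hst.1 x, gel_fin_zero E h]
  · refine Finset.eq_empty_of_forall_notMem fun a ha => ?_
    exact gel_no_hole0 E _ a ((hst.2.1 a).1 ha)

end Env

end Claimed.Agent.R296
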