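import Claimed.Agent.R296.P2.GeoTrip

/-!
# Row 296, paper 2, Section 6: the local picture of one edge of a large square   (DEFINITIONS, prefix `ge`)

LOCAL COORDINATES `p = (s, d)`: the edge is `{d = 0, 0 < s < Nn}`, the square which is repainted is `(0, Nn)²` (`d > 0`),
the marks are `v0 = (0, 0)` and `v1 = (Nn, 0)`.  `G` = fine logarithmic unit = mesh of the level, `256 G ≤ Nn`.

* `geBw s = max (16 G) (min s (Nn - s))` = 16 × (band width), 1-Lipschitz, symmetric;
* `geRow p = ⌊16 d / geBw s⌋`; within `16 G` of a mark `geRow p = ⌊d / G⌋`: bands are rows of `G`-cells;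
* zones = open squares of radius `12 G` about the marks; bands are never drawn inside a zone;
* `geBand al be` = rows `al ≤ row < be` of the span, outside both zones;
* `geY` = the region of the exchange: rows `-7, -6, -5` and the lower half of the row `-4`;
* `GeEnv.sg w z0 z1 out` = STAGE GUIDE: `z0` / `z1` in the zones, `w (row)` on the rows `-8 ≤ row < 2`, `out` elsewhere;
* `GeEnv.edgeOps` = the 24 operations of one edge.
-/

set_option autoImplicit false

namespace Claimed.Agent.R296

open Finset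

/-- 16 × band width -/
def geBw (G Nn s : ℤ) : ℤ := max (16 * G) (min s (Nn - s))

/-- the row of a point -/
def geRow (G Nn : ℤ) (p : ℤ × ℤ) : ℤ := 16 * p.2 / geBw G Nn p.1

/-- the zone of the mark `v` -/
def geZone (G : ℤ) (v p : ℤ × ℤ) : Prop := dInf p v < 12 * G

/-- the span of the edge, outside the zones -/
def geSpan (G Nn : ℤ) (p : ℤ × ℤ) : Prop :=
  0 < p.1 ∧ p.1 < Nn ∧ ¬ geZone G (0, 0) p ∧ ¬ geZone G (Nn, 0) p

/-- the rows `al ≤ row < be` -/
def geBand (G Nn al be : ℤ) (p : ℤ × ℤ) : Prop :=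
  geSpan G Nn p ∧ al ≤ geRow G Nn p ∧ geRow G Nn p < be

/-- the region of the exchange -/
def geY (G Nn : ℤ) (p : ℤ × ℤ) : Prop :=
  0 < p.1 ∧ p.1 < Nn ∧ -7 * geBw G Nn p.1 ≤ 16 * p.2 ∧ 32 * p.2 < -7 * geBw G Nn p.1

/-- standing hypotheses on the two lengths -/
structure GeLoc (G Nn : ℤ) : Prop where
  G_pos : 0 < G
  G_dvd : 256 ∣ G
  Nn_dvd : G ∣ Nn
  Nn_ge : 256 * G ≤ Nn

/-- `w` with the rows `al ≤ r < be` replaced by `P` -/
def geFill {PP : Type} (w : ℤ → PP) (al be : ℤ) (P : PP) : ℤ → PP :=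
  fun r => if al ≤ r ∧ r < be then P else w r

/-- the word of the main sheet before the edge is processed: `C` below, `A` on the row 0, `B` above -/
def geW0 {PP : Type} (A B C : PP) : ℤ → PP := fun r => if r < 0 then C else if r = 0 then A else B

section Env

variable {Λ HI PP SH : Type} [Fintype Λ] [DecidableEq Λ] [Fintype HI] [DecidableEq HI]
  [DecidableEq PP] [DecidableEq SH] {q : ℕ} {Ω : (Λ → Fin q) → ℂ} {ε δ : ℝ}

namespace GeEnv

variable (E : GeEnv Λ HI Ω ε δ)

/-- compatibility of the environment with a large level in standard position -/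
structure Large (lv : GeLvl PP) : Prop where
  loc : GeLoc E.G lv.Nn
  m_eq : lv.m = E.G
  le_max : lv.Nn ≤ E.nmax

open scoped Classical in
/-- the sites of a band -/
noncomputable def band (Nn al be : ℤ) : Finset Λ := univ.filter fun x => geBand E.G Nn al be (E.pt x)

open scoped Classical in
/-- the sites of the region of the exchange -/
noncomputable def ySet (Nn : ℤ) : Finset Λ := univ.filter fun x => geY E.G Nn (E.pt x)

open scoped Classical in
/-- the owner map with the band repainted -/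
noncomputable def upd (Nn al be : ℤ) (own : Λ → PP) (P : PP) : Λ → PP :=
  fun x => if geBand E.G Nn al be (E.pt x) then P else own x

open scoped Classical in
/-- the owner map which is `o'` inside the region of the exchange and `o` outside -/
noncomputable def swp (Nn : ℤ) (o o' : Λ → PP) : Λ → PP :=
  fun x => if geY E.G Nn (E.pt x) then o' x else o x

open scoped Classical in
/-- STAGE GUIDE -/
noncomputable def sg (Nn : ℤ) (w : ℤ → PP) (z0 z1 out : Λ → PP) : Λ → PP := fun x =>
  if geZone E.G (0, 0) (E.pt x) then z0 x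
  else if geZone E.G (Nn, 0) (E.pt x) then z1 x
  else if geBand E.G Nn (-8) 2 (E.pt x) then w (geRow E.G Nn (E.pt x))
  else out x

/-- `f` is constant on the `G`-cells within the distance `r` of `v` -/
def Pix (v : ℤ × ℤ) (r : ℤ) (f : Λ → PP) : Prop :=
  ∀ x y, dInf (E.pt x) v < r → GeSameCell E.G (E.pt x) (E.pt y) → f x = f y

/-- the two rewrites which change the colouring of the zones from `z` to `z'` -/
noncomputable def zoneOps (lv : GeLvl PP) (s : SH) (w : ℤ → PP) (z z' out : Λ → PP) (Ap : Finset PP) :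
    List (FrOp PP SH Λ HI) :=
  [E.rwOp lv s (E.sg lv.Nn w z z out) (E.sg lv.Nn w z' z out) (0, 0) (12 * E.G) Ap,
   E.rwOp lv s (E.sg lv.Nn w z' z out) (E.sg lv.Nn w z' z' out) (lv.Nn, 0) (12 * E.G) Ap]

/-- THE 24 OPERATIONS OF ONE EDGE.  `sm` main sheet, `sa` auxiliary sheet (uniformly owned by `C`), `A` old label,
`B` new label, `C` label of the square below, `gin` / `gout` the guide of the main sheet before / after. -/
noncomputable def edgeOps (lv : GeLvl PP) (sm sa : SH) (A B C : PP) (gin gout : Λ → PP) (Ap : Finset PP) :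
    List (FrOp PP SH Λ HI) :=
  let cA : Λ → PP := fun _ => A
  let cB : Λ → PP := fun _ => B
  let cC : Λ → PP := fun _ => C
  let w0 : ℤ → PP := fun _ => C
  let w1 := geFill w0 (-6) (-1) B
  let w2 := geFill w1 (-5) (-2) A
  let w3 := geFill w2 (-4) (-3) C
  let v0 := geW0 A B C
  let v1 := geFill (geFill v0 (-6) (-5) B) (-5) (-4) A
  let v2 := geFill v1 (-4) 0 A
  let v3 := geFill v2 (-5) 1 B
  let v4 := geFill v3 (-3) 0 C
  let v5 := geFill v4 (-6) (-3) C
  [FrOp.birth sa (E.band lv.Nn (-6) (-1)) C B] ++ E.zoneOps lv sa w1 cC cB cC Ap ++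
  [FrOp.birth sa (E.band lv.Nn (-5) (-2)) B A] ++ E.zoneOps lv sa w2 cB cA cC Ap ++
  [FrOp.birth sa (E.band lv.Nn (-4) (-3)) A C] ++ E.zoneOps lv sa w3 cA cC cC Ap ++
  E.zoneOps lv sm v0 gin cC gin Ap ++
  [FrOp.exch sm sa (E.ySet lv.Nn) C] ++ E.zoneOps lv sm v1 cC cA gin Ap ++
  [FrOp.death sm (E.band lv.Nn (-4) 0) A C] ++ E.zoneOps lv sm v2 cA cB gin Ap ++
  [FrOp.death sm (E.band lv.Nn (-5) 1) B A, FrOp.birth sm (E.band lv.Nn (-3) 0) B C] ++
  E.zoneOps lv sm v4 cB cC gin Ap ++
  [FrOp.death sm (E.band lv.Nn (-6) (-3)) C B] ++ E.zoneOps lv sm v5 cC gout gin Ap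

end GeEnv

end Env

end Claimed.Agent.R296
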