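import Claimed.Agent.R296.P2.GeoLevel
import Claimed.Agent.R296.P2.GeoBook

/-!
# Row 296, paper 2, Section 6: the loop over the squares and the levels   (prefix `gem_`)

Architect + proofs: helper9.  `GeSqStmt E J γ` is what `GeoSquare.lean` (helper197) delivers: the Hoare triple of the repaint of one square and its
bookkeeping.  `gem_main`: the whole schedule `E.ops J γ` is admissible from `geSt0` and leads to a final state; `gem_all`: all clauses of
`GeMainStmt` (`GeoFinal.lean`), with `gbk_main` (`GeoBook.lean`).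

 * `geFresh st h` : the four auxiliary sheets of the home `h` are still in their initial state (uniform, no hole);
 * `gem_squares`  : loop over the squares of a level (induction on the list of the remaining squares, frame rule for the fresh sheets);
 * `gem_levels`   : loop over the levels (`gel_level`, `gel_base_empty`, `gel_base_full`).
-/

set_option autoImplicit false

namespace Claimed.Agent.R296

open Finset

section Env

variable {L : ℕ} {HI : Type} [Fintype HI] [DecidableEq HI] {q : ℕ} {Ω : (GSite L → Fin q) → ℂ} {ε δ : ℝ}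

/-- the sheets of a home -/
def geShOf (J j : ℕ) (σ : ℤ × ℤ) : Finset (GeSh J) := insert none (univ.image (geSheet J j σ))

/-- **Interface with `GeoSquare.lean`**: the repaint of one square -/
structure GeSqStmt (E : GeEnv (GSite L) HI Ω ε δ) (J γ : ℕ) : Prop where
  trip : ∀ (j : ℕ) (σ : ℤ × ℤ) (dn : Finset (ℤ × ℤ)), j < J → GeInR J j σ → σ ∉ dn → (∀ τ ∈ dn, GeInR J j τ) →
    GeTrip E.pat δ 18
      (fun st => E.Rule (geLvl L J γ j) st none (E.base J j dn) ∧
        ∀ e, E.Rule (geLvl L J γ j) st (geSheet J j σ e) (fun _ => geNbLab L J j dn σ e))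
      (E.sqOps J γ j dn σ) (fun st => E.Rule (geLvl L J γ j) st none (E.base J j (insert σ dn)))
  len : ∀ (j : ℕ) (σ : ℤ × ℤ) (dn : Finset (ℤ × ℤ)), (E.sqOps J γ j dn σ).length ≤ 97
  sheets : ∀ (j : ℕ) (σ : ℤ × ℤ) (dn : Finset (ℤ × ℤ)), ∀ o ∈ E.sqOps J γ j dn σ, o.sheets ⊆ geShOf J j σ
  part : ∀ (j : ℕ) (σ : ℤ × ℤ) (dn : Finset (ℤ × ℤ)), j < J → GeInR J j σ →
    ∀ o ∈ E.sqOps J γ j dn σ, o.part ⊆ gePart L J j σ

/-- the auxiliary sheets of the home `(j, σ)` are in their initial state -/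
def geFresh (J : ℕ) (st : FrState (APty L (GeAux J)) (GeSh J) (GSite L) HI) (j : ℕ) (σ : ℤ × ℤ) : Prop :=
  ∀ e, (∀ x, st.ow (geSheet J j σ e) x = geNbLab L J j (geDone J j σ) σ e) ∧ st.hs (geSheet J j σ e) = ∅

variable (E : GeEnv (GSite L) HI Ω ε δ) {J γ : ℕ}

/-- the operations of a level -/
noncomputable def GeEnv.lvOps (J γ j : ℕ) : List (FrOp (APty L (GeAux J)) (GeSh J) (GSite L) HI) :=
  (geSquares J j).flatMap fun σ => E.sqOps J γ j (geDone J j σ) σ

theorem gem_ops_eq (J γ : ℕ) :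
    E.ops J γ = (geHomes J).flatMap fun h => E.sqOps J γ h.1 (geDone J h.1 h.2) h.2 := by
  unfold GeEnv.ops GeEnv.hops
  rw [List.map_flatMap]
  congr 1
  funext h
  rw [List.map_map]
  exact List.map_id _

theorem gem_ops_eq' (J γ : ℕ) : E.ops J γ = (List.range J).reverse.flatMap fun j => E.lvOps J γ j := by
  rw [gem_ops_eq]
  unfold geHomes GeEnv.lvOps
  rw [List.flatMap_assoc]
  congr 1
  funext j
  rw [List.flatMap_map]

/-- the squares which are done before `σ` -/
theorem gem_done {J j : ℕ} {pre post : List (ℤ × ℤ)} {σ : ℤ × ℤ} (h : geSquares J j = pre ++ σ :: post) :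
    geDone J j σ = pre.toFinset := by
  have hnd := geo_squares_nodup J j
  rw [h] at hnd
  have hσ : σ ∉ pre := by
    intro hm
    have := (List.nodup_append.1 hnd).2.2 σ hm σ (List.mem_cons_self ..)
    exact this rfl
  unfold geDone
  rw [h, List.takeWhile_append_of_pos, List.takeWhile_cons_of_neg, List.append_nil]
  · simp
  · intro τ hτ
    simp only [ne_eq, decide_not, Bool.not_eq_eq_eq_not, Bool.not_true, decide_eq_false_iff_not]
    rintro rfl
    exact hσ hτ
/-- fresh sheets are not touched by the operations of another home -/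
theorem gem_fresh_frame {j j' : ℕ} {σ σ' : ℤ × ℤ} (hv : GeValid J j σ) (hv' : GeValid J j' σ')
    (hne : (j, σ) ≠ (j', σ')) (st st' : FrState (APty L (GeAux J)) (GeSh J) (GSite L) HI)
    (hs : ∀ s, s ∉ geShOf J j σ → st.SameOn st' s) (hf : geFresh J st j' σ') : geFresh J st' j' σ' := by
  intro e
  have hn : geSheet J j' σ' e ∉ geShOf J j σ := by
    unfold geShOf
    rw [mem_insert, mem_image]
    rintro (h | ⟨e', -, h⟩)
    · exact absurd h (by simp [geSheet])
    · obtain ⟨h1, h2, -⟩ := geo_sheet_inj J hv hv' h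
      exact hne (by rw [h1, h2])
  obtain ⟨h1, -, h3⟩ := hs _ hn
  exact ⟨fun x => (h1 x).trans ((hf e).1 x), h3.trans (hf e).2⟩

/-- loop over the remaining squares of a level -/
theorem gem_squares (hS : GeSqStmt E J γ) {j : ℕ} (hj : j < J)
    (Q : FrState (APty L (GeAux J)) (GeSh J) (GSite L) HI → Prop)
    (hQ : ∀ σ, GeInR J j σ → ∀ st st' : FrState (APty L (GeAux J)) (GeSh J) (GSite L) HI,
      (∀ s, s ∉ geShOf J j σ → st.SameOn st' s) → Q st → Q st')
    (rest pre : List (ℤ × ℤ)) (hl : geSquares J j = pre ++ rest) :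
    GeTrip E.pat δ 18
      (fun st => (E.Rule (geLvl L J γ j) st none (E.base J j pre.toFinset) ∧ ∀ σ ∈ rest, geFresh J st j σ) ∧ Q st)
      (rest.flatMap fun σ => E.sqOps J γ j (geDone J j σ) σ)
      (fun st => E.Rule (geLvl L J γ j) st none (E.base J j (geSquares J j).toFinset) ∧ Q st) := by
  induction rest generalizing pre with
  | nil =>
    rw [List.append_nil] at hl
    rw [hl]
    exact get_trip_conseq (get_trip_nil E.pat δ 18 _) (fun st h => h) (fun st h => ⟨h.1.1, h.2⟩)
  | cons σ rest ih =>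
    have hnd := geo_squares_nodup J j
    rw [hl] at hnd
    have hmem : ∀ τ ∈ pre ++ σ :: rest, GeInR J j τ := fun τ hτ => (geo_mem_squares J j τ).1 (hl ▸ hτ)
    have hσR : GeInR J j σ := hmem σ (by simp)
    have hσpre : σ ∉ pre := fun hm =>
      (List.nodup_append.1 hnd).2.2 σ hm σ (List.mem_cons_self ..) rfl
    have hσrest : σ ∉ rest := (List.nodup_cons.1 (List.nodup_append.1 hnd).2.1).1
    have hdone : geDone J j σ = pre.toFinset := gem_done hl
    have hl' : geSquares J j = (pre ++ [σ]) ++ rest := by rw [hl]; simp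
    have e1 : (pre ++ [σ]).toFinset = insert σ pre.toFinset := by
      ext τ; simp
    have t1 := hS.trip j σ pre.toFinset hj hσR (by simpa using hσpre)
      (fun τ hτ => hmem τ (by simp at hτ; simp [hτ]))
    have t2 := get_trip_frame t1 (geShOf J j σ) (by rw [← hdone]; exact hS.sheets j σ _)
      (fun st => (∀ σ' ∈ rest, geFresh J st j σ') ∧ Q st)
      (fun st st' hs hq => ⟨fun σ' hσ' => gem_fresh_frame ⟨hj.le, hσR⟩
        ⟨hj.le, hmem σ' (by simp [hσ'])⟩ (by
          intro h
          exact hσrest ((Prod.mk.inj h).2 ▸ hσ')) st st' hs (hq.1 σ' hσ'), hQ σ hσR st st' hs hq.2⟩)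
    rw [List.flatMap_cons, hdone]
    refine get_trip_append (get_trip_conseq t2 ?_ (fun st h => h)) (get_trip_conseq (ih _ hl') ?_ (fun st h => h))
    · rintro st ⟨⟨h1, h2⟩, h3⟩
      refine ⟨⟨h1, fun e => ?_⟩, fun σ' hσ' => h2 σ' (List.mem_cons_of_mem _ hσ'), h3⟩
      have := h2 σ (List.mem_cons_self ..) e
      rw [hdone] at this
      exact get_rule_const E _ st _ _ this.1 this.2
    · rintro st ⟨h1, h2, h3⟩
      rw [e1]
      exact ⟨⟨h1, h2⟩, h3⟩

/-- one level -/
theorem gem_level (h : GeGlob E J γ) (hS : GeSqStmt E J γ) {j : ℕ} (hj : j < J) :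
    GeTrip E.pat δ 18
      (fun st => E.Rule (geLvl L J γ (j + 1)) st none (E.fin J (j + 1)) ∧
        ∀ i, i < j + 1 → ∀ σ, GeInR J i σ → geFresh J st i σ)
      (E.lvOps J γ j)
      (fun st => E.Rule (geLvl L J γ j) st none (E.fin J j) ∧ ∀ i, i < j → ∀ σ, GeInR J i σ → geFresh J st i σ) := by
  have t := gem_squares E hS hj (fun st => ∀ i, i < j → ∀ σ, GeInR J i σ → geFresh J st i σ)
    (fun σ hσ st st' hs hq i hi σ' hσ' => gem_fresh_frame ⟨hj.le, hσ⟩ ⟨by omega, hσ'⟩
      (by intro he; have := (Prod.mk.inj he).1; omega) st st' hs (hq i hi σ' hσ'))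
    (geSquares J j) [] rfl
  refine get_trip_conseq t ?_ ?_
  · rintro st ⟨h1, h2⟩
    refine ⟨⟨?_, fun σ hσ => h2 j (by omega) σ ((geo_mem_squares J j σ).1 hσ)⟩,
      fun i hi σ hσ => h2 i (by omega) σ hσ⟩
    rw [List.toFinset_nil, gel_base_empty]
    exact (gel_level E h hj st none).1 h1
  · rintro st ⟨h1, h2⟩
    rw [gel_base_full E h hj.le] at h1
    exact ⟨h1, h2⟩

/-- all levels below `k` -/
theorem gem_levels (h : GeGlob E J γ) (hS : GeSqStmt E J γ) (k : ℕ) (hk : k ≤ J) :
    GeTrip E.pat δ 18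
      (fun st => E.Rule (geLvl L J γ k) st none (E.fin J k) ∧ ∀ i, i < k → ∀ σ, GeInR J i σ → geFresh J st i σ)
      ((List.range k).reverse.flatMap fun j => E.lvOps J γ j)
      (fun st => E.Rule (geLvl L J γ 0) st none (E.fin J 0)) := by
  induction k with
  | zero =>
    exact get_trip_conseq (get_trip_nil E.pat δ 18 _) (fun st h => h) (fun st h => h.1)
  | succ k ih =>
    rw [List.range_succ, List.reverse_append, List.reverse_singleton, List.singleton_append,
      List.flatMap_cons]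
    exact get_trip_append (gem_level E h hS (by omega)) (ih (by omega))

/-- **the schedule is admissible and leads to a final state** -/
theorem gem_main (h : GeGlob E J γ) (hS : GeSqStmt E J γ) :
    (geSt0 L J HI).Init ∧ FrSchedOk E.pat δ geM0 geH0 18 (E.ops J γ) (geSt0 L J HI) ∧
      (frRun E.pat (E.ops J γ) (geSt0 L J HI)).Final none Sum.inl := by
  have t := gem_levels E h hS J le_rfl (geSt0 L J HI)
    ⟨gel_init E h, fun i hi σ hσ e => gel_fresh0 ⟨hi.le, hσ⟩ e⟩
  rw [← gem_ops_eq'] at t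
  exact ⟨gel_st0_init L J HI, t.1, gel_final E h _ t.2⟩

/-- all clauses of `GeMainStmt` (`GeoFinal.lean`) -/
theorem gem_all [NeZero L] (h : GeGlob E J γ) (hJ' : 2 ^ J < 2 * L) (hS : GeSqStmt E J γ) :
    (geSt0 L J HI).Init ∧ FrSchedOk E.pat δ geM0 geH0 18 (E.ops J γ) (geSt0 L J HI) ∧
    (frRun E.pat (E.ops J γ) (geSt0 L J HI)).Final none Sum.inl ∧
    (∀ P, frCostly (E.ops J γ) P ≤ 25 * 97) ∧
    (E.ops J γ).length ≤ J * (2 ^ J * 2 ^ J) * 97 ∧
    ∃ carO : Fin (E.ops J γ).length → Finset (GSite L),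
      (∀ i, (carO i).Nonempty ∧ AsmConn (carO i) ∧
        ∀ P ∈ ((E.ops J γ).get i).part, gePos L J P ∈ carO i) ∧
      ∀ e, asmCong carO e ≤ 600 * 97 := by
  obtain ⟨h1, h2, h3⟩ := gem_main E h hS
  have hb := gbk_main h.hJ hJ' (fun hh => E.sqOps J γ hh.1 (geDone J hh.1 hh.2) hh.2) 97
    (fun hh _ => hS.len _ _ _)
    (fun hh hm => hS.part _ _ _ ((geo_mem_homes J hh).1 hm).1 ((geo_mem_homes J hh).1 hm).2)
  rw [← gem_ops_eq] at hb
  exact ⟨h1, h2, h3, hb.1, hb.2.2, hb.2.1⟩

end Env

end Claimed.Agent.R296
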