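import Claimed.Agent.R296.P2.GeoDefs

/-!
# Row 296, paper 2, Section 6: global parameters, labels, sheets, homes   (DEFINITIONS, prefix `ge`)

* `N = 2 ^ J` is the least power of two `≥ L`; the levels are `j = J - 1, …, 0`, the squares of the level `j` have side
  `2 ^ j` (fine side `geNn j = 256 * 2 ^ j`) and index `σ ∈ [0, 2 ^ (J - j))²`;
* `g = 2 ^ γ`, fine unit `G = 256 * 2 ^ γ`;  mesh of the level `j`: `geMesh γ j = 256 * 2 ^ (min j γ)`;
  LARGE levels: `γ + 8 ≤ j`;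
* parties `APty L (GeAux J)`: the label `(j, σ)` is the party `geLab L J j σ`; `(0, (x, y))` with `x, y < L` is the site party;
* sheets `GeSh J`: `none` = main sheet, `some (j, σ, e)` = auxiliary sheet of the edge `e` of the square `(j, σ)`;
* a HOME is a pair `(j, σ)`: all operations of the repaint of the square `σ` of the level `j` have this home.
-/

set_option autoImplicit false

namespace Claimed.Agent.R296

open Finset

/-- fine side of the squares of the level `j` -/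
def geNn (j : ℕ) : ℤ := 256 * 2 ^ j

/-- mesh of the level `j` -/
def geMesh (γ j : ℕ) : ℤ := 256 * 2 ^ (min j γ)

/-- the index `σ` is in the range of the level `j` -/
def GeInR (J j : ℕ) (σ : ℤ × ℤ) : Prop :=
  0 ≤ σ.1 ∧ σ.1 < 2 ^ (J - j) ∧ 0 ≤ σ.2 ∧ σ.2 < 2 ^ (J - j)

instance geInRDecidable (J j : ℕ) (σ : ℤ × ℤ) : Decidable (GeInR J j σ) := by
  unfold GeInR; infer_instance

/-- the parent of a square -/
def gePar (σ : ℤ × ℤ) : ℤ × ℤ := (σ.1 / 2, σ.2 / 2)

/-- auxiliary parties -/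
abbrev GeAux (J : ℕ) : Type := Fin (J + 1) × Fin (2 ^ J) × Fin (2 ^ J)

/-- sheets -/
abbrev GeSh (J : ℕ) : Type := Option (Fin (J + 1) × (Fin (2 ^ J) × Fin (2 ^ J)) × Fin 4)

/-- the party of the label `(j, σ)` -/
def geLab (L J j : ℕ) (σ : ℤ × ℤ) : APty L (GeAux J) :=
  if h : j = 0 ∧ σ.1.toNat < L ∧ σ.2.toNat < L then .inl (⟨σ.1.toNat, h.2.1⟩, ⟨σ.2.toNat, h.2.2⟩)
  else .inr (Fin.ofNat (J + 1) j, Fin.ofNat (2 ^ J) σ.1.toNat, Fin.ofNat (2 ^ J) σ.2.toNat)

/-- the auxiliary sheet of the edge `e` of the square `(j, σ)` -/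
def geSheet (J j : ℕ) (σ : ℤ × ℤ) (e : Fin 4) : GeSh J :=
  some (Fin.ofNat (J + 1) j, (Fin.ofNat (2 ^ J) σ.1.toNat, Fin.ofNat (2 ^ J) σ.2.toNat), e)

/-- the mesh of a party -/
def geMsh (L J γ : ℕ) : APty L (GeAux J) → ℤ
  | .inl _ => geMesh γ 0
  | .inr a => geMesh γ a.1

/-- level data -/
def geLvl (L J γ j : ℕ) : GeLvl (APty L (GeAux J)) where
  m := geMesh γ j
  Nn := geNn j
  msh := geMsh L J γ
  dflt := geLab L J J (0, 0)

/-- the squares of the `3 × 3` block of `σ` which are in the range -/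
noncomputable def geBlock (J j : ℕ) (σ : ℤ × ℤ) : Finset (ℤ × ℤ) :=
  ((Finset.Icc (σ.1 - 1) (σ.1 + 1)) ×ˢ (Finset.Icc (σ.2 - 1) (σ.2 + 1))).filter fun τ => GeInR J j τ

/-- THE PARTICIPANTS of a home: the labels of the block and of their parents -/
noncomputable def gePart (L J j : ℕ) (σ : ℤ × ℤ) : Finset (APty L (GeAux J)) :=
  (geBlock J j σ).image (geLab L J j) ∪ (geBlock J j σ).image fun τ => geLab L J (j + 1) (gePar τ)

/-- the list of the squares of a level (lexicographic) -/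
def geSquares (J j : ℕ) : List (ℤ × ℤ) :=
  (List.range (2 ^ (J - j))).flatMap fun a => (List.range (2 ^ (J - j))).map fun b => ((a : ℤ), (b : ℤ))

/-- the list of all homes, in the order of the schedule: levels `J - 1, …, 0` -/
def geHomes (J : ℕ) : List (ℕ × (ℤ × ℤ)) :=
  (List.range J).reverse.flatMap fun j => (geSquares J j).map fun σ => (j, σ)

/-- fine coordinates of a grid site -/
def fpt {L : ℕ} (x : GSite L) : ℤ × ℤ := (256 * ((x.1 : ℕ) : ℤ) + 128, 256 * ((x.2 : ℕ) : ℤ) + 128)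

/-! ### positions and carriers (lattice coordinates, not fine coordinates) -/

/-- the anchor of the label `(j, σ)` -/
def geAnchor (j : ℕ) (σ : ℤ × ℤ) : ℤ × ℤ := (2 ^ j * σ.1 + 2 ^ j / 2, 2 ^ j * σ.2 + 2 ^ j / 2)

/-- the fold `[0, 2 L) → [0, L)` -/
def geFold1 (L : ℕ) (x : ℤ) : ℕ := if x.toNat < L then x.toNat else 2 * L - 1 - x.toNat

/-- the fold of a lattice point (junk value if `L = 0` is excluded by the instance) -/
def geFold (L : ℕ) [NeZero L] (p : ℤ × ℤ) : GSite L := (Fin.ofNat L (geFold1 L p.1), Fin.ofNat L (geFold1 L p.2))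

/-- positions of the parties -/
def gePos (L J : ℕ) [NeZero L] : APty L (GeAux J) → GSite L
  | .inl x => x
  | .inr a => geFold L (geAnchor a.1 (((a.2.1 : ℕ) : ℤ), ((a.2.2 : ℕ) : ℤ)))

/-- `x` lies on a line of the level `j` or of the level `j + 1` -/
def GeLine (j : ℕ) (x : ℤ) : Prop := x % 2 ^ j = 2 ^ j / 2 ∨ x % 2 ^ (j + 1) = 2 ^ j

instance geLineDecidable (j : ℕ) (x : ℤ) : Decidable (GeLine j x) := by
  unfold GeLine; infer_instance

/-- the skeleton of a home: the points of the window of radius `2 · 2 ^ j` about the anchor, inside `[0, 2 ^ J)²`, on the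
lines of the levels `j`, `j + 1` -/
noncomputable def geSkel (J j : ℕ) (σ : ℤ × ℤ) : Finset (ℤ × ℤ) :=
  ((Finset.Ico 0 (2 ^ J : ℤ)) ×ˢ (Finset.Ico 0 (2 ^ J : ℤ))).filter fun p =>
    dInf p (geAnchor j σ) ≤ 2 * 2 ^ j ∧ (GeLine j p.1 ∨ GeLine j p.2)

/-- THE CARRIER of a home -/
noncomputable def geCar (L J : ℕ) [NeZero L] (j : ℕ) (σ : ℤ × ℤ) : Finset (GSite L) := (geSkel J j σ).image (geFold L)

end Claimed.Agent.R296
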