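import Claimed.Agent.R296.P2.GeoTrip
import Claimed.Agent.R296.GeoDefs

/-!
# Row 296, paper 2, Section 6: THE GENERIC REWRITE LEMMA   (LEAF `P2-GE-REW`, prefix `ger_`; proofs: helper271)

One lemma replaces all compactness arguments of the paper (zones of large levels, repaint of medium and small squares).

Data: mesh `m` (`64 ∣ m`), window `W = {dInf · w0 < ρ}` whose four sides lie on grid lines, `ρ ≤ 128 m`.
`own`, `own'` agree outside `W`, both are constant on the `m`-cells within `ρ + m`, and every node within `ρ` is a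
candidate or has at most two adjacent owners (for both maps).

PROOF (write `u = m / 64`; a node `c` has `dInf c w0 ≤ ρ` or `≥ ρ + m`, because `w0 ± ρ` are multiples of `m`):
 * old/new = all holes with centre in the closed window (even those which do not change), keep = the holes with
   `dInf c w0 ≥ ρ + m`: all sites at distance `< m` of such a `c` are outside `W`, so `adj`, `hrad`, `IsHole`, `tagOf` agree
   for `own` and `own'`.
 * (1) outer squares of patches lie within `ρ + m/4 + 3u < ρ + 3m/4`, those of old/new holes within `ρ + m/4`,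
   those of kept holes outside `ρ + 3m/4`.
 * (2) a site within `ρ + m/4` is within `u` of the net point obtained by rounding down; its index exists by `E.surj`.
 * (3) let `z` be the centre of a patch.  The sites within `2u` of `z` lie in at most `2 × 2` cells.  If they meet at most two
   cells: two owners (pixel hypothesis).  Otherwise there is a node `c` with `dInf z c ≤ 2u`, all these sites are within
   `4u = m/16 < m` of `c` and `dInf c w0 ≤ ρ`.  If `c` has at most two adjacent owners we are done; otherwise `c` is a candidate,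
   the hole at `c` exists (its outer square contains a site; index by `E.surj`), it belongs to `old`, and its inner square
   (radius `≥ m/16`) contains all these sites.
 * (4) tags are adjacent owners (`Exists.choose_spec`), adjacent sites of a node of the window are within `ρ + m`.
 * counts: `a ↦ ctr a` is injective on the net (fixed radius) and on holes (radius determined by the centre);
   at most `(2 (128·64 + 17) + 1)² = geM0` net points, at most `257² = geH0` nodes.
-/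

set_option autoImplicit false
set_option linter.unusedSectionVars false

namespace Claimed.Agent.R296

open Finset

/-! ### one-dimensional arithmetic -/

theorem ger_gap {m a b : ℤ} (ha : m ∣ a) (hb : m ∣ b) (h : a < b) : a + m ≤ b := by
  have := Int.le_of_dvd (by omega : 0 < b - a) (dvd_sub hb ha)
  omega

theorem ger_cell_eq {m lo hi t : ℤ} (hm : 0 < m) (h1 : lo ≤ t) (h2 : t ≤ hi) (h : hi / m = lo / m) :
    t / m = lo / m :=
  le_antisymm (h ▸ Int.ediv_le_ediv hm h2) (Int.ediv_le_ediv hm h1)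

theorem ger_cell_two {m lo t : ℤ} (hm : 0 < m) (h1 : lo ≤ t) (h2 : t < lo + m) :
    t / m = lo / m ∨ t / m = lo / m + 1 := by
  have a1 : lo / m ≤ t / m := Int.ediv_le_ediv hm h1
  have a2 : t / m ≤ (lo + m) / m := Int.ediv_le_ediv hm h2.le
  rw [Int.add_ediv_of_dvd_right (dvd_refl m), Int.ediv_self hm.ne'] at a2
  omega

theorem ger_cell_node {m lo hi : ℤ} (hm : 0 < m) (h1 : lo ≤ hi) (h : hi / m ≠ lo / m) :
    lo < m * (lo / m + 1) ∧ m * (lo / m + 1) ≤ hi := by
  have a1 : lo / m ≤ hi / m := Int.ediv_le_ediv hm h1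
  have a2 : lo / m + 1 ≤ hi / m := by omega
  constructor
  · have := Int.lt_ediv_add_one_mul_self lo hm
    rwa [mul_comm] at this
  · calc m * (lo / m + 1) ≤ m * (hi / m) := mul_le_mul_of_nonneg_left a2 hm.le
      _ ≤ hi := Int.mul_ediv_self_le hm.ne'

theorem ger_idx {u w K c : ℤ} (hu : 0 < u) (h1 : c - w ≤ K * u) (h2 : w - c ≤ K * u) :
    c / u ∈ Finset.Icc (w / u - K) (w / u + K) := by
  rw [Finset.mem_Icc]
  constructor
  · have : (w + (-K) * u) / u ≤ c / u := Int.ediv_le_ediv hu (by linarith)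
    rw [Int.add_mul_ediv_right _ _ hu.ne'] at this
    omega
  · have : c / u ≤ (w + K * u) / u := Int.ediv_le_ediv hu (by linarith)
    rw [Int.add_mul_ediv_right _ _ hu.ne'] at this
    omega

/-- counting points of the lattice `u ℤ²` in a square -/
theorem ger_card_le {ι : Type} (S : Finset ι) (f : ι → ℤ × ℤ) (u K : ℤ) (w : ℤ × ℤ) (hu : 0 < u)
    (hinj : Set.InjOn f S) (hdvd : ∀ a ∈ S, u ∣ (f a).1 ∧ u ∣ (f a).2)
    (hnear : ∀ a ∈ S, dInf (f a) w ≤ K * u) : S.card ≤ (2 * K + 1).toNat ^ 2 := by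
  have hmaps : ∀ a ∈ S, ((f a).1 / u, (f a).2 / u) ∈
      Finset.Icc (w.1 / u - K) (w.1 / u + K) ×ˢ Finset.Icc (w.2 / u - K) (w.2 / u + K) := by
    intro a ha
    have := geo_dInf_le.1 (hnear a ha)
    rw [Finset.mem_product]
    exact ⟨ger_idx hu this.1 this.2.1, ger_idx hu this.2.2.1 this.2.2.2⟩
  have hinj' : Set.InjOn (fun a => ((f a).1 / u, (f a).2 / u)) S := by
    intro a ha a' ha' hEq
    simp only [Prod.mk.injEq] at hEq
    apply hinj ha ha'
    have d1 := hdvd a ha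
    have d2 := hdvd a' ha'
    apply Prod.ext
    · rw [← Int.mul_ediv_cancel' d1.1, ← Int.mul_ediv_cancel' d2.1, hEq.1]
    · rw [← Int.mul_ediv_cancel' d1.2, ← Int.mul_ediv_cancel' d2.2, hEq.2]
  refine le_trans (Finset.card_le_card_of_injOn _ hmaps hinj') ?_
  rw [Finset.card_product, Int.card_Icc, Int.card_Icc, sq]
  have e1 : w.1 / u + K + 1 - (w.1 / u - K) = 2 * K + 1 := by ring
  have e2 : w.2 / u + K + 1 - (w.2 / u - K) = 2 * K + 1 := by ring
  rw [e1, e2]


variable {Λ HI PP SH : Type} [Fintype Λ] [DecidableEq Λ] [Fintype HI] [DecidableEq HI]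
  [DecidableEq PP] [DecidableEq SH] {q : ℕ} {Ω : (Λ → Fin q) → ℂ} {ε δ : ℝ}

/-! ### the rule depends only on the adjacent owners -/

theorem ger_adj_congr (E : GeEnv Λ HI Ω ε δ) (lv : GeLvl PP) {own own' : Λ → PP} {c : ℤ × ℤ}
    (h : ∀ x, dInf (E.pt x) c < lv.m → own' x = own x) : E.adj lv own' c = E.adj lv own c := by
  unfold GeEnv.adj
  refine Finset.image_congr fun x hx => ?_
  exact h x (Finset.mem_filter.1 hx).2

theorem ger_hrad_congr (E : GeEnv Λ HI Ω ε δ) (lv : GeLvl PP) {own own' : Λ → PP} {c : ℤ × ℤ}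
    (h : E.adj lv own' c = E.adj lv own c) : E.hrad lv own' c = E.hrad lv own c := by
  unfold GeEnv.hrad
  rw [h]

theorem ger_tagOf_congr (E : GeEnv Λ HI Ω ε δ) (lv : GeLvl PP) {own own' : Λ → PP} {c : ℤ × ℤ}
    (h : E.adj lv own' c = E.adj lv own c) : E.tagOf lv own' c = E.tagOf lv own c := by
  unfold GeEnv.tagOf
  rw [h]

theorem ger_isHole_congr (E : GeEnv Λ HI Ω ε δ) (lv : GeLvl PP) {own own' : Λ → PP} {a : HI}
    (h : E.adj lv own' (E.ctr a) = E.adj lv own (E.ctr a)) :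
    E.IsHole lv own' a ↔ E.IsHole lv own a := by
  unfold GeEnv.IsHole
  rw [h, ger_hrad_congr E lv h]

theorem ger_hrad_cases (E : GeEnv Λ HI Ω ε δ) (lv : GeLvl PP) (own : Λ → PP) (c : ℤ × ℤ) :
    E.hrad lv own c = lv.m / 8 ∨ E.hrad lv own c = lv.m / 16 := by
  unfold GeEnv.hrad
  split_ifs
  · exact Or.inl rfl
  · exact Or.inr rfl

theorem ger_tagOf_mem (E : GeEnv Λ HI Ω ε δ) (lv : GeLvl PP) (own : Λ → PP) (c : ℤ × ℤ)
    (h : (E.adj lv own c).Nonempty) : ∃ x, dInf (E.pt x) c < lv.m ∧ E.tagOf lv own c = own x := by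
  unfold GeEnv.tagOf
  rw [dif_pos h]
  have := h.choose_spec
  unfold GeEnv.adj at this
  obtain ⟨x, hx, hx'⟩ := Finset.mem_image.1 this
  exact ⟨x, (Finset.mem_filter.1 hx).2, hx'.symm⟩

theorem ger_mem_adj (E : GeEnv Λ HI Ω ε δ) (lv : GeLvl PP) (own : Λ → PP) {c : ℤ × ℤ} {x : Λ}
    (h : dInf (E.pt x) c < lv.m) : own x ∈ E.adj lv own c :=
  Finset.mem_image_of_mem _ (Finset.mem_filter.2 ⟨Finset.mem_univ _, h⟩)

theorem ger_mem_holesIn (E : GeEnv Λ HI Ω ε δ) (lv : GeLvl PP) (own : Λ → PP) (w0 : ℤ × ℤ) (ρ : ℤ)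
    (a : HI) : a ∈ E.holesIn lv own w0 ρ ↔ E.IsHole lv own a ∧ dInf (E.ctr a) w0 ≤ ρ := by
  classical
  unfold GeEnv.holesIn
  simp only [Finset.mem_filter, Finset.mem_univ, true_and]

theorem ger_mem_net (E : GeEnv Λ HI Ω ε δ) (lv : GeLvl PP) (w0 : ℤ × ℤ) (ρ : ℤ) (a : HI) :
    a ∈ E.net lv w0 ρ ↔ E.rad a = lv.m / 64 ∧ (lv.m / 64 ∣ (E.ctr a).1 ∧ lv.m / 64 ∣ (E.ctr a).2) ∧
      dInf (E.ctr a) w0 ≤ ρ + lv.m / 4 + lv.m / 64 := by
  unfold GeEnv.net
  rw [Finset.mem_filter]
  exact ⟨fun h => h.2, fun h => ⟨Finset.mem_univ _, h⟩⟩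

/-- outer squares of holes have radius at most `m / 4` -/
theorem ger_hole_out (E : GeEnv Λ HI Ω ε δ) (lv : GeLvl PP) (hm : 0 < lv.m) {own : Λ → PP} {a : HI}
    (ha : E.IsHole lv own a) {x : Λ} (hx : x ∈ (E.pat a).out) :
    dInf (E.pt x) (E.ctr a) ≤ lv.m / 4 := by
  have h1 := (E.mem_out a x).1 hx
  have h2 := ha.2.2.2.1
  rcases ger_hrad_cases E lv own (E.ctr a) with h3 | h3 <;> omega

/-- two holes of the same owner map with the same centre coincide -/
theorem ger_hole_inj (E : GeEnv Λ HI Ω ε δ) (lv : GeLvl PP) {own : Λ → PP} {a a' : HI}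
    (ha : E.IsHole lv own a) (ha' : E.IsHole lv own a') (h : E.ctr a = E.ctr a') : a = a' :=
  E.inj a a' h (by rw [ha.2.2.2.1, ha'.2.2.2.1, h])

/-- two different nodes are at distance at least `m` -/
theorem ger_node_sep {m : ℤ} {c c' : ℤ × ℤ} (hc : GeNode m c) (hc' : GeNode m c') (h : c ≠ c') :
    m ≤ dInf c c' := by
  rw [geo_le_dInf]
  by_contra hcon
  apply h
  have g1 : ¬ c.1 < c'.1 := fun hlt => by have := ger_gap hc.1 hc'.1 hlt; omega
  have g2 : ¬ c'.1 < c.1 := fun hlt => by have := ger_gap hc'.1 hc.1 hlt; omega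
  have g3 : ¬ c.2 < c'.2 := fun hlt => by have := ger_gap hc.2 hc'.2 hlt; omega
  have g4 : ¬ c'.2 < c.2 := fun hlt => by have := ger_gap hc'.2 hc.2 hlt; omega
  apply Prod.ext <;> omega

/-- outer squares of different holes are disjoint -/
theorem ger_hole_disj (E : GeEnv Λ HI Ω ε δ) (lv : GeLvl PP) (hm : 0 < lv.m) {own : Λ → PP} {a a' : HI}
    (ha : E.IsHole lv own a) (ha' : E.IsHole lv own a') (h : a ≠ a') :
    Disjoint (E.pat a).out (E.pat a').out := by
  rw [Finset.disjoint_left]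
  intro x hx hx'
  have h1 := geo_dInf_le.1 (ger_hole_out E lv hm ha hx)
  have h2 := geo_dInf_le.1 (ger_hole_out E lv hm ha' hx')
  have h3 := geo_le_dInf.1 (ger_node_sep ha.1 ha'.1 fun hc => h (ger_hole_inj E lv ha ha' hc))
  omega


/-- hypotheses of the generic rewrite lemma -/
structure GeRwHyp (E : GeEnv Λ HI Ω ε δ) (lv : GeLvl PP) (own own' : Λ → PP) (w0 : ℤ × ℤ) (ρ : ℤ)
    (A : Finset PP) : Prop where
  m_pos : 0 < lv.m
  m_dvd : 64 ∣ lv.m
  m_le : lv.m ≤ E.G
  rho_pos : 0 < ρ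
  rho_le : ρ ≤ 128 * lv.m
  grid : lv.m ∣ w0.1 - ρ ∧ lv.m ∣ w0.1 + ρ ∧ lv.m ∣ w0.2 - ρ ∧ lv.m ∣ w0.2 + ρ
  agree : ∀ x, ρ ≤ dInf (E.pt x) w0 → own' x = own x
  pix : ∀ x y, dInf (E.pt x) w0 < ρ + lv.m → GeSameCell lv.m (E.pt x) (E.pt y) → own x = own y
  pix' : ∀ x y, dInf (E.pt x) w0 < ρ + lv.m → GeSameCell lv.m (E.pt x) (E.pt y) → own' x = own' y
  cand : ∀ c, GeNode lv.m c → dInf c w0 ≤ ρ →
    lv.Cand c ∨ ((E.adj lv own c).card ≤ 2 ∧ (E.adj lv own' c).card ≤ 2)
  part : ∀ x, dInf (E.pt x) w0 < ρ + lv.m → own x ∈ A ∧ own' x ∈ A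

section Hyp

variable {E : GeEnv Λ HI Ω ε δ} {lv : GeLvl PP} {own own' : Λ → PP} {w0 : ℤ × ℤ} {ρ : ℤ}
  {A : Finset PP}

/-- the hypotheses are symmetric in the two owner maps -/
theorem GeRwHyp.symm (h : GeRwHyp E lv own own' w0 ρ A) : GeRwHyp E lv own' own w0 ρ A where
  m_pos := h.m_pos
  m_dvd := h.m_dvd
  m_le := h.m_le
  rho_pos := h.rho_pos
  rho_le := h.rho_le
  grid := h.grid
  agree := fun x hx => (h.agree x hx).symm
  pix := h.pix'
  pix' := h.pix
  cand := fun c hc hd => (h.cand c hc hd).imp id And.symm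
  part := fun x hx => (h.part x hx).symm

/-- a node is in the closed window or at distance `≥ ρ + m` -/
theorem ger_far (h : GeRwHyp E lv own own' w0 ρ A) {c : ℤ × ℤ} (hc : GeNode lv.m c)
    (hd : ρ < dInf c w0) : ρ + lv.m ≤ dInf c w0 := by
  rw [geo_lt_dInf] at hd
  rw [geo_le_dInf]
  obtain ⟨g1, g2, g3, g4⟩ := h.grid
  rcases hd with hd | hd | hd | hd
  · have := ger_gap g2 hc.1 (by omega)
    omega
  · have := ger_gap hc.1 g1 (by omega)
    omega
  · have := ger_gap g4 hc.2 (by omega)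
    omega
  · have := ger_gap hc.2 g3 (by omega)
    omega

/-- far from the window the adjacent owners agree -/
theorem ger_adj_far (h : GeRwHyp E lv own own' w0 ρ A) {c : ℤ × ℤ} (hd : ρ + lv.m ≤ dInf c w0) :
    E.adj lv own' c = E.adj lv own c := by
  refine ger_adj_congr E lv fun x hx => h.agree x ?_
  rw [geo_le_dInf] at hd ⊢
  rw [geo_dInf_lt] at hx
  omega

theorem ger_isHole_far (h : GeRwHyp E lv own own' w0 ρ A) {a : HI} (hd : ρ < dInf (E.ctr a) w0) :
    E.IsHole lv own' a ↔ E.IsHole lv own a := by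
  constructor
  · intro ha
    exact (ger_isHole_congr E lv (ger_adj_far h (ger_far h ha.1 hd))).1 ha
  · intro ha
    exact (ger_isHole_congr E lv (ger_adj_far h (ger_far h ha.1 hd))).2 ha

/-- sites of the outer square of a patch of the net -/
theorem ger_net_out (_h : GeRwHyp E lv own own' w0 ρ A) {a : HI} (ha : a ∈ E.net lv w0 ρ) {x : Λ}
    (hx : x ∈ (E.pat a).out) : dInf (E.pt x) w0 ≤ ρ + lv.m / 4 + 3 * (lv.m / 64) := by
  have h1 := (E.mem_out a x).1 hx
  obtain ⟨h2, -, h3⟩ := (ger_mem_net E lv w0 ρ a).1 ha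
  rw [h2, geo_dInf_le] at h1
  rw [geo_dInf_le] at h3 ⊢
  omega

/-- sites of the outer square of a hole of the window -/
theorem ger_in_out (h : GeRwHyp E lv own own' w0 ρ A) {a : HI} (ha : a ∈ E.holesIn lv own w0 ρ) {x : Λ}
    (hx : x ∈ (E.pat a).out) : dInf (E.pt x) w0 ≤ ρ + lv.m / 4 := by
  obtain ⟨h1, h2⟩ := (ger_mem_holesIn E lv own w0 ρ a).1 ha
  have h3 := ger_hole_out E lv h.m_pos h1 hx
  rw [geo_dInf_le] at h2 h3 ⊢
  omega

/-- sites of the outer square of a kept hole -/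
theorem ger_keep_out (h : GeRwHyp E lv own own' w0 ρ A) {a : HI} (ha : E.IsHole lv own a)
    (hd : ρ < dInf (E.ctr a) w0) {x : Λ} (hx : x ∈ (E.pat a).out) :
    ρ + lv.m - lv.m / 4 ≤ dInf (E.pt x) w0 := by
  have h2 := ger_far h ha.1 hd
  have h3 := ger_hole_out E lv h.m_pos ha hx
  rw [geo_dInf_le] at h3
  rw [geo_le_dInf] at h2 ⊢
  omega

/-- (2): every site within `ρ + m / 4` is in the inner square of a patch of the net -/
theorem ger_cover (h : GeRwHyp E lv own own' w0 ρ A) {x : Λ} (hx : dInf (E.pt x) w0 ≤ ρ + lv.m / 4) :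
    x ∈ frInn E.pat (E.net lv w0 ρ).toList.toFinset := by
  obtain ⟨u, hu⟩ := h.m_dvd
  have hm := h.m_pos
  have hG := h.m_le
  have hu0 : 0 < u := by omega
  have e64 : lv.m / 64 = u := by omega
  set c : ℤ × ℤ := (u * ((E.pt x).1 / u), u * ((E.pt x).2 / u)) with hc
  have c1 : c.1 ≤ (E.pt x).1 := Int.mul_ediv_self_le hu0.ne'
  have c2 : c.2 ≤ (E.pt x).2 := Int.mul_ediv_self_le hu0.ne'
  have c3 : (E.pt x).1 < c.1 + u := Int.lt_mul_ediv_self_add hu0
  have c4 : (E.pt x).2 < c.2 + u := Int.lt_mul_ediv_self_add hu0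
  have hxc : dInf (E.pt x) c ≤ u := by
    rw [geo_dInf_le]
    omega
  obtain ⟨a, ha1, ha2⟩ := E.surj c u x (by omega) hu0 (by omega)
  unfold frInn
  rw [Finset.mem_biUnion]
  refine ⟨a, ?_, ?_⟩
  · rw [Finset.toList_toFinset, ger_mem_net, ha1, ha2, e64]
    refine ⟨rfl, ⟨Dvd.intro _ rfl, Dvd.intro _ rfl⟩, ?_⟩
    rw [geo_dInf_le] at hx hxc ⊢
    omega
  · rw [E.mem_inn, ha1, ha2]
    exact hxc


/-- a map which factors through a two-valued map has at most two values -/
theorem ger_card_two {S : Finset Λ} {o : Λ → PP} (cell : Λ → ℤ × ℤ) (p p' : ℤ × ℤ)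
    (hS : ∀ x ∈ S, cell x = p ∨ cell x = p')
    (ho : ∀ x ∈ S, ∀ y ∈ S, cell x = cell y → o x = o y) : (S.image o).card ≤ 2 := by
  have hsub : S.image o ⊆ (S.filter fun x => cell x = p).image o ∪
      (S.filter fun x => cell x = p').image o := by
    intro P hP
    obtain ⟨x, hx, rfl⟩ := Finset.mem_image.1 hP
    rcases hS x hx with hc | hc
    · exact Finset.mem_union_left _ (Finset.mem_image_of_mem _ (Finset.mem_filter.2 ⟨hx, hc⟩))
    · exact Finset.mem_union_right _ (Finset.mem_image_of_mem _ (Finset.mem_filter.2 ⟨hx, hc⟩))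
  have hone : ∀ r : ℤ × ℤ, ((S.filter fun x => cell x = r).image o).card ≤ 1 := by
    intro r
    rw [Finset.card_le_one]
    intro P hP P' hP'
    obtain ⟨x, hx, rfl⟩ := Finset.mem_image.1 hP
    obtain ⟨y, hy, rfl⟩ := Finset.mem_image.1 hP'
    rw [Finset.mem_filter] at hx hy
    exact ho x hx.1 y hy.1 (hx.2.trans hy.2.symm)
  calc (S.image o).card ≤ _ := Finset.card_le_card hsub
    _ ≤ _ + _ := Finset.card_union_le _ _
    _ ≤ 1 + 1 := add_le_add (hone p) (hone p')

/-- (3) for the first owner map -/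
theorem ger_three (h : GeRwHyp E lv own own' w0 ρ A) {a : HI} (ha : a ∈ E.net lv w0 ρ) :
    (((E.pat a).out \ frInn E.pat (E.holesIn lv own w0 ρ)).image own).card ≤ 2 := by
  obtain ⟨u, hu⟩ := h.m_dvd
  have hm := h.m_pos
  have hG := h.m_le
  have hu0 : 0 < u := by omega
  obtain ⟨hr, -, hzw⟩ := (ger_mem_net E lv w0 ρ a).1 ha
  set z := E.ctr a with hz
  set S := (E.pat a).out \ frInn E.pat (E.holesIn lv own w0 ρ) with hS
  have hSz : ∀ x ∈ S, dInf (E.pt x) z ≤ 2 * u := by
    intro x hx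
    have : dInf (E.pt x) z ≤ 2 * E.rad a := (E.mem_out a x).1 (Finset.mem_sdiff.1 hx).1
    omega
  have hSw : ∀ x ∈ S, dInf (E.pt x) w0 < ρ + lv.m := by
    intro x hx
    have := ger_net_out h ha (Finset.mem_sdiff.1 hx).1
    omega
  have hpix : ∀ x ∈ S, ∀ y ∈ S, ((E.pt x).1 / lv.m, (E.pt x).2 / lv.m) =
      ((E.pt y).1 / lv.m, (E.pt y).2 / lv.m) → own x = own y := by
    intro x hx y _ hxy
    rw [Prod.mk.injEq] at hxy
    exact h.pix x y (hSw x hx) hxy
  set k1 := (z.1 - 2 * u) / lv.m with hk1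
  set k2 := (z.2 - 2 * u) / lv.m with hk2
  have two1 : ∀ x ∈ S, (E.pt x).1 / lv.m = k1 ∨ (E.pt x).1 / lv.m = k1 + 1 := by
    intro x hx
    have := geo_dInf_le.1 (hSz x hx)
    exact ger_cell_two hm (by omega) (by omega)
  have two2 : ∀ x ∈ S, (E.pt x).2 / lv.m = k2 ∨ (E.pt x).2 / lv.m = k2 + 1 := by
    intro x hx
    have := geo_dInf_le.1 (hSz x hx)
    exact ger_cell_two hm (by omega) (by omega)
  by_cases hA : (z.1 + 2 * u) / lv.m = k1
  · refine ger_card_two (fun x => ((E.pt x).1 / lv.m, (E.pt x).2 / lv.m)) (k1, k2) (k1, k2 + 1)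
      (fun x hx => ?_) hpix
    have := geo_dInf_le.1 (hSz x hx)
    have e1 : (E.pt x).1 / lv.m = k1 := ger_cell_eq hm (by omega) (by omega) hA
    rcases two2 x hx with e2 | e2
    · exact Or.inl (by rw [e1, e2])
    · exact Or.inr (by rw [e1, e2])
  by_cases hB : (z.2 + 2 * u) / lv.m = k2
  · refine ger_card_two (fun x => ((E.pt x).1 / lv.m, (E.pt x).2 / lv.m)) (k1, k2) (k1 + 1, k2)
      (fun x hx => ?_) hpix
    have := geo_dInf_le.1 (hSz x hx)
    have e2 : (E.pt x).2 / lv.m = k2 := ger_cell_eq hm (by omega) (by omega) hB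
    rcases two1 x hx with e1 | e1
    · exact Or.inl (by rw [e1, e2])
    · exact Or.inr (by rw [e1, e2])
  -- a node close to the centre of the patch
  obtain ⟨n1, n2⟩ := ger_cell_node hm (by omega : z.1 - 2 * u ≤ z.1 + 2 * u) hA
  obtain ⟨n3, n4⟩ := ger_cell_node hm (by omega : z.2 - 2 * u ≤ z.2 + 2 * u) hB
  rw [← hk1] at n1 n2
  rw [← hk2] at n3 n4
  set c : ℤ × ℤ := (lv.m * (k1 + 1), lv.m * (k2 + 1)) with hc
  have hc1 : c.1 = lv.m * (k1 + 1) := rfl
  have hc2 : c.2 = lv.m * (k2 + 1) := rfl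
  rw [← hc1] at n1 n2
  rw [← hc2] at n3 n4
  have hnode : GeNode lv.m c := ⟨Dvd.intro _ rfl, Dvd.intro _ rfl⟩
  have hSc : ∀ x ∈ S, dInf (E.pt x) c ≤ 4 * u := by
    intro x hx
    have := geo_dInf_le.1 (hSz x hx)
    rw [geo_dInf_le]
    omega
  have hcw : dInf c w0 ≤ ρ := by
    by_contra hcon
    have h1 := geo_le_dInf.1 (ger_far h hnode (not_le.1 hcon))
    have h2 := geo_dInf_le.1 hzw
    omega
  by_cases h3 : (E.adj lv own c).card ≤ 2
  · refine le_trans (Finset.card_le_card ?_) h3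
    intro P hP
    obtain ⟨x, hx, rfl⟩ := Finset.mem_image.1 hP
    exact ger_mem_adj E lv own (by have := hSc x hx; omega)
  · have hcand : lv.Cand c := by
      rcases h.cand c hnode (by omega) with hc' | hc'
      · exact hc'
      · exact absurd hc'.1 h3
    have hempty : S = ∅ := by
      rw [Finset.eq_empty_iff_forall_notMem]
      intro x hx
      have hxc := hSc x hx
      have hrad := ger_hrad_cases E lv own c
      obtain ⟨a', ha1, ha2⟩ := E.surj c (E.hrad lv own c) x (by omega) (by omega) (by omega)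
      have hole : E.IsHole lv own a' := by
        refine ⟨by rw [ha1]; exact hnode, by rw [ha1]; exact hcand, by rw [ha1]; omega,
          by rw [ha1, ha2], ⟨x, ?_⟩⟩
        rw [E.mem_out, ha1, ha2]
        omega
      apply (Finset.mem_sdiff.1 hx).2
      unfold frInn
      rw [Finset.mem_biUnion]
      refine ⟨a', (ger_mem_holesIn E lv own w0 ρ a').2 ⟨hole, by rw [ha1]; exact hcw⟩, ?_⟩
      rw [E.mem_inn, ha1, ha2]
      omega
    rw [hempty]
    simp


theorem ger_net_card (h : GeRwHyp E lv own own' w0 ρ A) : (E.net lv w0 ρ).toList.length ≤ geM0 := by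
  rw [Finset.length_toList]
  obtain ⟨u, hu⟩ := h.m_dvd
  have hm := h.m_pos
  have hρ := h.rho_le
  have hu0 : 0 < u := by omega
  have e64 : lv.m / 64 = u := by omega
  refine ger_card_le (E.net lv w0 ρ) E.ctr u 8209 w0 hu0 ?_ ?_ ?_
  · intro a ha a' ha' hEq
    have h1 := (ger_mem_net E lv w0 ρ a).1 ha
    have h2 := (ger_mem_net E lv w0 ρ a').1 ha'
    exact E.inj a a' hEq (h1.1.trans h2.1.symm)
  · intro a ha
    have h1 := (ger_mem_net E lv w0 ρ a).1 ha
    rw [e64] at h1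
    exact h1.2.1
  · intro a ha
    have h1 := ((ger_mem_net E lv w0 ρ a).1 ha).2.2
    omega

theorem ger_holes_card (h : GeRwHyp E lv own own' w0 ρ A) : (E.holesIn lv own w0 ρ).card ≤ geH0 := by
  have hρ := h.rho_le
  refine ger_card_le (E.holesIn lv own w0 ρ) E.ctr lv.m 128 w0 h.m_pos ?_ ?_ ?_
  · intro a ha a' ha' hEq
    exact ger_hole_inj E lv ((ger_mem_holesIn E lv own w0 ρ a).1 ha).1
      ((ger_mem_holesIn E lv own w0 ρ a').1 ha').1 hEq
  · intro a ha
    exact ((ger_mem_holesIn E lv own w0 ρ a).1 ha).1.1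
  · intro a ha
    have := ((ger_mem_holesIn E lv own w0 ρ a).1 ha).2
    omega

/-- (4), tags: the tag owner of a hole of the window is a participant -/
theorem ger_tag_mem (h : GeRwHyp E lv own own' w0 ρ A) {a : HI} (ha : a ∈ E.holesIn lv own w0 ρ) :
    E.tagOf lv own (E.ctr a) ∈ A := by
  obtain ⟨h1, h2⟩ := (ger_mem_holesIn E lv own w0 ρ a).1 ha
  have hne : (E.adj lv own (E.ctr a)).Nonempty := by
    rw [← Finset.card_pos]
    have := h1.2.2.1
    omega
  obtain ⟨x, hx, hx'⟩ := ger_tagOf_mem E lv own (E.ctr a) hne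
  rw [hx']
  refine (h.part x ?_).1
  have hm := h.m_pos
  rw [geo_dInf_lt] at hx ⊢
  rw [geo_dInf_le] at h2
  omega

end Hyp

/-- **the generic rewrite lemma** -/
theorem ge_rewrite (E : GeEnv Λ HI Ω ε δ) (lv : GeLvl PP) (s : SH) {own own' : Λ → PP} {w0 : ℤ × ℤ} {ρ : ℤ}
    {A : Finset PP} (h : GeRwHyp E lv own own' w0 ρ A) {b : ℕ} (hb : A.card ≤ b)
    (st : FrState PP SH Λ HI) (hst : E.Rule lv st s own) :
    (E.rwOp lv s own own' w0 ρ A).Ok E.pat δ geM0 geH0 b st ∧
      E.Rule lv ((E.rwOp lv s own own' w0 ρ A).next E.pat st) s own' := by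
  obtain ⟨how, hhs, htw⟩ := hst
  obtain ⟨u, hu⟩ := h.m_dvd
  have hm := h.m_pos
  have hu0 : 0 < u := by omega
  have how' : st.ow s = own := funext how
  have hkeep : ∀ a, a ∈ st.hs s \ E.holesIn lv own w0 ρ ↔
      E.IsHole lv own a ∧ ρ < dInf (E.ctr a) w0 := by
    intro a
    rw [Finset.mem_sdiff, hhs, ger_mem_holesIn]
    constructor
    · rintro ⟨h1, h2⟩
      exact ⟨h1, not_le.1 fun h3 => h2 ⟨h1, h3⟩⟩
    · rintro ⟨h1, h2⟩
      exact ⟨h1, fun h3 => absurd h3.2 (not_le.2 h2)⟩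
  constructor
  · dsimp only [GeEnv.rwOp, FrOp.Ok]
    refine ⟨?_, ?_, ?_, ?_, ?_, ?_, ?_, ?_, ?_, ?_, ger_net_card h, ger_holes_card h,
      ger_holes_card h.symm, hb⟩
    · intro a ha
      exact (hhs a).2 ((ger_mem_holesIn E lv own w0 ρ a).1 ha).1
    · rw [Finset.disjoint_left]
      intro a ha ha'
      have h1 := ((ger_mem_holesIn E lv own' w0 ρ a).1 ha).2
      have h2 := ((hkeep a).1 ha').2
      omega
    · intro a ha a' ha' hne
      exact ger_hole_disj E lv hm ((ger_mem_holesIn E lv own' w0 ρ a).1 ha).1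
        ((ger_mem_holesIn E lv own' w0 ρ a').1 ha').1 hne
    · -- (1)
      intro a ha
      rw [Finset.disjoint_left]
      intro x hx hx'
      unfold frOut at hx'
      obtain ⟨a', ha', hxa'⟩ := Finset.mem_biUnion.1 hx'
      obtain ⟨k1, k2⟩ := (hkeep a').1 ha'
      have far := ger_keep_out h k1 k2 hxa'
      rcases ha with ha | ha | ha
      · have := ger_net_out h (Finset.mem_toList.1 ha) hx
        omega
      · have := ger_in_out h ha hx
        omega
      · have := ger_in_out h.symm ha hx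
        omega
    · -- (2)
      intro x hx
      refine ger_cover h ?_
      rcases hx with hx | hx
      · by_contra hcon
        apply hx
        rw [how]
        exact h.agree x (by omega)
      · unfold frOut at hx
        obtain ⟨a, ha, hxa⟩ := Finset.mem_biUnion.1 hx
        rcases Finset.mem_union.1 ha with ha | ha
        · exact ger_in_out h ha hxa
        · exact ger_in_out h.symm ha hxa
    · -- (3)
      intro a ha
      rw [how']
      exact ⟨ger_three h (Finset.mem_toList.1 ha), ger_three h.symm (Finset.mem_toList.1 ha)⟩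
    · -- (4)
      intro x hx
      unfold frOut at hx
      obtain ⟨a, ha, hxa⟩ := Finset.mem_biUnion.1 hx
      rw [Finset.toList_toFinset] at ha
      rw [how]
      refine h.part x ?_
      have := ger_net_out h ha hxa
      omega
    · intro a ha
      rw [htw a ((ger_mem_holesIn E lv own w0 ρ a).1 ha).1]
      exact ger_tag_mem h ha
    · intro a ha
      exact ger_tag_mem h.symm ha
    · intro a ha
      obtain ⟨k1, k2⟩ := (hkeep a).1 ha
      rw [htw a k1]
      exact ger_tagOf_congr E lv (ger_adj_far h (ger_far h k1.1 k2))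
  · refine ⟨fun x => ?_, fun a => ?_, fun a _ => ?_⟩
    · simp [GeEnv.rwOp, FrOp.next, FrState.ow]
    · have e1 : a ∈ ((E.rwOp lv s own own' w0 ρ A).next E.pat st).hs s ↔
          (a ∈ st.hs s ∧ a ∉ E.holesIn lv own w0 ρ) ∨ a ∈ E.holesIn lv own' w0 ρ := by
        simp [GeEnv.rwOp, FrOp.next, FrState.hs]
      rw [e1, ← Finset.mem_sdiff, hkeep, ger_mem_holesIn]
      constructor
      · rintro (⟨h1, h2⟩ | ⟨h1, -⟩)
        · exact (ger_isHole_far h h2).2 h1
        · exact h1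
      · intro h1
        by_cases h2 : dInf (E.ctr a) w0 ≤ ρ
        · exact Or.inr ⟨h1, h2⟩
        · exact Or.inl ⟨(ger_isHole_far h (not_le.1 h2)).1 h1, not_le.1 h2⟩
    · simp [GeEnv.rwOp, FrOp.next, FrState.tw]

/-- triple form -/
theorem ge_rewrite_trip (E : GeEnv Λ HI Ω ε δ) (lv : GeLvl PP) (s : SH) {own own' : Λ → PP} {w0 : ℤ × ℤ}
    {ρ : ℤ} {A : Finset PP} (h : GeRwHyp E lv own own' w0 ρ A) {b : ℕ} (hb : A.card ≤ b) :
    GeTrip E.pat δ b (fun st : FrState PP SH Λ HI => E.Rule lv st s own)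
      [E.rwOp lv s own own' w0 ρ A] (fun st => E.Rule lv st s own') :=
  get_trip_one E.pat δ b _ fun st hst => ge_rewrite E lv s h hb st hst

end Claimed.Agent.R296
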