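import Claimed.Agent.R296.P2.GeoMain
import Claimed.Agent.R296.P2.GeoFinal

/-!
# Row 296, paper 2, Section 6: `GeMainStmt` from the repaint of one square   (prefix `gew_`; helper9)

`GeSquareStmt` = the final theorem of `GeoSquare.lean` (helper197) as a `Prop`;  `gew_mainStmt : GeSquareStmt → GeMainStmt`.
-/

set_option autoImplicit false

namespace Claimed.Agent.R296

/-- **target of `GeoSquare.lean`** -/
def GeSquareStmt : Prop :=
  ∀ (L J γ q : ℕ) (HI : Type) [Fintype HI] [DecidableEq HI] (Ω : (GSite L → Fin q) → ℂ)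
    (ε δ : ℝ) (E : GeEnv (GSite L) HI Ω ε δ), GeGlob E J γ → GeSqStmt E J γ

theorem gew_mainStmt (h : GeSquareStmt) : GeMainStmt := by
  intro L J γ q _ HI _ _ Ω ε δ E hpt hG hmax hJ hJ'
  have hg : GeGlob E J γ := by
    refine ⟨hpt, hG, ?_, hJ⟩
    rw [hmax]
    unfold geNn
    have : ((2 ^ J : ℕ) : ℤ) < ((2 * L : ℕ) : ℤ) := by exact_mod_cast hJ'
    push_cast at this
    linarith
  exact gem_all E hg hJ' (h L J γ q HI Ω ε δ E hg)

end Claimed.Agent.R296
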