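import Claimed.Agent.R296.P2.GeoSquare
import Claimed.Agent.R296.P2.GeoWire

/-!
# Row 296, paper 2, Section 6: the repaint of one square, final statement   (prefix `gsf_`; helper197)

`ge_squareStmt : GeSquareStmt` (large levels: `ge_square_large`, other levels: `ge_square_small`) and `ge_main : GeMainStmt`.
-/

set_option autoImplicit false

namespace Claimed.Agent.R296

open Finset

theorem ge_squareStmt : GeSquareStmt := by
  intro L J γ q HI _ _ Ω ε δ E h
  have hpt : ∀ x, E.pt x = fpt x := fun x => congrFun h.pt x
  refine ⟨?_, ?_, ?_, ?_⟩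
  · intro j σ dn hj hσ hdn _
    unfold GeEnv.sqOps
    split_ifs with hγ
    · exact ge_square_large E hpt h.G h.nmax h.hJ hj hγ hσ hdn
    · exact get_trip_conseq (ge_square_small E J γ h.pt h.G h.hJ hj.le (by omega) dn σ)
        (fun _ hst => hst.1) fun _ hst => hst
  · intro j σ dn
    unfold GeEnv.sqOps
    split_ifs with hγ
    · exact (gsq_length E j dn σ).le
    · rw [gsm_length]
      norm_num
  · intro j σ dn o ho
    unfold GeEnv.sqOps at ho
    split_ifs at ho with hγ
    · exact gsq_sheets E j dn σ o ho
    · rw [gsm_sheets E J γ j dn σ o ho]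
      simp [geShOf]
  · intro j σ dn _ hσ o ho
    unfold GeEnv.sqOps at ho
    split_ifs at ho with hγ
    · exact gsq_part E dn hσ o ho
    · exact (gsm_part E J γ j dn σ o ho).le

theorem ge_main : GeMainStmt := gew_mainStmt ge_squareStmt

end Claimed.Agent.R296
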