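import Claimed.Agent.R296.P2.GeoGuide

/-!
# Row 296, paper 2, Section 6: repaint of a large square   (prefix `gsq_`)

Architect: helper197.  `ge_square_large`: the `1 + 4 × 24` operations `E.sqOpsL` lead from the base guide `base dn` to `base (insert σ dn)`.
Chain: `base dn` -central birth-> `gu univ = gu {e' ≥ 0}` -edge 0-> `gu {e' > 0} = gu {e' ≥ 1}` -edge 1-> … -edge 3-> `gu ∅ = base (insert σ dn)`.
The auxiliary sheets of the edges which are not yet processed are carried along by `get_trip_frame`.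
-/

set_option autoImplicit false
set_option linter.unusedSectionVars false

namespace Claimed.Agent.R296

open Finset

variable {L : ℕ} {HI : Type} [Fintype HI] [DecidableEq HI] {q : ℕ} {Ω : (GSite L → Fin q) → ℂ} {ε δ : ℝ}

variable (E : GeEnv (GSite L) HI Ω ε δ) {J γ : ℕ}

/-- the operations of the edge `e` -/
noncomputable def GeEnv.sqEdge (J γ j : ℕ) (dn : Finset (ℤ × ℤ)) (σ : ℤ × ℤ) (e : Fin 4) :
    List (FrOp (APty L (GeAux J)) (GeSh J) (GSite L) HI) :=
  (E.chart j σ e).edgeOps (geLvl L J γ j) none (geSheet J j σ e) (geLab L J (j + 1) (gePar σ))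
    (geLab L J j σ) (geNbLab L J j dn σ e) (E.gu J j dn σ (univ.filter fun e' => e ≤ e'))
    (E.gu J j dn σ (univ.filter fun e' => e < e')) (gePart L J j σ)

theorem gsq_ops_eq (j : ℕ) (dn : Finset (ℤ × ℤ)) (σ : ℤ × ℤ) :
    E.sqOpsL J γ j dn σ =
      [FrOp.birth none (E.core j σ) (geLab L J (j + 1) (gePar σ)) (geLab L J j σ)] ++
        (E.sqEdge J γ j dn σ 0 ++ (E.sqEdge J γ j dn σ 1 ++ (E.sqEdge J γ j dn σ 2 ++
          E.sqEdge J γ j dn σ 3))) := by
  simp [GeEnv.sqOpsL, GeEnv.sqEdge, List.finRange_succ, List.flatMap_cons]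

theorem gsq_sheet_ne (J j : ℕ) (σ : ℤ × ℤ) {e e' : Fin 4} (h : e ≠ e') :
    geSheet J j σ e ≠ geSheet J j σ e' := by
  intro h'
  simp only [geSheet, Option.some.injEq, Prod.mk.injEq] at h'
  exact h h'.2.2

/-- the central birth -/
theorem gsq_central (hG : E.G = 256 * 2 ^ γ) (hmax : geNn J ≤ E.nmax) {j : ℕ} (hj : j < J)
    (hγ : γ + 8 ≤ j) {σ : ℤ × ℤ} {dn : Finset (ℤ × ℤ)} (hdn : σ ∉ dn) :
    GeTrip E.pat δ 18
      (fun st : FrState (APty L (GeAux J)) (GeSh J) (GSite L) HI =>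
        E.Rule (geLvl L J γ j) st none (E.base J j dn))
      [FrOp.birth none (E.core j σ) (geLab L J (j + 1) (gePar σ)) (geLab L J j σ)]
      (fun st => E.Rule (geLvl L J γ j) st none (E.gu J j dn σ univ)) := by
  have hloc : GeLoc E.G (geNn j) := by rw [hG]; exact gq_loc hγ
  refine get_trip_one E.pat δ 18 _ fun st hst => ?_
  have h := ge_central (E.chart j σ 0) (geLvl L J γ j) none (gqe_central_hyp E hG hmax hj hγ hdn)
    (geLab L J j σ) geM0 geH0 18 st ((gqe_rule E J γ j σ 0 st none _).2 hst)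
  rw [gqe_rule] at h
  have e1 : (E.chart j σ 0).coreS (geLvl L J γ j).Nn = E.core j σ := (gqe_core_eq E hloc σ).symm
  have e2 : (E.chart j σ 0).updC (geLvl L J γ j).Nn (E.base J j dn) (geLab L J j σ) =
      E.gu J j dn σ univ := gqe_updC_eq E hloc hdn
  rw [e1, e2] at h
  exact h

/-- one edge -/
theorem gsq_edge (hpt : ∀ x, E.pt x = fpt x) (hG : E.G = 256 * 2 ^ γ) (hmax : geNn J ≤ E.nmax)
    (hL : L ≤ 2 ^ J) {j : ℕ} (hj : j < J) (hγ : γ + 8 ≤ j) {σ : ℤ × ℤ} (hσ : GeInR J j σ)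
    (dn : Finset (ℤ × ℤ)) (e : Fin 4) :
    GeTrip E.pat δ 18
      (fun st => E.Rule (geLvl L J γ j) st none (E.gu J j dn σ (univ.filter fun e' => e ≤ e')) ∧
        E.Rule (geLvl L J γ j) st (geSheet J j σ e) fun _ => geNbLab L J j dn σ e)
      (E.sqEdge J γ j dn σ e)
      (fun st => E.Rule (geLvl L J γ j) st none (E.gu J j dn σ (univ.filter fun e' => e < e'))) := by
  have h := ge_edge (E.chart j σ e) (geLvl L J γ j) (sm := none) (sa := geSheet J j σ e)
    (by simp [geSheet]) (gqe_edge_hyp E hpt hG hmax hL hj hγ hσ dn e) (geo_part_card L J j σ)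
  intro st hst
  have h' := h st ⟨(gqe_rule E J γ j σ e st none _).2 hst.1, (gqe_rule E J γ j σ e st _ _).2 hst.2⟩
  exact ⟨h'.1, (gqe_rule E J γ j σ e _ none _).1 h'.2⟩

/-- one edge, with the auxiliary sheets of the edges which are not yet processed -/
theorem gsq_stage (hpt : ∀ x, E.pt x = fpt x) (hG : E.G = 256 * 2 ^ γ) (hmax : geNn J ≤ E.nmax)
    (hL : L ≤ 2 ^ J) {j : ℕ} (hj : j < J) (hγ : γ + 8 ≤ j) {σ : ℤ × ℤ} (hσ : GeInR J j σ)
    (dn : Finset (ℤ × ℤ)) (e : Fin 4) :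
    GeTrip E.pat δ 18
      (fun st => E.Rule (geLvl L J γ j) st none (E.gu J j dn σ (univ.filter fun e' => e ≤ e')) ∧
        ∀ e', e ≤ e' → E.Rule (geLvl L J γ j) st (geSheet J j σ e') fun _ => geNbLab L J j dn σ e')
      (E.sqEdge J γ j dn σ e)
      (fun st => E.Rule (geLvl L J γ j) st none (E.gu J j dn σ (univ.filter fun e' => e < e')) ∧
        ∀ e', e < e' → E.Rule (geLvl L J γ j) st (geSheet J j σ e') fun _ => geNbLab L J j dn σ e') := by
  have T := get_trip_frame (gsq_edge E hpt hG hmax hL hj hγ hσ dn e) {none, geSheet J j σ e}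
    (gee_sheets _ _ _ _ _ _ _ _ _ _)
    (fun st => ∀ e', e < e' →
      E.Rule (geLvl L J γ j) st (geSheet J j σ e') fun _ => geNbLab L J j dn σ e')
    (fun st st' hs hq e' he' => get_rule_of_sameOn E _ (hs _ (by
      simp only [Finset.mem_insert, Finset.mem_singleton, not_or]
      exact ⟨by simp [geSheet], gsq_sheet_ne J j σ he'.ne'⟩)) (hq e' he'))
  exact get_trip_conseq T (fun st hst => ⟨⟨hst.1, hst.2 e le_rfl⟩, fun e' he' => hst.2 e' he'.le⟩)
    (fun _ h => h)

/-- **repaint of a large square** -/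
theorem ge_square_large (hpt : ∀ x, E.pt x = fpt x) (hG : E.G = 256 * 2 ^ γ) (hmax : geNn J ≤ E.nmax)
    (hL : L ≤ 2 ^ J) {j : ℕ} (hj : j < J) (hγ : γ + 8 ≤ j) {σ : ℤ × ℤ} (hσ : GeInR J j σ)
    {dn : Finset (ℤ × ℤ)} (hdn : σ ∉ dn) :
    GeTrip E.pat δ 18
      (fun st => E.Rule (geLvl L J γ j) st none (E.base J j dn) ∧
        ∀ e, E.Rule (geLvl L J γ j) st (geSheet J j σ e) fun _ => geNbLab L J j dn σ e)
      (E.sqOpsL J γ j dn σ)
      (fun st => E.Rule (geLvl L J γ j) st none (E.base J j (insert σ dn))) := by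
  rw [gsq_ops_eq]
  have T0 := get_trip_frame (gsq_central E hG hmax hj hγ hdn) {none}
    (by simp [FrOp.sheets])
    (fun st => ∀ e', E.Rule (geLvl L J γ j) st (geSheet J j σ e') fun _ => geNbLab L J j dn σ e')
    (fun st st' hs hq e' => get_rule_of_sameOn E _ (hs _ (by simp [geSheet])) (hq e'))
  have S := gsq_stage E hpt hG hmax hL hj hγ hσ dn
  have f0 : (univ.filter fun e' : Fin 4 => (0 : Fin 4) ≤ e') = univ := by decide
  have f1 : (univ.filter fun e' : Fin 4 => (0 : Fin 4) < e') = univ.filter fun e' => (1 : Fin 4) ≤ e' := by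
    decide
  have f2 : (univ.filter fun e' : Fin 4 => (1 : Fin 4) < e') = univ.filter fun e' => (2 : Fin 4) ≤ e' := by
    decide
  have f3 : (univ.filter fun e' : Fin 4 => (2 : Fin 4) < e') = univ.filter fun e' => (3 : Fin 4) ≤ e' := by
    decide
  have f4 : (univ.filter fun e' : Fin 4 => (3 : Fin 4) < e') = ∅ := by decide
  have S0 := S 0
  have S1 := S 1
  have S2 := S 2
  have S3 := S 3
  rw [f0, f1] at S0
  rw [f2] at S1
  rw [f3] at S2
  rw [f4, gqe_gu_empty] at S3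
  refine get_trip_append T0 (get_trip_append (get_trip_conseq S0 (fun st h => ⟨h.1, fun e' _ => h.2 e'⟩)
    fun _ h => h) (get_trip_append (get_trip_conseq S1 (fun st h => ⟨h.1, fun e' he => h.2 e' ?_⟩)
    fun _ h => h) (get_trip_append (get_trip_conseq S2 (fun st h => ⟨h.1, fun e' he => h.2 e' ?_⟩)
    fun _ h => h) (get_trip_conseq S3 (fun st h => ⟨h.1, fun e' he => h.2 e' ?_⟩) fun _ h => h.1))))
  · exact lt_of_lt_of_le (by decide) he
  · exact lt_of_lt_of_le (by decide) he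
  · exact lt_of_lt_of_le (by decide) he

theorem gsq_length (j : ℕ) (dn : Finset (ℤ × ℤ)) (σ : ℤ × ℤ) : (E.sqOpsL J γ j dn σ).length = 97 := by
  rw [gsq_ops_eq]
  simp [GeEnv.sqEdge, gee_length]

theorem gsq_sheets (j : ℕ) (dn : Finset (ℤ × ℤ)) (σ : ℤ × ℤ) :
    ∀ o ∈ E.sqOpsL J γ j dn σ, o.sheets ⊆ insert none (univ.image fun e => geSheet J j σ e) := by
  have key : ∀ e : Fin 4, ∀ o ∈ E.sqEdge J γ j dn σ e,
      o.sheets ⊆ insert none (univ.image fun e => geSheet J j σ e) := by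
    intro e o ho
    refine (gee_sheets _ _ _ _ _ _ _ _ _ _ o ho).trans ?_
    intro s hs
    simp only [Finset.mem_insert, Finset.mem_singleton] at hs
    rcases hs with rfl | rfl
    · exact Finset.mem_insert_self _ _
    · exact Finset.mem_insert_of_mem (Finset.mem_image_of_mem _ (Finset.mem_univ e))
  intro o ho
  rw [gsq_ops_eq] at ho
  simp only [List.mem_append, List.mem_singleton] at ho
  rcases ho with rfl | ho | ho | ho | ho
  · simp [FrOp.sheets]
  · exact key 0 o ho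
  · exact key 1 o ho
  · exact key 2 o ho
  · exact key 3 o ho

theorem gsq_part {j : ℕ} (dn : Finset (ℤ × ℤ)) {σ : ℤ × ℤ} (hσ : GeInR J j σ) :
    ∀ o ∈ E.sqOpsL J γ j dn σ, o.part ⊆ gePart L J j σ := by
  have key : ∀ e : Fin 4, ∀ o ∈ E.sqEdge J γ j dn σ e, o.part ⊆ gePart L J j σ := fun e =>
    gee_part _ _ _ _ _ _ (gq_A_mem L hσ) (gq_B_mem L hσ) (gq_C_mem L hσ dn e)
  intro o ho
  rw [gsq_ops_eq] at ho
  simp only [List.mem_append, List.mem_singleton] at ho
  rcases ho with rfl | ho | ho | ho | ho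
  · simp [FrOp.part, Finset.insert_subset_iff, gq_A_mem L hσ, gq_B_mem L hσ]
  · exact key 0 o ho
  · exact key 1 o ho
  · exact key 2 o ho
  · exact key 3 o ho

end Claimed.Agent.R296
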