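import Claimed.Agent.R296.P2.GeoBulk
import Claimed.Agent.R296.P2.GeoRew

/-!
# Row 296, paper 2, Section 6: stage guides   (LEAF `P2-GE-STAGE`, prefix `ges_`; proofs: helper271)

The three kinds of moves of an edge, specialised to stage guides `E.sg Nn w z0 z1 out`:
 * zones: `ges_zone0`, `ges_zone1` verify `GeRwHyp` (window = zone, `ρ = 12 G`, `m = G`);  pixel property: within `15 G` of a mark
   `geRow = ⌊d / G⌋` (`geb_row_near`), the predicates `geZone`, `geSpan`, `geBand` are constant on the cells for points which are not on grid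
   lines (sites: `E.odd`, `256 ∣ G`);
 * bulk: `ges_bulk_hyp` verifies `GeBulkHyp`, `ges_upd_sg` computes the new guide;
 * exchange: `ges_exch_hyp`, `ges_swp_sg`.
-/

set_option autoImplicit false
set_option linter.unusedSectionVars false

namespace Claimed.Agent.R296

open Finset

variable {Λ HI PP SH : Type} [Fintype Λ] [DecidableEq Λ] [Fintype HI] [DecidableEq HI]
  [DecidableEq PP] [DecidableEq SH] {q : ℕ} {Ω : (Λ → Fin q) → ℂ} {ε δ : ℝ}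

/-- `f` is an admissible colouring near the two marks: constant on cells, values in `Ap` -/
structure GeEnv.Adm (E : GeEnv Λ HI Ω ε δ) (Nn : ℤ) (Ap : Finset PP) (f : Λ → PP) : Prop where
  pix0 : E.Pix (0, 0) (14 * E.G) f
  pix1 : E.Pix (Nn, 0) (14 * E.G) f
  mem0 : ∀ x, dInf (E.pt x) (0, 0) < 14 * E.G → f x ∈ Ap
  mem1 : ∀ x, dInf (E.pt x) (Nn, 0) < 14 * E.G → f x ∈ Ap

theorem ges_adm_const (E : GeEnv Λ HI Ω ε δ) (Nn : ℤ) {Ap : Finset PP} {P : PP} (hP : P ∈ Ap) :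
    E.Adm Nn Ap fun _ => P :=
  ⟨fun _ _ _ _ => rfl, fun _ _ _ _ => rfl, fun _ _ => hP, fun _ _ => hP⟩

/-- a site is not on a grid line -/
theorem ges_site_off (E : GeEnv Λ HI Ω ε δ) {m : ℤ} (hm : 256 ∣ m) (x : Λ) :
    ¬ m ∣ (E.pt x).1 ∧ ¬ m ∣ (E.pt x).2 := by
  have h := E.odd x
  constructor
  · intro hd
    have := dvd_trans hm hd
    omega
  · intro hd
    have := dvd_trans hm hd
    omega

/-! ### values of a stage guide -/

theorem ges_sg_zone0 (E : GeEnv Λ HI Ω ε δ) (Nn : ℤ) (w : ℤ → PP) (z0 z1 out : Λ → PP) {x : Λ}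
    (h : geZone E.G (0, 0) (E.pt x)) : E.sg Nn w z0 z1 out x = z0 x := by
  unfold GeEnv.sg
  rw [if_pos h]

theorem ges_sg_zone1 (E : GeEnv Λ HI Ω ε δ) (Nn : ℤ) (w : ℤ → PP) (z0 z1 out : Λ → PP) {x : Λ}
    (h0 : ¬ geZone E.G (0, 0) (E.pt x)) (h : geZone E.G (Nn, 0) (E.pt x)) :
    E.sg Nn w z0 z1 out x = z1 x := by
  unfold GeEnv.sg
  rw [if_neg h0, if_pos h]

theorem ges_sg_band (E : GeEnv Λ HI Ω ε δ) (Nn : ℤ) (w : ℤ → PP) (z0 z1 out : Λ → PP) {x : Λ}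
    (h : geBand E.G Nn (-8) 2 (E.pt x)) :
    E.sg Nn w z0 z1 out x = w (geRow E.G Nn (E.pt x)) := by
  unfold GeEnv.sg
  rw [if_neg h.1.2.2.1, if_neg h.1.2.2.2, if_pos h]

theorem ges_sg_out (E : GeEnv Λ HI Ω ε δ) (Nn : ℤ) (w : ℤ → PP) (z0 z1 out : Λ → PP) {x : Λ}
    (h0 : ¬ geZone E.G (0, 0) (E.pt x)) (h1 : ¬ geZone E.G (Nn, 0) (E.pt x))
    (h : ¬ geBand E.G Nn (-8) 2 (E.pt x)) : E.sg Nn w z0 z1 out x = out x := by
  unfold GeEnv.sg
  rw [if_neg h0, if_neg h1, if_neg h]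

theorem ges_band_mono {G Nn al be al' be' : ℤ} {p : ℤ × ℤ} (h : geBand G Nn al be p) (ha : al' ≤ al)
    (hb : be ≤ be') : geBand G Nn al' be' p :=
  ⟨h.1, le_trans ha h.2.1, lt_of_lt_of_le h.2.2 hb⟩

/-- a stage guide with constant zones -/
theorem ges_sg_zone_const (E : GeEnv Λ HI Ω ε δ) (Nn : ℤ) (w : ℤ → PP) (P : PP) (out : Λ → PP) {x : Λ}
    (h : geZone E.G (0, 0) (E.pt x) ∨ geZone E.G (Nn, 0) (E.pt x)) :
    E.sg Nn w (fun _ => P) (fun _ => P) out x = P := by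
  by_cases h0 : geZone E.G (0, 0) (E.pt x)
  · rw [ges_sg_zone0 E Nn w _ _ out h0]
  · rw [ges_sg_zone1 E Nn w _ _ out h0 (h.resolve_left h0)]

/-! ### cells -/

theorem ges_lt_iff {G p k : ℤ} (hG : 0 < G) : p < k * G ↔ p / G < k :=
  (Int.ediv_lt_iff_lt_mul hG).symm

theorem ges_gt_iff {G p k : ℤ} (hG : 0 < G) (hp : ¬ G ∣ p) : k * G < p ↔ k ≤ p / G := by
  rw [Int.le_ediv_iff_mul_le hG]
  constructor
  · exact le_of_lt
  · intro h
    exact lt_of_le_of_ne h fun he => hp ⟨k, by rw [← he, mul_comm]⟩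

theorem ges_cell_close {G a b : ℤ} (hG : 0 < G) (h : a / G = b / G) : a - b < G ∧ b - a < G := by
  have h1 := Int.emod_add_mul_ediv a G
  have h2 := Int.emod_add_mul_ediv b G
  have h3 := Int.emod_nonneg a hG.ne'
  have h4 := Int.emod_lt_of_pos a hG
  have h5 := Int.emod_nonneg b hG.ne'
  have h6 := Int.emod_lt_of_pos b hG
  rw [h] at h1
  constructor <;> omega

/-- a zone is a union of cells -/
theorem ges_zone_iff {G k : ℤ} (hG : 0 < G) {p : ℤ × ℤ} (h1 : ¬ G ∣ p.1) (h2 : ¬ G ∣ p.2) :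
    geZone G (k * G, 0) p ↔
      (k - 12 ≤ p.1 / G ∧ p.1 / G < k + 12 ∧ -12 ≤ p.2 / G ∧ p.2 / G < 12) := by
  unfold geZone
  rw [geo_dInf_lt, ← ges_gt_iff hG h1, ← ges_lt_iff hG, ← ges_gt_iff hG h2, ← ges_lt_iff hG]
  simp only []
  constructor
  · rintro ⟨a1, a2, a3, a4⟩
    refine ⟨?_, ?_, ?_, ?_⟩ <;> linarith
  · rintro ⟨a1, a2, a3, a4⟩
    refine ⟨?_, ?_, ?_, ?_⟩ <;> linarith

theorem ges_zone_cell {G k : ℤ} (hG : 0 < G) {p p' : ℤ × ℤ} (h1 : ¬ G ∣ p.1) (h2 : ¬ G ∣ p.2)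
    (h1' : ¬ G ∣ p'.1) (h2' : ¬ G ∣ p'.2) (hc : GeSameCell G p p') :
    geZone G (k * G, 0) p ↔ geZone G (k * G, 0) p' := by
  rw [ges_zone_iff hG h1 h2, ges_zone_iff hG h1' h2', hc.1, hc.2]

theorem ges_zone0_cell {G : ℤ} (hG : 0 < G) {p p' : ℤ × ℤ} (h1 : ¬ G ∣ p.1) (h2 : ¬ G ∣ p.2)
    (h1' : ¬ G ∣ p'.1) (h2' : ¬ G ∣ p'.2) (hc : GeSameCell G p p') :
    geZone G (0, 0) p ↔ geZone G (0, 0) p' := by
  have := ges_zone_cell (k := 0) hG h1 h2 h1' h2' hc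
  rwa [zero_mul] at this

theorem ges_zone1_cell {G Nn : ℤ} (h : GeLoc G Nn) {p p' : ℤ × ℤ} (h1 : ¬ G ∣ p.1) (h2 : ¬ G ∣ p.2)
    (h1' : ¬ G ∣ p'.1) (h2' : ¬ G ∣ p'.2) (hc : GeSameCell G p p') :
    geZone G (Nn, 0) p ↔ geZone G (Nn, 0) p' := by
  obtain ⟨K, hK⟩ := h.Nn_dvd
  have := ges_zone_cell (k := K) h.G_pos h1 h2 h1' h2' hc
  rwa [mul_comm, ← hK] at this

theorem ges_span_cell {G Nn : ℤ} (h : GeLoc G Nn) {p p' : ℤ × ℤ} (h1 : ¬ G ∣ p.1) (h2 : ¬ G ∣ p.2)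
    (h1' : ¬ G ∣ p'.1) (h2' : ¬ G ∣ p'.2) (hc : GeSameCell G p p') :
    geSpan G Nn p ↔ geSpan G Nn p' := by
  obtain ⟨K, hK⟩ := h.Nn_dvd
  have a1 : ∀ t : ℤ, ¬ G ∣ t → (0 < t ↔ 0 ≤ t / G) := by
    intro t ht
    have := ges_gt_iff (k := 0) h.G_pos ht
    rwa [zero_mul] at this
  have a2 : ∀ t : ℤ, (t < Nn ↔ t / G < K) := by
    intro t
    have := ges_lt_iff (p := t) (k := K) h.G_pos
    rwa [mul_comm, ← hK] at this
  unfold geSpan
  rw [a1 _ h1, a1 _ h1', a2, a2, ges_zone0_cell h.G_pos h1 h2 h1' h2' hc,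
    ges_zone1_cell h h1 h2 h1' h2' hc, hc.1]

/-- the pixel property of a stage guide near a mark -/
theorem ges_sg_pix (E : GeEnv Λ HI Ω ε δ) {Nn : ℤ} (hL : GeLoc E.G Nn) (w : ℤ → PP) {z0 z1 out : Λ → PP}
    {v : ℤ × ℤ} (hv : v = (0, 0) ∨ v = (Nn, 0))
    (hz0 : ∀ x y, dInf (E.pt x) v < 14 * E.G → geZone E.G (0, 0) (E.pt x) →
      GeSameCell E.G (E.pt x) (E.pt y) → z0 x = z0 y)
    (hz1 : ∀ x y, dInf (E.pt x) v < 14 * E.G → geZone E.G (Nn, 0) (E.pt x) →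
      GeSameCell E.G (E.pt x) (E.pt y) → z1 x = z1 y)
    (ho : E.Pix v (14 * E.G) out) : E.Pix v (14 * E.G) (E.sg Nn w z0 z1 out) := by
  intro x y hx hc
  have hG := hL.G_pos
  obtain ⟨x1, x2⟩ := ges_site_off E hL.G_dvd x
  obtain ⟨y1, y2⟩ := ges_site_off E hL.G_dvd y
  have e0 := ges_zone0_cell hG x1 x2 y1 y2 hc
  have e1 := ges_zone1_cell hL x1 x2 y1 y2 hc
  have eS := ges_span_cell hL x1 x2 y1 y2 hc
  have c1 := ges_cell_close hG hc.1
  have hx' := geo_dInf_lt.1 hx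
  have nx : (E.pt x).1 ≤ 16 * E.G ∨ Nn - 16 * E.G ≤ (E.pt x).1 := by
    rcases hv with rfl | rfl
    · left; simp only [] at hx'; omega
    · right; simp only [] at hx'; omega
  have ny : (E.pt y).1 ≤ 16 * E.G ∨ Nn - 16 * E.G ≤ (E.pt y).1 := by
    rcases hv with rfl | rfl
    · left; simp only [] at hx'; omega
    · right; simp only [] at hx'; omega
  have eR : geRow E.G Nn (E.pt x) = geRow E.G Nn (E.pt y) := by
    rw [geb_row_near hL nx, geb_row_near hL ny, hc.2]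
  have eB : geBand E.G Nn (-8) 2 (E.pt x) ↔ geBand E.G Nn (-8) 2 (E.pt y) := by
    unfold geBand
    rw [eS, eR]
  by_cases h0 : geZone E.G (0, 0) (E.pt x)
  · rw [ges_sg_zone0 E Nn w z0 z1 out h0, ges_sg_zone0 E Nn w z0 z1 out (e0.1 h0)]
    exact hz0 x y hx h0 hc
  have h0' := fun hh => h0 (e0.2 hh)
  by_cases h1 : geZone E.G (Nn, 0) (E.pt x)
  · rw [ges_sg_zone1 E Nn w z0 z1 out h0 h1, ges_sg_zone1 E Nn w z0 z1 out h0' (e1.1 h1)]
    exact hz1 x y hx h1 hc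
  have h1' := fun hh => h1 (e1.2 hh)
  by_cases hB : geBand E.G Nn (-8) 2 (E.pt x)
  · rw [ges_sg_band E Nn w z0 z1 out hB, ges_sg_band E Nn w z0 z1 out (eB.1 hB), eR]
  · rw [ges_sg_out E Nn w z0 z1 out h0 h1 hB,
      ges_sg_out E Nn w z0 z1 out h0' h1' fun hh => hB (eB.2 hh)]
    exact ho x y hx hc

/-- values of a stage guide -/
theorem ges_sg_mem (E : GeEnv Λ HI Ω ε δ) (Nn : ℤ) {Ap : Finset PP} {w : ℤ → PP}
    (hw : ∀ r, -8 ≤ r → r < 2 → w r ∈ Ap) {z0 z1 out : Λ → PP} {x : Λ}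
    (h0 : geZone E.G (0, 0) (E.pt x) → z0 x ∈ Ap) (h1 : geZone E.G (Nn, 0) (E.pt x) → z1 x ∈ Ap)
    (ho : out x ∈ Ap) : E.sg Nn w z0 z1 out x ∈ Ap := by
  unfold GeEnv.sg
  split_ifs with a0 a1 a2
  · exact h0 a0
  · exact h1 a1
  · exact hw _ a2.2.1 a2.2.2
  · exact ho

/-- the two zones are far from each other -/
theorem ges_zone_excl {G Nn : ℤ} (h : GeLoc G Nn) {p : ℤ × ℤ} (h0 : dInf p (0, 0) < 14 * G)
    (h1 : dInf p (Nn, 0) < 14 * G) : False := by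
  have a := h.G_pos
  have b := h.Nn_ge
  rw [geo_dInf_lt] at h0 h1
  simp only [] at h0 h1
  omega

theorem ges_zone_lt {G : ℤ} (hG : 0 < G) {v p : ℤ × ℤ} (h : geZone G v p) : dInf p v < 14 * G := by
  unfold geZone at h
  omega

theorem ges_zone0 (E : GeEnv Λ HI Ω ε δ) (lv : GeLvl PP) (hL : E.Large lv) {Ap : Finset PP} {w : ℤ → PP}
    (hw : ∀ r, -8 ≤ r → r < 2 → w r ∈ Ap) {z0 z0' z1 out : Λ → PP} (h0 : E.Adm lv.Nn Ap z0)
    (h0' : E.Adm lv.Nn Ap z0') (ho : E.Adm lv.Nn Ap out) :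
    GeRwHyp E lv (E.sg lv.Nn w z0 z1 out) (E.sg lv.Nn w z0' z1 out) (0, 0) (12 * E.G) Ap := by
  have hloc := hL.loc
  have hG := hloc.G_pos
  have hm := hL.m_eq
  have hpix : ∀ z : Λ → PP, E.Adm lv.Nn Ap z → E.Pix (0, 0) (14 * E.G) (E.sg lv.Nn w z z1 out) := by
    intro z hz
    refine ges_sg_pix E hloc w (Or.inl rfl) (fun x y hx _ hc => hz.pix0 x y hx hc) ?_ ho.pix0
    intro x y hx hx1 _
    exact (ges_zone_excl hloc hx (ges_zone_lt hG hx1)).elim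
  have hmem : ∀ z : Λ → PP, E.Adm lv.Nn Ap z → ∀ x, dInf (E.pt x) (0, 0) < 14 * E.G →
      E.sg lv.Nn w z z1 out x ∈ Ap := by
    intro z hz x hx
    exact ges_sg_mem E lv.Nn hw (fun _ => hz.mem0 x hx)
      (fun hx1 => (ges_zone_excl hloc hx (ges_zone_lt hG hx1)).elim) (ho.mem0 x hx)
  refine ⟨by omega, ?_, by omega, by omega, by omega, ?_, ?_, ?_, ?_, ?_, ?_⟩
  · rw [hm]
    exact dvd_trans (by norm_num) hloc.G_dvd
  · rw [hm]
    refine ⟨⟨-12, ?_⟩, ⟨12, ?_⟩, ⟨-12, ?_⟩, ⟨12, ?_⟩⟩ <;> simp only [] <;> ring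
  · intro x hx
    have hz : ¬ geZone E.G (0, 0) (E.pt x) := not_lt.2 hx
    unfold GeEnv.sg
    rw [if_neg hz, if_neg hz]
  · intro x y hx hc
    rw [hm] at hx hc
    exact hpix z0 h0 x y (by omega) hc
  · intro x y hx hc
    rw [hm] at hx hc
    exact hpix z0' h0' x y (by omega) hc
  · intro c _ hc
    refine Or.inl ⟨(0, 0), ⟨dvd_zero _, dvd_zero _⟩, ?_⟩
    omega
  · intro x hx
    exact ⟨hmem z0 h0 x (by omega), hmem z0' h0' x (by omega)⟩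

theorem ges_zone1 (E : GeEnv Λ HI Ω ε δ) (lv : GeLvl PP) (hL : E.Large lv) {Ap : Finset PP} {w : ℤ → PP}
    (hw : ∀ r, -8 ≤ r → r < 2 → w r ∈ Ap) {z0 z1 z1' out : Λ → PP} (h1 : E.Adm lv.Nn Ap z1)
    (h1' : E.Adm lv.Nn Ap z1') (ho : E.Adm lv.Nn Ap out) :
    GeRwHyp E lv (E.sg lv.Nn w z0 z1 out) (E.sg lv.Nn w z0 z1' out) (lv.Nn, 0) (12 * E.G) Ap := by
  have hloc := hL.loc
  have hG := hloc.G_pos
  have hm := hL.m_eq
  have hpix : ∀ z : Λ → PP, E.Adm lv.Nn Ap z →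
      E.Pix (lv.Nn, 0) (14 * E.G) (E.sg lv.Nn w z0 z out) := by
    intro z hz
    refine ges_sg_pix E hloc w (Or.inr rfl) ?_ (fun x y hx _ hc => hz.pix1 x y hx hc) ho.pix1
    intro x y hx hx0 _
    exact (ges_zone_excl hloc (ges_zone_lt hG hx0) hx).elim
  have hmem : ∀ z : Λ → PP, E.Adm lv.Nn Ap z → ∀ x, dInf (E.pt x) (lv.Nn, 0) < 14 * E.G →
      E.sg lv.Nn w z0 z out x ∈ Ap := by
    intro z hz x hx
    exact ges_sg_mem E lv.Nn hw (fun hx0 => (ges_zone_excl hloc (ges_zone_lt hG hx0) hx).elim)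
      (fun _ => hz.mem1 x hx) (ho.mem1 x hx)
  obtain ⟨K, hK⟩ := hloc.Nn_dvd
  refine ⟨by omega, ?_, by omega, by omega, by omega, ?_, ?_, ?_, ?_, ?_, ?_⟩
  · rw [hm]
    exact dvd_trans (by norm_num) hloc.G_dvd
  · rw [hm]
    refine ⟨⟨K - 12, ?_⟩, ⟨K + 12, ?_⟩, ⟨-12, ?_⟩, ⟨12, ?_⟩⟩ <;> simp only [hK] <;> ring
  · intro x hx
    have hz : ¬ geZone E.G (lv.Nn, 0) (E.pt x) := not_lt.2 hx
    unfold GeEnv.sg
    rw [if_neg hz, if_neg hz]
  · intro x y hx hc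
    rw [hm] at hx hc
    exact hpix z1 h1 x y (by omega) hc
  · intro x y hx hc
    rw [hm] at hx hc
    exact hpix z1' h1' x y (by omega) hc
  · intro c _ hc
    refine Or.inl ⟨(lv.Nn, 0), ⟨dvd_refl _, dvd_zero _⟩, ?_⟩
    omega
  · intro x hx
    exact ⟨hmem z1 h1 x (by omega), hmem z1' h1' x (by omega)⟩

/-- change of the colouring of both zones -/
theorem ges_zoneOps (E : GeEnv Λ HI Ω ε δ) (lv : GeLvl PP) (hL : E.Large lv) (s : SH) {Ap : Finset PP}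
    {b : ℕ} (hb : Ap.card ≤ b) {w : ℤ → PP} (hw : ∀ r, -8 ≤ r → r < 2 → w r ∈ Ap) {z z' out : Λ → PP}
    (hz : E.Adm lv.Nn Ap z) (hz' : E.Adm lv.Nn Ap z') (ho : E.Adm lv.Nn Ap out) :
    GeTrip E.pat δ b (fun st : FrState PP SH Λ HI => E.Rule lv st s (E.sg lv.Nn w z z out))
      (E.zoneOps lv s w z z' out Ap) (fun st => E.Rule lv st s (E.sg lv.Nn w z' z' out)) :=
  get_trip_append (ge_rewrite_trip E lv s (ges_zone0 E lv hL hw hz hz' ho) hb)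
    (ge_rewrite_trip E lv s (ges_zone1 E lv hL hw hz hz' ho) hb)

theorem ges_bulk_hyp (E : GeEnv Λ HI Ω ε δ) (lv : GeLvl PP) (hL : E.Large lv) {w : ℤ → PP} {al be : ℤ}
    {P0 Pold : PP} (ha : -7 ≤ al) (hab : al < be) (hb : be ≤ 1) (h1 : w (al - 1) = P0) (h2 : w be = P0)
    (h3 : ∀ r, al ≤ r → r < be → w r = Pold) (out : Λ → PP) :
    GeBulkHyp E lv (E.sg lv.Nn w (fun _ => P0) (fun _ => P0) out) al be P0 Pold where
  large := hL
  al_ge := by omega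
  al_lt := hab
  be_le := by omega
  zone := fun x hx => ges_sg_zone_const E lv.Nn w P0 out hx
  rim := by
    intro x hx
    rcases hx with hx | hx
    · rw [ges_sg_band E lv.Nn w _ _ out (ges_band_mono hx (by omega) (by omega))]
      have : geRow E.G lv.Nn (E.pt x) = al - 1 := by
        have a1 := hx.2.1
        have a2 := hx.2.2
        omega
      rw [this, h1]
    · rw [ges_sg_band E lv.Nn w _ _ out (ges_band_mono hx (by omega) (by omega))]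
      have : geRow E.G lv.Nn (E.pt x) = be := by
        have a1 := hx.2.1
        have a2 := hx.2.2
        omega
      rw [this, h2]
  body := by
    intro x hx
    rw [ges_sg_band E lv.Nn w _ _ out (ges_band_mono hx (by omega) (by omega))]
    exact h3 _ hx.2.1 hx.2.2

theorem ges_upd_sg (E : GeEnv Λ HI Ω ε δ) (Nn : ℤ) (w : ℤ → PP) (z0 z1 out : Λ → PP) {al be : ℤ}
    (ha : -8 ≤ al) (hb : be ≤ 2) (P : PP) :
    E.upd Nn al be (E.sg Nn w z0 z1 out) P = E.sg Nn (geFill w al be P) z0 z1 out := by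
  funext x
  unfold GeEnv.upd
  by_cases hx : geBand E.G Nn al be (E.pt x)
  · rw [if_pos hx, ges_sg_band E Nn _ z0 z1 out (ges_band_mono hx ha hb)]
    unfold geFill
    rw [if_pos ⟨hx.2.1, hx.2.2⟩]
  · rw [if_neg hx]
    by_cases h0 : geZone E.G (0, 0) (E.pt x)
    · rw [ges_sg_zone0 E Nn _ z0 z1 out h0, ges_sg_zone0 E Nn _ z0 z1 out h0]
    by_cases h1 : geZone E.G (Nn, 0) (E.pt x)
    · rw [ges_sg_zone1 E Nn _ z0 z1 out h0 h1, ges_sg_zone1 E Nn _ z0 z1 out h0 h1]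
    by_cases hB : geBand E.G Nn (-8) 2 (E.pt x)
    · rw [ges_sg_band E Nn _ z0 z1 out hB, ges_sg_band E Nn _ z0 z1 out hB]
      unfold geFill
      rw [if_neg fun hc => hx ⟨hB.1, hc.1, hc.2⟩]
    · rw [ges_sg_out E Nn _ z0 z1 out h0 h1 hB, ges_sg_out E Nn _ z0 z1 out h0 h1 hB]

theorem ges_exch_hyp (E : GeEnv Λ HI Ω ε δ) (lv : GeLvl PP) (hL : E.Large lv) {w1 w2 : ℤ → PP} {C : PP}
    (h1 : w1 (-8) = C ∧ w1 (-7) = C ∧ w1 (-4) = C) (h2 : w2 (-8) = C ∧ w2 (-7) = C ∧ w2 (-4) = C)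
    (out1 out2 : Λ → PP) :
    GeExchHyp E lv (E.sg lv.Nn w1 (fun _ => C) (fun _ => C) out1)
      (E.sg lv.Nn w2 (fun _ => C) (fun _ => C) out2) C where
  large := hL
  zone := fun x hx => ⟨ges_sg_zone_const E lv.Nn w1 C out1 hx, ges_sg_zone_const E lv.Nn w2 C out2 hx⟩
  rows := by
    intro x hx
    have hB : geBand E.G lv.Nn (-8) 2 (E.pt x) := by
      rcases hx with hx | hx
      · exact ges_band_mono hx (by omega) (by omega)
      · exact ges_band_mono hx (by omega) (by omega)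
    rw [ges_sg_band E lv.Nn w1 _ _ out1 hB, ges_sg_band E lv.Nn w2 _ _ out2 hB]
    have hr : geRow E.G lv.Nn (E.pt x) = -8 ∨ geRow E.G lv.Nn (E.pt x) = -7 ∨
        geRow E.G lv.Nn (E.pt x) = -4 := by
      rcases hx with hx | hx
      · have a1 := hx.2.1
        have a2 := hx.2.2
        omega
      · have a1 := hx.2.1
        have a2 := hx.2.2
        omega
    rcases hr with hr | hr | hr
    · rw [hr]; exact ⟨h1.1, h2.1⟩
    · rw [hr]; exact ⟨h1.2.1, h2.2.1⟩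
    · rw [hr]; exact ⟨h1.2.2, h2.2.2⟩

theorem ges_swp_sg (E : GeEnv Λ HI Ω ε δ) {Nn : ℤ} (hL : GeLoc E.G Nn) {w1 w2 : ℤ → PP} {C : PP}
    (h : w1 (-4) = w2 (-4)) (out1 out2 : Λ → PP) :
    E.swp Nn (E.sg Nn w1 (fun _ => C) (fun _ => C) out1) (E.sg Nn w2 (fun _ => C) (fun _ => C) out2) =
      E.sg Nn (fun r => if -7 ≤ r ∧ r < -4 then w2 r else w1 r) (fun _ => C) (fun _ => C) out1 := by
  funext x
  unfold GeEnv.swp
  by_cases hz : geZone E.G (0, 0) (E.pt x) ∨ geZone E.G (Nn, 0) (E.pt x)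
  · rw [ges_sg_zone_const E Nn _ C out1 hz, ges_sg_zone_const E Nn _ C out2 hz,
      ges_sg_zone_const E Nn _ C out1 hz, ite_self]
  have h0 : ¬ geZone E.G (0, 0) (E.pt x) := fun hc => hz (Or.inl hc)
  have h1 : ¬ geZone E.G (Nn, 0) (E.pt x) := fun hc => hz (Or.inr hc)
  by_cases hY : geY E.G Nn (E.pt x)
  · rw [if_pos hY]
    have hb : geBand E.G Nn (-7) (-3) (E.pt x) := by
      rcases geb_y_sub hL hY with hc | hc | hc
      · exact absurd hc h0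
      · exact absurd hc h1
      · exact hc
    have hB : geBand E.G Nn (-8) 2 (E.pt x) := ges_band_mono hb (by omega) (by omega)
    rw [ges_sg_band E Nn _ _ _ out2 hB, ges_sg_band E Nn _ _ _ out1 hB]
    by_cases hr : geRow E.G Nn (E.pt x) < -4
    · rw [if_pos ⟨hb.2.1, hr⟩]
    · rw [if_neg fun hc => hr hc.2]
      have : geRow E.G Nn (E.pt x) = -4 := by
        have := hb.2.2
        omega
      rw [this, h]
  · rw [if_neg hY]
    by_cases hB : geBand E.G Nn (-8) 2 (E.pt x)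
    · rw [ges_sg_band E Nn _ _ _ out1 hB, ges_sg_band E Nn _ _ _ out1 hB]
      rw [if_neg fun hc => hY (geb_band_sub_y hL ⟨hB.1, hc.1, hc.2⟩)]
    · rw [ges_sg_out E Nn _ _ _ out1 h0 h1 hB, ges_sg_out E Nn _ _ _ out1 h0 h1 hB]

/-- a guide which follows a word on the strip is a stage guide -/
theorem ges_sg_self (E : GeEnv Λ HI Ω ε δ) (Nn : ℤ) (w : ℤ → PP) (f : Λ → PP)
    (h : ∀ x, geBand E.G Nn (-8) 2 (E.pt x) → f x = w (geRow E.G Nn (E.pt x))) :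
    E.sg Nn w f f f = f := by
  funext x
  unfold GeEnv.sg
  split_ifs with h0 h1 h2
  · rfl
  · rfl
  · exact (h x h2).symm
  · rfl

/-- stage guides only see the rows `-8 ≤ r < 2` of the word -/
theorem ges_sg_congr (E : GeEnv Λ HI Ω ε δ) (Nn : ℤ) {w w' : ℤ → PP} (z0 z1 out : Λ → PP)
    (h : ∀ r, -8 ≤ r → r < 2 → w r = w' r) : E.sg Nn w z0 z1 out = E.sg Nn w' z0 z1 out := by
  funext x
  unfold GeEnv.sg
  split_ifs with h0 h1 h2
  · rfl
  · rfl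
  · exact h _ h2.2.1 h2.2.2
  · rfl

end Claimed.Agent.R296
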