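import Claimed.Agent.R296.P2.GeoDefs

/-!
# Row 296, paper 2, Section 6: calculus of schedules   (LEAF `P2-GE-TRIP`, prefix `get_`)

Pure list/state bookkeeping, no geometry.  All proofs: induction on the list, unfolding of `FrOp.next`.
-/

set_option autoImplicit false
set_option linter.unusedSectionVars false

namespace Claimed.Agent.R296

open Finset

variable {Λ HI PP SH : Type} [Fintype Λ] [DecidableEq Λ] [Fintype HI] [DecidableEq HI]
  [DecidableEq PP] [DecidableEq SH] {q : ℕ} {Ω : (Λ → Fin q) → ℂ} {ε δ : ℝ}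

theorem get_run_append (pat : HI → FrPatch Ω ε) (l l' : List (FrOp PP SH Λ HI))
    (st : FrState PP SH Λ HI) : frRun pat (l ++ l') st = frRun pat l' (frRun pat l st) := by
  induction l generalizing st with
  | nil => rfl
  | cons o l ih => exact ih (o.next pat st)

theorem get_ok_append (pat : HI → FrPatch Ω ε) (δ : ℝ) (m0 h0 b : ℕ) (l l' : List (FrOp PP SH Λ HI))
    (st : FrState PP SH Λ HI) :
    FrSchedOk pat δ m0 h0 b (l ++ l') st ↔
      FrSchedOk pat δ m0 h0 b l st ∧ FrSchedOk pat δ m0 h0 b l' (frRun pat l st) := by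
  induction l generalizing st with
  | nil => simp [FrSchedOk, frRun]
  | cons o l ih =>
    simp only [List.cons_append, FrSchedOk, frRun, ih, and_assoc]

theorem get_trip_nil (pat : HI → FrPatch Ω ε) (δ : ℝ) (b : ℕ) (pre : FrState PP SH Λ HI → Prop) :
    GeTrip pat δ b pre [] pre :=
  fun _ h => ⟨trivial, h⟩

/-- one operation -/
theorem get_trip_one (pat : HI → FrPatch Ω ε) (δ : ℝ) (b : ℕ) {pre post : FrState PP SH Λ HI → Prop}
    (o : FrOp PP SH Λ HI)
    (h : ∀ st, pre st → o.Ok pat δ geM0 geH0 b st ∧ post (o.next pat st)) :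
    GeTrip pat δ b pre [o] post :=
  fun st hs => ⟨⟨(h st hs).1, trivial⟩, (h st hs).2⟩

theorem get_trip_append {pat : HI → FrPatch Ω ε} {δ : ℝ} {b : ℕ}
    {pre mid post : FrState PP SH Λ HI → Prop} {l l' : List (FrOp PP SH Λ HI)}
    (h : GeTrip pat δ b pre l mid) (h' : GeTrip pat δ b mid l' post) :
    GeTrip pat δ b pre (l ++ l') post := by
  intro st hs
  obtain ⟨h1, h2⟩ := h st hs
  obtain ⟨h3, h4⟩ := h' _ h2
  refine ⟨(get_ok_append pat δ geM0 geH0 b l l' st).2 ⟨h1, h3⟩, ?_⟩
  rw [get_run_append]
  exact h4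

theorem get_trip_conseq {pat : HI → FrPatch Ω ε} {δ : ℝ} {b : ℕ}
    {pre pre' post post' : FrState PP SH Λ HI → Prop} {l : List (FrOp PP SH Λ HI)}
    (h : GeTrip pat δ b pre l post) (h1 : ∀ st, pre' st → pre st) (h2 : ∀ st, post st → post' st) :
    GeTrip pat δ b pre' l post' :=
  fun st hs => ⟨(h st (h1 st hs)).1, h2 _ (h st (h1 st hs)).2⟩

theorem get_sameOn_refl (st : FrState PP SH Λ HI) (s : SH) : st.SameOn st s :=
  ⟨fun _ => rfl, fun _ => rfl, rfl⟩

theorem get_sameOn_trans {st st' st'' : FrState PP SH Λ HI} {s : SH} (h : st.SameOn st' s)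
    (h' : st'.SameOn st'' s) : st.SameOn st'' s :=
  ⟨fun x => (h'.1 x).trans (h.1 x), fun a => (h'.2.1 a).trans (h.2.1 a), h'.2.2.trans h.2.2⟩

theorem get_mem_hs (st : FrState PP SH Λ HI) (s : SH) (a : HI) : a ∈ st.hs s ↔ (s, a) ∈ st.hol := by
  simp [FrState.hs]

/-- an operation does not change the sheets which it does not touch -/
theorem get_next_sameOn (pat : HI → FrPatch Ω ε) (o : FrOp PP SH Λ HI) (st : FrState PP SH Λ HI)
    (s : SH) (hs : s ∉ o.sheets) : st.SameOn (o.next pat st) s := by
  cases o with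
  | birth s' T P Q =>
    have hne : s ≠ s' := by simpa [FrOp.sheets] using hs
    refine ⟨fun x => ?_, fun _ => rfl, rfl⟩
    simp [FrOp.next, FrState.ow, hne]
  | death s' T P Q =>
    have hne : s ≠ s' := by simpa [FrOp.sheets] using hs
    refine ⟨fun x => ?_, fun _ => rfl, rfl⟩
    simp [FrOp.next, FrState.ow, hne]
  | rewrite s' ow' tw' old new pl A =>
    have hne : s ≠ s' := by simpa [FrOp.sheets] using hs
    refine ⟨fun x => ?_, fun a => ?_, ?_⟩
    · simp [FrOp.next, FrState.ow, hne]
    · simp [FrOp.next, FrState.tw, hne]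
    · ext a
      simp only [FrState.hs, FrOp.next, mem_filter, mem_univ, true_and, mem_union, mem_image,
        Prod.mk.injEq]
      constructor
      · rintro (⟨h, _⟩ | ⟨a', _, h, _⟩)
        · exact h
        · exact absurd h.symm hne
      · intro h
        exact Or.inl ⟨h, fun h' => hne h'.1⟩
  | exch s1 s2 Y P =>
    have hne : s ≠ s1 ∧ s ≠ s2 := by simpa [FrOp.sheets] using hs
    obtain ⟨h1, h2⟩ := hne
    refine ⟨fun x => ?_, fun a => ?_, ?_⟩
    · simp [FrOp.next, FrState.ow, h1, h2]
    · simp [FrOp.next, FrState.tw, h1, h2]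
    · ext a
      rw [get_mem_hs, get_mem_hs]
      simp only [FrOp.next, mem_filter, mem_union, mem_image, Prod.mk.injEq]
      constructor
      · rintro (⟨h, _⟩ | ⟨p, ⟨hp, _⟩, hsw, hpa⟩)
        · exact h
        · have hp1 : p.1 = s := by
            by_cases e1 : p.1 = s1
            · rw [if_pos e1] at hsw
              exact absurd hsw.symm h2
            · rw [if_neg e1] at hsw
              by_cases e2 : p.1 = s2
              · rw [if_pos e2] at hsw
                exact absurd hsw.symm h1
              · rw [if_neg e2] at hsw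
                exact hsw
          have : p = (s, a) := Prod.ext hp1 hpa
          rw [← this]
          exact hp
      · intro h
        by_cases hY : (pat a).out ⊆ Y
        · exact Or.inr ⟨(s, a), ⟨h, hY⟩, by simp [h1, h2], rfl⟩
        · exact Or.inl ⟨h, hY⟩

theorem get_run_sameOn (pat : HI → FrPatch Ω ε) (l : List (FrOp PP SH Λ HI))
    (st : FrState PP SH Λ HI) (s : SH) (hs : ∀ o ∈ l, s ∉ o.sheets) :
    st.SameOn (frRun pat l st) s := by
  induction l generalizing st with
  | nil => exact get_sameOn_refl st s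
  | cons o l ih =>
    exact get_sameOn_trans (get_next_sameOn pat o st s (hs o (List.mem_cons_self ..)))
      (ih (o.next pat st) fun o' ho' => hs o' (List.mem_cons_of_mem _ ho'))

/-- FRAME RULE: a property of untouched sheets is preserved -/
theorem get_trip_frame {pat : HI → FrPatch Ω ε} {δ : ℝ} {b : ℕ}
    {pre post : FrState PP SH Λ HI → Prop} {l : List (FrOp PP SH Λ HI)}
    (h : GeTrip pat δ b pre l post) (T : Finset SH) (hT : ∀ o ∈ l, o.sheets ⊆ T)
    (Q : FrState PP SH Λ HI → Prop)
    (hQ : ∀ st st' : FrState PP SH Λ HI, (∀ s, s ∉ T → st.SameOn st' s) → Q st → Q st') :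
    GeTrip pat δ b (fun st => pre st ∧ Q st) l (fun st => post st ∧ Q st) := by
  rintro st ⟨hp, hq⟩
  obtain ⟨h1, h2⟩ := h st hp
  exact ⟨h1, h2, hQ st _ (fun s hs => get_run_sameOn pat l st s fun o ho hso => hs (hT o ho hso)) hq⟩

/-- the rule only looks at one sheet -/
theorem get_rule_of_sameOn (E : GeEnv Λ HI Ω ε δ) (lv : GeLvl PP) {st st' : FrState PP SH Λ HI} {s : SH}
    (h : st.SameOn st' s) {own : Λ → PP} (hr : E.Rule lv st s own) : E.Rule lv st' s own :=
  ⟨fun x => (h.1 x).trans (hr.1 x), fun a => by rw [h.2.2]; exact hr.2.1 a,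
    fun a ha => (h.2.1 a).trans (hr.2.2 a ha)⟩

/-- the rule only depends on the values of the owner map -/
theorem get_rule_congr (E : GeEnv Λ HI Ω ε δ) (lv : GeLvl PP) {st : FrState PP SH Λ HI} {s : SH}
    {own own' : Λ → PP} (h : ∀ x, own x = own' x) (hr : E.Rule lv st s own) : E.Rule lv st s own' := by
  have : own = own' := funext h
  rw [← this]
  exact hr

/-- a sheet with at most two owners near every node has no holes -/
theorem get_no_hole (E : GeEnv Λ HI Ω ε δ) (lv : GeLvl PP) (own : Λ → PP) (a : HI)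
    (h : (E.adj lv own (E.ctr a)).card ≤ 2) : ¬ E.IsHole lv own a := by
  intro hh
  have := hh.2.2.1
  omega

/-- a uniform sheet without holes is a rule frame -/
theorem get_rule_const (E : GeEnv Λ HI Ω ε δ) (lv : GeLvl PP) (st : FrState PP SH Λ HI) (s : SH) (P : PP)
    (h1 : ∀ x, st.ow s x = P) (h2 : st.hs s = ∅) : E.Rule lv st s fun _ => P := by
  have hno : ∀ a, ¬ E.IsHole lv (fun _ => P) a := by
    intro a
    refine get_no_hole E lv _ a ?_
    have h3 : E.adj lv (fun _ => P) (E.ctr a) ⊆ {P} := by
      unfold GeEnv.adj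
      exact Finset.image_subset_iff.2 fun x _ => Finset.mem_singleton_self P
    have h4 := Finset.card_le_card h3
    rw [Finset.card_singleton] at h4
    omega
  refine ⟨h1, fun a => ?_, fun a ha => absurd ha (hno a)⟩
  rw [h2]
  exact ⟨fun h => absurd h (Finset.notMem_empty a), fun h => absurd h (hno a)⟩

/-- number of costly operations of a concatenation -/
theorem get_costly_append (l l' : List (FrOp PP SH Λ HI)) (P : PP) :
    frCostly (l ++ l') P = frCostly l P + frCostly l' P := by
  unfold frCostly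
  rw [List.filter_append, List.length_append]

theorem get_costly_le_length (l : List (FrOp PP SH Λ HI)) (P : PP) : frCostly l P ≤ l.length := by
  unfold frCostly
  exact List.length_filter_le _ _

/-- a party which is in no participant set has no costly operation -/
theorem get_costly_eq_zero (l : List (FrOp PP SH Λ HI)) (P : PP) (h : ∀ o ∈ l, P ∉ o.part) :
    frCostly l P = 0 := by
  unfold frCostly
  rw [List.length_eq_zero_iff, List.filter_eq_nil_iff]
  intro o ho
  simp only [decide_eq_true_eq]
  intro hc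
  apply h o ho
  cases o <;> simp_all [FrOp.costly, FrOp.part]

end Claimed.Agent.R296
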