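import Claimed.Agent.R296.TopDefs
import Claimed.Prelude.Def_0474

/-!
# Row 296, paper 2 (polynomial PEPS): the model, its geometry, and the statements of Sections 1-3

* `GModel q J Δ L` : the data and hypotheses of the frozen statement `S0546`;
* `gpt`, `enl`, `sqr` : lattice coordinates, physical enlargement of a set, physical sample of a square;
* `GModel.S`, `GModel.I`, `GModel.CI` : entropy, mutual information, conditional mutual information of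
  the ground state;
* the section-level statements as `Prop`s (`GAreaStmt`, `GCoarseStmt`, `GCellStmt`, `GResetStmt`,
  `GAngularStmt`, `GPatchStmt`).  Precise informal versions: `Notes/P2S01_03.lean`.
-/

set_option autoImplicit false

namespace Claimed.Agent.R296

open Matrix

/-- sites of the `L × L` grid -/
abbrev GSite (L : ℕ) : Type := Fin L × Fin L

/-- configurations of the grid -/
abbrev GCfg (q L : ℕ) : Type := GSite L → Fin q

/-- data and hypotheses of `S0546` -/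
structure GModel (q : ℕ) [NeZero q] (J Δ : ℝ) (L : ℕ) where
  hv : GSite L → Matrix (GCfg q L) (GCfg q L) ℂ
  he : Claims.C0474.GridEdge L → Matrix (GCfg q L) (GCfg q L) ℂ
  hvJ : ∀ v, Claims.C0474.HermNormLE (Claims.C0474.embedAt {v} (hv v)) J
  heJ : ∀ e, Claims.C0474.HermNormLE (Claims.C0474.embedAt e.support (he e)) J
  E₀ : ℝ
  Ω : GCfg q L → ℂ
  nrm : star Ω ⬝ᵥ Ω = 1
  eig : Claims.C0474.gridHamiltonian L q hv he *ᵥ Ω = (E₀ : ℂ) • Ω
  gap : Claims.C0474.IsPSD (Claims.C0474.gridHamiltonian L q hv he - (E₀ : ℂ) • 1 -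
      (Δ : ℂ) • (1 - vecMulVec Ω (star Ω)))

namespace GModel

variable {q : ℕ} [NeZero q] {J Δ : ℝ} {L : ℕ}

/-- the Hamiltonian -/
noncomputable def H (M : GModel q J Δ L) : Matrix (GCfg q L) (GCfg q L) ℂ :=
  Claims.C0474.gridHamiltonian L q M.hv M.he

/-- entropy of the ground state on a region -/
noncomputable def S (M : GModel q J Δ L) (A : Finset (GSite L)) : ℝ :=
  ent (io := fun _ : GSite L => Fin q) (pureOp M.Ω) A

/-- mutual information of the ground state -/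
noncomputable def I (M : GModel q J Δ L) (A C : Finset (GSite L)) : ℝ :=
  M.S A + M.S C - M.S (A ∪ C)

/-- conditional mutual information `I(A:C|B)` of the ground state -/
noncomputable def CI (M : GModel q J Δ L) (A C B : Finset (GSite L)) : ℝ :=
  M.S (A ∪ B) + M.S (B ∪ C) - M.S B - M.S (A ∪ B ∪ C)

theorem I_eq_minfo (M : GModel q J Δ L) (A C : Finset (GSite L)) :
    M.I A C = minfo (io := fun _ : GSite L => Fin q) (pureOp M.Ω) A C := rfl

theorem CI_eq_cminfo (M : GModel q J Δ L) (A C B : Finset (GSite L)) :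
    M.CI A C B = cminfo (io := fun _ : GSite L => Fin q) (pureOp M.Ω) A C B := rfl

end GModel

section Geometry

variable {L : ℕ}

/-- lattice coordinates of a grid site -/
def gpt (x : GSite L) : ℤ × ℤ := (((x.1 : ℕ) : ℤ), ((x.2 : ℕ) : ℤ))

/-- sup distance of two grid sites -/
def gd (x y : GSite L) : ℤ := dInf (gpt x) (gpt y)

/-- sup distance of a grid site from a point of the plane -/
noncomputable def gdR (x : GSite L) (z : ℝ × ℝ) : ℝ :=
  max |(((x.1 : ℕ) : ℝ)) - z.1| |(((x.2 : ℕ) : ℝ)) - z.2|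

/-- physical sample of the ambient enlargement `A^{+r}` -/
noncomputable def enl (A : Finset (GSite L)) (r : ℝ) : Finset (GSite L) :=
  Finset.univ.filter fun y => ∃ x ∈ A, ((gd x y : ℤ) : ℝ) ≤ r

/-- physical sample `X(r)` of the closed square of radius `r` about `z` -/
noncomputable def sqr (z : ℝ × ℝ) (r : ℝ) : Finset (GSite L) :=
  Finset.univ.filter fun x => gdR x z ≤ r

/-- number of grid edges with exactly one end point in `A` -/
noncomputable def gbd (A : Finset (GSite L)) : ℕ :=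
  (Finset.univ.filter fun e : Claims.C0474.GridEdge L => ¬ (e.1.1 ∈ A ↔ e.1.2 ∈ A)).card

/-- a closed integer rectangle `[a.1, b.1] × [a.2, b.2]` -/
def InRect (r : (ℤ × ℤ) × (ℤ × ℤ)) (p : ℤ × ℤ) : Prop :=
  r.1.1 ≤ p.1 ∧ p.1 ≤ r.2.1 ∧ r.1.2 ≤ p.2 ∧ p.2 ≤ r.2.2

/-- the cell with index `k` of the grid of side `s` anchored at `g` (half-closed integer box) -/
def InCell (g : ℤ × ℤ) (s : ℤ) (k p : ℤ × ℤ) : Prop :=
  g.1 + s * k.1 ≤ p.1 ∧ p.1 < g.1 + s * (k.1 + 1) ∧ g.2 + s * k.2 ≤ p.2 ∧ p.2 < g.2 + s * (k.2 + 1)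

end Geometry

section Statements

variable (q : ℕ) [NeZero q] (J Δ : ℝ)

/-- paper 2, Proposition 1.1 (`prop:area-law`), with the constant exposed -/
def GAreaStmt (CA : ℝ) : Prop :=
  ∀ (L : ℕ) (M : GModel q J Δ L) (A : Finset (GSite L)), M.S A ≤ CA * gbd A

/-- paper 2, Proposition 2.1 (`prop:coarse`), with the constants exposed:
`T` is the ambient lattice sample of at most `N0` integer rectangles. -/
def GCoarseStmt (N0 : ℕ) (A0 β C u0 : ℝ) : Prop :=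
  ∀ (L : ℕ) (M : GModel q J Δ L) (u : ℝ), u0 ≤ u →
    ∀ (T : Finset (ℤ × ℤ)) (rect : Fin N0 → (ℤ × ℤ) × (ℤ × ℤ)),
      (∀ p, p ∈ T ↔ ∃ a, InRect (rect a) p) →
      (∀ x ∈ T, ∀ y ∈ T, ((dInf x y : ℤ) : ℝ) ≤ A0 * u) →
      ∀ X E : Finset (GSite L), (∀ x ∈ X, gpt x ∈ T) →
        (∀ e ∈ E, ∀ y ∈ T, u ^ β < ((dInf (gpt e) y : ℤ) : ℝ)) →
        M.I X E ≤ C

/-- paper 2, Lemma 2.2 (`lem:cell-cmi`) in the one-generation form:
`I(G:C|B) ≤ C0 + C1 t` for a cell of side `s`, collar width `t`. -/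
def GCellStmt (β C0 C1 u0 : ℝ) : Prop :=
  ∀ (L : ℕ) (M : GModel q J Δ L) (s t : ℤ) (g k0 : ℤ × ℤ) (KK : Set (ℤ × ℤ)),
    u0 ≤ (s : ℝ) → (s : ℝ) ^ β < (t : ℝ) → 2 * t ≤ s → k0 ∉ KK →
    ∀ G B Cc : Finset (GSite L),
      (∀ x, x ∈ G ↔ InCell g s k0 (gpt x)) →
      (∀ x, x ∈ B ↔ ∃ k ∈ KK, InCell g s k (gpt x)) →
      Disjoint Cc (B ∪ G) →
      (∀ x ∈ Cc, ∀ p, InCell g s k0 p → (s : ℝ) ^ β < ((dInf (gpt x) p : ℤ) : ℝ)) →
      M.CI G Cc B ≤ C0 + C1 * t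

/-- paper 2, Lemma 2.3 (`lem:reset`) -/
def GResetStmt (p Cp : ℝ) (L0 : ℕ) : Prop :=
  ∀ (L : ℕ), L0 ≤ L → ∀ (M : GModel q J Δ L) (b : ℝ), 0 ≤ b →
    ∀ R Cc R0 C0 : Finset (GSite L), Disjoint R Cc → R0 ⊆ R → C0 ⊆ Cc → M.I R Cc ≤ b →
      (∀ x ∈ R0, ∀ y, y ∉ R → Cp * (1 + b + Real.log L) < ((gd x y : ℤ) : ℝ)) →
      (∀ x ∈ C0, ∀ y, y ∉ Cc → Cp * (1 + b + Real.log L) < ((gd x y : ℤ) : ℝ)) →
      M.I R0 C0 ≤ (L : ℝ) ^ (-p)

/-- paper 2, Proposition 2.4 (`prop:angular`).  The separation hypothesis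
`dist(x,E) ≥ a max(s_min, min(n, d_V(x)))` is written without infimum:
`a τ ≤ dist(x,e)` for every `τ ≤ n` with `τ ≤ |x - v|` for all marked points `v`. -/
def GAngularStmt (a A0 : ℝ) (m0 : ℕ) (p D : ℝ) (L0 : ℕ) : Prop :=
  ∀ (L : ℕ), L0 ≤ L → ∀ (M : GModel q J Δ L) (VV : Finset (ℝ × ℝ)), VV.card ≤ m0 →
    ∀ (X E : Finset (GSite L)) (n : ℝ), D * Real.log L ≤ n → n ≤ A0 * L →
      (∀ x ∈ X, ∀ y ∈ X, ((gd x y : ℤ) : ℝ) ≤ A0 * n) →
      (∀ x ∈ X, ∀ e ∈ E, a * (D * Real.log L) ≤ ((gd x e : ℤ) : ℝ)) →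
      (∀ x ∈ X, ∀ e ∈ E, ∀ τ : ℝ, τ ≤ n → (∀ v ∈ VV, τ ≤ gdR x v) →
        a * τ ≤ ((gd x e : ℤ) : ℝ)) →
      M.I X E ≤ (L : ℝ) ^ (-p)

/-- paper 2, Proposition 3.1 (`prop:patch`), with a flat index for the cylinder terms -/
def GPatchStmt (B0 p C c : ℝ) : Prop :=
  ∀ (L : ℕ), 2 ≤ L → ∀ (M : GModel q J Δ L) (z : ℝ × ℝ) (u : ℝ), 0 < u → u ≤ B0 * Real.log L →
    ∃ N : ℕ, (N : ℝ) ≤ C * (L : ℝ) ^ c ∧
      ∃ (r : Fin N → ℝ)
        (v : ∀ k : Fin N, CfgOn (fun _ : GSite L => Fin q) (sqr z (r k)) → ℂ),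
        (∀ k, u ≤ r k ∧ r k ≤ 2 * u) ∧
        (∀ k, star (v k) ⬝ᵥ v k = 1) ∧
        (∀ k k', k ≠ k' →
          emb (io := fun _ : GSite L => Fin q) (sqr z (r k)) (pureOp (v k)) *
            emb (io := fun _ : GSite L => Fin q) (sqr z (r k')) (pureOp (v k')) = 0) ∧
        ∑ σ, ‖(M.Ω - (∑ k, emb (io := fun _ : GSite L => Fin q) (sqr z (r k))
            (pureOp (v k))) *ᵥ M.Ω) σ‖ ^ 2 ≤ ((L : ℝ) ^ (-p)) ^ 2

end Statements

end Claimed.Agent.R296
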