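import Claimed.Agent.R296.P2.PatchOpt

/-!
# Row 296, paper 2, Proposition 3.1: head/tail splitting and the first-head expansion (package P2-PT-EXP)

`F_j = σ_j^{a_j/2}` (inverse filter), `Π_j` = spectral projection of `x_j` onto eigenvalues `≥ b`, `F_j^h = F_j Π_j`, `F_j^t = F_j (1 - Π_j)`;
`rank Π_j ≤ 1/b`, `‖F_j^t‖ ≤ (2b)^{a_j/2}`;
`F_0 ⋯ F_{m-1} = ∑_j F_0^t ⋯ F_{j-1}^t F_j^h F_{j+1} ⋯ F_{m-1} + F_0^t ⋯ F_{m-1}^t`.
Output: local matrices `G_j` on `Y j` of rank `≤ 1/b`, vectors `w_j` and a remainder.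
-/

set_option autoImplicit false
set_option linter.unusedSectionVars false
set_option linter.unusedDecidableInType false
set_option linter.unusedVariables false

namespace Claimed.Agent.R296

open Matrix
open scoped MatrixOrder Matrix.Norms.L2Operator ComplexOrder

variable {s : Type} [DecidableEq s] [Fintype s] {io : s → Type}
  [∀ x, Fintype (io x)] [∀ x, DecidableEq (io x)]

/-- head/tail splitting of one inverse filter -/
theorem pt_head_tail (A : Finset s) {x : Matrix (CfgOn io A) (CfgOn io A) ℂ}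
    (hx : x ∈ bf_Den 0 1) {b : ℝ} (hb : 0 < b) {r : ℝ} (hr : 0 ≤ r) :
    ∃ Hd Tl : Matrix (CfgOn io A) (CfgOn io A) ℂ,
      hpow (x + (b : ℂ) • 1) (1 * ((r / 2 : ℝ) : ℂ)) = Hd + Tl ∧ (Hd.rank : ℝ) ≤ 1 / b ∧
      ∀ v : Cfg io → ℂ, bf_nsq (emb A Tl *ᵥ v) ≤ (2 * b) ^ r * bf_nsq v := by
  classical
  obtain ⟨U, ξ, hU, hU', hξ0, hξs, rfl⟩ := bf_den_exists_diag hx
  have hy : ∀ l, 0 < ξ l + b := fun l => by linarith [hξ0 l]
  let dh : CfgOn io A → ℝ := fun l => if b ≤ ξ l then (ξ l + b) ^ (r / 2) else 0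
  let dt : CfgOn io A → ℝ := fun l => if b ≤ ξ l then 0 else (ξ l + b) ^ (r / 2)
  refine ⟨U * diagonal (fun l => (dh l : ℂ)) * Uᴴ, U * diagonal (fun l => (dt l : ℂ)) * Uᴴ,
    ?_, ?_, ?_⟩
  · rw [one_mul, pt_add_smul_diag hU', pt_hpow_diag hU hU' _ hy, ← Matrix.add_mul,
      ← Matrix.mul_add, diagonal_add]
    congr 3
    funext l
    by_cases h : b ≤ ξ l <;> simp [dh, dt, h]
  · have h1 : (U * diagonal (fun l => (dh l : ℂ)) * Uᴴ).rank ≤
        (Finset.univ.filter fun l => b ≤ ξ l).card := by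
      refine (rank_mul_le_left _ _).trans ((rank_mul_le_right _ _).trans ?_)
      rw [rank_diagonal, Fintype.card_subtype]
      refine Finset.card_le_card fun l hl => ?_
      rw [Finset.mem_filter] at hl ⊢
      refine ⟨Finset.mem_univ _, ?_⟩
      by_contra hcon
      exact hl.2 (by simp [dh, hcon])
    have h2 : ((Finset.univ.filter fun l => b ≤ ξ l).card : ℝ) * b ≤ 1 := by
      have h3 := Finset.card_nsmul_le_sum (Finset.univ.filter fun l => b ≤ ξ l) ξ b
        (fun l hl => (Finset.mem_filter.1 hl).2)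
      rw [nsmul_eq_mul] at h3
      refine h3.trans ?_
      rw [← hξs]
      exact Finset.sum_le_sum_of_subset_of_nonneg (Finset.subset_univ _) fun l _ _ => hξ0 l
    rw [le_div_iff₀ hb]
    refine le_trans ?_ h2
    exact mul_le_mul_of_nonneg_right (by exact_mod_cast h1) hb.le
  · intro v
    rw [bf_nsq_mulVec, ← emb_conjTranspose, ← emb_mul,
      (isHermitian_isometry_conj U (isHermitian_diagonal_ofReal _)).eq, bf_diag_mul hU]
    have e2 : (fun i => (dt i : ℂ) * (dt i : ℂ)) = fun i => ((dt i * dt i : ℝ) : ℂ) := by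
      funext i
      push_cast
      rfl
    rw [e2]
    refine (pt_quad_diag A v hU hU' (fun i => dt i * dt i) (c₁ := 0) (fun i => mul_self_nonneg _)
      (fun i => ?_)).2
    by_cases h : b ≤ ξ i
    · simp only [dt, h, if_true, mul_zero]
      exact Real.rpow_nonneg (by linarith) _
    · simp only [dt, h, if_false]
      rw [← Real.rpow_add (hy i), add_halves]
      exact Real.rpow_le_rpow (hy i).le (by linarith [not_le.1 h]) hr

theorem pt_expand {Y : ℕ → Finset s} (hY : Monotone Y) {a : ℕ → ℝ} (ha : ∀ j, 0 ≤ a j) {b : ℝ}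
    (hb : 0 < b) (Ω : Cfg io → ℂ) (m : ℕ) {x : bf_Tup io Y} (hx : pt_Feas Y x) :
    ∃ (G : ∀ j, Matrix (CfgOn io (Y j)) (CfgOn io (Y j)) ℂ) (w : ℕ → Cfg io → ℂ)
      (rem : Cfg io → ℂ),
      (∀ j, ((G j).rank : ℝ) ≤ 1 / b) ∧
      Ω = ∑ j ∈ Finset.range m, emb (Y j) (G j) *ᵥ w j + rem ∧
      bf_nsq rem ≤ (2 * b) ^ (∑ j ∈ Finset.range m, a j) * bf_nsq (pt_vec Y a b Ω m x) := by
  choose Hd Tl h1 h2 h3 using fun j => pt_head_tail (Y j) (hx j) hb (ha j)
  set F := bf_Fz Y a (pt_sig Y b x) 1 with hFdef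
  let Ft : ℕ → Matrix (Cfg io) (Cfg io) ℂ := fun j => emb (Y j) (Tl j)
  have hF : ∀ j, F j = emb (Y j) (Hd j) + Ft j := by
    intro j
    rw [hFdef]
    unfold bf_Fz pt_sig
    rw [h1, emb_add]
  have hsupp : ∀ j, SuppIn (Y j) (bf_ges Ft 0 j) := fun j =>
    bf_ges_suppIn fun k _ hk => SuppIn.mono (hY (by omega)) (⟨Tl k, rfl⟩ : SuppIn (Y k) (Ft k))
  choose K hK using hsupp
  have hexp : ∀ (m : ℕ) (φ : Cfg io → ℂ), ∃ w : ℕ → Cfg io → ℂ,
      bf_ges F 0 m *ᵥ φ =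
        ∑ j ∈ Finset.range m, emb (Y j) (K j * Hd j) *ᵥ w j + bf_ges Ft 0 m *ᵥ φ := by
    intro m
    induction m with
    | zero => intro φ; exact ⟨fun _ => 0, by simp⟩
    | succ m ih =>
      intro φ
      obtain ⟨w, hw⟩ := ih (F m *ᵥ φ)
      refine ⟨Function.update w m φ, ?_⟩
      rw [bf_ges_succ, zero_add, ← mulVec_mulVec, hw, Finset.sum_range_succ, Function.update_self]
      have e1 : ∑ j ∈ Finset.range m, emb (Y j) (K j * Hd j) *ᵥ Function.update w m φ j =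
          ∑ j ∈ Finset.range m, emb (Y j) (K j * Hd j) *ᵥ w j := by
        refine Finset.sum_congr rfl fun j hj => ?_
        rw [Function.update_of_ne (Finset.mem_range.1 hj).ne]
      have e2 : bf_ges Ft 0 m *ᵥ (F m *ᵥ φ) =
          emb (Y m) (K m * Hd m) *ᵥ φ + bf_ges Ft 0 (m + 1) *ᵥ φ := by
        rw [bf_ges_succ, zero_add, emb_mul, ← hK, hF, add_mulVec, mulVec_add, mulVec_mulVec,
          mulVec_mulVec]
      rw [e1, e2, add_assoc]
  have hrem : ∀ (m : ℕ) (φ : Cfg io → ℂ),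
      bf_nsq (bf_ges Ft 0 m *ᵥ φ) ≤ (2 * b) ^ (∑ j ∈ Finset.range m, a j) * bf_nsq φ := by
    intro m
    induction m with
    | zero => intro φ; simp
    | succ m ih =>
      intro φ
      rw [bf_ges_succ, zero_add, ← mulVec_mulVec, Finset.sum_range_succ,
        Real.rpow_add (by linarith), mul_assoc]
      refine (ih _).trans ?_
      exact mul_le_mul_of_nonneg_left (h3 m φ) (Real.rpow_nonneg (by linarith) _)
  obtain ⟨w, hw⟩ := hexp m (pt_vec Y a b Ω m x)
  refine ⟨fun j => K j * Hd j, w, bf_ges Ft 0 m *ᵥ pt_vec Y a b Ω m x, fun j => ?_, ?_, hrem m _⟩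
  · refine le_trans ?_ (h2 j)
    exact_mod_cast rank_mul_le_right _ _
  · rw [← hw]
    exact (pt_inverse a hb Ω m hx).symm

end Claimed.Agent.R296
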