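import Claimed.Agent.R296.BufBasic

/-!
# Row 296, paper 2, Proposition 3.1: orthogonalisation of nested cylinders (package P2-PT-ORTH)

Given nested regions `Y 0 ⊆ Y 1 ⊆ ⋯` and local matrices `G_j` on `Y j` of rank `≤ r`, there is a family of at most `m r` pairwise orthogonal
cylinder projections `emb (Y (lev k)) |v_k⟩⟨v_k|` whose sum `P` fixes every vector `emb (Y j) (G_j) w`, `j < m`.
Induction on `m`: `E_{m} = W ⊗ H_{off}` with `W ⊆ H_{Y m}` the span of the earlier cylinders (nesting), `S̃ = (1 - P_W) range(G_m)`,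
orthonormal basis of `S̃`.   Consequence: `‖Ω - P Ω‖ ≤ ‖rem‖` whenever `Ω = ∑_j emb (Y j) (G_j) w_j + rem`.
-/

set_option autoImplicit false
set_option linter.unusedSectionVars false
set_option linter.unusedDecidableInType false
set_option linter.unusedVariables false

namespace Claimed.Agent.R296

open Matrix
open scoped MatrixOrder Matrix.Norms.L2Operator ComplexOrder

section Gen

variable {n : Type} [Fintype n] [DecidableEq n]

theorem pto_pureOp_herm (v : n → ℂ) : (pureOp v)ᴴ = pureOp v := by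
  ext i j
  simp [pureOp, Matrix.conjTranspose_apply, Matrix.vecMulVec_apply, mul_comm]

theorem pto_pureOp_mul (u v : n → ℂ) :
    pureOp u * pureOp v = (star u ⬝ᵥ v) • vecMulVec u (star v) := by
  unfold pureOp
  rw [vecMulVec_mul_vecMulVec, vecMulVec_smul]

theorem pto_pureOp_idem {v : n → ℂ} (hv : star v ⬝ᵥ v = 1) : pureOp v * pureOp v = pureOp v := by
  rw [pto_pureOp_mul, hv, one_smul]
  rfl

/-- an orthonormal basis of the range of a matrix -/
theorem pto_onb_range (M : Matrix n n ℂ) :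
    ∃ (κ : Type) (_ : Fintype κ) (_ : DecidableEq κ) (u : κ → n → ℂ), Fintype.card κ = M.rank ∧
      (∀ i k, star (u i) ⬝ᵥ u k = if i = k then 1 else 0) ∧ (∀ i, ∃ c, u i = M *ᵥ c) ∧
      (∑ i, pureOp (u i)) * M = M := by
  classical
  have hB : (M * Mᴴ).IsHermitian := isHermitian_mul_conjTranspose_self M
  set U : Matrix n n ℂ := (hB.eigenvectorUnitary : Matrix n n ℂ) with hUdef
  set lam : n → ℝ := hB.eigenvalues with hlam
  have hU : Uᴴ * U = 1 := eigU_conjTranspose_mul hB
  have hU' : U * Uᴴ = 1 := eigU_mul_conjTranspose hB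
  have hspec : M * Mᴴ = U * diagonal (fun i => (lam i : ℂ)) * Uᴴ := spectral_plain hB
  refine ⟨{i // lam i ≠ 0}, inferInstance, inferInstance, fun i a => U a i.1, ?_, ?_, ?_, ?_⟩
  · rw [← rank_self_mul_conjTranspose M, hB.rank_eq_card_non_zero_eigs]
  · intro i k
    have h1 : star (fun a => U a i.1) ⬝ᵥ (fun a => U a k.1) = (Uᴴ * U) i.1 k.1 := by
      simp only [dotProduct, Matrix.mul_apply, conjTranspose_apply, Pi.star_apply]
    rw [h1, hU, Matrix.one_apply]
    simp only [Subtype.ext_iff]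
  · intro i
    have h1 : (M * Mᴴ) * U = U * diagonal (fun i => (lam i : ℂ)) := by
      rw [hspec, Matrix.mul_assoc, hU, Matrix.mul_one]
    have h2 : (M * Mᴴ) *ᵥ (fun a => U a i.1) = (lam i.1 : ℂ) • (fun a => U a i.1) := by
      funext a
      have := congrFun (congrFun h1 a) i.1
      rw [mul_diagonal, Matrix.mul_apply] at this
      simp only [mulVec, dotProduct, Pi.smul_apply, smul_eq_mul]
      rw [this, mul_comm]
    refine ⟨(lam i.1 : ℂ)⁻¹ • (Mᴴ *ᵥ (fun a => U a i.1)), ?_⟩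
    rw [mulVec_smul, mulVec_mulVec, h2, smul_smul, inv_mul_cancel₀, one_smul]
    exact_mod_cast i.2
  · -- closed form of the projection
    have hP : ∑ i : {i // lam i ≠ 0}, pureOp (fun a => U a i.1) =
        U * diagonal (fun i => if lam i ≠ 0 then (1 : ℂ) else 0) * Uᴴ := by
      ext a c
      rw [Matrix.sum_apply, Matrix.mul_apply]
      simp only [mul_diagonal, conjTranspose_apply, pureOp, vecMulVec_apply, Pi.star_apply]
      rw [← Finset.sum_subtype (Finset.univ.filter fun i => lam i ≠ 0) (by simp)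
        (fun i => U a i * star (U c i)), Finset.sum_filter]
      refine Finset.sum_congr rfl fun i _ => ?_
      by_cases h : lam i ≠ 0 <;> simp [h]
    set P := ∑ i : {i // lam i ≠ 0}, pureOp (fun a => U a i.1) with hPdef
    have hPB : P * (M * Mᴴ) = M * Mᴴ := by
      rw [hP, hspec]
      calc U * diagonal (fun i => if lam i ≠ 0 then (1 : ℂ) else 0) * Uᴴ *
            (U * diagonal (fun i => (lam i : ℂ)) * Uᴴ)
          = U * (diagonal (fun i => if lam i ≠ 0 then (1 : ℂ) else 0) * (Uᴴ * U) *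
              diagonal (fun i => (lam i : ℂ))) * Uᴴ := by simp only [Matrix.mul_assoc]
        _ = U * diagonal (fun i => (lam i : ℂ)) * Uᴴ := by
            rw [hU, Matrix.mul_one, diagonal_mul_diagonal]
            congr 3
            funext i
            by_cases h : lam i = 0 <;> simp [h]
    have h3 : ((1 - P) * M) * ((1 - P) * M)ᴴ = 0 := by
      rw [conjTranspose_mul, ← Matrix.mul_assoc, Matrix.mul_assoc (1 - P) M Mᴴ, Matrix.sub_mul,
        Matrix.one_mul, hPB, sub_self, Matrix.zero_mul]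
    have h4 := self_mul_conjTranspose_eq_zero.1 h3
    rw [Matrix.sub_mul, Matrix.one_mul, sub_eq_zero] at h4
    exact h4.symm

/-- extension of a projection by an orthonormal family so that the range of `G` is covered -/
theorem pto_extend {Pl : Matrix n n ℂ} (G : Matrix n n ℂ) (hP : Pl.IsHermitian)
    (hP2 : Pl * Pl = Pl) :
    ∃ (κ : Type) (_ : Fintype κ) (_ : DecidableEq κ) (u : κ → n → ℂ), Fintype.card κ ≤ G.rank ∧
      (∀ i k, star (u i) ⬝ᵥ u k = if i = k then 1 else 0) ∧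
      (∀ i, Pl * pureOp (u i) = 0) ∧ (∀ i, pureOp (u i) * Pl = 0) ∧
      (Pl + ∑ i, pureOp (u i)) * G = G := by
  obtain ⟨κ, i1, i2, u, hcard, hon, hrange, hfix⟩ := pto_onb_range ((1 - Pl) * G)
  have h0 : Pl * (1 - Pl) = 0 := by rw [Matrix.mul_sub, Matrix.mul_one, hP2, sub_self]
  have h1 : ∀ i, Pl * pureOp (u i) = 0 := by
    intro i
    obtain ⟨c, hc⟩ := hrange i
    have : Pl *ᵥ u i = 0 := by
      rw [hc, mulVec_mulVec, ← Matrix.mul_assoc, h0, Matrix.zero_mul, zero_mulVec]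
    unfold pureOp
    rw [mul_vecMulVec, this, zero_vecMulVec]
  have h2 : ∀ i, pureOp (u i) * Pl = 0 := by
    intro i
    have := congrArg conjTranspose (h1 i)
    rwa [conjTranspose_mul, pto_pureOp_herm, hP.eq, conjTranspose_zero] at this
  refine ⟨κ, i1, i2, u, ?_, hon, h1, h2, ?_⟩
  · rw [hcard]
    exact rank_mul_le_right _ _
  · have h3 : (∑ i, pureOp (u i)) * Pl = 0 := by
      rw [Finset.sum_mul]
      exact Finset.sum_eq_zero fun i _ => h2 i
    have h4 : (∑ i, pureOp (u i)) * G = (1 - Pl) * G := by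
      have e : G = Pl * G + (1 - Pl) * G := by
        rw [← Matrix.add_mul, add_sub_cancel, Matrix.one_mul]
      conv_lhs => rw [e]
      rw [Matrix.mul_add, ← Matrix.mul_assoc, h3, Matrix.zero_mul, zero_add, hfix]
    rw [Matrix.add_mul, h4, ← Matrix.add_mul, add_sub_cancel, Matrix.one_mul]

/-- sums of pairwise orthogonal Hermitian idempotents -/
theorem pto_sum_props {κ : Type} [Fintype κ] [DecidableEq κ] (P : κ → Matrix n n ℂ)
    (h1 : ∀ k, (P k)ᴴ = P k) (h2 : ∀ k, P k * P k = P k)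
    (h3 : ∀ k k', k ≠ k' → P k * P k' = 0) :
    (∑ k, P k)ᴴ = ∑ k, P k ∧ (∀ k, (∑ k, P k) * P k = P k) ∧ (∀ k, P k * (∑ k, P k) = P k) ∧
      (∑ k, P k) * (∑ k, P k) = ∑ k, P k := by
  have a1 : (∑ k, P k)ᴴ = ∑ k, P k := by
    rw [conjTranspose_sum]
    exact Finset.sum_congr rfl fun k _ => h1 k
  have a2 : ∀ k, (∑ k, P k) * P k = P k := by
    intro k
    rw [Finset.sum_mul, Finset.sum_eq_single k (fun k' _ hk => h3 k' k hk)
      (fun h => absurd (Finset.mem_univ k) h), h2]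
  have a3 : ∀ k, P k * (∑ k, P k) = P k := by
    intro k
    rw [Finset.mul_sum, Finset.sum_eq_single k (fun k' _ hk => h3 k k' hk.symm)
      (fun h => absurd (Finset.mem_univ k) h), h2]
  refine ⟨a1, a2, a3, ?_⟩
  conv_lhs => rw [Finset.mul_sum]
  exact Finset.sum_congr rfl fun k _ => a2 k

end Gen

variable {s : Type} [DecidableEq s] [Fintype s] {io : s → Type}
  [∀ x, Fintype (io x)] [∀ x, DecidableEq (io x)]

/-- a cylinder projection of level `< m` -/
def pto_IsCyl (Y : ℕ → Finset s) (m : ℕ) (P : Matrix (Cfg io) (Cfg io) ℂ) : Prop :=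
  ∃ l, l < m ∧ ∃ v : CfgOn io (Y l) → ℂ, star v ⬝ᵥ v = 1 ∧ P = emb (Y l) (pureOp v)

theorem pto_orth_aux [∀ x, Nonempty (io x)] {Y : ℕ → Finset s} (hY : Monotone Y) (r : ℕ)
    (G : ∀ j, Matrix (CfgOn io (Y j)) (CfgOn io (Y j)) ℂ) (hG : ∀ j, (G j).rank ≤ r) (m : ℕ) :
    ∃ (κ : Type) (_ : Fintype κ) (_ : DecidableEq κ) (P : κ → Matrix (Cfg io) (Cfg io) ℂ),
      Fintype.card κ ≤ m * r ∧ (∀ k, pto_IsCyl Y m (P k)) ∧ (∀ k k', k ≠ k' → P k * P k' = 0) ∧
      ∀ j, j < m → (∑ k, P k) * emb (Y j) (G j) = emb (Y j) (G j) := by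
  induction m with
  | zero =>
    exact ⟨Fin 0, inferInstance, inferInstance, fun k => k.elim0, by simp, fun k => k.elim0,
      fun k => k.elim0, fun j hj => absurd hj (Nat.not_lt_zero j)⟩
  | succ m ih =>
    obtain ⟨κ, i1, i2, P, hcard, hcyl, horth, hfix⟩ := ih
    have hherm : ∀ k, (P k)ᴴ = P k := by
      intro k
      obtain ⟨l, _, v, _, hP⟩ := hcyl k
      rw [hP, ← emb_conjTranspose, pto_pureOp_herm]
    have hidem : ∀ k, P k * P k = P k := by
      intro k
      obtain ⟨l, _, v, hv, hP⟩ := hcyl k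
      rw [hP, ← emb_mul, pto_pureOp_idem hv]
    obtain ⟨hSH, hSP, hPS, hS2⟩ := pto_sum_props P hherm hidem horth
    have hsupp : SuppIn (Y m) (∑ k, P k) := by
      refine SuppIn.sum _ fun k _ => ?_
      obtain ⟨l, hl, v, _, hP⟩ := hcyl k
      exact SuppIn.mono (hY hl.le) ⟨_, hP⟩
    obtain ⟨Pl, hPl⟩ := hsupp
    have hPlH : Pl.IsHermitian := emb_injective (Y m) (by rw [emb_conjTranspose, ← hPl, hSH])
    have hPl2 : Pl * Pl = Pl := emb_injective (Y m) (by rw [emb_mul, ← hPl, hS2])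
    obtain ⟨κ', j1, j2, u, hcard', hon, hPu, huP, hcov⟩ := pto_extend (G m) hPlH hPl2
    refine ⟨κ ⊕ κ', inferInstance, inferInstance,
      Sum.elim P (fun i => emb (Y m) (pureOp (u i))), ?_, ?_, ?_, ?_⟩
    · rw [Fintype.card_sum, Nat.succ_mul]
      exact Nat.add_le_add hcard (hcard'.trans (hG m))
    · rintro (k | i)
      · obtain ⟨l, hl, v, hv, hP⟩ := hcyl k
        exact ⟨l, by omega, v, hv, hP⟩
      · exact ⟨m, Nat.lt_succ_self m, u i, by rw [hon, if_pos rfl], rfl⟩
    · rintro (k | i) (k' | i') hne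
      · exact horth k k' fun h => hne (by rw [h])
      · simp only [Sum.elim_inl, Sum.elim_inr]
        rw [← hPS k, Matrix.mul_assoc, hPl, ← emb_mul, hPu, emb_zero, Matrix.mul_zero]
      · simp only [Sum.elim_inl, Sum.elim_inr]
        rw [← hSP k', ← Matrix.mul_assoc, hPl, ← emb_mul, huP, emb_zero, Matrix.zero_mul]
      · simp only [Sum.elim_inr]
        have hii : i ≠ i' := fun h => hne (by rw [h])
        rw [← emb_mul, pto_pureOp_mul, hon, if_neg hii, zero_smul, emb_zero]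
    · intro j hj
      have hsum : ∑ k, Sum.elim P (fun i => emb (Y m) (pureOp (u i))) k =
          emb (Y m) (Pl + ∑ i, pureOp (u i)) := by
        rw [Fintype.sum_sum_type]
        simp only [Sum.elim_inl, Sum.elim_inr]
        rw [emb_add, ← hPl]
        congr 1
        exact (map_sum (embHom (io := io) (Y m)) _ _).symm
      rcases Nat.lt_succ_iff_lt_or_eq.1 hj with hlt | rfl
      · have h5 : (∑ i, pureOp (u i)) * Pl = 0 := by
          rw [Finset.sum_mul]
          exact Finset.sum_eq_zero fun i _ => huP i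
        rw [hsum, emb_add, Matrix.add_mul, ← hPl, hfix j hlt]
        conv_lhs => rw [← hfix j hlt]
        rw [← Matrix.mul_assoc, hPl, ← emb_mul, h5, emb_zero, Matrix.zero_mul, add_zero, ← hPl,
          hfix j hlt]
      · rw [hsum, ← emb_mul, hcov]

theorem pt_orth {Y : ℕ → Finset s} (hY : Monotone Y) (m r : ℕ)
    (G : ∀ j, Matrix (CfgOn io (Y j)) (CfgOn io (Y j)) ℂ) (hG : ∀ j, (G j).rank ≤ r) :
    ∃ (N : ℕ) (lev : Fin N → ℕ) (v : ∀ k : Fin N, CfgOn io (Y (lev k)) → ℂ),
      N ≤ m * r ∧ (∀ k, lev k < m) ∧ (∀ k, star (v k) ⬝ᵥ v k = 1) ∧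
      (∀ k k', k ≠ k' →
        emb (Y (lev k)) (pureOp (v k)) * emb (Y (lev k')) (pureOp (v k')) = 0) ∧
      ∀ j, j < m → ∀ w : Cfg io → ℂ,
        (∑ k, emb (Y (lev k)) (pureOp (v k))) *ᵥ (emb (Y j) (G j) *ᵥ w) = emb (Y j) (G j) *ᵥ w := by
  by_cases hne : ∀ x, Nonempty (io x)
  · obtain ⟨κ, i1, i2, P, hcard, hcyl, horth, hfix⟩ := pto_orth_aux hY r G hG m
    choose lev hlev v hv hP using hcyl
    let e : Fin (Fintype.card κ) ≃ κ := (Fintype.equivFin κ).symm
    refine ⟨Fintype.card κ, fun k => lev (e k), fun k => v (e k), hcard, fun k => hlev (e k),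
      fun k => hv (e k), fun k k' hk => ?_, fun j hj w => ?_⟩
    · rw [← hP, ← hP]
      exact horth _ _ fun h => hk (e.injective h)
    · have h1 : ∑ k, emb (Y (lev (e k))) (pureOp (v (e k))) = ∑ k, P k := by
        rw [← Equiv.sum_comp e P]
        exact Finset.sum_congr rfl fun k _ => (hP (e k)).symm
      rw [h1, mulVec_mulVec, hfix j hj]
  · have hemp : IsEmpty (Cfg io) := by
      rw [isEmpty_pi]
      push Not at hne
      obtain ⟨x, hx⟩ := hne
      exact ⟨x, hx⟩
    exact ⟨0, fun k => k.elim0, fun k => k.elim0, by simp, fun k => k.elim0, fun k => k.elim0,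
      fun k => k.elim0, fun j _ w => Subsingleton.elim _ _⟩

/-- a sum of pairwise orthogonal Hermitian projections `P` satisfies `‖(1 - P) u‖ ≤ ‖u‖` -/
theorem pt_proj_contract {n : Type} [Fintype n] [DecidableEq n] {N : ℕ} (P : Fin N → Matrix n n ℂ)
    (h1 : ∀ k, (P k).IsHermitian) (h2 : ∀ k, P k * P k = P k)
    (h3 : ∀ k k', k ≠ k' → P k * P k' = 0) (u : n → ℂ) :
    bf_nsq (u - (∑ k, P k) *ᵥ u) ≤ bf_nsq u := by
  obtain ⟨hH, -, -, hI⟩ := pto_sum_props P h1 h2 h3
  set S := ∑ k, P k with hS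
  have e1 : u - S *ᵥ u = (1 - S) *ᵥ u := by rw [sub_mulVec, one_mulVec]
  have e2 : (1 - S)ᴴ * (1 - S) = 1 - S := by
    rw [conjTranspose_sub, conjTranspose_one, hH, Matrix.sub_mul, Matrix.mul_sub, Matrix.mul_sub,
      Matrix.one_mul, Matrix.mul_one, Matrix.one_mul, hI]
    abel
  have e3 : bf_nsq (S *ᵥ u) = (bf_ex u S).re := by rw [bf_nsq_mulVec, hH, hI]
  rw [e1, bf_nsq_mulVec, e2, bf_ex_sub, bf_ex_one, Complex.sub_re, Complex.ofReal_re, ← e3]
  linarith [bf_nsq_nonneg (S *ᵥ u)]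

end Claimed.Agent.R296
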