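import Claimed.Agent.R296.P2.PatchGrow
import Claimed.Agent.R296.P2.PatchExpand
import Claimed.Agent.R296.P2.PatchOrth

/-!
# Row 296, paper 2, Proposition 3.1: the abstract patch theorem (package P2-PT-ABS, glue, PROVED by helper189)

No lattice.  Hypotheses: `bf_Hyp` (nested regions, terms inside / outside / split), budget `≤ Δ/1024`, projections `Q_j` of rank `≤ r` carrying all
but `1/16` of `Ω`.  Conclusion: at most `m e^R` pairwise orthogonal cylinder projections whose sum `P` satisfies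
`‖Ω - P Ω‖² ≤ exp (κ (log 2 + (3/4) R₀ - (3/4) R))`, `κ = ∑ a_j`.
Proof: minimiser at `b = e^{-R}` (`pt_exists_opt`), `pt_expand`, `pt_orth` with `r' = ⌊e^R⌋`, `pt_proj_contract`,
`‖rem‖² ≤ (2b)^κ pt_val(b)`, `pt_growth`, `pt_val(e^{-R₀}) ≤ e^{κ R₀}` (`pt_norm_bounds`).
-/

set_option autoImplicit false
set_option linter.unusedSectionVars false

namespace Claimed.Agent.R296

open Matrix
open scoped MatrixOrder Matrix.Norms.L2Operator ComplexOrder

variable {s : Type} [DecidableEq s] [Fintype s] {io : s → Type}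
  [∀ x, Fintype (io x)] [∀ x, DecidableEq (io x)]

theorem ptabs_pureOp_herm {n : Type} (v : n → ℂ) : (pureOp v).IsHermitian := by
  ext i j
  simp [pureOp, Matrix.conjTranspose_apply, Matrix.vecMulVec_apply, mul_comm]

theorem ptabs_pureOp_idem {n : Type} [Fintype n] {v : n → ℂ} (hv : star v ⬝ᵥ v = 1) :
    pureOp v * pureOp v = pureOp v := by
  unfold pureOp
  rw [Matrix.vecMulVec_mul_vecMulVec, hv]
  simp

theorem pt_patch_abs [∀ x, Nonempty (io x)] {I : Type} [Fintype I]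
    {h : I → Matrix (Cfg io) (Cfg io) ℂ} {E₀ Δ : ℝ}
    {Ω : Cfg io → ℂ} {Y : ℕ → Finset s} {a : ℕ → ℝ} {γ : I → ℕ → ℝ} {m : ℕ}
    (H : bf_Hyp h E₀ Δ Ω Y a γ m)
    (hbud : ∑ i, ∑ j ∈ Finset.range m, γ i j * (a j) ^ 2 ≤ Δ / 1024)
    (Q : ∀ j, Matrix (CfgOn io (Y j)) (CfgOn io (Y j)) ℂ) (hQ : ∀ j, (Q j).IsHermitian)
    (hQ2 : ∀ j, Q j * Q j = Q j) (r : ℝ) (hr : ∀ j, j < m → (Q j).trace.re ≤ r)
    (hQΩ : ∀ j, j < m → bf_nsq (emb (Y j) (1 - Q j) *ᵥ Ω) ≤ 1 / 16)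
    (R₀ R : ℝ) (hR₀ : Real.exp (-R₀) * r ≤ 1 / 8) (hR : R₀ ≤ R) :
    ∃ (N : ℕ) (lev : Fin N → ℕ) (v : ∀ k : Fin N, CfgOn io (Y (lev k)) → ℂ),
      (N : ℝ) ≤ m * Real.exp R ∧ (∀ k, lev k < m) ∧ (∀ k, star (v k) ⬝ᵥ v k = 1) ∧
      (∀ k k', k ≠ k' →
        emb (Y (lev k)) (pureOp (v k)) * emb (Y (lev k')) (pureOp (v k')) = 0) ∧
      bf_nsq (Ω - (∑ k, emb (Y (lev k)) (pureOp (v k))) *ᵥ Ω) ≤
        Real.exp ((∑ j ∈ Finset.range m, a j) * (Real.log 2 + 3 / 4 * R₀ - 3 / 4 * R)) := by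
  set κ : ℝ := ∑ j ∈ Finset.range m, a j with hκ
  have ha0 : ∀ j, 0 ≤ a j := fun j => (H.ha0 j).le
  have hb : 0 < Real.exp (-R) := Real.exp_pos _
  have hb0 : 0 < Real.exp (-R₀) := Real.exp_pos _
  obtain ⟨x, hx⟩ := pt_exists_opt Y a hb Ω m
  obtain ⟨x0, hx0⟩ := pt_exists_opt Y a hb0 Ω m
  obtain ⟨G, w, rem, hG, hΩe, hrem⟩ := pt_expand H.mono ha0 hb Ω m hx.1
  have hG' : ∀ j, (G j).rank ≤ ⌊Real.exp R⌋₊ := by
    intro j
    apply Nat.le_floor
    have := hG j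
    rwa [Real.exp_neg, one_div, inv_inv] at this
  obtain ⟨N, lev, v, hN, hlev, hv, horth, hfix⟩ := pt_orth H.mono m ⌊Real.exp R⌋₊ G hG'
  refine ⟨N, lev, v, ?_, hlev, hv, horth, ?_⟩
  · calc (N : ℝ) ≤ ((m * ⌊Real.exp R⌋₊ : ℕ) : ℝ) := by exact_mod_cast hN
      _ = m * (⌊Real.exp R⌋₊ : ℝ) := by push_cast; ring
      _ ≤ m * Real.exp R := by
        apply mul_le_mul_of_nonneg_left (Nat.floor_le (Real.exp_pos R).le) (Nat.cast_nonneg m)
  · set P : Matrix (Cfg io) (Cfg io) ℂ := ∑ k, emb (Y (lev k)) (pureOp (v k)) with hP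
    have e1 : Ω - P *ᵥ Ω = rem - P *ᵥ rem := by
      have e2 : P *ᵥ (∑ j ∈ Finset.range m, emb (Y j) (G j) *ᵥ w j)
          = ∑ j ∈ Finset.range m, emb (Y j) (G j) *ᵥ w j := by
        rw [Matrix.mulVec_sum]
        apply Finset.sum_congr rfl
        intro j hj
        exact hfix j (Finset.mem_range.1 hj) (w j)
      conv_lhs => rw [hΩe]
      rw [Matrix.mulVec_add, e2]
      abel
    have c1 : bf_nsq (rem - P *ᵥ rem) ≤ bf_nsq rem := by
      apply pt_proj_contract (fun k => emb (Y (lev k)) (pureOp (v k)))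
      · intro k
        show (emb (Y (lev k)) (pureOp (v k)))ᴴ = _
        rw [← emb_conjTranspose, (ptabs_pureOp_herm (v k)).eq]
      · intro k
        show emb (Y (lev k)) (pureOp (v k)) * emb (Y (lev k)) (pureOp (v k)) = _
        rw [← emb_mul, ptabs_pureOp_idem (hv k)]
      · exact horth
    rw [e1]
    refine c1.trans (hrem.trans ?_)
    rw [← pt_val_eq hx]
    have hg := pt_growth H hbud Q hQ hQ2 r hr hQΩ R₀ R hR₀ hR
    have hpos : 0 < pt_val Y a Ω m (Real.exp (-R)) := by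
      rw [pt_val_eq hx]
      refine lt_of_lt_of_le ?_ (pt_norm_bounds ha0 hb H.hΩ m hx.1).1
      positivity
    have hpos0 : 0 < pt_val Y a Ω m (Real.exp (-R₀)) := by
      rw [pt_val_eq hx0]
      refine lt_of_lt_of_le ?_ (pt_norm_bounds ha0 hb0 H.hΩ m hx0.1).1
      positivity
    have h0 : Real.log (pt_val Y a Ω m (Real.exp (-R₀))) ≤ κ * R₀ := by
      have := (pt_norm_bounds ha0 hb0 H.hΩ m hx0.1).2
      rw [← pt_val_eq hx0, ← hκ] at this
      have h2 := Real.log_le_log hpos0 this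
      rw [Real.log_rpow hb0, Real.log_exp] at h2
      linarith
    have h1 : pt_val Y a Ω m (Real.exp (-R)) ≤ Real.exp (κ * R₀ + κ / 4 * (R - R₀)) := by
      rw [← Real.log_le_iff_le_exp hpos]
      linarith
    have h2 : (2 * Real.exp (-R)) ^ κ = Real.exp (κ * (Real.log 2 - R)) := by
      rw [Real.rpow_def_of_pos (by positivity), Real.log_mul (by norm_num) hb.ne', Real.log_exp]
      congr 1
      ring
    calc (2 * Real.exp (-R)) ^ κ * pt_val Y a Ω m (Real.exp (-R))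
        ≤ Real.exp (κ * (Real.log 2 - R)) * Real.exp (κ * R₀ + κ / 4 * (R - R₀)) := by
          rw [h2]
          exact mul_le_mul_of_nonneg_left h1 (Real.exp_pos _).le
      _ = Real.exp (κ * (Real.log 2 + 3 / 4 * R₀ - 3 / 4 * R)) := by
          rw [← Real.exp_add]
          congr 1
          ring

end Claimed.Agent.R296
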