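import Claimed.Agent.R296.P2.PatchStat

/-!
# Row 296, paper 2, Proposition 3.1: the minimising vector has small excitation energy (package P2-PT-EN)

Mirror of `BufEnergy.lean`.
-/

set_option autoImplicit false
set_option linter.unusedSectionVars false
set_option linter.unusedDecidableInType false
set_option linter.unusedVariables false

namespace Claimed.Agent.R296

open Matrix
open scoped MatrixOrder Matrix.Norms.L2Operator ComplexOrder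

variable {s : Type} [DecidableEq s] [Fintype s] {io : s → Type}
  [∀ x, Fintype (io x)] [∀ x, DecidableEq (io x)]

/-- (eq:patch-one-term-energy) one conjugation by an optimal filter changes the expectation of a split term by at most
`γ a_j² ‖ψ‖²` -/
theorem pt_opt_split {Y : ℕ → Finset s} (hY : Monotone Y) {a : ℕ → ℝ} (ha : ∀ j, 0 < a j)
    (ha1 : ∀ j, a j ≤ 1) {b : ℝ} (hb : 0 < b) (Ω : Cfg io → ℂ) (m : ℕ) (x : bf_Tup io Y)
    (hopt : pt_IsOpt Y a b Ω m x) (j : ℕ) (hj : j < m) {h : Matrix (Cfg io) (Cfg io) ℂ}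
    (hh : h.IsHermitian) {γ : ℝ} (hs : bf_Split (Y j) h γ) :
    (bf_ex (pt_vec Y a b Ω m x) h).re -
      (bf_ex (pt_vec Y a b Ω m x)
        (bf_Fz Y a (pt_sig Y b x) (-1) j * h * bf_Fz Y a (pt_sig Y b x) 1 j)).re ≤
      γ * (a j) ^ 2 * bf_nsq (pt_vec Y a b Ω m x) := by
  set ψ := pt_vec Y a b Ω m x with hψ
  set σ := pt_sig Y b x with hσdef
  have hcomm := pt_opt_commute hY ha hb Ω m x hopt j hj
  rw [← hψ] at hcomm
  obtain ⟨U, ξ, p, hU, hU', hx, hp⟩ := bf_simul_diag (x j) (ptr (Y j) (pureOp ψ)) (hopt.1 j).1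
    (bf_ptr_pure_posSemidef _ _).1 hcomm
  have hden := hopt.1 j
  rw [hx, bf_den_diag_iff hU hU'] at hden
  obtain ⟨hξ0, hξs⟩ := hden
  have hy0 : ∀ l, 0 < ξ l + b := fun l => by linarith [hξ0 l]
  have hyb : ∀ l, b ≤ ξ l + b := fun l => by linarith [hξ0 l]
  have hσ : σ j = U * diagonal (fun i => ((ξ i + b : ℝ) : ℂ)) * Uᴴ := pt_sig_diag b x j hU' ξ hx
  set r : ℝ := a j / 2 with hr
  have hl0 : ∀ l, 0 < (ξ l + b) ^ r := fun l => Real.rpow_pos_of_pos (hy0 l) r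
  have hkkt := fun i k => pt_opt_kkt hY ha hb Ω m x hopt j hj hU hU' ξ p hx hp i k
  -- the weights
  have hκ : ∀ i k, 0 < p i → 0 < p k →
      Real.sqrt (p i * p k) *
        |((ξ i + b) ^ r / (ξ k + b) ^ r + (ξ k + b) ^ r / (ξ i + b) ^ r) / 2 - 1| ≤
        (a j) ^ 2 / 2 * (p i + p k) := by
    intro i k hpi hpk
    have h1 := bf_kkt_log hb hpi hpk (hyb i) (hyb k)
      (fun hlt => hkkt i k (by linarith)) (fun hlt => hkkt k i (by linarith))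
    obtain ⟨h2, h3⟩ := bf_weight (ha j).le (ha1 j) hpi hpk (hy0 i) (hy0 k) h1
    rw [Real.div_rpow (hy0 i).le (hy0 k).le, Real.div_rpow (hy0 k).le (hy0 i).le] at h2 h3
    rw [abs_of_nonneg h2]
    exact h3
  -- the filters in the common eigenbasis
  have hF : bf_Fz Y a σ 1 j =
      emb (Y j) (U * diagonal (fun i => (((ξ i + b) ^ r : ℝ) : ℂ)) * Uᴴ) := by
    unfold bf_Fz
    rw [one_mul, hσ, pt_hpow_diag hU hU' _ hy0]
  have hFi : bf_Fz Y a σ (-1) j =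
      emb (Y j) (U * diagonal (fun i => ((((ξ i + b) ^ r : ℝ) : ℂ))⁻¹) * Uᴴ) := by
    unfold bf_Fz
    have e : (-1 * ((a j / 2 : ℝ) : ℂ)) = ((-r : ℝ) : ℂ) := by rw [hr]; push_cast; ring
    rw [e, hσ, pt_hpow_diag hU hU' _ hy0]
    have : (fun l => (((ξ l + b) ^ (-r) : ℝ) : ℂ)) = fun l => ((((ξ l + b) ^ r : ℝ) : ℂ))⁻¹ :=
      funext fun l => by rw [Real.rpow_neg (hy0 l).le, Complex.ofReal_inv]
    rw [this]
  obtain ⟨ι, _, c, e, hce, hγ⟩ := hs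
  -- real part = symmetrised expression
  have hFH : (bf_Fz Y a σ 1 j)ᴴ = bf_Fz Y a σ 1 j := by rw [bf_Fz_conjTranspose]; simp
  have hFiH : (bf_Fz Y a σ (-1) j)ᴴ = bf_Fz Y a σ (-1) j := by rw [bf_Fz_conjTranspose]; simp
  have hsym : bf_ex ψ (bf_Fz Y a σ 1 j * h * bf_Fz Y a σ (-1) j) =
      star (bf_ex ψ (bf_Fz Y a σ (-1) j * h * bf_Fz Y a σ 1 j)) := by
    rw [← bf_ex_conjTranspose, conjTranspose_mul, conjTranspose_mul, hFH, hFiH, hh.eq,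
      Matrix.mul_assoc]
  have hre : (bf_ex ψ (bf_Fz Y a σ (-1) j * h * bf_Fz Y a σ 1 j)).re =
      ((bf_ex ψ (bf_Fz Y a σ 1 j * h * bf_Fz Y a σ (-1) j) +
        bf_ex ψ (bf_Fz Y a σ (-1) j * h * bf_Fz Y a σ 1 j)) / 2).re := by
    rw [hsym]
    simp
  -- decompose
  have hdec : (bf_ex ψ (bf_Fz Y a σ 1 j * h * bf_Fz Y a σ (-1) j) +
        bf_ex ψ (bf_Fz Y a σ (-1) j * h * bf_Fz Y a σ 1 j)) / 2 - bf_ex ψ h =
      ∑ α, ((bf_ex ψ (bf_Fz Y a σ 1 j * (emb (Y j) (c α) * embOff (Y j) (e α)) *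
            bf_Fz Y a σ (-1) j) +
          bf_ex ψ (bf_Fz Y a σ (-1) j * (emb (Y j) (c α) * embOff (Y j) (e α)) *
            bf_Fz Y a σ 1 j)) / 2 - bf_ex ψ (emb (Y j) (c α) * embOff (Y j) (e α))) := by
    rw [hce]
    simp only [Matrix.mul_sum, Matrix.sum_mul, bf_ex_sum, Finset.sum_sub_distrib,
      ← Finset.sum_add_distrib, Finset.sum_div]
  have hbound : ‖(bf_ex ψ (bf_Fz Y a σ 1 j * h * bf_Fz Y a σ (-1) j) +
        bf_ex ψ (bf_Fz Y a σ (-1) j * h * bf_Fz Y a σ 1 j)) / 2 - bf_ex ψ h‖ ≤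
      γ * (a j) ^ 2 * bf_nsq ψ := by
    rw [hdec]
    refine (norm_sum_le _ _).trans ?_
    have h1 : ∀ α, ‖(bf_ex ψ (bf_Fz Y a σ 1 j * (emb (Y j) (c α) * embOff (Y j) (e α)) *
            bf_Fz Y a σ (-1) j) +
          bf_ex ψ (bf_Fz Y a σ (-1) j * (emb (Y j) (c α) * embOff (Y j) (e α)) *
            bf_Fz Y a σ 1 j)) / 2 - bf_ex ψ (emb (Y j) (c α) * embOff (Y j) (e α))‖ ≤
        (‖c α‖ * ‖e α‖) * ((a j) ^ 2 * bf_nsq ψ) := by
      intro α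
      rw [hF, hFi]
      have := bf_cut_energy (Y j) ψ hU hU' p (fun i => (ξ i + b) ^ r) hp hl0 hκ (c α) (e α)
      refine this.trans (le_of_eq ?_)
      ring
    refine (Finset.sum_le_sum fun α _ => h1 α).trans ?_
    rw [← Finset.sum_mul]
    calc (∑ α, ‖c α‖ * ‖e α‖) * ((a j) ^ 2 * bf_nsq ψ) ≤ γ * ((a j) ^ 2 * bf_nsq ψ) :=
          mul_le_mul_of_nonneg_right hγ (mul_nonneg (sq_nonneg _) (bf_nsq_nonneg _))
      _ = _ := by ring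
  rw [hre]
  have h9 := (Complex.abs_re_le_norm _).trans hbound
  rw [Complex.sub_re] at h9
  have := (abs_le.1 h9).1
  linarith

/-- the contribution of one interaction term -/
theorem pt_opt_term {I : Type} [Fintype I] {h : I → Matrix (Cfg io) (Cfg io) ℂ} {E₀ Δ : ℝ}
    {Ω : Cfg io → ℂ} {Y : ℕ → Finset s} {a : ℕ → ℝ} {γ : I → ℕ → ℝ} {m : ℕ}
    (H : bf_Hyp h E₀ Δ Ω Y a γ m) {b : ℝ} (hb : 0 < b) (x : bf_Tup io Y)
    (hopt : pt_IsOpt Y a b Ω m x) (i : I) :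
    (bf_ex (pt_vec Y a b Ω m x) (h i)).re -
      (bf_ex (pt_vec Y a b Ω m x)
        (bf_seg (bf_Fz Y a (pt_sig Y b x) (-1)) 0 m * h i *
          bf_ges (bf_Fz Y a (pt_sig Y b x) 1) 0 m)).re ≤
      (∑ j ∈ Finset.range m, γ i j * (a j) ^ 2) * bf_nsq (pt_vec Y a b Ω m x) := by
  classical
  have hσ : ∀ k, (pt_sig Y b x k).IsHermitian := pt_sig_herm hopt.1 b
  set ψ := pt_vec Y a b Ω m x with hψ
  set σ := pt_sig Y b x with hσdef
  have E1 : bf_Fz Y a σ (-1) = bf_Fz Y (fun k => -a k) σ 1 := (pt_Fz_neg'' Y a σ).symm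
  have E2 : bf_Fz Y a σ 1 = bf_Fz Y (fun k => -a k) σ (-1) := (pt_Fz_neg' Y a σ).symm
  have hcomm : ∀ k, k < m → Commute (σ k) (ptr (Y k) (pureOp ψ)) :=
    fun k hk => (pt_commute_sig b x k).2 (pt_opt_commute H.mono H.ha0 hb Ω m x hopt k hk)
  have hterm : ∀ j, 0 ≤ γ i j * (a j) ^ 2 := fun j => mul_nonneg (H.hγ i j) (sq_nonneg _)
  have hRHS : 0 ≤ (∑ j ∈ Finset.range m, γ i j * (a j) ^ 2) * bf_nsq ψ :=
    mul_nonneg (Finset.sum_nonneg fun j _ => hterm j) (bf_nsq_nonneg _)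
  rw [E1, E2]
  by_cases hall : ∀ j, j < m → SuppOff (Y j) (h i)
  · rw [bf_inner_removal Y _ σ hσ (le_refl m) hall]
    simpa using hRHS
  · push Not at hall
    have hex : ∃ j, j < m ∧ ¬ SuppOff (Y j) (h i) := hall
    set j₀ := Nat.find hex with hj₀
    obtain ⟨hj₀m, hj₀off⟩ := Nat.find_spec hex
    have hmin : ∀ j, j < j₀ → SuppOff (Y j) (h i) := by
      intro j hj
      by_contra hcon
      exact Nat.find_min hex hj ⟨by omega, hcon⟩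
    rw [bf_inner_removal Y _ σ hσ hj₀m.le hmin]
    rcases H.tri i j₀ hj₀m with hin | hoff | ⟨hsp, hnext⟩
    · rw [bf_removal H.mono _ σ hσ ψ j₀ (m - j₀) (fun k _ h2 => hcomm k (by omega)) hin]
      simpa using hRHS
    · exact absurd hoff hj₀off
    · have hm : m - j₀ = (m - j₀ - 1) + 1 := by omega
      have e1 : bf_seg (bf_Fz Y (fun k => -a k) σ 1) j₀ (m - j₀) * h i *
            bf_ges (bf_Fz Y (fun k => -a k) σ (-1)) j₀ (m - j₀) =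
          bf_seg (bf_Fz Y (fun k => -a k) σ 1) (j₀ + 1) (m - j₀ - 1) *
            (bf_Fz Y (fun k => -a k) σ 1 j₀ * h i * bf_Fz Y (fun k => -a k) σ (-1) j₀) *
            bf_ges (bf_Fz Y (fun k => -a k) σ (-1)) (j₀ + 1) (m - j₀ - 1) := by
        rw [hm, bf_seg_succ', bf_ges_succ']
        simp only [Matrix.mul_assoc, Nat.add_sub_cancel]
      have e2 : bf_ex ψ (bf_seg (bf_Fz Y (fun k => -a k) σ 1) (j₀ + 1) (m - j₀ - 1) *
            (bf_Fz Y (fun k => -a k) σ 1 j₀ * h i * bf_Fz Y (fun k => -a k) σ (-1) j₀) *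
            bf_ges (bf_Fz Y (fun k => -a k) σ (-1)) (j₀ + 1) (m - j₀ - 1)) =
          bf_ex ψ (bf_Fz Y (fun k => -a k) σ 1 j₀ * h i * bf_Fz Y (fun k => -a k) σ (-1) j₀) := by
        by_cases hlast : j₀ + 1 < m
        · refine bf_removal H.mono _ σ hσ ψ (j₀ + 1) (m - j₀ - 1)
            (fun k _ h2 => hcomm k (by omega)) ?_
          exact (((bf_Fz_suppIn Y _ σ 1 j₀).mono (H.mono (Nat.le_succ _))).mul (hnext hlast)).mul
            ((bf_Fz_suppIn Y _ σ (-1) j₀).mono (H.mono (Nat.le_succ _)))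
        · have : m - j₀ - 1 = 0 := by omega
          rw [this]; simp
      rw [e1, e2, ← E1, ← E2]
      refine (pt_opt_split H.mono H.ha0 H.ha1 hb Ω m x hopt j₀ hj₀m (H.herm i) hsp).trans ?_
      refine mul_le_mul_of_nonneg_right ?_ (bf_nsq_nonneg _)
      exact Finset.single_le_sum (f := fun j => γ i j * (a j) ^ 2) (fun j _ => hterm j)
        (Finset.mem_range.2 hj₀m)

/-- (eq:patch-energy-bound) -/
theorem pt_opt_energy {I : Type} [Fintype I] {h : I → Matrix (Cfg io) (Cfg io) ℂ} {E₀ Δ : ℝ}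
    {Ω : Cfg io → ℂ} {Y : ℕ → Finset s} {a : ℕ → ℝ} {γ : I → ℕ → ℝ} {m : ℕ}
    (H : bf_Hyp h E₀ Δ Ω Y a γ m) {b : ℝ} (hb : 0 < b) (x : bf_Tup io Y)
    (hopt : pt_IsOpt Y a b Ω m x) :
    (bf_ex (pt_vec Y a b Ω m x) (∑ i, h i)).re - E₀ * bf_nsq (pt_vec Y a b Ω m x) ≤
      (∑ i, ∑ j ∈ Finset.range m, γ i j * (a j) ^ 2) * bf_nsq (pt_vec Y a b Ω m x) := by
  have hinv := pt_inverse a hb Ω m hopt.1
  set ψ := pt_vec Y a b Ω m x with hψ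
  set σ := pt_sig Y b x with hσdef
  -- exact identity `K H K⁻¹ ψ = E₀ ψ`
  have h1 : bf_ex ψ (bf_seg (bf_Fz Y a σ (-1)) 0 m * (∑ i, h i) * bf_ges (bf_Fz Y a σ 1) 0 m) =
      (E₀ : ℂ) * (bf_nsq ψ : ℂ) := by
    have e1 : (bf_seg (bf_Fz Y a σ (-1)) 0 m * (∑ i, h i) * bf_ges (bf_Fz Y a σ 1) 0 m) *ᵥ ψ =
        (E₀ : ℂ) • ψ := by
      rw [← mulVec_mulVec, hinv, ← mulVec_mulVec, H.heig, mulVec_smul, ← bf_prod_eq_seg]
      rfl
    rw [bf_ex, e1, dotProduct_smul, bf_dot_self, smul_eq_mul]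
  have h2 : (bf_ex ψ (∑ i, h i)).re - E₀ * bf_nsq ψ =
      ∑ i, ((bf_ex ψ (h i)).re - (bf_ex ψ
        (bf_seg (bf_Fz Y a σ (-1)) 0 m * h i * bf_ges (bf_Fz Y a σ 1) 0 m)).re) := by
    have e2 := congrArg Complex.re h1
    rw [Matrix.mul_sum, Matrix.sum_mul, bf_ex_sum, Complex.re_sum] at e2
    rw [Finset.sum_sub_distrib, e2, bf_ex_sum, Complex.re_sum]
    simp
  rw [h2]
  refine (Finset.sum_le_sum fun i _ => pt_opt_term H hb x hopt i).trans ?_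
  rw [← Finset.sum_mul]

/-- `‖u + w‖² ≤ (3/2) ‖u‖² + 3 ‖w‖²` -/
theorem pt_nsq_add_le {n : Type} [Fintype n] (u w : n → ℂ) :
    bf_nsq (u + w) ≤ 3 / 2 * bf_nsq u + 3 * bf_nsq w := by
  classical
  rw [bf_nsq_eq_sum, bf_nsq_eq_sum, bf_nsq_eq_sum, Finset.mul_sum, Finset.mul_sum,
    ← Finset.sum_add_distrib]
  refine Finset.sum_le_sum fun i _ => ?_
  have h1 : ‖(u + w) i‖ ≤ ‖u i‖ + ‖w i‖ := norm_add_le _ _
  have h2 : ‖(u + w) i‖ ^ 2 ≤ (‖u i‖ + ‖w i‖) ^ 2 := pow_le_pow_left₀ (norm_nonneg _) h1 2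
  nlinarith [sq_nonneg (‖u i‖ - 2 * ‖w i‖)]

theorem pt_nsq_smul {n : Type} [Fintype n] (c : ℂ) (u : n → ℂ) :
    bf_nsq (c • u) = ‖c‖ ^ 2 * bf_nsq u := by
  classical
  rw [bf_nsq_eq_sum, bf_nsq_eq_sum, Finset.mul_sum]
  refine Finset.sum_congr rfl fun i _ => ?_
  rw [Pi.smul_apply, smul_eq_mul, norm_mul, mul_pow]

theorem pt_nsq_mulVec_le {n : Type} [Fintype n] [DecidableEq n] (G : Matrix n n ℂ) (v : n → ℂ) :
    bf_nsq (G *ᵥ v) ≤ ‖G‖ ^ 2 * bf_nsq v := by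
  rw [bf_nsq_eq_sum, bf_nsq_eq_sum]
  exact tlSq_mulVec_le G v

/-- Pythagoras for the component orthogonal to a unit vector -/
theorem pt_nsq_orth {n : Type} [Fintype n] [DecidableEq n] {Ω : n → ℂ} (hΩ : star Ω ⬝ᵥ Ω = 1)
    (ψ : n → ℂ) :
    bf_nsq (ψ - (star Ω ⬝ᵥ ψ) • Ω) = bf_nsq ψ - ‖star Ω ⬝ᵥ ψ‖ ^ 2 := by
  set c := star Ω ⬝ᵥ ψ with hc
  have h1 : star ψ ⬝ᵥ Ω = star c := by
    rw [hc, ← star_dotProduct_star, star_star, dotProduct_comm]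
  have h2 : star (ψ - c • Ω) ⬝ᵥ (ψ - c • Ω) = (bf_nsq ψ : ℂ) - star c * c := by
    rw [star_sub, star_smul, sub_dotProduct, dotProduct_sub, dotProduct_sub, smul_dotProduct,
      smul_dotProduct, dotProduct_smul, dotProduct_smul, hΩ, h1, ← hc, bf_dot_self]
    simp only [smul_eq_mul, mul_one]
    ring
  have h3 : star c * c = ((‖c‖ ^ 2 : ℝ) : ℂ) := by
    rw [Complex.star_def, ← Complex.normSq_eq_conj_mul_self, Complex.normSq_eq_norm_sq]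
  rw [bf_nsq, h2, h3, ← Complex.ofReal_sub, Complex.ofReal_re]

/-- (eq:patch-constant-tail) without trace norms: if `‖G‖ ≤ 1`, `‖G Ω‖² ≤ 1/16` and the budget is `≤ Δ/1024` then
`‖G ψ‖² ≤ ‖ψ‖²/8`.   (`ψ/‖ψ‖` is within `1/16` of a phase times `Ω`; `(1/4 + 1/16)² ≤ 1/8`.) -/
theorem pt_opt_tail {I : Type} [Fintype I] {h : I → Matrix (Cfg io) (Cfg io) ℂ} {E₀ Δ : ℝ}
    {Ω : Cfg io → ℂ} {Y : ℕ → Finset s} {a : ℕ → ℝ} {γ : I → ℕ → ℝ} {m : ℕ}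
    (H : bf_Hyp h E₀ Δ Ω Y a γ m)
    (hbud : ∑ i, ∑ j ∈ Finset.range m, γ i j * (a j) ^ 2 ≤ Δ / 1024) {b : ℝ} (hb : 0 < b)
    (x : bf_Tup io Y) (hopt : pt_IsOpt Y a b Ω m x) (G : Matrix (Cfg io) (Cfg io) ℂ)
    (hG : ‖G‖ ≤ 1) (hGΩ : bf_nsq (G *ᵥ Ω) ≤ 1 / 16) :
    bf_nsq (G *ᵥ pt_vec Y a b Ω m x) ≤ 1 / 8 * bf_nsq (pt_vec Y a b Ω m x) := by
  have h1 := pt_opt_energy H hb x hopt
  have h2 := bf_gap H.hgap (pt_vec Y a b Ω m x)
  set ψ := pt_vec Y a b Ω m x with hψ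
  set c := star Ω ⬝ᵥ ψ with hc
  have hΔ := H.hΔ
  have hN := bf_nsq_nonneg ψ
  -- the orthogonal component is small
  have h3 : bf_nsq ψ - ‖c‖ ^ 2 ≤ 1 / 1024 * bf_nsq ψ := by
    have h4 : Δ * (bf_nsq ψ - ‖c‖ ^ 2) ≤ Δ * (1 / 1024 * bf_nsq ψ) := by
      refine (h2.trans h1).trans ?_
      calc (∑ i, ∑ j ∈ Finset.range m, γ i j * (a j) ^ 2) * bf_nsq ψ ≤ Δ / 1024 * bf_nsq ψ :=
            mul_le_mul_of_nonneg_right hbud hN
        _ = _ := by ring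
    exact le_of_mul_le_mul_left h4 hΔ
  have h5 := pt_nsq_orth H.hΩ ψ
  rw [← hc] at h5
  have h6 : ‖c‖ ^ 2 ≤ bf_nsq ψ := by
    have := bf_nsq_nonneg (ψ - c • Ω)
    linarith
  have h7 : G *ᵥ ψ = c • (G *ᵥ Ω) + G *ᵥ (ψ - c • Ω) := by
    rw [mulVec_sub, mulVec_smul]; abel
  have h8 : bf_nsq (G *ᵥ (ψ - c • Ω)) ≤ bf_nsq (ψ - c • Ω) := by
    refine (pt_nsq_mulVec_le G _).trans ?_
    have : ‖G‖ ^ 2 ≤ 1 := pow_le_one₀ (norm_nonneg _) hG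
    calc ‖G‖ ^ 2 * bf_nsq (ψ - c • Ω) ≤ 1 * bf_nsq (ψ - c • Ω) :=
          mul_le_mul_of_nonneg_right this (bf_nsq_nonneg _)
      _ = _ := one_mul _
  have h9 : bf_nsq (c • (G *ᵥ Ω)) ≤ 1 / 16 * bf_nsq ψ := by
    rw [pt_nsq_smul]
    calc ‖c‖ ^ 2 * bf_nsq (G *ᵥ Ω) ≤ bf_nsq ψ * (1 / 16) :=
          mul_le_mul h6 hGΩ (bf_nsq_nonneg _) hN
      _ = _ := by ring
  rw [h7]
  have h10 := pt_nsq_add_le (c • (G *ᵥ Ω)) (G *ᵥ (ψ - c • Ω))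
  linarith

end Claimed.Agent.R296
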