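import Claimed.Agent.R296.P2.PatchReg
import Claimed.Agent.R296.MatFun2
import Claimed.Agent.R296.HS

/-!
# Row 296, paper 2, Proposition 3.1: growth of the optimal value (package P2-PT-GROW)

`pt_val b` = minimal value of `‖ψ‖²`.  (eq:patch-minimum-growth) in squared form:
`log pt_val(e^{-R}) ≤ log pt_val(e^{-R₀}) + (κ/4)(R - R₀)`, `κ = ∑ a_j`, as soon as `e^{-R'} r + 1/8 ≤ 1/4` for `R' ≥ R₀`.
No absolute continuity: `R ↦ log pt_val(e^{-R})` is continuous and its upper right Dini derivative is `≤ κ/4`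
(compare with the fixed minimiser at `R`); conclude with `image_le_of_liminf_slope_right_le_deriv_boundary`.

Auxiliary lemmas: prefix `ptg_`.
-/

set_option autoImplicit false
set_option linter.unusedSectionVars false

namespace Claimed.Agent.R296

open Matrix
open scoped MatrixOrder Matrix.Norms.L2Operator ComplexOrder

/-! ### scalar lemmas -/

theorem ptg_abs_exp_sub_one_le (u : ℝ) : |Real.exp u - 1| ≤ Real.exp |u| - 1 := by
  rcases le_total 0 u with h | h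
  · rw [abs_of_nonneg h, abs_of_nonneg (by linarith [Real.add_one_le_exp u])]
  · rw [abs_of_nonpos h, abs_of_nonpos (by linarith [Real.exp_le_one_iff.mpr h])]
    linarith [Real.add_one_le_exp u, Real.add_one_le_exp (-u)]

/-- `|log (ξ + e^{-R'}) - log (ξ + e^{-R})| ≤ |R' - R|` for `ξ ≥ 0` -/
theorem ptg_abs_log_sub_le {ξ : ℝ} (hξ : 0 ≤ ξ) (R R' : ℝ) :
    |Real.log (ξ + Real.exp (-R')) - Real.log (ξ + Real.exp (-R))| ≤ |R' - R| := by
  have key : ∀ R R' : ℝ, Real.log (ξ + Real.exp (-R')) - Real.log (ξ + Real.exp (-R)) ≤ |R' - R| := by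
    intro R R'
    have hy : 0 < ξ + Real.exp (-R) := by positivity
    have hy' : 0 < ξ + Real.exp (-R') := by positivity
    have h1 : ξ + Real.exp (-R') ≤ Real.exp |R' - R| * (ξ + Real.exp (-R)) := by
      have e1 : 1 ≤ Real.exp |R' - R| := Real.one_le_exp (abs_nonneg _)
      have e2 : Real.exp (-R') ≤ Real.exp |R' - R| * Real.exp (-R) := by
        rw [← Real.exp_add]
        apply Real.exp_le_exp.mpr
        have := neg_abs_le (R' - R)
        linarith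
      nlinarith
    have h2 := Real.log_le_log hy' h1
    rw [Real.log_mul (Real.exp_pos _).ne' hy.ne', Real.log_exp] at h2
    linarith
  rw [abs_le]
  constructor
  · have := key R' R
    rw [abs_sub_comm] at this
    linarith
  · exact key R R'

/-- the scalar filter `(ξ + e^{-R})^{-a/2}` -/
theorem ptg_hpowS_eq {ξ : ℝ} (hξ : 0 ≤ ξ) (R a : ℝ) :
    hpowS (-1 * ((a / 2 : ℝ) : ℂ)) (ξ + Real.exp (-R)) =
      ((Real.exp (-(a / 2) * Real.log (ξ + Real.exp (-R))) : ℝ) : ℂ) := by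
  have hy : 0 < ξ + Real.exp (-R) := by positivity
  rw [hpowS_pos hy]
  push_cast
  ring_nf

theorem ptg_scalar_le {ξ : ℝ} (hξ : 0 ≤ ξ) (R : ℝ) {a : ℝ} (ha : 0 ≤ a) :
    Real.exp (-(a / 2) * Real.log (ξ + Real.exp (-R))) ≤ Real.exp (R * a / 2) := by
  apply Real.exp_le_exp.mpr
  have h1 : -R ≤ Real.log (ξ + Real.exp (-R)) := by
    rw [Real.le_log_iff_exp_le (by positivity)]
    linarith
  nlinarith

theorem ptg_scalar_sub_le {ξ : ℝ} (hξ : 0 ≤ ξ) (R R' : ℝ) {a : ℝ} (ha : 0 ≤ a) :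
    |Real.exp (-(a / 2) * Real.log (ξ + Real.exp (-R'))) -
        Real.exp (-(a / 2) * Real.log (ξ + Real.exp (-R)))| ≤
      Real.exp (R * a / 2) * (Real.exp (|R' - R| * a / 2) - 1) := by
  set A := -(a / 2) * Real.log (ξ + Real.exp (-R)) with hA
  set A' := -(a / 2) * Real.log (ξ + Real.exp (-R')) with hA'
  have h1 : Real.exp A' - Real.exp A = Real.exp A * (Real.exp (A' - A) - 1) := by
    rw [mul_sub, ← Real.exp_add]
    ring_nf
  have h2 : |A' - A| ≤ |R' - R| * a / 2 := by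
    have : A' - A = -(a / 2) * (Real.log (ξ + Real.exp (-R')) - Real.log (ξ + Real.exp (-R))) := by
      rw [hA, hA']; ring
    rw [this, abs_mul, abs_neg, abs_of_nonneg (by positivity : 0 ≤ a / 2)]
    have := ptg_abs_log_sub_le hξ R R'
    nlinarith
  rw [h1, abs_mul, abs_of_pos (Real.exp_pos A)]
  have h3 : |Real.exp (A' - A) - 1| ≤ Real.exp (|R' - R| * a / 2) - 1 :=
    (ptg_abs_exp_sub_one_le _).trans (by linarith [Real.exp_le_exp.mpr h2])
  have h4 := ptg_scalar_le hξ R ha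
  have h5 : 0 ≤ |Real.exp (A' - A) - 1| := abs_nonneg _
  calc Real.exp A * |Real.exp (A' - A) - 1| ≤ Real.exp (R * a / 2) * |Real.exp (A' - A) - 1| := by
        gcongr
    _ ≤ _ := by gcongr

variable {s : Type} [DecidableEq s] [Fintype s] {io : s → Type}
  [∀ x, Fintype (io x)] [∀ x, DecidableEq (io x)]

/-! ### the filters as functions of `R` -/

theorem ptg_feas_psd {Y : ℕ → Finset s} {x : bf_Tup io Y} (hx : pt_Feas Y x) (j : ℕ) :
    (x j).PosSemidef := by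
  have h := (hx j).2.1
  simpa using h

theorem ptg_hpow_sig {Y : ℕ → Finset s} (x : bf_Tup io Y) (j : ℕ) (hx : (x j).IsHermitian) (b : ℝ)
    (z : ℂ) : hpow (pt_sig Y b x j) z = mfun (fun ξ => hpowS z (ξ + b)) (x j) := by
  have h := mfun_affine (hpowS z) hx 1 b
  simp only [Complex.ofReal_one, one_smul, one_mul] at h
  exact h

theorem ptg_emb_sub (A : Finset s) (K L : Matrix (CfgOn io A) (CfgOn io A) ℂ) :
    emb A (K - L) = emb A K - emb A L := map_sub (embHom A) K L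

/-- the filter `L_j = (x_j + e^{-R})^{-a_j/2}` -/
noncomputable def ptg_L (Y : ℕ → Finset s) (a : ℕ → ℝ) (x : bf_Tup io Y) (R : ℝ) (j : ℕ) :
    Matrix (Cfg io) (Cfg io) ℂ :=
  bf_Fz Y a (pt_sig Y (Real.exp (-R)) x) (-1) j

theorem ptg_vec_eq (Y : ℕ → Finset s) (a : ℕ → ℝ) (x : bf_Tup io Y) (R : ℝ) (Ω : Cfg io → ℂ) (m : ℕ) :
    pt_vec Y a (Real.exp (-R)) Ω m x = bf_prod (ptg_L Y a x R) m *ᵥ Ω := rfl

/-- the real symbol of the filter -/
noncomputable def ptg_sym (a R ξ : ℝ) : ℝ := Real.exp (-(a / 2) * Real.log (ξ + Real.exp (-R)))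

theorem ptg_sym_pos (a R ξ : ℝ) : 0 < ptg_sym a R ξ := Real.exp_pos _

theorem ptg_norm_one_le {n : Type} [Fintype n] [DecidableEq n] : ‖(1 : Matrix n n ℂ)‖ ≤ 1 := by
  rw [← diagonal_one, l2_opNorm_diagonal]
  exact (pi_norm_le_iff_of_nonneg zero_le_one).2 fun i => by simp

theorem ptg_L_eq {Y : ℕ → Finset s} (a : ℕ → ℝ) {x : bf_Tup io Y} (hx : pt_Feas Y x) (R : ℝ)
    (j : ℕ) : ptg_L Y a x R j = emb (Y j) (mfun (fun ξ => (ptg_sym (a j) R ξ : ℂ)) (x j)) := by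
  have hp := ptg_feas_psd hx j
  have h1 : hpow (pt_sig Y (Real.exp (-R)) x j) (-1 * ((a j / 2 : ℝ) : ℂ)) =
      mfun (fun ξ => (ptg_sym (a j) R ξ : ℂ)) (x j) := by
    rw [ptg_hpow_sig x j hp.1]
    exact mfun_congr hp.1 fun i => ptg_hpowS_eq (hp.eigenvalues_nonneg i) R (a j)
  rw [ptg_L, bf_Fz, h1]

theorem ptg_norm_L_le {Y : ℕ → Finset s} {a : ℕ → ℝ} (ha : ∀ j, 0 ≤ a j) {x : bf_Tup io Y}
    (hx : pt_Feas Y x) (R : ℝ) (j : ℕ) : ‖ptg_L Y a x R j‖ ≤ Real.exp (R * a j / 2) := by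
  have hp := ptg_feas_psd hx j
  rw [ptg_L_eq a hx]
  refine (norm_emb_le _ _).trans (norm_mfun_le hp.1 _ (Real.exp_pos _).le fun i => ?_)
  rw [Complex.norm_real, Real.norm_of_nonneg (ptg_sym_pos _ _ _).le]
  exact ptg_scalar_le (hp.eigenvalues_nonneg i) R (ha j)

theorem ptg_norm_L_sub_le {Y : ℕ → Finset s} {a : ℕ → ℝ} (ha : ∀ j, 0 ≤ a j) {x : bf_Tup io Y}
    (hx : pt_Feas Y x) (R R' : ℝ) (j : ℕ) :
    ‖ptg_L Y a x R' j - ptg_L Y a x R j‖ ≤
      Real.exp (R * a j / 2) * (Real.exp (|R' - R| * a j / 2) - 1) := by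
  have hp := ptg_feas_psd hx j
  have h0 : 0 ≤ Real.exp (R * a j / 2) * (Real.exp (|R' - R| * a j / 2) - 1) := by
    have : 1 ≤ Real.exp (|R' - R| * a j / 2) :=
      Real.one_le_exp (by have := ha j; positivity)
    have := Real.exp_pos (R * a j / 2)
    nlinarith
  rw [ptg_L_eq a hx, ptg_L_eq a hx, ← ptg_emb_sub, ← mfun_sub]
  refine (norm_emb_le _ _).trans (norm_mfun_le hp.1 _ h0 fun i => ?_)
  rw [← Complex.ofReal_sub, Complex.norm_real, Real.norm_eq_abs]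
  exact ptg_scalar_sub_le (hp.eigenvalues_nonneg i) R R' (ha j)

theorem ptg_norm_prod_le {Y : ℕ → Finset s} {a : ℕ → ℝ} (ha : ∀ j, 0 ≤ a j) {x : bf_Tup io Y}
    (hx : pt_Feas Y x) (R : ℝ) (m : ℕ) :
    ‖bf_prod (ptg_L Y a x R) m‖ ≤ Real.exp (R * (∑ j ∈ Finset.range m, a j) / 2) := by
  induction m with
  | zero =>
    simp only [bf_prod_zero, Finset.range_zero, Finset.sum_empty, mul_zero, zero_div, Real.exp_zero]
    exact ptg_norm_one_le
  | succ m ih =>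
    rw [bf_prod_succ, Finset.sum_range_succ]
    calc ‖ptg_L Y a x R m * bf_prod (ptg_L Y a x R) m‖
        ≤ ‖ptg_L Y a x R m‖ * ‖bf_prod (ptg_L Y a x R) m‖ := Matrix.l2_opNorm_mul _ _
      _ ≤ Real.exp (R * a m / 2) * Real.exp (R * (∑ j ∈ Finset.range m, a j) / 2) :=
          mul_le_mul (ptg_norm_L_le ha hx R m) ih (norm_nonneg _) (Real.exp_pos _).le
      _ = _ := by
          rw [← Real.exp_add]
          congr 1
          ring

theorem ptg_norm_prod_sub_le {Y : ℕ → Finset s} {a : ℕ → ℝ} (ha : ∀ j, 0 ≤ a j) {x : bf_Tup io Y}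
    (hx : pt_Feas Y x) (R R' : ℝ) (m : ℕ) :
    ‖bf_prod (ptg_L Y a x R') m - bf_prod (ptg_L Y a x R) m‖ ≤
      Real.exp (R * (∑ j ∈ Finset.range m, a j) / 2) *
        (Real.exp (|R' - R| * (∑ j ∈ Finset.range m, a j) / 2) - 1) := by
  induction m with
  | zero => simp
  | succ m ih =>
    rw [bf_prod_succ, bf_prod_succ, Finset.sum_range_succ]
    set κ := ∑ j ∈ Finset.range m, a j with hκ
    have hκ0 : 0 ≤ κ := Finset.sum_nonneg fun j _ => ha j
    set P' := bf_prod (ptg_L Y a x R') m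
    set P := bf_prod (ptg_L Y a x R) m
    have hP' : ‖P'‖ ≤ Real.exp (R * κ / 2) * Real.exp (|R' - R| * κ / 2) := by
      refine (ptg_norm_prod_le ha hx R' m).trans ?_
      rw [← Real.exp_add]
      apply Real.exp_le_exp.mpr
      have := le_abs_self (R' - R)
      nlinarith
    have e1 : ptg_L Y a x R' m * P' - ptg_L Y a x R m * P =
        (ptg_L Y a x R' m - ptg_L Y a x R m) * P' + ptg_L Y a x R m * (P' - P) := by
      rw [Matrix.sub_mul, Matrix.mul_sub]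
      abel
    have f1 : 1 ≤ Real.exp (|R' - R| * a m / 2) :=
      Real.one_le_exp (by have := ha m; positivity)
    rw [e1]
    calc ‖(ptg_L Y a x R' m - ptg_L Y a x R m) * P' + ptg_L Y a x R m * (P' - P)‖
        ≤ ‖ptg_L Y a x R' m - ptg_L Y a x R m‖ * ‖P'‖ + ‖ptg_L Y a x R m‖ * ‖P' - P‖ :=
          (norm_add_le _ _).trans (add_le_add (Matrix.l2_opNorm_mul _ _) (Matrix.l2_opNorm_mul _ _))
      _ ≤ Real.exp (R * a m / 2) * (Real.exp (|R' - R| * a m / 2) - 1) *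
            (Real.exp (R * κ / 2) * Real.exp (|R' - R| * κ / 2)) +
          Real.exp (R * a m / 2) * (Real.exp (R * κ / 2) * (Real.exp (|R' - R| * κ / 2) - 1)) := by
          refine add_le_add ?_ ?_
          · exact mul_le_mul (ptg_norm_L_sub_le ha hx R R' m) hP' (norm_nonneg _)
              (mul_nonneg (Real.exp_pos _).le (by linarith))
          · exact mul_le_mul (ptg_norm_L_le ha hx R m) ih (norm_nonneg _) (Real.exp_pos _).le
      _ = _ := by
          have g1 : Real.exp (R * (κ + a m) / 2) = Real.exp (R * a m / 2) * Real.exp (R * κ / 2) := by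
            rw [← Real.exp_add]; congr 1; ring
          have g2 : Real.exp (|R' - R| * (κ + a m) / 2) =
              Real.exp (|R' - R| * a m / 2) * Real.exp (|R' - R| * κ / 2) := by
            rw [← Real.exp_add]; congr 1; ring
          rw [g1, g2]
          ring

theorem ptg_nsq_eq_l2n {n : Type} [Fintype n] [DecidableEq n] (v : n → ℂ) : bf_nsq v = l2n v ^ 2 :=
  (l2n_sq_eq_re v).symm

/-- the modulus of continuity, uniform in the feasible tuple -/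
theorem ptg_nsq_sub_le {Y : ℕ → Finset s} {a : ℕ → ℝ} (ha : ∀ j, 0 ≤ a j) {x : bf_Tup io Y}
    (hx : pt_Feas Y x) {Ω : Cfg io → ℂ} (hΩ : star Ω ⬝ᵥ Ω = 1) (R R' : ℝ) (m : ℕ) :
    |bf_nsq (pt_vec Y a (Real.exp (-R')) Ω m x) - bf_nsq (pt_vec Y a (Real.exp (-R)) Ω m x)| ≤
      Real.exp (R * ∑ j ∈ Finset.range m, a j) *
        (Real.exp (|R' - R| * ∑ j ∈ Finset.range m, a j) - 1) := by
  set κ := ∑ j ∈ Finset.range m, a j with hκ
  have hκ0 : 0 ≤ κ := Finset.sum_nonneg fun j _ => ha j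
  rw [ptg_vec_eq, ptg_vec_eq, ptg_nsq_eq_l2n, ptg_nsq_eq_l2n]
  set P' := bf_prod (ptg_L Y a x R') m with hP'
  set P := bf_prod (ptg_L Y a x R) m with hP
  have hΩ1 : l2n Ω = 1 := (l2n_eq_one_iff Ω).mpr hΩ
  set E := Real.exp (R * κ / 2) with hE
  set F := Real.exp (|R' - R| * κ / 2) with hF
  have hE0 : 0 < E := Real.exp_pos _
  have hF1 : 1 ≤ F := Real.one_le_exp (by positivity)
  have n1 : l2n (P *ᵥ Ω) ≤ E := by
    have := l2n_mulVec_le P Ω
    rw [hΩ1, mul_one] at this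
    exact this.trans (ptg_norm_prod_le ha hx R m)
  have n2 : l2n (P' *ᵥ Ω) ≤ E * F := by
    have := l2n_mulVec_le P' Ω
    rw [hΩ1, mul_one] at this
    refine this.trans ((ptg_norm_prod_le ha hx R' m).trans ?_)
    rw [hE, hF, ← Real.exp_add]
    apply Real.exp_le_exp.mpr
    have := le_abs_self (R' - R)
    nlinarith
  have n3 : |l2n (P' *ᵥ Ω) - l2n (P *ᵥ Ω)| ≤ E * (F - 1) := by
    have h1 : |l2n (P' *ᵥ Ω) - l2n (P *ᵥ Ω)| ≤ l2n (P' *ᵥ Ω - P *ᵥ Ω) :=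
      abs_norm_sub_norm_le _ _
    have h2 : P' *ᵥ Ω - P *ᵥ Ω = (P' - P) *ᵥ Ω := (Matrix.sub_mulVec _ _ _).symm
    have h3 := l2n_mulVec_le (P' - P) Ω
    rw [hΩ1, mul_one] at h3
    rw [h2] at h1
    exact h1.trans (h3.trans (ptg_norm_prod_sub_le ha hx R R' m))
  have e1 : Real.exp (R * κ) = E ^ 2 := by
    rw [hE, ← Real.exp_nat_mul]; congr 1; push_cast; ring
  have e2 : Real.exp (|R' - R| * κ) = F ^ 2 := by
    rw [hF, ← Real.exp_nat_mul]; congr 1; push_cast; ring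
  rw [e1, e2]
  have p1 := l2n_nonneg (P *ᵥ Ω)
  have p2 := l2n_nonneg (P' *ᵥ Ω)
  calc |l2n (P' *ᵥ Ω) ^ 2 - l2n (P *ᵥ Ω) ^ 2|
      = |l2n (P' *ᵥ Ω) - l2n (P *ᵥ Ω)| * (l2n (P' *ᵥ Ω) + l2n (P *ᵥ Ω)) := by
        rw [sq_sub_sq, abs_mul, abs_of_nonneg (add_nonneg p2 p1), mul_comm]
    _ ≤ E * (F - 1) * (E * F + E) := by
        apply mul_le_mul n3 (add_le_add n2 n1) (add_nonneg p2 p1)
        exact mul_nonneg hE0.le (by linarith)
    _ = E ^ 2 * (F ^ 2 - 1) := by ring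

/-! ### the minimal value -/

/-- the minimal value -/
noncomputable def pt_val (Y : ℕ → Finset s) (a : ℕ → ℝ) (Ω : Cfg io → ℂ) (m : ℕ) (b : ℝ) : ℝ :=
  sInf ((fun x : bf_Tup io Y => bf_nsq (pt_vec Y a b Ω m x)) '' {x | pt_Feas Y x})

theorem ptg_bddBelow (Y : ℕ → Finset s) (a : ℕ → ℝ) (Ω : Cfg io → ℂ) (m : ℕ) (b : ℝ) :
    BddBelow ((fun x : bf_Tup io Y => bf_nsq (pt_vec Y a b Ω m x)) '' {x | pt_Feas Y x}) :=
  ⟨0, by rintro _ ⟨x, _, rfl⟩; exact bf_nsq_nonneg _⟩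

theorem pt_val_le {Y : ℕ → Finset s} {a : ℕ → ℝ} {b : ℝ} {Ω : Cfg io → ℂ} {m : ℕ}
    {x : bf_Tup io Y} (hx : pt_Feas Y x) :
    pt_val Y a Ω m b ≤ bf_nsq (pt_vec Y a b Ω m x) :=
  csInf_le (ptg_bddBelow Y a Ω m b) ⟨x, hx, rfl⟩

theorem pt_val_eq {Y : ℕ → Finset s} {a : ℕ → ℝ} {b : ℝ} {Ω : Cfg io → ℂ} {m : ℕ}
    {x : bf_Tup io Y} (hopt : pt_IsOpt Y a b Ω m x) :
    pt_val Y a Ω m b = bf_nsq (pt_vec Y a b Ω m x) := by
  refine le_antisymm (pt_val_le hopt.1) (le_csInf ⟨_, x, hopt.1, rfl⟩ ?_)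
  rintro _ ⟨x', hx', rfl⟩
  exact hopt.2 x' hx'

theorem ptg_val_sub_le [∀ x, Nonempty (io x)] (Y : ℕ → Finset s) {a : ℕ → ℝ} (ha : ∀ j, 0 ≤ a j)
    {Ω : Cfg io → ℂ} (hΩ : star Ω ⬝ᵥ Ω = 1) (m : ℕ) (R R' : ℝ) :
    |pt_val Y a Ω m (Real.exp (-R')) - pt_val Y a Ω m (Real.exp (-R))| ≤
      Real.exp (R * ∑ j ∈ Finset.range m, a j) *
        (Real.exp (|R' - R| * ∑ j ∈ Finset.range m, a j) - 1) := by
  obtain ⟨x, hx⟩ := pt_exists_opt Y a (Real.exp_pos (-R)) Ω m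
  obtain ⟨x', hx'⟩ := pt_exists_opt Y a (Real.exp_pos (-R')) Ω m
  have h1 := abs_le.mp (ptg_nsq_sub_le ha hx.1 hΩ R R' m)
  have h2 := abs_le.mp (ptg_nsq_sub_le ha hx'.1 hΩ R R' m)
  have e1 := pt_val_eq hx
  have e2 := pt_val_eq hx'
  have l1 : pt_val Y a Ω m (Real.exp (-R')) ≤ _ := pt_val_le (b := Real.exp (-R')) (Ω := Ω) (m := m) (a := a) hx.1
  have l2 : pt_val Y a Ω m (Real.exp (-R)) ≤ _ := pt_val_le (b := Real.exp (-R)) (Ω := Ω) (m := m) (a := a) hx'.1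
  rw [abs_le]
  constructor <;> linarith [h1.1, h1.2, h2.1, h2.2]

/-- uniform continuity in the regulator: telescoping, `‖L_j(b') - L_j(b)‖ ≤ ‖L_j(b')‖ ((b/b')^{a_j/2} - 1)` for `b' ≤ b` -/
theorem pt_val_continuous [∀ x, Nonempty (io x)] (Y : ℕ → Finset s) {a : ℕ → ℝ} (ha : ∀ j, 0 ≤ a j)
    {Ω : Cfg io → ℂ} (hΩ : star Ω ⬝ᵥ Ω = 1) (m : ℕ) :
    Continuous fun R : ℝ => pt_val Y a Ω m (Real.exp (-R)) := by
  rw [continuous_iff_continuousAt]
  intro R
  set κ := ∑ j ∈ Finset.range m, a j with hκ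
  have hω : Filter.Tendsto (fun R' : ℝ => Real.exp (R * κ) * (Real.exp (|R' - R| * κ) - 1))
      (nhds R) (nhds 0) := by
    have hc : Continuous (fun R' : ℝ => Real.exp (R * κ) * (Real.exp (|R' - R| * κ) - 1)) := by
      fun_prop
    have h := hc.tendsto R
    simpa using h
  rw [ContinuousAt, tendsto_iff_norm_sub_tendsto_zero]
  exact squeeze_zero (fun _ => norm_nonneg _) (fun R' => ptg_val_sub_le Y ha hΩ m R R') hω

/-! ### the derivative in `R` -/

theorem ptg_hasDerivAt_mfun {n : Type} [Fintype n] [DecidableEq n] {A : Matrix n n ℂ}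
    (h : A.IsHermitian) (F : ℝ → ℝ → ℂ) (F' : ℝ → ℂ) (t : ℝ)
    (hF : ∀ i, HasDerivAt (fun t => F t (h.eigenvalues i)) (F' (h.eigenvalues i)) t) :
    HasDerivAt (fun t => mfun (F t) A) (mfun F' A) t := by
  simp only [mfun_eq_sum_eigP h]
  exact HasDerivAt.fun_sum fun i _ => (hF i).smul_const _

theorem ptg_hasDerivAt_sym {ξ : ℝ} (hξ : 0 ≤ ξ) (a R : ℝ) :
    HasDerivAt (fun R' => ptg_sym a R' ξ)
      (a / 2 * Real.exp (-R) * (ξ + Real.exp (-R))⁻¹ * ptg_sym a R ξ) R := by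
  have hy : 0 < ξ + Real.exp (-R) := by positivity
  have h1 : HasDerivAt (fun R' : ℝ => ξ + Real.exp (-R')) (-Real.exp (-R)) R := by
    have := ((hasDerivAt_id R).neg.exp).const_add ξ
    simpa using this
  have h2 := ((h1.log hy.ne').const_mul (-(a / 2))).exp
  refine h2.congr_deriv ?_
  unfold ptg_sym
  field_simp

theorem ptg_hasDerivAt_emb (A : Finset s) {c : ℝ → Matrix (CfgOn io A) (CfgOn io A) ℂ}
    {D : Matrix (CfgOn io A) (CfgOn io A) ℂ} {t : ℝ} (hc : HasDerivAt c D t) :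
    HasDerivAt (fun u => emb A (c u)) (emb A D) t := by
  have h1 := ((LinearMap.toContinuousLinearMap (embHom (io := io) A).toLinearMap).restrictScalars
    ℝ).hasFDerivAt (x := c t)
  exact h1.comp_hasDerivAt t hc

theorem ptg_hpowS_neg_one {y : ℝ} (hy : 0 < y) : hpowS (-1) y = ((y⁻¹ : ℝ) : ℂ) := by
  have h := hpowS_ofReal hy (-1)
  rw [Real.rpow_neg_one] at h
  rw [← h]
  norm_num

/-- the logarithmic derivative `G_j = (a_j/2) e^{-R} σ_j⁻¹` of the filter -/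
noncomputable def ptg_G (Y : ℕ → Finset s) (a : ℕ → ℝ) (x : bf_Tup io Y) (R : ℝ) (j : ℕ) :
    Matrix (Cfg io) (Cfg io) ℂ :=
  emb (Y j) (((a j / 2 : ℝ) : ℂ) •
    ((Real.exp (-R) : ℂ) • hpow (pt_sig Y (Real.exp (-R)) x j) (-1)))

theorem ptg_hasDerivAt_L {Y : ℕ → Finset s} (a : ℕ → ℝ) {x : bf_Tup io Y} (hx : pt_Feas Y x)
    (R : ℝ) (j : ℕ) :
    HasDerivAt (fun R' => ptg_L Y a x R' j) (ptg_G Y a x R j * ptg_L Y a x R j) R := by
  have hp := ptg_feas_psd hx j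
  have e1 : (fun R' => ptg_L Y a x R' j) =
      fun R' => emb (Y j) (mfun (fun ξ => (ptg_sym (a j) R' ξ : ℂ)) (x j)) :=
    funext fun R' => ptg_L_eq a hx R' j
  have h1 := ptg_hasDerivAt_emb (Y j) (ptg_hasDerivAt_mfun hp.1
    (fun R' ξ => (ptg_sym (a j) R' ξ : ℂ))
    (fun ξ => ((a j / 2 * Real.exp (-R) * (ξ + Real.exp (-R))⁻¹ * ptg_sym (a j) R ξ : ℝ) : ℂ)) R
    (fun i => (ptg_hasDerivAt_sym (hp.eigenvalues_nonneg i) (a j) R).ofReal_comp))
  have e2 : mfun (fun ξ => ((a j / 2 * Real.exp (-R) * (ξ + Real.exp (-R))⁻¹ *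
      ptg_sym (a j) R ξ : ℝ) : ℂ)) (x j) =
      (((a j / 2 : ℝ) : ℂ) • ((Real.exp (-R) : ℂ) • hpow (pt_sig Y (Real.exp (-R)) x j) (-1))) *
        mfun (fun ξ => (ptg_sym (a j) R ξ : ℂ)) (x j) := by
    rw [ptg_hpow_sig x j hp.1, ← mfun_smul, ← mfun_smul, ← mfun_mul]
    refine mfun_congr hp.1 fun i => ?_
    have hy : 0 < hp.1.eigenvalues i + Real.exp (-R) := by
      have := hp.eigenvalues_nonneg i
      positivity
    rw [ptg_hpowS_neg_one hy]
    push_cast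
    ring
  rw [e1]
  refine h1.congr_deriv ?_
  rw [ptg_G, ptg_L_eq a hx, ← emb_mul, e2]

/-- product rule for the ordered product -/
theorem ptg_hasDerivAt_prod {n : Type} [Fintype n] [DecidableEq n] (L : ℝ → ℕ → Matrix n n ℂ)
    (D : ℕ → Matrix n n ℂ) (t : ℝ) (hL : ∀ j, HasDerivAt (fun u => L u j) (D j) t) (m : ℕ) :
    HasDerivAt (fun u => bf_prod (L u) m)
      (∑ j ∈ Finset.range m, bf_seg (L t) (j + 1) (m - j - 1) * D j * bf_prod (L t) j) t := by
  induction m with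
  | zero => simpa using hasDerivAt_const t (1 : Matrix n n ℂ)
  | succ m ih =>
    have h1 := (hL m).mul ih
    have e1 : (fun u => bf_prod (L u) (m + 1)) = (fun u => L u m) * fun u => bf_prod (L u) m := rfl
    rw [e1]
    refine h1.congr_deriv ?_
    rw [Finset.sum_range_succ, Finset.mul_sum, add_comm]
    congr 1
    · refine Finset.sum_congr rfl fun j hj => ?_
      have hj' : j < m := Finset.mem_range.mp hj
      have e2 : m + 1 - j - 1 = (m - j - 1) + 1 := by omega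
      have e3 : j + 1 + (m - j - 1) = m := by omega
      rw [e2, bf_seg_succ, e3]
      simp only [Matrix.mul_assoc]
    · have e2 : m + 1 - m - 1 = 0 := by omega
      rw [e2, bf_seg_zero, Matrix.one_mul]

/-- derivative of the squared norm of a curve of vectors `c(u) Ω` -/
theorem ptg_hasDerivAt_nsq {n : Type} [Fintype n] [DecidableEq n] {c : ℝ → Matrix n n ℂ}
    {D : Matrix n n ℂ} {t : ℝ} (hc : HasDerivAt c D t) (Ω : n → ℂ) :
    HasDerivAt (fun u => bf_nsq (c u *ᵥ Ω)) (2 * (star (c t *ᵥ Ω) ⬝ᵥ (D *ᵥ Ω)).re) t := by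
  let T : Matrix n n ℂ →ₗ[ℂ] (n → ℂ) := Matrix.mulVecBilin ℂ ℂ |>.flip Ω
  have hTa : ∀ M, T M = M *ᵥ Ω := fun _ => rfl
  have hT : ∀ σ, HasDerivAt (fun u => T (c u) σ) (T D σ) t := by
    intro σ
    let Tσ : Matrix n n ℂ →ₗ[ℂ] ℂ := (LinearMap.proj σ).comp T
    have h1 := ((LinearMap.toContinuousLinearMap Tσ).restrictScalars ℝ).hasFDerivAt (x := c t)
    exact h1.comp_hasDerivAt t hc
  have hG : HasDerivAt (fun u => star (T (c u)) ⬝ᵥ T (c u))
      (∑ σ, (star (T D σ) * T (c t) σ + star (T (c t) σ) * T D σ)) t := by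
    simp only [dotProduct, Pi.star_apply]
    exact HasDerivAt.fun_sum fun σ _ => ((hT σ).star).mul (hT σ)
  have hg : HasDerivAt (fun u => bf_nsq (T (c u)))
      ((∑ σ, (star (T D σ) * T (c t) σ + star (T (c t) σ) * T D σ)).re) t := by
    have h1 := Complex.reCLM.hasFDerivAt (x := star (T (c t)) ⬝ᵥ T (c t))
    exact h1.comp_hasDerivAt t hG
  have h3 : (∑ σ, (star (T D σ) * T (c t) σ + star (T (c t) σ) * T D σ)).re
      = 2 * (star (T (c t)) ⬝ᵥ T D).re := by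
    simp only [dotProduct, Pi.star_apply, Complex.re_sum, Finset.mul_sum]
    refine Finset.sum_congr rfl fun σ _ => ?_
    simp only [Complex.add_re, Complex.mul_re, Complex.star_def, Complex.conj_re, Complex.conj_im]
    ring
  rw [h3] at hg
  exact hg

/-- one term of the product rule, after removal of the outer filters -/
theorem ptg_term {Y : ℕ → Finset s} (hY : Monotone Y) {a : ℕ → ℝ} (ha : ∀ j, 0 < a j)
    (Ω : Cfg io → ℂ) (m : ℕ) (R : ℝ) (x : bf_Tup io Y)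
    (hopt : pt_IsOpt Y a (Real.exp (-R)) Ω m x) (j : ℕ) (hj : j < m) :
    star (bf_prod (ptg_L Y a x R) m *ᵥ Ω) ⬝ᵥ
        ((bf_seg (ptg_L Y a x R) (j + 1) (m - j - 1) * (ptg_G Y a x R j * ptg_L Y a x R j) *
          bf_prod (ptg_L Y a x R) j) *ᵥ Ω) =
      ((a j / 2 : ℝ) : ℂ) * (ptr (Y j) (pureOp (pt_vec Y a (Real.exp (-R)) Ω m x)) *
          ((Real.exp (-R) : ℂ) • hpow (pt_sig Y (Real.exp (-R)) x j) (-1))).trace := by
  have hx := hopt.1
  have hb0 : 0 < Real.exp (-R) := Real.exp_pos _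
  have hσ : ∀ k, (pt_sig Y (Real.exp (-R)) x k).IsHermitian := fun k => pt_sig_herm hx _ k
  rw [← ptg_vec_eq]
  set ψ := pt_vec Y a (Real.exp (-R)) Ω m x with hψ
  set A := bf_seg (ptg_L Y a x R) (j + 1) (m - j - 1) with hA
  set Ai := bf_ges (bf_Fz Y a (pt_sig Y (Real.exp (-R)) x) 1) (j + 1) (m - j - 1) with hAi
  have hAiA : Ai * A = 1 :=
    bf_ges_mul_seg (fun k => by
      have := bf_Fz_neg_mul Y a (pt_sig Y (Real.exp (-R)) x) hσ (-1) k
      rwa [neg_neg] at this) _ _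
  have h1 : (ptg_L Y a x R j * bf_prod (ptg_L Y a x R) j) *ᵥ Ω = Ai *ᵥ ψ := by
    have e : ψ = (A * ptg_L Y a x R j * bf_prod (ptg_L Y a x R) j) *ᵥ Ω := by
      rw [hψ, ptg_vec_eq, bf_prod_split _ hj]
    rw [e, mulVec_mulVec]
    have e2 : Ai * (A * ptg_L Y a x R j * bf_prod (ptg_L Y a x R) j) =
        (Ai * A) * (ptg_L Y a x R j * bf_prod (ptg_L Y a x R) j) := by
      simp only [Matrix.mul_assoc]
    rw [e2, hAiA, Matrix.one_mul]
  have h2 : (A * (ptg_G Y a x R j * ptg_L Y a x R j) * bf_prod (ptg_L Y a x R) j) *ᵥ Ω =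
      (A * ptg_G Y a x R j * Ai) *ᵥ ψ := by
    have e : A * (ptg_G Y a x R j * ptg_L Y a x R j) * bf_prod (ptg_L Y a x R) j =
        (A * ptg_G Y a x R j) * (ptg_L Y a x R j * bf_prod (ptg_L Y a x R) j) := by
      simp only [Matrix.mul_assoc]
    rw [e, ← mulVec_mulVec, h1, mulVec_mulVec]
  rw [h2]
  -- removal of the outer filters
  have hc : ∀ k, j + 1 ≤ k → k < j + 1 + (m - j - 1) →
      Commute (pt_sig Y (Real.exp (-R)) x k) (ptr (Y k) (pureOp ψ)) := by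
    intro k _ hk2
    have h3 := pt_opt_commute hY ha hb0 Ω m x hopt k (by omega)
    exact h3.add_left ((Commute.one_left _).smul_left _)
  have h4 := bf_removal hY (fun k => -a k) (pt_sig Y (Real.exp (-R)) x) hσ ψ (j + 1) (m - j - 1) hc
    (G := ptg_G Y a x R j) (SuppIn.mono (hY (Nat.le_succ j)) ⟨_, rfl⟩)
  have f1 : bf_Fz Y (fun k => -a k) (pt_sig Y (Real.exp (-R)) x) 1 = ptg_L Y a x R :=
    funext fun k => pt_Fz_neg Y a _ 1 k
  have f2 : bf_Fz Y (fun k => -a k) (pt_sig Y (Real.exp (-R)) x) (-1) =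
      bf_Fz Y a (pt_sig Y (Real.exp (-R)) x) 1 :=
    funext fun k => by rw [pt_Fz_neg, neg_neg]
  rw [f1, f2] at h4
  have h5 : star ψ ⬝ᵥ ((A * ptg_G Y a x R j * Ai) *ᵥ ψ) = bf_ex ψ (A * ptg_G Y a x R j * Ai) := rfl
  rw [h5, h4, ptg_G, bf_ex_emb, Matrix.mul_smul, trace_smul, smul_eq_mul]

/-- derivative in `R` of `‖M(e^{-R}, x) Ω‖²` at a minimiser `x` for the value `R` (product rule + `bf_removal`) -/
theorem pt_hasDerivAt_R {Y : ℕ → Finset s} (hY : Monotone Y) {a : ℕ → ℝ} (ha : ∀ j, 0 < a j)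
    (Ω : Cfg io → ℂ) (m : ℕ) (R : ℝ) (x : bf_Tup io Y)
    (hopt : pt_IsOpt Y a (Real.exp (-R)) Ω m x) :
    HasDerivAt (fun R' : ℝ => bf_nsq (pt_vec Y a (Real.exp (-R')) Ω m x))
      (∑ j ∈ Finset.range m, a j *
        (ptr (Y j) (pureOp (pt_vec Y a (Real.exp (-R)) Ω m x)) *
          ((Real.exp (-R) : ℂ) • hpow (pt_sig Y (Real.exp (-R)) x j) (-1))).trace.re) R := by
  have hP := ptg_hasDerivAt_prod (fun R' => ptg_L Y a x R')
    (fun j => ptg_G Y a x R j * ptg_L Y a x R j) R (fun j => ptg_hasDerivAt_L a hopt.1 R j) m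
  have hN := ptg_hasDerivAt_nsq hP Ω
  refine hN.congr_deriv ?_
  rw [Matrix.sum_mulVec, dotProduct_sum, Complex.re_sum, Finset.mul_sum]
  refine Finset.sum_congr rfl fun j hj => ?_
  rw [ptg_term hY ha Ω m R x hopt j (Finset.mem_range.mp hj), Complex.re_ofReal_mul]
  ring

theorem ptg_nsq_pos {Y : ℕ → Finset s} {a : ℕ → ℝ} (ha : ∀ j, 0 ≤ a j) {b : ℝ} (hb : 0 < b)
    {Ω : Cfg io → ℂ} (hΩ : star Ω ⬝ᵥ Ω = 1) (m : ℕ) {x : bf_Tup io Y} (hx : pt_Feas Y x) :
    0 < bf_nsq (pt_vec Y a b Ω m x) :=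
  lt_of_lt_of_le (Real.rpow_pos_of_pos (by linarith) _) (pt_norm_bounds ha hb hΩ m hx).1

theorem ptg_val_pos [∀ x, Nonempty (io x)] (Y : ℕ → Finset s) {a : ℕ → ℝ} (ha : ∀ j, 0 ≤ a j)
    {b : ℝ} (hb : 0 < b) {Ω : Cfg io → ℂ} (hΩ : star Ω ⬝ᵥ Ω = 1) (m : ℕ) :
    0 < pt_val Y a Ω m b := by
  obtain ⟨x, hx⟩ := pt_exists_opt Y a hb Ω m
  rw [pt_val_eq hx]
  exact ptg_nsq_pos ha hb hΩ m hx.1

/-- (eq:patch-minimum-growth) -/
theorem pt_growth [∀ x, Nonempty (io x)] {I : Type} [Fintype I]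
    {h : I → Matrix (Cfg io) (Cfg io) ℂ} {E₀ Δ : ℝ}
    {Ω : Cfg io → ℂ} {Y : ℕ → Finset s} {a : ℕ → ℝ} {γ : I → ℕ → ℝ} {m : ℕ}
    (H : bf_Hyp h E₀ Δ Ω Y a γ m)
    (hbud : ∑ i, ∑ j ∈ Finset.range m, γ i j * (a j) ^ 2 ≤ Δ / 1024)
    (Q : ∀ j, Matrix (CfgOn io (Y j)) (CfgOn io (Y j)) ℂ) (hQ : ∀ j, (Q j).IsHermitian)
    (hQ2 : ∀ j, Q j * Q j = Q j) (r : ℝ) (hr : ∀ j, j < m → (Q j).trace.re ≤ r)
    (hQΩ : ∀ j, j < m → bf_nsq (emb (Y j) (1 - Q j) *ᵥ Ω) ≤ 1 / 16)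
    (R₀ R : ℝ) (hR₀ : Real.exp (-R₀) * r ≤ 1 / 8) (hR : R₀ ≤ R) :
    Real.log (pt_val Y a Ω m (Real.exp (-R))) ≤
      Real.log (pt_val Y a Ω m (Real.exp (-R₀))) + (∑ j ∈ Finset.range m, a j) / 4 * (R - R₀) := by
  have ha0 : ∀ j, 0 ≤ a j := fun j => (H.ha0 j).le
  set κ := ∑ j ∈ Finset.range m, a j with hκ
  set f : ℝ → ℝ := fun u => Real.log (pt_val Y a Ω m (Real.exp (-u))) with hf
  have hVpos : ∀ u : ℝ, 0 < pt_val Y a Ω m (Real.exp (-u)) :=
    fun u => ptg_val_pos Y ha0 (Real.exp_pos _) H.hΩ m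
  have hfc : ContinuousOn f (Set.Icc R₀ R) :=
    ((pt_val_continuous Y ha0 H.hΩ m).log fun u => (hVpos u).ne').continuousOn
  have main := image_le_of_liminf_slope_right_le_deriv_boundary (f := f) (a := R₀) (b := R) hfc
    (B := fun u => f R₀ + κ / 4 * (u - R₀)) (B' := fun _ => κ / 4) (by simp)
    (by fun_prop)
    (fun u _ => by
      have h1 : HasDerivAt (fun u : ℝ => f R₀ + κ / 4 * (u - R₀)) (κ / 4) u := by
        have := (((hasDerivAt_id u).sub_const R₀).const_mul (κ / 4)).const_add (f R₀)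
        simpa using this
      exact h1.hasDerivWithinAt)
    (by
      intro u hu ρ hρ
      obtain ⟨x, hx⟩ := pt_exists_opt Y a (Real.exp_pos (-u)) Ω m
      set N : ℝ → ℝ := fun z => bf_nsq (pt_vec Y a (Real.exp (-z)) Ω m x) with hN
      have hNpos : ∀ z, 0 < N z := fun z => ptg_nsq_pos ha0 (Real.exp_pos _) H.hΩ m hx.1
      have hD := pt_hasDerivAt_R H.mono H.ha0 Ω m u x hx
      set D := ∑ j ∈ Finset.range m, a j *
        (ptr (Y j) (pureOp (pt_vec Y a (Real.exp (-u)) Ω m x)) *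
          ((Real.exp (-u) : ℂ) • hpow (pt_sig Y (Real.exp (-u)) x j) (-1))).trace.re with hDdef
      have hbr : Real.exp (-u) * r ≤ 1 / 8 := by
        rcases le_total 0 r with h0 | h0
        · refine le_trans ?_ hR₀
          have : Real.exp (-u) ≤ Real.exp (-R₀) := Real.exp_le_exp.mpr (by linarith [hu.1])
          exact mul_le_mul_of_nonneg_right this h0
        · have := mul_nonpos_of_nonneg_of_nonpos (Real.exp_pos (-u)).le h0
          linarith
      have hDle : D ≤ κ / 4 * N u := by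
        have : κ / 4 * N u = ∑ j ∈ Finset.range m, a j * (1 / 4 * N u) := by
          rw [← Finset.sum_mul, hκ]; ring
        rw [this]
        refine Finset.sum_le_sum fun j hj => ?_
        have hj' := Finset.mem_range.mp hj
        refine mul_le_mul_of_nonneg_left ?_ (ha0 j)
        refine (pt_reg_trace H hbud (Real.exp_pos (-u)) x hx j hj' (Q j) (hQ j) (hQ2 j) r (hr j hj')
          (hQΩ j hj')).trans ?_
        exact mul_le_mul_of_nonneg_right (by linarith) (hNpos u).le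
      have hg : HasDerivAt (fun z => Real.log (N z)) (D / N u) u := hD.log (hNpos u).ne'
      have hlt : D / N u < ρ := by
        refine lt_of_le_of_lt ?_ hρ
        rw [div_le_iff₀ (hNpos u)]
        exact hDle
      have hev : ∀ᶠ z in nhdsWithin u (Set.Ioi u), slope (fun z => Real.log (N z)) u z < ρ :=
        ((hasDerivAt_iff_tendsto_slope.mp hg).mono_left (nhdsGT_le_nhdsNE u)).eventually
          (gt_mem_nhds hlt)
      refine Filter.Eventually.frequently ?_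
      filter_upwards [hev, self_mem_nhdsWithin] with z hz hzu
      have hzu' : 0 < z - u := sub_pos.mpr hzu
      refine lt_of_le_of_lt ?_ hz
      rw [slope_def_field, slope_def_field]
      refine div_le_div_of_nonneg_right ?_ hzu'.le
      have e1 : f u = Real.log (N u) := by
        simp only [hf, hN]
        rw [pt_val_eq hx]
      have e2 : f z ≤ Real.log (N z) :=
        Real.log_le_log (hVpos z) (pt_val_le hx.1)
      linarith)
  exact main (Set.right_mem_Icc.mpr hR)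

end Claimed.Agent.R296
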