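import Claimed.Agent.R296.BufEnergy

/-!
# Row 296, paper 2, Proposition 3.1 (`prop:patch`): the variational problem (prefix `pt_`; package P2-PT-OPT, 400-600 lines, SKELETON)

The proof of `prop:patch` is the MIRROR IMAGE of helper101's abstract buffer lemma (`Buf*.lean`, paper 1, Lemma 2.2):
there one MAXIMISES `‖σ_{m-1}^{a/2} ⋯ σ_0^{a/2} Ω‖`, here one MINIMISES `‖σ_{m-1}^{-a/2} ⋯ σ_0^{-a/2} Ω‖`, `σ_j = x_j + b`,
`x_j` a density matrix on `Y j`.  All generic leaves of `Buf*.lean` are reused (`bf_prod`, `bf_seg`, `bf_ges`, `bf_Fz`, `bf_Den`,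
`bf_cyc`, `bf_removal`, `bf_simul_diag`, `bf_cut_energy`, `bf_weight`, `bf_kkt_log`, `bf_gap`, `bf_Hyp`, ...).
Everything is unnormalised: `ψ = M Ω`.   Blueprint: `Notes/P2S01_03.lean`, section D.
-/

set_option autoImplicit false
set_option linter.unusedSectionVars false

namespace Claimed.Agent.R296

open Matrix
open scoped MatrixOrder Matrix.Norms.L2Operator ComplexOrder

variable {s : Type} [DecidableEq s] [Fintype s] {io : s → Type}
  [∀ x, Fintype (io x)] [∀ x, DecidableEq (io x)]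

/-- the regularised densities `σ_j = x_j + b` -/
noncomputable def pt_sig (Y : ℕ → Finset s) (b : ℝ) (x : bf_Tup io Y) : bf_Tup io Y :=
  fun j => x j + (b : ℂ) • (1 : Matrix (CfgOn io (Y j)) (CfgOn io (Y j)) ℂ)

/-- the filtered vector `ψ = L_{m-1} ⋯ L_0 Ω`, `L_j = (x_j + b)^{-a_j/2}` -/
noncomputable def pt_vec (Y : ℕ → Finset s) (a : ℕ → ℝ) (b : ℝ) (Ω : Cfg io → ℂ) (m : ℕ)
    (x : bf_Tup io Y) : Cfg io → ℂ :=
  bf_prod (bf_Fz Y a (pt_sig Y b x) (-1)) m *ᵥ Ω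

/-- feasible tuples: density matrices -/
def pt_Feas (Y : ℕ → Finset s) (x : bf_Tup io Y) : Prop := ∀ j, x j ∈ bf_Den 0 1

/-- `x` is a minimising feasible tuple -/
def pt_IsOpt (Y : ℕ → Finset s) (a : ℕ → ℝ) (b : ℝ) (Ω : Cfg io → ℂ) (m : ℕ)
    (x : bf_Tup io Y) : Prop :=
  pt_Feas Y x ∧ ∀ x' : bf_Tup io Y, pt_Feas Y x' →
    bf_nsq (pt_vec Y a b Ω m x) ≤ bf_nsq (pt_vec Y a b Ω m x')

theorem pt_sig_mem {Y : ℕ → Finset s} {x : bf_Tup io Y} (hx : pt_Feas Y x) (b : ℝ) (j : ℕ) :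
    pt_sig Y b x j ∈ bf_Den b (1 + b * (Fintype.card (CfgOn io (Y j)) : ℝ)) := by
  obtain ⟨h1, h2, h3⟩ := hx j
  refine ⟨?_, ?_, ?_⟩
  · unfold pt_sig
    refine h1.add ?_
    rw [IsHermitian, conjTranspose_smul, conjTranspose_one]
    simp
  · unfold pt_sig
    have e : x j + (b : ℂ) • (1 : Matrix (CfgOn io (Y j)) (CfgOn io (Y j)) ℂ) - (b : ℂ) • 1 =
        x j - ((0 : ℝ) : ℂ) • 1 := by simp
    rw [e]
    exact h2
  · unfold pt_sig
    rw [trace_add, h3, trace_smul, trace_one]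
    push_cast
    simp

theorem pt_sig_herm {Y : ℕ → Finset s} {x : bf_Tup io Y} (hx : pt_Feas Y x) (b : ℝ) (j : ℕ) :
    (pt_sig Y b x j).IsHermitian := (pt_sig_mem hx b j).1

theorem pt_Fz_continuousOn (Y : ℕ → Finset s) (a : ℕ → ℝ) {b : ℝ} (hb : 0 < b) (z : ℂ) (j : ℕ) :
    ContinuousOn (fun x : bf_Tup io Y => bf_Fz Y a (pt_sig Y b x) z j)
      (Set.pi Set.univ fun j => (bf_Den 0 1 : Set (Matrix (CfgOn io (Y j)) (CfgOn io (Y j)) ℂ))) := by
  have h0 : ContinuousOn (fun x : bf_Tup io Y => pt_sig Y b x j)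
      (Set.pi Set.univ fun j =>
        (bf_Den 0 1 : Set (Matrix (CfgOn io (Y j)) (CfgOn io (Y j)) ℂ))) :=
    ((continuous_apply j).add continuous_const).continuousOn
  have h1 : ContinuousOn (fun x : bf_Tup io Y => hpow (pt_sig Y b x j) (z * ((a j / 2 : ℝ) : ℂ)))
      (Set.pi Set.univ fun j =>
        (bf_Den 0 1 : Set (Matrix (CfgOn io (Y j)) (CfgOn io (Y j)) ℂ))) :=
    (bf_hpow_continuousOn' hb (1 + b * (Fintype.card (CfgOn io (Y j)) : ℝ))
      (z * ((a j / 2 : ℝ) : ℂ))).comp h0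
      fun x hx => pt_sig_mem (fun k => hx k (Set.mem_univ k)) b j
  exact (continuous_embHom (io := io) (Y j)).comp_continuousOn h1

theorem pt_prod_continuousOn (Y : ℕ → Finset s) (a : ℕ → ℝ) {b : ℝ} (hb : 0 < b) (z : ℂ) (m : ℕ) :
    ContinuousOn (fun x : bf_Tup io Y => bf_prod (bf_Fz Y a (pt_sig Y b x) z) m)
      (Set.pi Set.univ fun j => (bf_Den 0 1 : Set (Matrix (CfgOn io (Y j)) (CfgOn io (Y j)) ℂ))) := by
  induction m with
  | zero => exact continuousOn_const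
  | succ m ih => exact (pt_Fz_continuousOn Y a hb z m).mul ih

/-- existence of a minimiser (compactness of `bf_Den 0 1`, continuity of `x ↦ hpow (x + b) r`: `bf_hpow_continuousOn`) -/
theorem pt_exists_opt [∀ x, Nonempty (io x)] (Y : ℕ → Finset s) (a : ℕ → ℝ) {b : ℝ} (hb : 0 < b)
    (Ω : Cfg io → ℂ) (m : ℕ) : ∃ x : bf_Tup io Y, pt_IsOpt Y a b Ω m x := by
  have hK : IsCompact (Set.pi Set.univ fun j =>
      (bf_Den 0 1 : Set (Matrix (CfgOn io (Y j)) (CfgOn io (Y j)) ℂ))) :=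
    isCompact_univ_pi fun j => bf_den_isCompact 0 1
  have hne : (Set.pi Set.univ fun j =>
      (bf_Den 0 1 : Set (Matrix (CfgOn io (Y j)) (CfgOn io (Y j)) ℂ))).Nonempty :=
    Set.univ_pi_nonempty_iff.2 fun j => bf_den_nonempty (by simp)
  have hc : ContinuousOn (fun x : bf_Tup io Y => bf_nsq (pt_vec Y a b Ω m x))
      (Set.pi Set.univ fun j =>
        (bf_Den 0 1 : Set (Matrix (CfgOn io (Y j)) (CfgOn io (Y j)) ℂ))) := by
    refine bf_nsq_continuous.comp_continuousOn ?_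
    have h2 : Continuous fun M : Matrix (Cfg io) (Cfg io) ℂ => M *ᵥ Ω :=
      continuous_id.matrix_mulVec continuous_const
    exact h2.comp_continuousOn (pt_prod_continuousOn Y a hb (-1) m)
  obtain ⟨x, hx, hmin⟩ := hK.exists_isMinOn hne hc
  refine ⟨x, fun j => hx j (Set.mem_univ j), fun x' hx' => ?_⟩
  exact hmin (fun j _ => hx' j)

/-- the inverse filters undo the filters -/
theorem pt_inverse {Y : ℕ → Finset s} (a : ℕ → ℝ) {b : ℝ} (hb : 0 < b) (Ω : Cfg io → ℂ) (m : ℕ)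
    {x : bf_Tup io Y} (hx : pt_Feas Y x) :
    bf_ges (bf_Fz Y a (pt_sig Y b x) 1) 0 m *ᵥ pt_vec Y a b Ω m x = Ω := by
  unfold pt_vec
  rw [bf_prod_eq_seg, mulVec_mulVec,
    bf_ges_mul_seg (fun k => bf_Fz_mul_neg Y a (pt_sig Y b x) (pt_sig_herm hx b) 1 k), one_mulVec]

/-- adding a multiple of the identity in an eigenbasis -/
theorem pt_add_smul_diag {n : Type} [Fintype n] [DecidableEq n] {U : Matrix n n ℂ}
    (hU' : U * Uᴴ = 1) (ξ : n → ℝ) (b : ℝ) :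
    U * diagonal (fun i => (ξ i : ℂ)) * Uᴴ + (b : ℂ) • (1 : Matrix n n ℂ) =
      U * diagonal (fun i => ((ξ i + b : ℝ) : ℂ)) * Uᴴ := by
  have e : (diagonal (fun i => ((ξ i + b : ℝ) : ℂ)) : Matrix n n ℂ) =
      diagonal (fun i => (ξ i : ℂ)) + (b : ℂ) • (1 : Matrix n n ℂ) := by
    rw [← diagonal_one, ← diagonal_smul, diagonal_add]
    congr 1
    funext i
    simp
  rw [e, Matrix.mul_add, Matrix.add_mul, Matrix.mul_smul, Matrix.smul_mul, Matrix.mul_one, hU']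

/-- the regularised density in an eigenbasis of `x_j` -/
theorem pt_sig_diag {Y : ℕ → Finset s} (b : ℝ) (x : bf_Tup io Y) (j : ℕ)
    {U : Matrix (CfgOn io (Y j)) (CfgOn io (Y j)) ℂ} (hU' : U * Uᴴ = 1)
    (ξ : CfgOn io (Y j) → ℝ) (hx : x j = U * diagonal (fun i => (ξ i : ℂ)) * Uᴴ) :
    pt_sig Y b x j = U * diagonal (fun i => ((ξ i + b : ℝ) : ℂ)) * Uᴴ := by
  unfold pt_sig
  rw [hx, pt_add_smul_diag hU']

/-- real powers of a positive matrix in an eigenbasis -/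
theorem pt_hpow_diag {n : Type} [Fintype n] [DecidableEq n] {U : Matrix n n ℂ} (hU : Uᴴ * U = 1)
    (hU' : U * Uᴴ = 1) (y : n → ℝ) (hy : ∀ l, 0 < y l) (q : ℝ) :
    hpow (U * diagonal (fun l => (y l : ℂ)) * Uᴴ) (q : ℂ) =
      U * diagonal (fun l => ((y l ^ q : ℝ) : ℂ)) * Uᴴ := by
  rw [bf_hpow_diag hU hU']
  have : (fun l => hpowS (q : ℂ) (y l)) = fun l => ((y l ^ q : ℝ) : ℂ) :=
    funext fun l => hpowS_ofReal (hy l) q
  rw [this]

/-- lower bound of a local quadratic form -/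
theorem pt_quad_lower (A : Finset s) (v : Cfg io → ℂ) {η t : ℝ}
    {K : Matrix (CfgOn io A) (CfgOn io A) ℂ} (hK : K ∈ bf_Den η t) :
    η * bf_nsq v ≤ (bf_ex v (emb A K)).re := by
  have h1 : (0 : Matrix (CfgOn io A) (CfgOn io A) ℂ) ≤ K - (η : ℂ) • 1 :=
    Matrix.nonneg_iff_posSemidef.2 hK.2.1
  have h2 := Matrix.nonneg_iff_posSemidef.1 (emb_nonneg (io := io) h1)
  have h3 := h2.dotProduct_mulVec_nonneg v
  have e : emb A (K - (η : ℂ) • (1 : Matrix (CfgOn io A) (CfgOn io A) ℂ)) =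
      emb A K - (η : ℂ) • (1 : Matrix (Cfg io) (Cfg io) ℂ) := by
    rw [sub_eq_add_neg, ← neg_smul, emb_add, emb_smul, emb_one, neg_smul, ← sub_eq_add_neg]
  rw [← bf_ex, e, bf_ex_sub, bf_ex_smul, bf_ex_one] at h3
  have h4 := (Complex.le_def.1 h3).1
  simp only [Complex.zero_re, Complex.sub_re, Complex.mul_re, Complex.ofReal_re, Complex.ofReal_im,
    zero_mul, sub_zero] at h4
  linarith

/-- two-sided bound of a local quadratic form in an eigenbasis -/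
theorem pt_quad_diag (A : Finset s) (v : Cfg io → ℂ) {U : Matrix (CfgOn io A) (CfgOn io A) ℂ}
    (hU : Uᴴ * U = 1) (hU' : U * Uᴴ = 1) (d : CfgOn io A → ℝ) {c₁ c₂ : ℝ} (h1 : ∀ i, c₁ ≤ d i)
    (h2 : ∀ i, d i ≤ c₂) :
    c₁ * bf_nsq v ≤ (bf_ex v (emb A (U * diagonal (fun i => (d i : ℂ)) * Uᴴ))).re ∧
      (bf_ex v (emb A (U * diagonal (fun i => (d i : ℂ)) * Uᴴ))).re ≤ c₂ * bf_nsq v := by
  constructor
  · exact pt_quad_lower A v ((bf_den_diag_iff hU hU' d c₁ (∑ i, d i)).2 ⟨h1, rfl⟩)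
  · have h3 := pt_quad_lower A v ((bf_den_diag_iff hU hU' (fun i => -d i) (-c₂) (∑ i, -d i)).2
      ⟨fun i => neg_le_neg (h2 i), rfl⟩)
    have e : U * diagonal (fun i => ((-d i : ℝ) : ℂ)) * Uᴴ =
        (-1 : ℂ) • (U * diagonal (fun i => (d i : ℂ)) * Uᴴ) := by
      have : (diagonal (fun i => ((-d i : ℝ) : ℂ)) : Matrix (CfgOn io A) (CfgOn io A) ℂ) =
          (-1 : ℂ) • diagonal (fun i => (d i : ℂ)) := by
        rw [← diagonal_smul]
        congr 1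
        funext i
        simp
      rw [this, Matrix.mul_smul, Matrix.smul_mul]
    rw [e, emb_smul, bf_ex_smul] at h3
    simp only [neg_mul, one_mul, Complex.neg_re] at h3
    linarith

/-- one regularised inverse filter changes the squared norm by a factor in
`[(1+b)^{-r}, b^{-r}]` -/
theorem pt_step_bounds (A : Finset s) {x : Matrix (CfgOn io A) (CfgOn io A) ℂ}
    (hx : x ∈ bf_Den 0 1) {b : ℝ} (hb : 0 < b) {r : ℝ} (hr : 0 ≤ r) (v : Cfg io → ℂ) :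
    (1 + b) ^ (-r) * bf_nsq v ≤
        bf_nsq (emb A (hpow (x + (b : ℂ) • 1) (-1 * ((r / 2 : ℝ) : ℂ))) *ᵥ v) ∧
      bf_nsq (emb A (hpow (x + (b : ℂ) • 1) (-1 * ((r / 2 : ℝ) : ℂ))) *ᵥ v) ≤
        b ^ (-r) * bf_nsq v := by
  obtain ⟨U, ξ, hU, hU', hξ0, hξs, rfl⟩ := bf_den_exists_diag hx
  have hy : ∀ l, 0 < ξ l + b := fun l => by linarith [hξ0 l]
  have hξ1 : ∀ l, ξ l ≤ 1 := fun l => by
    rw [← hξs]
    exact Finset.single_le_sum (f := ξ) (fun i _ => hξ0 i) (Finset.mem_univ l)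
  have e1 : (-1 * ((r / 2 : ℝ) : ℂ)) = ((-(r / 2) : ℝ) : ℂ) := by push_cast; ring
  rw [pt_add_smul_diag hU', e1, pt_hpow_diag hU hU' _ hy, bf_nsq_mulVec, ← emb_conjTranspose,
    ← emb_mul, (isHermitian_isometry_conj U (isHermitian_diagonal_ofReal _)).eq, bf_diag_mul hU]
  have e2 : (fun i => (((ξ i + b) ^ (-(r / 2)) : ℝ) : ℂ) * (((ξ i + b) ^ (-(r / 2)) : ℝ) : ℂ)) =
      fun i => (((ξ i + b) ^ (-r) : ℝ) : ℂ) := by
    funext i
    rw [← Complex.ofReal_mul, ← Real.rpow_add (hy i)]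
    congr 2
    ring
  rw [e2]
  refine pt_quad_diag A v hU hU' _ (fun i => ?_) (fun i => ?_)
  · exact Real.rpow_le_rpow_of_nonpos (hy i) (by linarith [hξ1 i]) (by linarith)
  · exact Real.rpow_le_rpow_of_nonpos hb (by linarith [hξ0 i]) (by linarith)

/-- (eq:patch-elementary-norm-bounds), squared -/
theorem pt_norm_bounds {Y : ℕ → Finset s} {a : ℕ → ℝ} (ha : ∀ j, 0 ≤ a j) {b : ℝ} (hb : 0 < b)
    {Ω : Cfg io → ℂ} (hΩ : star Ω ⬝ᵥ Ω = 1) (m : ℕ) {x : bf_Tup io Y} (hx : pt_Feas Y x) :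
    (1 + b) ^ (-(∑ j ∈ Finset.range m, a j)) ≤ bf_nsq (pt_vec Y a b Ω m x) ∧
      bf_nsq (pt_vec Y a b Ω m x) ≤ b ^ (-(∑ j ∈ Finset.range m, a j)) := by
  induction m with
  | zero =>
    have : bf_nsq (pt_vec Y a b Ω 0 x) = 1 := by
      unfold pt_vec bf_nsq
      rw [bf_prod_zero, one_mulVec, hΩ, Complex.one_re]
    rw [this]
    simp
  | succ m ih =>
    obtain ⟨ih1, ih2⟩ := ih
    have e : pt_vec Y a b Ω (m + 1) x =
        emb (Y m) (hpow (x m + (b : ℂ) • 1) (-1 * ((a m / 2 : ℝ) : ℂ))) *ᵥ pt_vec Y a b Ω m x := by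
      unfold pt_vec
      rw [bf_prod_succ, ← mulVec_mulVec]
      rfl
    obtain ⟨h1, h2⟩ := pt_step_bounds (Y m) (hx m) hb (ha m) (pt_vec Y a b Ω m x)
    rw [← e] at h1 h2
    rw [Finset.sum_range_succ, neg_add, Real.rpow_add (by linarith), Real.rpow_add hb]
    constructor
    · refine le_trans ?_ h1
      rw [mul_comm]
      exact mul_le_mul_of_nonneg_left ih1 (Real.rpow_nonneg (by linarith) _)
    · refine h2.trans ?_
      rw [mul_comm]
      exact mul_le_mul_of_nonneg_right ih2 (Real.rpow_nonneg hb.le _)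

end Claimed.Agent.R296
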