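import Claimed.Agent.R296.P2.PatchEnergy

/-!
# Row 296, paper 2, Proposition 3.1: the regulator trace (package P2-PT-REG)

(eq:patch-regulator-trace).  `T_j = ρ_j b σ_j⁻¹` (commuting product), `0 ≤ T_j ≤ b ‖ψ‖²` (`pt_opt_le`), `T_j ≤ ρ_j`; hence
`Tr T_j = Tr Q T_j + Tr (1-Q) T_j ≤ b ‖ψ‖² Tr Q + Tr (1-Q) ρ_j ≤ (b r + 1/8) ‖ψ‖²` (`pt_opt_tail` with `G = emb (1 - Q)`).
-/

set_option autoImplicit false
set_option linter.unusedSectionVars false
set_option linter.unusedDecidableInType false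
set_option linter.unusedVariables false

namespace Claimed.Agent.R296

open Matrix
open scoped MatrixOrder Matrix.Norms.L2Operator ComplexOrder

section Gen

variable {n : Type} [Fintype n] [DecidableEq n]

/-- a Hermitian idempotent is positive semidefinite -/
theorem pt_proj_posSemidef {Q : Matrix n n ℂ} (hQ : Q.IsHermitian) (hQ2 : Q * Q = Q) :
    Q.PosSemidef := by
  have h := posSemidef_conjTranspose_mul_self Q
  rwa [hQ.eq, hQ2] at h

/-- the complement of a Hermitian idempotent -/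
theorem pt_proj_compl {Q : Matrix n n ℂ} (hQ : Q.IsHermitian) (hQ2 : Q * Q = Q) :
    (1 - Q).IsHermitian ∧ (1 - Q) * (1 - Q) = 1 - Q := by
  refine ⟨isHermitian_one.sub hQ, ?_⟩
  rw [Matrix.sub_mul, Matrix.mul_sub, Matrix.mul_sub, Matrix.one_mul, Matrix.mul_one,
    Matrix.one_mul, hQ2]
  abel

/-- a Hermitian idempotent has norm at most one -/
theorem pt_proj_norm_le {Q : Matrix n n ℂ} (hQ : Q.IsHermitian) (hQ2 : Q * Q = Q) : ‖Q‖ ≤ 1 := by
  have h := Matrix.l2_opNorm_conjTranspose_mul_self Q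
  rw [hQ.eq, hQ2] at h
  by_contra hcon
  rw [not_le] at hcon
  nlinarith [norm_nonneg Q]

/-- monotonicity of `d ↦ Tr (P U diag(d) Uᴴ)` for positive semidefinite `P` -/
theorem pt_trace_diag_mono {P U : Matrix n n ℂ} (hP : P.PosSemidef) (d d' : n → ℝ)
    (h : ∀ i, d i ≤ d' i) :
    (P * (U * diagonal (fun i => (d i : ℂ)) * Uᴴ)).trace.re ≤
      (P * (U * diagonal (fun i => (d' i : ℂ)) * Uᴴ)).trace.re := by
  have hP' := hP.conjTranspose_mul_mul_same U
  have key : ∀ e : n → ℝ, (P * (U * diagonal (fun i => (e i : ℂ)) * Uᴴ)).trace.re =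
      ∑ i, ((Uᴴ * P * U) i i).re * e i := by
    intro e
    have e1 : (P * (U * diagonal (fun i => (e i : ℂ)) * Uᴴ)).trace =
        ((Uᴴ * P * U) * diagonal (fun i => (e i : ℂ))).trace := by
      rw [← Matrix.mul_assoc, trace_mul_comm]
      simp only [Matrix.mul_assoc]
    rw [e1, trace, Complex.re_sum]
    refine Finset.sum_congr rfl fun i _ => ?_
    rw [diag_apply, mul_diagonal, Complex.mul_re, Complex.ofReal_re, Complex.ofReal_im, mul_zero,
      sub_zero]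
  rw [key, key]
  refine Finset.sum_le_sum fun i _ => mul_le_mul_of_nonneg_left (h i) ?_
  exact (Complex.le_def.1 (hP'.diag_nonneg (i := i))).1

end Gen

variable {s : Type} [DecidableEq s] [Fintype s] {io : s → Type}
  [∀ x, Fintype (io x)] [∀ x, DecidableEq (io x)]

/-- the weight of a local Hermitian idempotent -/
theorem pt_nsq_emb_proj (A : Finset s) (ψ : Cfg io → ℂ) {Q : Matrix (CfgOn io A) (CfgOn io A) ℂ}
    (hQ : Q.IsHermitian) (hQ2 : Q * Q = Q) :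
    bf_nsq (emb A Q *ᵥ ψ) = (Q * ptr A (pureOp ψ)).trace.re := by
  rw [bf_nsq_mulVec, ← emb_conjTranspose, ← emb_mul, hQ.eq, hQ2, bf_ex_emb, trace_mul_comm]

theorem pt_reg_trace {I : Type} [Fintype I] {h : I → Matrix (Cfg io) (Cfg io) ℂ} {E₀ Δ : ℝ}
    {Ω : Cfg io → ℂ} {Y : ℕ → Finset s} {a : ℕ → ℝ} {γ : I → ℕ → ℝ} {m : ℕ}
    (H : bf_Hyp h E₀ Δ Ω Y a γ m)
    (hbud : ∑ i, ∑ j ∈ Finset.range m, γ i j * (a j) ^ 2 ≤ Δ / 1024) {b : ℝ} (hb : 0 < b)
    (x : bf_Tup io Y) (hopt : pt_IsOpt Y a b Ω m x) (j : ℕ) (hj : j < m)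
    (Q : Matrix (CfgOn io (Y j)) (CfgOn io (Y j)) ℂ) (hQ : Q.IsHermitian) (hQ2 : Q * Q = Q)
    (r : ℝ) (hr : Q.trace.re ≤ r) (hQΩ : bf_nsq (emb (Y j) (1 - Q) *ᵥ Ω) ≤ 1 / 16) :
    (ptr (Y j) (pureOp (pt_vec Y a b Ω m x)) *
        ((b : ℂ) • hpow (pt_sig Y b x j) (-1))).trace.re ≤
      (b * r + 1 / 8) * bf_nsq (pt_vec Y a b Ω m x) := by
  obtain ⟨hQc, hQc2⟩ := pt_proj_compl hQ hQ2
  have htail := pt_opt_tail H hbud hb x hopt (emb (Y j) (1 - Q))
    ((norm_emb_le _ _).trans (pt_proj_norm_le hQc hQc2)) hQΩ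
  have hcomm := pt_opt_commute H.mono H.ha0 hb Ω m x hopt j hj
  have hle := fun U hU hU' ξ p hx hp i =>
    pt_opt_le H.mono H.ha0 hb Ω m x hopt j hj (U := U) hU hU' ξ p hx hp i
  set ψ := pt_vec Y a b Ω m x with hψ
  have hN := bf_nsq_nonneg ψ
  obtain ⟨U, ξ, p, hU, hU', hx, hp⟩ := bf_simul_diag (x j) (ptr (Y j) (pureOp ψ)) (hopt.1 j).1
    (bf_ptr_pure_posSemidef _ _).1 hcomm
  have hden := hopt.1 j
  rw [hx, bf_den_diag_iff hU hU'] at hden
  obtain ⟨hξ0, hξs⟩ := hden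
  obtain ⟨hp0, hps⟩ := pt_ptr_diag (Y j) ψ hU hU' p hp
  have hy0 : ∀ l, 0 < ξ l + b := fun l => by linarith [hξ0 l]
  have hσ := pt_sig_diag b x j hU' ξ hx
  have hle' := hle U hU hU' ξ p hx hp
  -- the regulator operator in the common eigenbasis
  have e1 : ((-1 : ℂ)) = (((-1 : ℝ)) : ℂ) := by push_cast; rfl
  have hT : ptr (Y j) (pureOp ψ) * ((b : ℂ) • hpow (pt_sig Y b x j) (-1)) =
      U * diagonal (fun i => ((p i * (b / (ξ i + b)) : ℝ) : ℂ)) * Uᴴ := by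
    rw [hp, hσ, e1, pt_hpow_diag hU hU' _ hy0, Matrix.mul_smul, bf_diag_mul hU, ← Matrix.smul_mul,
      ← Matrix.mul_smul, ← diagonal_smul]
    congr 3
    funext i
    rw [Pi.smul_apply, smul_eq_mul, Real.rpow_neg_one]
    push_cast
    ring
  rw [hT]
  have hsplit : (U * diagonal (fun i => ((p i * (b / (ξ i + b)) : ℝ) : ℂ)) * Uᴴ).trace.re =
      (Q * (U * diagonal (fun i => ((p i * (b / (ξ i + b)) : ℝ) : ℂ)) * Uᴴ)).trace.re +
      ((1 - Q) * (U * diagonal (fun i => ((p i * (b / (ξ i + b)) : ℝ) : ℂ)) * Uᴴ)).trace.re := by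
    rw [← Complex.add_re, ← trace_add, ← Matrix.add_mul, add_sub_cancel, Matrix.one_mul]
  rw [hsplit]
  -- head
  have h1 : (Q * (U * diagonal (fun i => ((p i * (b / (ξ i + b)) : ℝ) : ℂ)) * Uᴴ)).trace.re ≤
      b * r * bf_nsq ψ := by
    refine (pt_trace_diag_mono (pt_proj_posSemidef hQ hQ2) _ (fun _ => b * bf_nsq ψ)
      (fun i => ?_)).trans ?_
    · have := hle' i
      calc p i * (b / (ξ i + b)) ≤ (bf_nsq ψ * (ξ i + b)) * (b / (ξ i + b)) :=
            mul_le_mul_of_nonneg_right this (div_nonneg hb.le (hy0 i).le)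
        _ = b * bf_nsq ψ := by field_simp [(hy0 i).ne']
    · have e2 : U * diagonal (fun _ => ((b * bf_nsq ψ : ℝ) : ℂ)) * Uᴴ =
          ((b * bf_nsq ψ : ℝ) : ℂ) • (1 : Matrix (CfgOn io (Y j)) (CfgOn io (Y j)) ℂ) := by
        have : (diagonal (fun _ => ((b * bf_nsq ψ : ℝ) : ℂ)) :
            Matrix (CfgOn io (Y j)) (CfgOn io (Y j)) ℂ) = ((b * bf_nsq ψ : ℝ) : ℂ) • 1 := by
          rw [← diagonal_one, ← diagonal_smul]
          congr 1
          funext i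
          simp
        rw [this, Matrix.mul_smul, Matrix.smul_mul, Matrix.mul_one, hU']
      rw [e2, Matrix.mul_smul, Matrix.mul_one, trace_smul, smul_eq_mul, Complex.re_ofReal_mul]
      calc b * bf_nsq ψ * Q.trace.re ≤ b * bf_nsq ψ * r :=
            mul_le_mul_of_nonneg_left hr (mul_nonneg hb.le hN)
        _ = _ := by ring
  -- tail
  have h2 : ((1 - Q) * (U * diagonal (fun i => ((p i * (b / (ξ i + b)) : ℝ) : ℂ)) * Uᴴ)).trace.re ≤
      1 / 8 * bf_nsq ψ := by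
    refine (pt_trace_diag_mono (pt_proj_posSemidef hQc hQc2) _ p (fun i => ?_)).trans ?_
    · have : b / (ξ i + b) ≤ 1 := by
        rw [div_le_one (hy0 i)]
        linarith [hξ0 i]
      calc p i * (b / (ξ i + b)) ≤ p i * 1 := mul_le_mul_of_nonneg_left this (hp0 i)
        _ = p i := mul_one _
    · rw [← hp, ← pt_nsq_emb_proj (Y j) ψ hQc hQc2]
      exact htail
  linarith

end Claimed.Agent.R296
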