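import Claimed.Agent.R296.P2.PatchOpt

/-!
# Row 296, paper 2, Proposition 3.1: stationarity of the minimising filters (package P2-PT-STAT)

Mirror of `BufStat.lean` (same proofs with `a → -a`, max → min).  `bf_removal` holds for arbitrary real `a`, use it with `-a`
(`bf_Fz Y (-a) σ 1 = bf_Fz Y a σ (-1)`).
-/

set_option autoImplicit false
set_option linter.unusedSectionVars false
set_option linter.unusedDecidableInType false
set_option linter.unusedVariables false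

namespace Claimed.Agent.R296

open Matrix
open scoped MatrixOrder Matrix.Norms.L2Operator ComplexOrder

section Gen

variable {n N : Type} [Fintype n] [DecidableEq n] [Fintype N] [DecidableEq N]

/-- one-sided first order condition at a minimum -/
theorem pt_first_order (T : Matrix n n ℂ →ₗ[ℂ] (N → ℂ)) (c : ℝ → Matrix n n ℂ) (D : Matrix n n ℂ)
    (hc : HasDerivAt c D 0) {δ : ℝ} (hδ : 0 < δ)
    (hmin : ∀ t, 0 ≤ t → t < δ → bf_nsq (T (c 0)) ≤ bf_nsq (T (c t))) :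
    0 ≤ (star (T (c 0)) ⬝ᵥ T D).re := by
  have hT : ∀ σ, HasDerivAt (fun t => T (c t) σ) (T D σ) 0 := by
    intro σ
    let Tσ : Matrix n n ℂ →ₗ[ℂ] ℂ := (LinearMap.proj σ).comp T
    have h1 := ((LinearMap.toContinuousLinearMap Tσ).restrictScalars ℝ).hasFDerivAt (x := c 0)
    exact h1.comp_hasDerivAt (0 : ℝ) hc
  have hG : HasDerivAt (fun t => star (T (c t)) ⬝ᵥ T (c t))
      (∑ σ, (star (T D σ) * T (c 0) σ + star (T (c 0) σ) * T D σ)) 0 := by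
    simp only [dotProduct, Pi.star_apply]
    exact HasDerivAt.fun_sum fun σ _ => ((hT σ).star).mul (hT σ)
  have hg : HasDerivAt (fun t => bf_nsq (T (c t)))
      ((∑ σ, (star (T D σ) * T (c 0) σ + star (T (c 0) σ) * T D σ)).re) 0 := by
    have h1 := Complex.reCLM.hasFDerivAt (x := star (T (c 0)) ⬝ᵥ T (c 0))
    exact h1.comp_hasDerivAt (0 : ℝ) hG
  have h2 := bf_deriv_nonpos (g := fun t => -bf_nsq (T (c t))) hδ hg.neg
    (fun t h0 h1 => neg_le_neg (hmin t h0 h1))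
  have h3 : (∑ σ, (star (T D σ) * T (c 0) σ + star (T (c 0) σ) * T D σ)).re
      = 2 * (star (T (c 0)) ⬝ᵥ T D).re := by
    simp only [dotProduct, Pi.star_apply, Complex.re_sum, Finset.mul_sum]
    refine Finset.sum_congr rfl fun σ _ => ?_
    simp only [Complex.add_re, Complex.mul_re, Complex.star_def, Complex.conj_re, Complex.conj_im]
    ring
  rw [h3] at h2
  linarith

end Gen

variable {s : Type} [DecidableEq s] [Fintype s] {io : s → Type}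
  [∀ x, Fintype (io x)] [∀ x, DecidableEq (io x)]

theorem pt_Fz_neg (Y : ℕ → Finset s) (a : ℕ → ℝ) (σ : bf_Tup io Y) (z : ℂ) (j : ℕ) :
    bf_Fz Y (fun k => -a k) σ z j = bf_Fz Y a σ (-z) j := by
  unfold bf_Fz
  have e : z * (((-a j) / 2 : ℝ) : ℂ) = -z * ((a j / 2 : ℝ) : ℂ) := by push_cast; ring
  rw [e]

theorem pt_F_neg (Y : ℕ → Finset s) (a : ℕ → ℝ) (σ : bf_Tup io Y) :
    bf_F Y (fun k => -a k) σ = bf_Fz Y a σ (-1) :=
  funext fun j => pt_Fz_neg Y a σ 1 j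

theorem pt_Fz_neg' (Y : ℕ → Finset s) (a : ℕ → ℝ) (σ : bf_Tup io Y) :
    bf_Fz Y (fun k => -a k) σ (-1) = bf_Fz Y a σ 1 :=
  funext fun j => by rw [pt_Fz_neg, neg_neg]

theorem pt_Fz_neg'' (Y : ℕ → Finset s) (a : ℕ → ℝ) (σ : bf_Tup io Y) :
    bf_Fz Y (fun k => -a k) σ 1 = bf_Fz Y a σ (-1) :=
  funext fun j => pt_Fz_neg Y a σ 1 j

theorem pt_vec_eq (Y : ℕ → Finset s) (a : ℕ → ℝ) (b : ℝ) (Ω : Cfg io → ℂ) (m : ℕ)
    (x : bf_Tup io Y) :
    pt_vec Y a b Ω m x = bf_prod (bf_F Y (fun k => -a k) (pt_sig Y b x)) m *ᵥ Ω := by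
  rw [pt_F_neg]
  rfl

theorem pt_sig_update (Y : ℕ → Finset s) (b : ℝ) (x : bf_Tup io Y) (j : ℕ)
    (τ : Matrix (CfgOn io (Y j)) (CfgOn io (Y j)) ℂ) :
    pt_sig Y b (Function.update x j τ) = Function.update (pt_sig Y b x) j (τ + (b : ℂ) • 1) := by
  funext k
  by_cases h : k = j
  · subst h
    simp [pt_sig]
  · simp [pt_sig, Function.update_of_ne h]

/-- first order condition for a general product of filters, at a minimum along a curve -/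
theorem pt_gen_first_order {Y : ℕ → Finset s} (hY : Monotone Y) (a : ℕ → ℝ)
    (Ω : Cfg io → ℂ) (m : ℕ) (σ : bf_Tup io Y) (hσ : ∀ k, (σ k).IsHermitian) (j : ℕ) (hj : j < m)
    (hc : ∀ k, j < k → k < m →
      Commute (σ k) (ptr (Y k) (pureOp (bf_prod (bf_F Y a σ) m *ᵥ Ω))))
    (c : ℝ → Matrix (CfgOn io (Y j)) (CfgOn io (Y j)) ℂ) (D : Matrix (CfgOn io (Y j)) (CfgOn io (Y j)) ℂ)
    (hc0 : c 0 = hpow (σ j) ((a j / 2 : ℝ) : ℂ)) (hcD : HasDerivAt c D 0) {δ : ℝ} (hδ : 0 < δ)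
    (hfeas : ∀ t, 0 ≤ t → t < δ → ∃ τ, c t = hpow τ ((a j / 2 : ℝ) : ℂ) ∧
      bf_nsq (bf_prod (bf_F Y a σ) m *ᵥ Ω) ≤
        bf_nsq (bf_prod (bf_F Y a (Function.update σ j τ)) m *ᵥ Ω)) :
    0 ≤ (ptr (Y j) (pureOp (bf_prod (bf_F Y a σ) m *ᵥ Ω)) *
      (D * hpow (σ j) (-((a j / 2 : ℝ) : ℂ)))).trace.re := by
  set ψ := bf_prod (bf_F Y a σ) m *ᵥ Ω with hψ
  set A := bf_seg (bf_F Y a σ) (j + 1) (m - j - 1) with hA
  set Ai := bf_ges (bf_Fz Y a σ (-1)) (j + 1) (m - j - 1) with hAi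
  set ψ₀ := bf_prod (bf_F Y a σ) j *ᵥ Ω with hψ₀
  let T : Matrix (CfgOn io (Y j)) (CfgOn io (Y j)) ℂ →ₗ[ℂ] (Cfg io → ℂ) :=
    { toFun := fun M => (A * emb (Y j) M) *ᵥ ψ₀
      map_add' := fun M M' => by rw [emb_add, Matrix.mul_add, add_mulVec]
      map_smul' := fun z M => by rw [emb_smul, Matrix.mul_smul, smul_mulVec]; rfl }
  have hT : ∀ M, T M = (A * emb (Y j) M) *ᵥ ψ₀ := fun _ => rfl
  -- value of `T` on feasible points
  have hTτ : ∀ τ, T (hpow τ ((a j / 2 : ℝ) : ℂ)) =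
      bf_prod (bf_F Y a (Function.update σ j τ)) m *ᵥ Ω := by
    intro τ
    rw [hT, bf_prod_update Y a σ hj τ, hψ₀, mulVec_mulVec]
  have hT0 : T (c 0) = ψ := by
    rw [hc0, hTτ, Function.update_eq_self]
  have hmin : ∀ t, 0 ≤ t → t < δ → bf_nsq (T (c 0)) ≤ bf_nsq (T (c t)) := by
    intro t ht0 ht1
    obtain ⟨τ, hct, hτ⟩ := hfeas t ht0 ht1
    rw [hT0, hct, hTτ]
    exact hτ
  have h1 := pt_first_order T c D hcD hδ hmin
  rw [hT0] at h1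
  -- `ψ₀` in terms of `ψ`
  have hAiA : Ai * A = 1 := bf_ges_mul_seg (fun k => bf_Fz_neg_mul Y a σ hσ 1 k) _ _
  have h2 : ψ₀ = (emb (Y j) (hpow (σ j) (-((a j / 2 : ℝ) : ℂ))) * Ai) *ᵥ ψ := by
    have e : bf_prod (bf_F Y a σ) m = A * emb (Y j) (hpow (σ j) ((a j / 2 : ℝ) : ℂ)) *
        bf_prod (bf_F Y a σ) j := by
      have := bf_prod_update Y a σ hj (σ j)
      rwa [Function.update_eq_self] at this
    rw [hψ, e, mulVec_mulVec]
    have e2 : emb (Y j) (hpow (σ j) (-((a j / 2 : ℝ) : ℂ))) * Ai *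
        (A * emb (Y j) (hpow (σ j) ((a j / 2 : ℝ) : ℂ)) * bf_prod (bf_F Y a σ) j) =
        emb (Y j) (hpow (σ j) (-((a j / 2 : ℝ) : ℂ))) * (Ai * A) *
        emb (Y j) (hpow (σ j) ((a j / 2 : ℝ) : ℂ)) * bf_prod (bf_F Y a σ) j := by
      simp only [Matrix.mul_assoc]
    rw [e2, hAiA, Matrix.mul_one, ← emb_mul, hpow_neg_mul (hσ j), emb_one, Matrix.one_mul]
  have h3 : star ψ ⬝ᵥ T D =
      bf_ex ψ (A * emb (Y j) (D * hpow (σ j) (-((a j / 2 : ℝ) : ℂ))) * Ai) := by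
    rw [hT, bf_ex]
    conv_lhs => rw [h2]
    rw [mulVec_mulVec, emb_mul]
    simp only [Matrix.mul_assoc]
  have h4 := bf_removal hY a σ hσ ψ (j + 1) (m - j - 1)
    (fun k hk1 hk2 => hc k (by omega) (by omega))
    (G := emb (Y j) (D * hpow (σ j) (-((a j / 2 : ℝ) : ℂ))))
    (SuppIn.mono (hY (Nat.le_succ j)) ⟨_, rfl⟩)
  rw [h3] at h1
  rw [← bf_ex_emb, ← h4]
  exact h1

theorem pt_commute_sig {Y : ℕ → Finset s} (b : ℝ) (x : bf_Tup io Y) (k : ℕ)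
    {ρ : Matrix (CfgOn io (Y k)) (CfgOn io (Y k)) ℂ} :
    Commute (pt_sig Y b x k) ρ ↔ Commute (x k) ρ := by
  have h0 : Commute ((b : ℂ) • (1 : Matrix (CfgOn io (Y k)) (CfgOn io (Y k)) ℂ)) ρ :=
    (Commute.one_left ρ).smul_left _
  constructor
  · intro h
    have := h.sub_left h0
    simpa [pt_sig] using this
  · intro h
    exact h.add_left h0

/-- first order condition at level `j` of a minimising tuple, once the outer levels commute -/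
theorem pt_opt_first_order {Y : ℕ → Finset s} (hY : Monotone Y) (a : ℕ → ℝ) {b : ℝ} (hb : 0 < b)
    (Ω : Cfg io → ℂ) (m : ℕ) (x : bf_Tup io Y) (hopt : pt_IsOpt Y a b Ω m x) (j : ℕ) (hj : j < m)
    (hc : ∀ k, j < k → k < m → Commute (x k) (ptr (Y k) (pureOp (pt_vec Y a b Ω m x))))
    (c : ℝ → Matrix (CfgOn io (Y j)) (CfgOn io (Y j)) ℂ)
    (D : Matrix (CfgOn io (Y j)) (CfgOn io (Y j)) ℂ)
    (hc0 : c 0 = hpow (pt_sig Y b x j) (-((a j / 2 : ℝ) : ℂ))) (hcD : HasDerivAt c D 0) {δ : ℝ}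
    (hδ : 0 < δ)
    (hfeas : ∀ t, 0 ≤ t → t < δ → ∃ τ ∈ (bf_Den 0 1 : Set (Matrix (CfgOn io (Y j)) (CfgOn io (Y j)) ℂ)),
      c t = hpow (τ + (b : ℂ) • 1) (-((a j / 2 : ℝ) : ℂ))) :
    0 ≤ (ptr (Y j) (pureOp (pt_vec Y a b Ω m x)) *
      (D * hpow (pt_sig Y b x j) ((a j / 2 : ℝ) : ℂ))).trace.re := by
  have e1 : (((-a j) / 2 : ℝ) : ℂ) = -((a j / 2 : ℝ) : ℂ) := by push_cast; ring
  have h := pt_gen_first_order hY (fun k => -a k) Ω m (pt_sig Y b x) (pt_sig_herm hopt.1 b) j hj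
    (fun k h1 h2 => by
      rw [← pt_vec_eq, pt_commute_sig]
      exact hc k h1 h2) c D (by rw [hc0, e1]) hcD hδ
    (fun t ht0 ht1 => by
      obtain ⟨τ, hτ, hct⟩ := hfeas t ht0 ht1
      refine ⟨τ + (b : ℂ) • 1, by rw [hct, e1], ?_⟩
      rw [← pt_vec_eq, ← pt_sig_update, ← pt_vec_eq]
      exact hopt.2 _ (bf_update_mem hopt.1 j hτ))
  rw [← pt_vec_eq, e1, neg_neg] at h
  exact h

/-- (eq:patch-stationarity-commutation) -/
theorem pt_opt_commute {Y : ℕ → Finset s} (hY : Monotone Y) {a : ℕ → ℝ} (ha : ∀ j, 0 < a j)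
    {b : ℝ} (hb : 0 < b) (Ω : Cfg io → ℂ) (m : ℕ) (x : bf_Tup io Y)
    (hopt : pt_IsOpt Y a b Ω m x) (j : ℕ) (hj : j < m) :
    Commute (x j) (ptr (Y j) (pureOp (pt_vec Y a b Ω m x))) := by
  induction' hd : m - j using Nat.strong_induction_on with d ih generalizing j
  have hc : ∀ k, j < k → k < m → Commute (x k) (ptr (Y k) (pureOp (pt_vec Y a b Ω m x))) :=
    fun k h1 h2 => ih (m - k) (by omega) k h2 rfl
  have hσj : (pt_sig Y b x j).IsHermitian := pt_sig_herm hopt.1 b j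
  set ρ := ptr (Y j) (pureOp (pt_vec Y a b Ω m x)) with hρ
  have hρH : ρ.IsHermitian := (bf_ptr_pure_posSemidef _ _).1
  have hneg : (-((a j / 2 : ℝ) : ℂ)) = ((-(a j / 2) : ℝ) : ℂ) := by push_cast; ring
  have hst0 : ∀ B : Matrix (CfgOn io (Y j)) (CfgOn io (Y j)) ℂ, Bᴴ = -B →
      0 ≤ (ρ * ((B * hpow (pt_sig Y b x j) (-((a j / 2 : ℝ) : ℂ)) -
        hpow (pt_sig Y b x j) (-((a j / 2 : ℝ) : ℂ)) * B) *
        hpow (pt_sig Y b x j) ((a j / 2 : ℝ) : ℂ))).trace.re := by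
    intro B hB
    refine pt_opt_first_order hY a hb Ω m x hopt j hj hc
      (fun t : ℝ => NormedSpace.exp ((t : ℂ) • B) * hpow (pt_sig Y b x j) (-((a j / 2 : ℝ) : ℂ)) *
        NormedSpace.exp (-((t : ℂ) • B))) _ (by simp) (bf_curve_unitary B _) one_pos ?_
    intro t _ _
    obtain ⟨e1, e2, e3⟩ := bf_exp_unitary hB t
    refine ⟨NormedSpace.exp ((t : ℂ) • B) * x j * (NormedSpace.exp ((t : ℂ) • B))ᴴ,
      bf_den_conj e2 e3 (hopt.1 j), ?_⟩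
    have e4 : NormedSpace.exp ((t : ℂ) • B) * x j * (NormedSpace.exp ((t : ℂ) • B))ᴴ +
        (b : ℂ) • (1 : Matrix (CfgOn io (Y j)) (CfgOn io (Y j)) ℂ) =
        NormedSpace.exp ((t : ℂ) • B) * pt_sig Y b x j * (NormedSpace.exp ((t : ℂ) • B))ᴴ := by
      unfold pt_sig
      rw [Matrix.mul_add, Matrix.add_mul, Matrix.mul_smul, Matrix.smul_mul, Matrix.mul_one, e3]
    rw [e4, hpow_unitary_conj _ e2 e3, e1]
  have hst : ∀ B : Matrix (CfgOn io (Y j)) (CfgOn io (Y j)) ℂ, Bᴴ = -B →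
      (ρ * ((B * hpow (pt_sig Y b x j) (-((a j / 2 : ℝ) : ℂ)) -
        hpow (pt_sig Y b x j) (-((a j / 2 : ℝ) : ℂ)) * B) *
        hpow (pt_sig Y b x j) ((a j / 2 : ℝ) : ℂ))).trace.re ≤ 0 := by
    intro B hB
    have h := hst0 (-B) (by rw [conjTranspose_neg, hB])
    have e : (-B * hpow (pt_sig Y b x j) (-((a j / 2 : ℝ) : ℂ)) -
        hpow (pt_sig Y b x j) (-((a j / 2 : ℝ) : ℂ)) * -B) =
        -(B * hpow (pt_sig Y b x j) (-((a j / 2 : ℝ) : ℂ)) -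
        hpow (pt_sig Y b x j) (-((a j / 2 : ℝ) : ℂ)) * B) := by
      rw [Matrix.neg_mul, Matrix.mul_neg]; abel
    rw [e, Matrix.neg_mul, Matrix.mul_neg, trace_neg, Complex.neg_re] at h
    linarith
  have h1 := bf_comm_of_stationary hρH
    (by rw [hneg]; exact bf_hpow_real_isHermitian (pt_sig Y b x j) _)
    (bf_hpow_real_isHermitian (pt_sig Y b x j) (a j / 2))
    (hpow_neg_mul hσj _) (hpow_mul_neg hσj _) hst
  rw [← hpow_add] at h1
  have h2 : (-((a j / 2 : ℝ) : ℂ) + -((a j / 2 : ℝ) : ℂ)) = ((-a j : ℝ) : ℂ) := by push_cast; ring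
  rw [h2] at h1
  exact (pt_commute_sig b x j).1
    (bf_commute_of_hpow hb (pt_sig_mem hopt.1 b j) (neg_ne_zero.2 (ha j).ne') h1)

/-- (eq:patch-kkt): two-coordinate KKT inequalities in a common eigenbasis; `ξ` = eigenvalues of `x_j` -/
theorem pt_opt_kkt {Y : ℕ → Finset s} (hY : Monotone Y) {a : ℕ → ℝ} (ha : ∀ j, 0 < a j)
    {b : ℝ} (hb : 0 < b) (Ω : Cfg io → ℂ) (m : ℕ) (x : bf_Tup io Y)
    (hopt : pt_IsOpt Y a b Ω m x) (j : ℕ) (hj : j < m)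
    {U : Matrix (CfgOn io (Y j)) (CfgOn io (Y j)) ℂ} (hU : Uᴴ * U = 1) (hU' : U * Uᴴ = 1)
    (ξ p : CfgOn io (Y j) → ℝ) (hx : x j = U * diagonal (fun i => (ξ i : ℂ)) * Uᴴ)
    (hp : ptr (Y j) (pureOp (pt_vec Y a b Ω m x)) = U * diagonal (fun i => (p i : ℂ)) * Uᴴ)
    (i k : CfgOn io (Y j)) (hk : 0 < ξ k) :
    p i * (ξ k + b) ≤ p k * (ξ i + b) := by
  rcases eq_or_ne i k with rfl | hik
  · exact le_rfl
  have hden := hopt.1 j
  rw [hx, bf_den_diag_iff hU hU'] at hden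
  obtain ⟨hξ0, hξs⟩ := hden
  have hy0 : ∀ l, 0 < ξ l + b := fun l => by linarith [hξ0 l]
  set r : ℝ := a j / 2 with hr
  have hr0 : 0 < r := by have := ha j; positivity
  -- direction of the transfer
  let e : CfgOn io (Y j) → ℝ := fun l => (if l = i then 1 else 0) - (if l = k then 1 else 0)
  have hes : ∑ l, e l = 0 := by simp [e, Finset.sum_sub_distrib]
  have hei : e i = 1 := by simp [e, hik]
  have hek : e k = -1 := by simp [e, hik.symm]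
  have heo : ∀ l, l ≠ i → l ≠ k → e l = 0 := fun l h1 h2 => by simp [e, h1, h2]
  have hfeas0 : ∀ t : ℝ, 0 ≤ t → t < ξ k → ∀ l, 0 ≤ ξ l + t * e l := by
    intro t ht0 ht1 l
    by_cases h1 : l = i
    · subst h1; rw [hei]; linarith [hξ0 l]
    · by_cases h2 : l = k
      · subst h2; rw [hek]; linarith
      · rw [heo l h1 h2]; linarith [hξ0 l]
  have hcomm := fun k' (_ : j < k') (h2 : k' < m) => pt_opt_commute hY ha hb Ω m x hopt k' h2
  have hneg : (-((a j / 2 : ℝ) : ℂ)) = ((-r : ℝ) : ℂ) := by rw [hr]; push_cast; ring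
  have hσ := pt_sig_diag b x j hU' ξ hx
  have hfo := pt_opt_first_order hY a hb Ω m x hopt j hj hcomm
    (fun t : ℝ => U * diagonal (fun l => (((ξ l + t * e l + b) ^ (-r) : ℝ) : ℂ)) * Uᴴ)
    (U * diagonal (fun l => ((e l * (-r) * (ξ l + b) ^ (-r - 1) : ℝ) : ℂ)) * Uᴴ)
    (by
      simp only [zero_mul, add_zero]
      rw [hσ, hneg, pt_hpow_diag hU hU' _ hy0])
    (bf_curve_diag U (fun l t => (ξ l + t * e l + b) ^ (-r))
      (fun l => e l * (-r) * (ξ l + b) ^ (-r - 1))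
      (fun l => by
        have h1 : HasDerivAt (fun t : ℝ => ξ l + t * e l + b) (e l) 0 := by
          simpa using (((hasDerivAt_id (0 : ℝ)).mul_const (e l)).const_add (ξ l)).add_const b
        have h2 := h1.rpow_const (p := -r) (Or.inl (by simpa using (hy0 l).ne'))
        simpa using h2))
    hk
    (fun t ht0 ht1 => ⟨U * diagonal (fun l => ((ξ l + t * e l : ℝ) : ℂ)) * Uᴴ,
      (bf_den_diag_iff hU hU' _ 0 1).2 ⟨hfeas0 t ht0 ht1, by
        rw [Finset.sum_add_distrib, ← Finset.mul_sum, hes, hξs]; ring⟩, by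
      rw [pt_add_smul_diag hU', hneg,
        pt_hpow_diag hU hU' _ (fun l => by linarith [hfeas0 t ht0 ht1 l])]⟩)
  rw [hp, hσ, pt_hpow_diag hU hU' _ hy0, bf_diag_mul hU, bf_diag_mul hU, bf_diag_trace hU] at hfo
  have h5 : (∑ l, (p l : ℂ) * (((e l * (-r) * (ξ l + b) ^ (-r - 1) : ℝ) : ℂ) *
      (((ξ l + b) ^ r : ℝ) : ℂ))).re = ∑ l, e l * (-r * (p l / (ξ l + b))) := by
    rw [Complex.re_sum]
    refine Finset.sum_congr rfl fun l _ => ?_
    rw [← Complex.ofReal_mul, ← Complex.ofReal_mul, Complex.ofReal_re]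
    have : (ξ l + b) ^ (-r - 1) * (ξ l + b) ^ r = (ξ l + b)⁻¹ := by
      rw [← Real.rpow_add (hy0 l), ← Real.rpow_neg_one]; congr 1; ring
    calc p l * (e l * (-r) * (ξ l + b) ^ (-r - 1) * (ξ l + b) ^ r)
        = e l * (-r * (p l * ((ξ l + b) ^ (-r - 1) * (ξ l + b) ^ r))) := by ring
      _ = _ := by rw [this, div_eq_mul_inv]
  rw [h5] at hfo
  have h6 : ∑ l, e l * (-r * (p l / (ξ l + b))) =
      -r * (p i / (ξ i + b)) - -r * (p k / (ξ k + b)) := by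
    simp only [e, sub_mul, ite_mul, one_mul, zero_mul, Finset.sum_sub_distrib,
      Finset.sum_ite_eq', Finset.mem_univ, if_true]
  rw [h6] at hfo
  have h7 : p i / (ξ i + b) ≤ p k / (ξ k + b) := by
    have : r * (p i / (ξ i + b)) ≤ r * (p k / (ξ k + b)) := by linarith
    exact le_of_mul_le_mul_left this hr0
  rwa [div_le_div_iff₀ (hy0 i) (hy0 k)] at h7

/-- the eigenvalues of a reduced density matrix of a vector -/
theorem pt_ptr_diag (A : Finset s) (ψ : Cfg io → ℂ) {U : Matrix (CfgOn io A) (CfgOn io A) ℂ}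
    (hU : Uᴴ * U = 1) (hU' : U * Uᴴ = 1) (p : CfgOn io A → ℝ)
    (hp : ptr A (pureOp ψ) = U * diagonal (fun i => (p i : ℂ)) * Uᴴ) :
    (∀ i, 0 ≤ p i) ∧ ∑ i, p i = bf_nsq ψ := by
  have h : ptr A (pureOp ψ) ∈ (bf_Den 0 (bf_nsq ψ) : Set (Matrix (CfgOn io A) (CfgOn io A) ℂ)) := by
    refine ⟨(bf_ptr_pure_posSemidef A ψ).1, ?_, bf_ptr_pure_trace A ψ⟩
    simpa using bf_ptr_pure_posSemidef A ψ
  rw [hp] at h
  exact (bf_den_diag_iff hU hU' p 0 _).1 h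

/-- `λ ≤ 1` in unnormalised form: `p_i ≤ ‖ψ‖² (ξ_i + b)`
(`λ ∑_{ξ_k > 0} (ξ_k + b) = ∑_{ξ_k > 0} p_k ≤ ‖ψ‖²` and `∑_{ξ_k > 0} (ξ_k + b) ≥ 1`) -/
theorem pt_opt_le {Y : ℕ → Finset s} (hY : Monotone Y) {a : ℕ → ℝ} (ha : ∀ j, 0 < a j)
    {b : ℝ} (hb : 0 < b) (Ω : Cfg io → ℂ) (m : ℕ) (x : bf_Tup io Y)
    (hopt : pt_IsOpt Y a b Ω m x) (j : ℕ) (hj : j < m)
    {U : Matrix (CfgOn io (Y j)) (CfgOn io (Y j)) ℂ} (hU : Uᴴ * U = 1) (hU' : U * Uᴴ = 1)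
    (ξ p : CfgOn io (Y j) → ℝ) (hx : x j = U * diagonal (fun i => (ξ i : ℂ)) * Uᴴ)
    (hp : ptr (Y j) (pureOp (pt_vec Y a b Ω m x)) = U * diagonal (fun i => (p i : ℂ)) * Uᴴ)
    (i : CfgOn io (Y j)) :
    p i ≤ bf_nsq (pt_vec Y a b Ω m x) * (ξ i + b) := by
  classical
  have hden := hopt.1 j
  rw [hx, bf_den_diag_iff hU hU'] at hden
  obtain ⟨hξ0, hξs⟩ := hden
  obtain ⟨hp0, hps⟩ := pt_ptr_diag (Y j) _ hU hU' p hp
  have hkkt := fun k => pt_opt_kkt hY ha hb Ω m x hopt j hj hU hU' ξ p hx hp i k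
  set S : Finset (CfgOn io (Y j)) := Finset.univ.filter fun k => 0 < ξ k with hS
  -- the positive eigenvalues carry the whole trace
  have h1 : (1 : ℝ) ≤ ∑ k ∈ S, (ξ k + b) := by
    have e1 : ∑ k ∈ S, ξ k = 1 := by
      rw [← hξs, hS, Finset.sum_filter]
      refine Finset.sum_congr rfl fun k _ => ?_
      split_ifs with h
      · rfl
      · exact le_antisymm (hξ0 k) (not_lt.1 h)
    rw [Finset.sum_add_distrib, e1]
    have : 0 ≤ ∑ _k ∈ S, b := Finset.sum_nonneg fun _ _ => hb.le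
    linarith
  have h2 : ∑ k ∈ S, p k ≤ bf_nsq (pt_vec Y a b Ω m x) := by
    rw [← hps]
    exact Finset.sum_le_sum_of_subset_of_nonneg (Finset.subset_univ _) fun k _ _ => hp0 k
  have h3 : p i * ∑ k ∈ S, (ξ k + b) ≤ (∑ k ∈ S, p k) * (ξ i + b) := by
    rw [Finset.mul_sum, Finset.sum_mul]
    exact Finset.sum_le_sum fun k hk => hkkt k (Finset.mem_filter.1 hk).2
  have hy : 0 < ξ i + b := by linarith [hξ0 i]
  calc p i = p i * 1 := (mul_one _).symm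
    _ ≤ p i * ∑ k ∈ S, (ξ k + b) := mul_le_mul_of_nonneg_left h1 (hp0 i)
    _ ≤ (∑ k ∈ S, p k) * (ξ i + b) := h3
    _ ≤ bf_nsq (pt_vec Y a b Ω m x) * (ξ i + b) := mul_le_mul_of_nonneg_right h2 hy.le

end Claimed.Agent.R296
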