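import Claimed.Agent.R296.P2.ResetU

/-!
# ResetBin: binomial tail and binomial filter identity (package BIN)
Row 296, paper 2, Lemma 2.3 (`lem:reset`), abstract analytic core.  Blueprint: `Notes/P2S01_03.lean` (2.3) R4-R6.
Chain: ResetU -> ResetData -> ResetLoc ; ResetBin, ResetCos ; ResetPol ; ResetCoreA -> ResetCore.
-/

set_option autoImplicit false
set_option linter.unusedSectionVars false

namespace Claimed.Agent.R296

open Matrix
open scoped MatrixOrder Matrix.Norms.L2Operator ComplexOrder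

variable {n m ι s : Type} [Fintype n] [DecidableEq n] [Fintype m] [DecidableEq m]
  [Fintype ι] [DecidableEq ι] [Fintype s] [DecidableEq s]

/-! ### package BIN (binomial filter; 500-800 lines) -/

/-- moment generating function of the symmetric binomial -/
theorem binom_mgf (N : ℕ) (l : ℝ) :
    ∑ j ∈ Finset.range (N + 1), (N.choose j : ℝ) / 2 ^ N * Real.exp (l * (2 * (j : ℝ) - N))
      = Real.cosh l ^ N := by
  rw [Real.cosh_eq, div_pow, add_pow, Finset.sum_div]
  refine Finset.sum_congr rfl fun j hj => ?_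
  have hj' : j ≤ N := Nat.lt_succ_iff.1 (Finset.mem_range.1 hj)
  have e : Real.exp l ^ j * Real.exp (-l) ^ (N - j) = Real.exp (l * (2 * (j : ℝ) - N)) := by
    rw [← Real.exp_nat_mul, ← Real.exp_nat_mul, ← Real.exp_add, Nat.cast_sub hj']
    congr 1
    ring
  rw [e]
  ring

/-- binomial tail (Hoeffding): `cosh x ≤ exp (x²/2)` and Markov -/
theorem binom_tail (N : ℕ) (x : ℝ) (hx : 0 ≤ x) :
    ∑ j ∈ (Finset.range (N + 1)).filter (fun j : ℕ => x < |2 * (j : ℝ) - N|),
      (N.choose j : ℝ) / 2 ^ N ≤ 2 * Real.exp (-(x ^ 2) / (2 * N)) := by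
  rcases Nat.eq_zero_or_pos N with rfl | hN
  · have hempty : (Finset.range (0 + 1)).filter
        (fun j : ℕ => x < |2 * (j : ℝ) - ((0 : ℕ) : ℝ)|) = ∅ := by
      rw [Finset.filter_eq_empty_iff]
      intro j hj
      have : j = 0 := by simpa using hj
      subst this
      simpa using hx
    rw [hempty, Finset.sum_empty]
    positivity
  have hN' : (0 : ℝ) < N := by exact_mod_cast hN
  set l : ℝ := x / N with hl
  have hl0 : 0 ≤ l := by positivity
  have hw : ∀ j : ℕ, 0 ≤ (N.choose j : ℝ) / 2 ^ N := fun j => by positivity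
  -- pointwise Markov
  have hpt : ∀ j ∈ (Finset.range (N + 1)).filter (fun j : ℕ => x < |2 * (j : ℝ) - N|),
      (N.choose j : ℝ) / 2 ^ N ≤ Real.exp (-(l * x)) *
        ((N.choose j : ℝ) / 2 ^ N * Real.exp (l * (2 * (j : ℝ) - N))
          + (N.choose j : ℝ) / 2 ^ N * Real.exp (-l * (2 * (j : ℝ) - N))) := by
    intro j hj
    have hj2 := (Finset.mem_filter.1 hj).2
    have h1 : Real.exp (l * x) ≤ Real.exp (l * (2 * (j : ℝ) - N))
        + Real.exp (-l * (2 * (j : ℝ) - N)) := by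
      rcases le_total 0 (2 * (j : ℝ) - N) with h0 | h0
      · rw [abs_of_nonneg h0] at hj2
        have : Real.exp (l * x) ≤ Real.exp (l * (2 * (j : ℝ) - N)) :=
          Real.exp_le_exp.2 (mul_le_mul_of_nonneg_left hj2.le hl0)
        linarith [Real.exp_pos (-l * (2 * (j : ℝ) - N))]
      · rw [abs_of_nonpos h0] at hj2
        have : Real.exp (l * x) ≤ Real.exp (-l * (2 * (j : ℝ) - N)) := by
          apply Real.exp_le_exp.2
          have := mul_le_mul_of_nonneg_left hj2.le hl0
          linarith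
        linarith [Real.exp_pos (l * (2 * (j : ℝ) - N))]
    have h2 : 1 ≤ Real.exp (-(l * x)) * (Real.exp (l * (2 * (j : ℝ) - N))
        + Real.exp (-l * (2 * (j : ℝ) - N))) := by
      have h3 := mul_le_mul_of_nonneg_left h1 (Real.exp_pos (-(l * x))).le
      rwa [← Real.exp_add, neg_add_cancel, Real.exp_zero] at h3
    calc (N.choose j : ℝ) / 2 ^ N = (N.choose j : ℝ) / 2 ^ N * 1 := by ring
      _ ≤ (N.choose j : ℝ) / 2 ^ N * (Real.exp (-(l * x)) * (Real.exp (l * (2 * (j : ℝ) - N))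
          + Real.exp (-l * (2 * (j : ℝ) - N)))) := mul_le_mul_of_nonneg_left h2 (hw j)
      _ = _ := by ring
  have hcosh : Real.cosh l ^ N ≤ Real.exp (N * (l ^ 2 / 2)) := by
    rw [Real.exp_nat_mul]
    exact pow_le_pow_left₀ (Real.cosh_pos l).le (Real.cosh_le_exp_half_sq l) N
  calc ∑ j ∈ (Finset.range (N + 1)).filter (fun j : ℕ => x < |2 * (j : ℝ) - N|),
        (N.choose j : ℝ) / 2 ^ N
      ≤ ∑ j ∈ (Finset.range (N + 1)).filter (fun j : ℕ => x < |2 * (j : ℝ) - N|),
          Real.exp (-(l * x)) *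
          ((N.choose j : ℝ) / 2 ^ N * Real.exp (l * (2 * (j : ℝ) - N))
            + (N.choose j : ℝ) / 2 ^ N * Real.exp (-l * (2 * (j : ℝ) - N))) :=
        Finset.sum_le_sum hpt
    _ ≤ ∑ j ∈ Finset.range (N + 1), Real.exp (-(l * x)) *
          ((N.choose j : ℝ) / 2 ^ N * Real.exp (l * (2 * (j : ℝ) - N))
            + (N.choose j : ℝ) / 2 ^ N * Real.exp (-l * (2 * (j : ℝ) - N))) := by
        refine Finset.sum_le_sum_of_subset_of_nonneg (Finset.filter_subset _ _) fun j _ _ => ?_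
        have := hw j
        positivity
    _ = Real.exp (-(l * x)) * (Real.cosh l ^ N + Real.cosh (-l) ^ N) := by
        rw [← Finset.mul_sum, Finset.sum_add_distrib, binom_mgf, binom_mgf]
    _ ≤ Real.exp (-(l * x)) * (2 * Real.exp (N * (l ^ 2 / 2))) := by
        rw [Real.cosh_neg]
        refine mul_le_mul_of_nonneg_left (by linarith) (Real.exp_pos _).le
    _ = 2 * Real.exp (-(x ^ 2) / (2 * N)) := by
        rw [mul_left_comm, ← Real.exp_add]
        congr 2
        rw [hl]
        field_simp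
        ring

theorem lrU_pow_time (K : Matrix n n ℂ) (t : ℝ) (k : ℕ) : lrU K t ^ k = lrU K (k * t) := by
  induction k with
  | zero => simp [lrU_zero]
  | succ k ih =>
    rw [pow_succ, ih, ← lrU_add_time]
    congr 1
    push_cast
    ring

theorem lrU_commute_time (K : Matrix n n ℂ) (a b : ℝ) : Commute (lrU K a) (lrU K b) := by
  unfold Commute SemiconjBy
  rw [← lrU_add_time, ← lrU_add_time, add_comm]

/-- the binomial average of `e^{itK'} W e^{-itK}` applied to an eigenvector of `K` -/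
theorem binom_filter_apply {K K' W : Matrix n n ℂ} {Ψ : Matrix n Unit ℂ} {E : ℝ}
    (hΨ : K * Ψ = (E : ℂ) • Ψ) (dl : ℝ) (N : ℕ) :
    (∑ j ∈ Finset.range (N + 1), ((N.choose j : ℂ) / 2 ^ N) •
        (lrU K' ((2 * (j : ℝ) - N) * dl) * W * lrU K (-((2 * (j : ℝ) - N) * dl)))) * Ψ =
      ((1 / 2 : ℂ) • (lrU (K' - (E : ℂ) • 1) dl + lrU (K' - (E : ℂ) • 1) (-dl))) ^ N * (W * Ψ) := by
  rw [smul_pow, (lrU_commute_time _ dl (-dl)).add_pow, Matrix.sum_mul, Finset.smul_sum,
    Matrix.sum_mul]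
  refine Finset.sum_congr rfl fun j hj => ?_
  have hj' : j ≤ N := Nat.lt_succ_iff.1 (Finset.mem_range.1 hj)
  have e1 : lrU (K' - (E : ℂ) • 1) dl ^ j * lrU (K' - (E : ℂ) • 1) (-dl) ^ (N - j)
      = lrU (K' - (E : ℂ) • 1) ((2 * (j : ℝ) - N) * dl) := by
    rw [lrU_pow_time, lrU_pow_time, ← lrU_add_time, Nat.cast_sub hj']
    congr 1
    ring
  have e2 : ((N.choose j : ℕ) : Matrix n n ℂ) = ((N.choose j : ℕ) : ℂ) • (1 : Matrix n n ℂ) := by
    rw [← Matrix.diagonal_one, ← Matrix.diagonal_smul]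
    ext a b
    simp [Matrix.diagonal_apply, Matrix.natCast_apply]
  rw [e1, e2, resetU_lrU_sub_smul_one, Matrix.smul_mul, Matrix.mul_assoc, lrU_mul_eigen hΨ,
    Matrix.mul_smul, Matrix.mul_smul, Matrix.mul_one, Matrix.smul_mul, Matrix.smul_mul,
    Matrix.smul_mul, smul_smul, smul_smul, smul_smul, Matrix.mul_assoc]
  congr 1
  push_cast
  have : Complex.exp (-((2 * (j : ℂ) - N) * dl) * E * Complex.I)
      = Complex.exp (-((2 * (j : ℂ) - N) * dl * E * Complex.I)) := by
    congr 1; ring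
  rw [this, one_div, div_eq_mul_inv, inv_pow]
  ring

end Claimed.Agent.R296
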