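import Claimed.Agent.R296.P2.ResetU

/-!
# ResetPol: a unitary from an almost isometric operator (package POL)
Row 296, paper 2, Lemma 2.3 (`lem:reset`), abstract analytic core.  Blueprint: `Notes/P2S01_03.lean` (2.3) R4-R6.
Chain: ResetU -> ResetData -> ResetLoc ; ResetBin, ResetCos ; ResetPol ; ResetCoreA -> ResetCore.
Proved by helper246 (helper prefix `resetPol_`); statement verbatim from the skeleton.
-/

set_option autoImplicit false
set_option linter.unusedSectionVars false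

namespace Claimed.Agent.R296

open Matrix
open scoped MatrixOrder Matrix.Norms.L2Operator ComplexOrder

variable {n m ι s : Type} [Fintype n] [DecidableEq n] [Fintype m] [DecidableEq m]
  [Fintype ι] [DecidableEq ι] [Fintype s] [DecidableEq s]

/-! ### package POL (unitary from an almost isometric operator; 300-500 lines)

`D + x` is invertible for all but finitely many `x`; for invertible `D` put `P = CFC.sqrt (Dᴴ D)`, `U = D P⁻¹`;
`‖(1 - P) w‖ ≤ ‖(1 + P)(1 - P) w‖` because `P ≥ 0`. -/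

/-- an isometry preserves the norm of column vectors -/
theorem resetPol_norm_isometry {V : Matrix n n ℂ} (hV : Vᴴ * V = 1) (w : Matrix n Unit ℂ) :
    ‖V * w‖ = ‖w‖ := by
  have h : ‖V * w‖ ^ 2 = ‖w‖ ^ 2 := by
    rw [norm_sq_eq_ipC, norm_sq_eq_ipC, ipC, ipC, conjTranspose_mul, Matrix.mul_assoc,
      ← Matrix.mul_assoc Vᴴ, hV, Matrix.one_mul]
  exact (pow_left_inj₀ (norm_nonneg _) (norm_nonneg _) two_ne_zero).1 h

/-- `‖w‖ ≤ ‖(1 + S S) w‖` for Hermitian `S` -/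
theorem resetPol_norm_le_one_add {S : Matrix n n ℂ} (hS : Sᴴ = S) (w : Matrix n Unit ℂ) :
    ‖w‖ ≤ ‖(1 + S * S) * w‖ := by
  have h : ‖(1 + S * S) * w‖ ^ 2 = ‖w‖ ^ 2 + 2 * ‖S * w‖ ^ 2 + ‖(S * S) * w‖ ^ 2 := by
    rw [norm_sq_eq_ipC, norm_sq_eq_ipC, norm_sq_eq_ipC, norm_sq_eq_ipC]
    have e : ((1 + S * S) * w)ᴴ * ((1 + S * S) * w)
        = wᴴ * w + (2 : ℂ) • ((S * w)ᴴ * (S * w)) + ((S * S) * w)ᴴ * ((S * S) * w) := by
      simp only [conjTranspose_mul, conjTranspose_add, hS, Matrix.add_mul,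
        Matrix.mul_add, Matrix.one_mul, Matrix.mul_assoc, two_smul]
      abel
    have e2 := congrFun (congrFun e ()) ()
    simp only [Matrix.add_apply, Matrix.smul_apply, smul_eq_mul] at e2
    simp only [ipC]
    rw [e2]
    simp
  have h2 : ‖w‖ ^ 2 ≤ ‖(1 + S * S) * w‖ ^ 2 := by
    rw [h]
    have := sq_nonneg ‖S * w‖
    have := sq_nonneg ‖(S * S) * w‖
    linarith
  exact (pow_le_pow_iff_left₀ (norm_nonneg _) (norm_nonneg _) two_ne_zero).1 h2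

/-- the invertible case: polar decomposition -/
theorem resetPol_invertible (φ : Matrix m m ℂ →⋆ₐ[ℂ] Matrix n n ℂ) (D : Matrix m m ℂ)
    (hD : IsUnit D) (Ψ Φ : Matrix n Unit ℂ) :
    ∃ U : Matrix m m ℂ, U ∈ Matrix.unitaryGroup m ℂ ∧
      ‖φ U * Ψ - Φ‖ ≤ ‖φ D * Ψ - Φ‖ + ‖(φ (Dᴴ * D) - 1) * Ψ‖ := by
  have h0 : (0 : Matrix m m ℂ) ≤ Dᴴ * D := by
    rw [← star_eq_conjTranspose]
    exact star_mul_self_nonneg D
  set P : Matrix m m ℂ := CFC.sqrt (Dᴴ * D) with hP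
  have hPP : P * P = Dᴴ * D := CFC.sqrt_mul_sqrt_self _ h0
  have hP0 : 0 ≤ P := CFC.sqrt_nonneg _
  have hPsa : Pᴴ = P := (IsSelfAdjoint.of_nonneg hP0).star_eq
  set S : Matrix m m ℂ := CFC.sqrt P with hS
  have hSS : S * S = P := CFC.sqrt_mul_sqrt_self _ hP0
  have hSsa : Sᴴ = S := (IsSelfAdjoint.of_nonneg (CFC.sqrt_nonneg P)).star_eq
  have hDdet : IsUnit D.det := (Matrix.isUnit_iff_isUnit_det D).1 hD
  have hPdet : IsUnit P.det := by
    have h1 : P.det * P.det = (Dᴴ).det * D.det := by rw [← det_mul, hPP, det_mul]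
    have h2 : IsUnit ((Dᴴ).det * D.det) := by
      rw [det_conjTranspose]
      exact (hDdet.star).mul hDdet
    rw [← h1] at h2
    exact isUnit_of_mul_isUnit_left h2
  have hPinv : (P⁻¹)ᴴ = P⁻¹ := by rw [conjTranspose_nonsing_inv, hPsa]
  set U : Matrix m m ℂ := D * P⁻¹ with hU
  have hUU : Uᴴ * U = 1 := by
    rw [hU, conjTranspose_mul, hPinv, Matrix.mul_assoc, ← Matrix.mul_assoc Dᴴ, ← hPP,
      Matrix.mul_assoc P, Matrix.mul_nonsing_inv _ hPdet, Matrix.mul_one,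
      Matrix.nonsing_inv_mul _ hPdet]
  have hUP : U * P = D := by
    rw [hU, Matrix.mul_assoc, Matrix.nonsing_inv_mul _ hPdet, Matrix.mul_one]
  refine ⟨U, Matrix.mem_unitaryGroup_iff'.2 (by rw [star_eq_conjTranspose]; exact hUU), ?_⟩
  -- images under `φ`
  have hφU : (φ U)ᴴ * φ U = 1 := by
    rw [← star_eq_conjTranspose, ← map_star, ← map_mul, star_eq_conjTranspose, hUU, map_one]
  have hφS : (φ S)ᴴ = φ S := by
    rw [← star_eq_conjTranspose, ← map_star, star_eq_conjTranspose, hSsa]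
  have hφP : φ P = φ S * φ S := by rw [← map_mul, hSS]
  have hφD : φ D = φ U * φ P := by rw [← map_mul, hUP]
  have hφDD : φ (Dᴴ * D) = φ P * φ P := by rw [← map_mul, hPP]
  set w : Matrix n Unit ℂ := (1 - φ P) * Ψ with hw
  have e1 : φ U * Ψ - Φ = (φ D * Ψ - Φ) + φ U * w := by
    rw [hw, hφD, Matrix.sub_mul, Matrix.one_mul, Matrix.mul_sub, Matrix.mul_assoc]
    abel
  have e2 : (1 + φ S * φ S) * w = -((φ (Dᴴ * D) - 1) * Ψ) := by
    rw [hw, ← hφP, hφDD, ← Matrix.mul_assoc, ← Matrix.neg_mul]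
    congr 1
    noncomm_ring
  calc ‖φ U * Ψ - Φ‖ = ‖(φ D * Ψ - Φ) + φ U * w‖ := by rw [e1]
    _ ≤ ‖φ D * Ψ - Φ‖ + ‖φ U * w‖ := norm_add_le _ _
    _ = ‖φ D * Ψ - Φ‖ + ‖w‖ := by rw [resetPol_norm_isometry hφU]
    _ ≤ ‖φ D * Ψ - Φ‖ + ‖(1 + φ S * φ S) * w‖ := by
        gcongr
        exact resetPol_norm_le_one_add hφS w
    _ = ‖φ D * Ψ - Φ‖ + ‖(φ (Dᴴ * D) - 1) * Ψ‖ := by rw [e2, norm_neg]

/-- `D + x` is invertible for some arbitrarily small positive real `x` -/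
theorem resetPol_exists_shift (D : Matrix m m ℂ) (δ : ℝ) (hδ : 0 < δ) :
    ∃ x : ℝ, 0 < x ∧ x < δ ∧ IsUnit (D + (x : ℂ) • (1 : Matrix m m ℂ)) := by
  obtain ⟨x, hx, hxs⟩ := (Set.Ioo_infinite hδ).exists_notMem_finite (-D).finite_real_spectrum
  refine ⟨x, hx.1, hx.2, ?_⟩
  rw [spectrum.notMem_iff] at hxs
  have e : algebraMap ℝ (Matrix m m ℂ) x - -D = D + (x : ℂ) • (1 : Matrix m m ℂ) := by
    rw [Algebra.algebraMap_eq_smul_one, sub_neg_eq_add, add_comm]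
    congr 1
  rwa [e] at hxs

theorem exists_unitary_near (φ : Matrix m m ℂ →⋆ₐ[ℂ] Matrix n n ℂ) (D : Matrix m m ℂ)
    (Ψ Φ : Matrix n Unit ℂ) (hΨ : ‖Ψ‖ = 1) (η : ℝ) (hη : 0 < η) :
    ∃ U : Matrix m m ℂ, U ∈ Matrix.unitaryGroup m ℂ ∧
      ‖φ U * Ψ - Φ‖ ≤ ‖φ D * Ψ - Φ‖ + ‖(φ (Dᴴ * D) - 1) * Ψ‖ + η := by
  set c : ℝ := ‖φ (D + Dᴴ) * Ψ‖ with hc
  have hc0 : 0 ≤ c := norm_nonneg _
  obtain ⟨x, hx0, hxδ, hunit⟩ := resetPol_exists_shift D (min 1 (η / (2 + c)))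
    (lt_min one_pos (by positivity))
  have hx1 : x < 1 := lt_of_lt_of_le hxδ (min_le_left _ _)
  have hx2 : x * (2 + c) < η := by
    have := lt_of_lt_of_le hxδ (min_le_right _ _)
    rwa [lt_div_iff₀ (by positivity)] at this
  obtain ⟨U, hU, hle⟩ := resetPol_invertible φ _ hunit Ψ Φ
  refine ⟨U, hU, hle.trans ?_⟩
  set Dx : Matrix m m ℂ := D + (x : ℂ) • (1 : Matrix m m ℂ) with hDx
  have hnx : ‖(x : ℂ)‖ = x := by rw [Complex.norm_real, Real.norm_of_nonneg hx0.le]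
  have e1 : φ Dx * Ψ - Φ = (φ D * Ψ - Φ) + (x : ℂ) • Ψ := by
    rw [hDx, map_add, map_smul, map_one, Matrix.add_mul, Matrix.smul_mul, Matrix.one_mul]
    abel
  have b1 : ‖φ Dx * Ψ - Φ‖ ≤ ‖φ D * Ψ - Φ‖ + x := by
    rw [e1]
    refine (norm_add_le _ _).trans ?_
    rw [norm_smul, hnx, hΨ, mul_one]
  have e2 : Dxᴴ * Dx = Dᴴ * D + (x : ℂ) • (D + Dᴴ) + ((x : ℂ) * x) • (1 : Matrix m m ℂ) := by
    rw [hDx, conjTranspose_add, conjTranspose_smul, conjTranspose_one, Complex.star_def,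
      Complex.conj_ofReal]
    simp only [Matrix.add_mul, Matrix.mul_add, Matrix.smul_mul, Matrix.mul_smul, Matrix.one_mul,
      Matrix.mul_one, smul_add, smul_smul]
    abel
  have e3 : (φ (Dxᴴ * Dx) - 1) * Ψ
      = (φ (Dᴴ * D) - 1) * Ψ + (x : ℂ) • (φ (D + Dᴴ) * Ψ) + ((x : ℂ) * x) • Ψ := by
    rw [e2, map_add, map_add, map_smul, map_smul, map_one]
    simp only [Matrix.add_mul, Matrix.sub_mul, Matrix.smul_mul, Matrix.one_mul]
    abel
  have b2 : ‖(φ (Dxᴴ * Dx) - 1) * Ψ‖ ≤ ‖(φ (Dᴴ * D) - 1) * Ψ‖ + x * c + x * x := by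
    rw [e3]
    refine (norm_add_le _ _).trans ?_
    refine add_le_add ((norm_add_le _ _).trans ?_) ?_
    · rw [norm_smul, hnx]
    · rw [norm_smul, norm_mul, hnx, hΨ, mul_one]
  have hxx : x * x ≤ x := by nlinarith
  nlinarith

end Claimed.Agent.R296
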