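import Claimed.Agent.R296.P2.ResetCoreA
import Claimed.Agent.R296.P2.ResetPol

/-!
# ResetCore: the reset core (package CORE-B)
Row 296, paper 2, Lemma 2.3 (`lem:reset`), abstract analytic core.  Blueprint: `Notes/P2S01_03.lean` (2.3) R4-R6.
Chain: ResetU -> ResetData -> ResetLoc ; ResetBin, ResetCos ; ResetPol ; ResetCoreA -> ResetCore.
-/

set_option autoImplicit false
set_option linter.unusedSectionVars false

namespace Claimed.Agent.R296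

open Matrix
open scoped MatrixOrder Matrix.Norms.L2Operator ComplexOrder

variable {n m ι s : Type} [Fintype n] [DecidableEq n] [Fintype m] [DecidableEq m]
  [Fintype ι] [DecidableEq ι] [Fintype s] [DecidableEq s]

/-- sums of elements of the range of `φ` -/
theorem rcore_sum_mem_range (φ : Matrix m m ℂ →⋆ₐ[ℂ] Matrix n n ℂ) (g : ι → Matrix n n ℂ)
    (S : Finset ι) (h : ∀ i ∈ S, g i ∈ Set.range φ) : ∑ i ∈ S, g i ∈ Set.range φ := by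
  induction S using Finset.induction_on with
  | empty => exact ⟨0, by simp⟩
  | insert a S ha ih =>
    rw [Finset.sum_insert ha]
    obtain ⟨x, hx⟩ := h a (Finset.mem_insert_self a S)
    obtain ⟨y, hy⟩ := ih fun i hi => h i (Finset.mem_insert_of_mem hi)
    exact ⟨x + y, by rw [map_add, hx, hy]⟩

/-- choice of the filter parameters -/
theorem rcore_exists_params (h G : ℝ) (hh : 0 < h) (hG : 0 ≤ G) :
    ∃ (N : ℕ) (dl : ℝ), 1 ≤ N ∧ 0 < dl ∧ (N : ℝ) * dl ^ 2 = h ∧ dl * G ≤ Real.pi / 2 := by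
  obtain ⟨N, hN⟩ := exists_nat_ge (h * G ^ 2 + 1)
  have hN1 : (1 : ℝ) ≤ N := by nlinarith [sq_nonneg G]
  have hN0 : (0 : ℝ) < N := by linarith
  refine ⟨N, Real.sqrt (h / N), by exact_mod_cast hN1, Real.sqrt_pos.2 (by positivity), ?_, ?_⟩
  · rw [Real.sq_sqrt (by positivity)]
    field_simp
  · have h1 : (Real.sqrt (h / N) * G) ^ 2 ≤ 1 := by
      rw [mul_pow, Real.sq_sqrt (by positivity), div_mul_eq_mul_div, div_le_one hN0]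
      linarith
    have h2 : Real.sqrt (h / N) * G ≤ 1 := (sq_le_one_iff₀ (by positivity)).1 h1
    have := Real.pi_gt_three
    linarith

theorem rcore_conjTranspose_lrU {K : Matrix n n ℂ} (hK : K.IsHermitian) (t : ℝ) :
    (lrU K t)ᴴ = lrU K (-t) := lrU_star (resetU_sa hK) t

theorem rcore_YS_conjTranspose (d : ResetData n ι s) (ℓ : ℕ) (t : ℝ) :
    (d.YS ℓ t)ᴴ = d.swap.YS ℓ t := by
  have hKS : (d.KS ℓ).IsHermitian := ResetData.loc_herm_sum d.k d.herm _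
  have hKS' : (d.KS' ℓ).IsHermitian := ResetData.loc_herm_sum d.k' d.herm' _
  have e : d.swap.YS ℓ t = lrU (d.KS ℓ) t * d.Wᴴ * lrU (d.KS' ℓ) (-t) := rfl
  rw [e]
  unfold ResetData.YS
  rw [Matrix.conjTranspose_mul, Matrix.conjTranspose_mul, rcore_conjTranspose_lrU hKS,
    rcore_conjTranspose_lrU hKS', neg_neg, Matrix.mul_assoc]

theorem rcore_norm_YS_le (d : ResetData n ι s) (ℓ : ℕ) (t : ℝ) : ‖d.YS ℓ t‖ ≤ 1 := by
  have hKS : (d.KS ℓ).IsHermitian := ResetData.loc_herm_sum d.k d.herm _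
  have hKS' : (d.KS' ℓ).IsHermitian := ResetData.loc_herm_sum d.k' d.herm' _
  unfold ResetData.YS
  rw [norm_lrU_mul_mul hKS' hKS]
  exact d.normW

/-- **Reset core.**  `Ψ`, `Φ` gapped ground vectors of `K`, `K'` with the same energy, `z = ⟨Φ, W Ψ⟩ > 0`,
all terms inside `S = {δ ≤ ℓ}` and `W` in the range of `φ` (= supported on `S`).  Then a unitary in the range of `φ`
maps `Ψ` close to `Φ`.   (package CORE-B, glue, 400-600 lines: `filter_one_sided` for `d` and `d.swap`,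
`D = M / z`, `‖(D^*D - 1)Ψ‖ ≤ ‖D^*‖ ‖DΨ - Φ‖ + ‖D^*Φ - Ψ‖`, `exists_unitary_near` with `η = ε / z²`.) -/
theorem reset_core (d : ResetData n ι s) (φ : Matrix m m ℂ →⋆ₐ[ℂ] Matrix n n ℂ)
    (ℓ : ℕ) (hℓ : 1 ≤ ℓ)
    (hφk : ∀ i ∈ d.inS ℓ, d.k i ∈ Set.range φ ∧ d.k' i ∈ Set.range φ)
    (hφW : d.W ∈ Set.range φ)
    (Ψ Φ : Matrix n Unit ℂ) (hΨ : ‖Ψ‖ = 1) (hΦ : ‖Φ‖ = 1) (E Δ : ℝ) (hΔ : 0 < Δ)
    (hKΨ : d.K * Ψ = (E : ℂ) • Ψ) (hKΦ : d.K' * Φ = (E : ℂ) • Φ)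
    (hgap : (Δ : ℂ) • (1 - Ψ * Ψᴴ) ≤ d.K - (E : ℂ) • 1)
    (hgap' : (Δ : ℂ) • (1 - Φ * Φᴴ) ≤ d.K' - (E : ℂ) • 1)
    (z : ℝ) (hz : 0 < z) (hz1 : z ≤ 1) (hzW : ipC Φ (d.W * Ψ) = (z : ℂ))
    (μ h T : ℝ) (hμ : 0 ≤ μ) (hh : 0 < h) (hT : 0 < T) :
    ∃ U : Matrix m m ℂ, U ∈ Matrix.unitaryGroup m ℂ ∧
      ‖φ U * Ψ - Φ‖ ≤ 4 * (Real.exp (-(2 * h * Δ ^ 2 / Real.pi ^ 2)) +
        2 * Real.exp (-(T ^ 2) / (2 * h)) + d.epsLoc μ ℓ T) / z ^ 2 := by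
  classical
  set ε : ℝ := Real.exp (-(2 * h * Δ ^ 2 / Real.pi ^ 2)) +
        2 * Real.exp (-(T ^ 2) / (2 * h)) + d.epsLoc μ ℓ T with hε
  have heps : 0 ≤ d.epsLoc μ ℓ T :=
    (norm_nonneg _).trans (d.localize μ hμ ℓ hℓ T 0 (by simpa using hT.le))
  have hε0 : 0 < ε := by positivity
  obtain ⟨N, dl, hN, hdl, hNdl, hdlG⟩ := rcore_exists_params h
    (‖d.K - (E : ℂ) • 1‖ + ‖d.K' - (E : ℂ) • 1‖) hh (by positivity)
  have hdlG1 : dl * ‖d.K - (E : ℂ) • 1‖ ≤ Real.pi / 2 := by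
    have := mul_nonneg hdl.le (norm_nonneg (d.K' - (E : ℂ) • 1))
    nlinarith
  have hdlG2 : dl * ‖d.K' - (E : ℂ) • 1‖ ≤ Real.pi / 2 := by
    have := mul_nonneg hdl.le (norm_nonneg (d.K - (E : ℂ) • 1))
    nlinarith
  set F := (Finset.range (N + 1)).filter (fun j : ℕ => |2 * (j : ℝ) - N| * dl ≤ T) with hF
  set M : Matrix n n ℂ := ∑ j ∈ F, ((N.choose j : ℂ) / 2 ^ N) • d.YS ℓ ((2 * (j : ℝ) - N) * dl)
    with hM
  -- the two one-sided estimates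
  have hA : ‖M * Ψ - (z : ℂ) • Φ‖ ≤ ε := by
    have := filter_one_sided d ℓ hℓ Ψ Φ hΨ hΦ E Δ hΔ hKΨ hKΦ hgap' μ T dl hμ hT hdl N hN hdlG2
    rwa [hNdl, hzW] at this
  have hMH : Mᴴ = ∑ j ∈ F, ((N.choose j : ℂ) / 2 ^ N) • d.swap.YS ℓ ((2 * (j : ℝ) - N) * dl) := by
    rw [hM, Matrix.conjTranspose_sum]
    refine Finset.sum_congr rfl fun j _ => ?_
    rw [Matrix.conjTranspose_smul, rcore_YS_conjTranspose]
    congr 1
    simp
  have hzW' : ipC Ψ (d.swap.W * Φ) = (z : ℂ) := by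
    have e : d.swap.W = d.Wᴴ := rfl
    rw [e, rc_ipC_mul_left, Matrix.conjTranspose_conjTranspose, ← rc_ipC_star, hzW]
    simp
  have hB : ‖Mᴴ * Φ - (z : ℂ) • Ψ‖ ≤ ε := by
    have := filter_one_sided d.swap ℓ hℓ Φ Ψ hΦ hΨ E Δ hΔ hKΦ hKΨ hgap μ T dl hμ hT hdl N hN hdlG1
    rw [hNdl, hzW', ← hMH] at this
    exact this
  have hMn : ‖M‖ ≤ 1 := by
    have hsum1 : ∑ j ∈ Finset.range (N + 1), (N.choose j : ℝ) / 2 ^ N = 1 := by
      rw [← Finset.sum_div, ← Nat.cast_sum, Nat.sum_range_choose]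
      simp
    calc ‖M‖ ≤ ∑ j ∈ F, ‖((N.choose j : ℂ) / 2 ^ N) • d.YS ℓ ((2 * (j : ℝ) - N) * dl)‖ :=
          norm_sum_le _ _
      _ ≤ ∑ j ∈ F, (N.choose j : ℝ) / 2 ^ N := by
          refine Finset.sum_le_sum fun j _ => ?_
          rw [norm_smul]
          have e : ‖(N.choose j : ℂ) / 2 ^ N‖ = (N.choose j : ℝ) / 2 ^ N := by simp
          rw [e]
          exact mul_le_of_le_one_right (by positivity) (rcore_norm_YS_le d ℓ _)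
      _ ≤ ∑ j ∈ Finset.range (N + 1), (N.choose j : ℝ) / 2 ^ N :=
          Finset.sum_le_sum_of_subset_of_nonneg (Finset.filter_subset _ _)
            (fun j _ _ => by positivity)
      _ = 1 := hsum1
  -- `M` is in the range of `φ`
  obtain ⟨κ, hκ⟩ := rcore_sum_mem_range φ d.k (d.inS ℓ) fun i hi => (hφk i hi).1
  obtain ⟨κ', hκ'⟩ := rcore_sum_mem_range φ d.k' (d.inS ℓ) fun i hi => (hφk i hi).2
  obtain ⟨W0, hW0⟩ := hφW
  set M0 : Matrix m m ℂ := ∑ j ∈ F, ((N.choose j : ℂ) / 2 ^ N) •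
    (lrU κ' ((2 * (j : ℝ) - N) * dl) * W0 * lrU κ (-((2 * (j : ℝ) - N) * dl))) with hM0
  have hφM : φ M0 = M := by
    rw [hM0, hM, map_sum]
    refine Finset.sum_congr rfl fun j _ => ?_
    rw [map_smul, map_mul, map_mul, map_lrU, map_lrU, hκ, hκ', hW0]
    rfl
  set D : Matrix m m ℂ := ((z : ℂ)⁻¹) • M0 with hD
  have hzc : (z : ℂ) ≠ 0 := by exact_mod_cast hz.ne'
  have hφD : φ D = ((z : ℂ)⁻¹) • M := by rw [hD, map_smul, hφM]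
  have hφDH : φ Dᴴ = ((z : ℂ)⁻¹) • Mᴴ := by
    have : φ Dᴴ = (φ D)ᴴ := by
      rw [← Matrix.star_eq_conjTranspose, map_star, Matrix.star_eq_conjTranspose]
    rw [this, hφD, Matrix.conjTranspose_smul]
    congr 1
    simp
  have hzn : ‖((z : ℂ)⁻¹)‖ = z⁻¹ := by
    rw [norm_inv, Complex.norm_real, Real.norm_of_nonneg hz.le]
  have hzi : 0 < z⁻¹ := inv_pos.2 hz
  have h1 : ‖φ D * Ψ - Φ‖ ≤ z⁻¹ * ε := by
    have e : φ D * Ψ - Φ = ((z : ℂ)⁻¹) • (M * Ψ - (z : ℂ) • Φ) := by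
      rw [hφD, smul_sub, smul_smul, inv_mul_cancel₀ hzc, one_smul, Matrix.smul_mul]
    rw [e, norm_smul, hzn]
    exact mul_le_mul_of_nonneg_left hA hzi.le
  have h2 : ‖φ Dᴴ * Φ - Ψ‖ ≤ z⁻¹ * ε := by
    have e : φ Dᴴ * Φ - Ψ = ((z : ℂ)⁻¹) • (Mᴴ * Φ - (z : ℂ) • Ψ) := by
      rw [hφDH, smul_sub, smul_smul, inv_mul_cancel₀ hzc, one_smul, Matrix.smul_mul]
    rw [e, norm_smul, hzn]
    exact mul_le_mul_of_nonneg_left hB hzi.le
  have h3 : ‖φ Dᴴ‖ ≤ z⁻¹ := by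
    rw [hφDH, norm_smul, hzn, Matrix.l2_opNorm_conjTranspose]
    exact mul_le_of_le_one_right hzi.le hMn
  have h4 : ‖(φ (Dᴴ * D) - 1) * Ψ‖ ≤ z⁻¹ * (z⁻¹ * ε) + z⁻¹ * ε := by
    have e : (φ (Dᴴ * D) - 1) * Ψ = φ Dᴴ * (φ D * Ψ - Φ) + (φ Dᴴ * Φ - Ψ) := by
      rw [map_mul, Matrix.sub_mul, Matrix.one_mul, Matrix.mul_sub, Matrix.mul_assoc]
      abel
    rw [e]
    refine (norm_add_le _ _).trans (add_le_add ?_ h2)
    exact (Matrix.l2_opNorm_mul _ _).trans (mul_le_mul h3 h1 (norm_nonneg _) hzi.le)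
  obtain ⟨U, hU, hUn⟩ := exists_unitary_near φ D Ψ Φ hΨ (z⁻¹ * (z⁻¹ * ε)) (by positivity)
  refine ⟨U, hU, hUn.trans ?_⟩
  have hz1' : 1 ≤ z⁻¹ := (one_le_inv₀ hz).2 hz1
  have h5 : z⁻¹ * ε ≤ z⁻¹ * (z⁻¹ * ε) := by
    have : 0 ≤ z⁻¹ * ε := by positivity
    nlinarith
  have e : 4 * ε / z ^ 2 = 4 * (z⁻¹ * (z⁻¹ * ε)) := by
    field_simp
  rw [e]
  linarith

end Claimed.Agent.R296
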