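import Claimed.Agent.R296.P2.ResetU
import Claimed.Agent.R296.MatFun

/-!
# ResetCos: the cosine filter contracts the complement of the ground vector (package COS)
Row 296, paper 2, Lemma 2.3 (`lem:reset`), abstract analytic core.  Blueprint: `Notes/P2S01_03.lean` (2.3) R4-R6.
Chain: ResetU -> ResetData -> ResetLoc ; ResetBin, ResetCos ; ResetPol ; ResetCoreA -> ResetCore.
Proof (helper208): `c = cos(dl G)` as a spectral function `mfun`; for `y ⊥ Φ`: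
`‖c y‖² = ∑ cos²(dl λ_i) s_i ≤ ‖y‖² - (4 dl²/π²) ‖G y‖²` (Jordan) and `‖G y‖ ≥ Δ ‖y‖` (gap + Cauchy-Schwarz);
`c y ⊥ Φ` again; induction on `N`.
-/

set_option autoImplicit false
set_option linter.unusedSectionVars false

namespace Claimed.Agent.R296

open Matrix
open scoped MatrixOrder Matrix.Norms.L2Operator ComplexOrder

variable {n m ι s : Type} [Fintype n] [DecidableEq n] [Fintype m] [DecidableEq m]
  [Fintype ι] [DecidableEq ι] [Fintype s] [DecidableEq s]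


/-- `e^{itG}` as a spectral function -/
theorem rc_lrU_eq_mfun {G : Matrix n n ℂ} (hG : G.IsHermitian) (t : ℝ) :
    lrU G t = mfun (fun x => Complex.exp ((t : ℂ) * Complex.I * x)) G := by
  rw [mfun_eq hG]
  set U := (hG.eigenvectorUnitary : Matrix n n ℂ) with hU
  have h1 : U * Uᴴ = 1 := eigU_mul_conjTranspose hG
  have h2 : Uᴴ * U = 1 := eigU_conjTranspose_mul hG
  have hinv : U⁻¹ = Uᴴ := Matrix.inv_eq_right_inv h1
  have hunit : IsUnit U := ⟨⟨U, Uᴴ, h1, h2⟩, rfl⟩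
  unfold lrU
  have e1 : ((t : ℂ) * Complex.I) • G
      = U * diagonal (fun i => (t : ℂ) * Complex.I * (hG.eigenvalues i : ℂ)) * U⁻¹ := by
    conv_lhs => rw [spectral_plain hG]
    rw [← hU, hinv, ← Matrix.smul_mul, ← Matrix.mul_smul]
    congr 2
    ext i j
    by_cases hij : i = j
    · subst hij; simp
    · simp [hij]
  rw [e1, Matrix.exp_conj _ _ hunit, Matrix.exp_diagonal, hinv]
  congr 3
  funext i
  simp [Complex.exp_eq_exp_ℂ]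

/-! ### small `ipC` API -/

theorem rc_ipC_add_right (v w₁ w₂ : Matrix n Unit ℂ) : ipC v (w₁ + w₂) = ipC v w₁ + ipC v w₂ := by
  simp [ipC, Matrix.mul_add]

theorem rc_ipC_sub_right (v w₁ w₂ : Matrix n Unit ℂ) : ipC v (w₁ - w₂) = ipC v w₁ - ipC v w₂ := by
  simp [ipC, Matrix.mul_sub]

theorem rc_ipC_smul_right (a : ℂ) (v w : Matrix n Unit ℂ) : ipC v (a • w) = a * ipC v w := by
  simp [ipC, Matrix.mul_smul]

theorem rc_ipC_star (v w : Matrix n Unit ℂ) : star (ipC v w) = ipC w v := by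
  have h : (vᴴ * w)ᴴ = wᴴ * v := by rw [conjTranspose_mul, conjTranspose_conjTranspose]
  have h2 := congrFun (congrFun h ()) ()
  rw [conjTranspose_apply] at h2
  exact h2

theorem rc_ipC_add_left (v₁ v₂ w : Matrix n Unit ℂ) : ipC (v₁ + v₂) w = ipC v₁ w + ipC v₂ w := by
  simp [ipC, Matrix.add_mul]

theorem rc_ipC_smul_left (a : ℂ) (v w : Matrix n Unit ℂ) : ipC (a • v) w = star a * ipC v w := by
  simp [ipC, conjTranspose_smul, Matrix.smul_mul]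

theorem rc_ipC_mul_left (A : Matrix n n ℂ) (v w : Matrix n Unit ℂ) :
    ipC v (A * w) = ipC (Aᴴ * v) w := by
  simp [ipC, conjTranspose_mul, Matrix.mul_assoc]

theorem rc_norm_ipC_le (v w : Matrix n Unit ℂ) : ‖ipC v w‖ ≤ ‖v‖ * ‖w‖ := by
  have h := l2_opNorm_mul vᴴ w
  rwa [norm_unit_matrix, l2_opNorm_conjTranspose] at h

theorem rc_ipC_self (v : Matrix n Unit ℂ) : ipC v v = ((‖v‖ ^ 2 : ℝ) : ℂ) := by
  apply Complex.ext
  · rw [norm_sq_eq_ipC]; simp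
  · have h := rc_ipC_star v v
    have h2 := congrArg Complex.im h
    simp only [Complex.star_def, Complex.conj_im] at h2
    simp only [Complex.ofReal_im]
    linarith

theorem rc_col_eq_colV (y : Matrix n Unit ℂ) : y = colV (fun i => y i ()) := by
  ext i u; simp

/-- Pythagoras: removing the component along a unit vector does not increase the norm -/
theorem rc_norm_sub_proj_le {Φ : Matrix n Unit ℂ} (hΦ : ‖Φ‖ = 1) (w : Matrix n Unit ℂ) :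
    ipC Φ (w - ipC Φ w • Φ) = 0 ∧ ‖w - ipC Φ w • Φ‖ ≤ ‖w‖ := by
  have hΦΦ : ipC Φ Φ = 1 := by rw [rc_ipC_self, hΦ]; simp
  set a := ipC Φ w with ha
  set y := w - a • Φ with hy
  have h0 : ipC Φ y = 0 := by
    rw [hy, rc_ipC_sub_right, rc_ipC_smul_right, hΦΦ, ← ha]; ring
  refine ⟨h0, ?_⟩
  have h0' : ipC y Φ = 0 := by rw [← rc_ipC_star, h0]; simp
  have hw : w = y + a • Φ := by rw [hy]; abel
  have h1 : ipC w w = ipC y y + star a * a := by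
    conv_lhs => rw [hw]
    rw [rc_ipC_add_right, rc_ipC_add_left, rc_ipC_add_left, rc_ipC_smul_right, rc_ipC_smul_right,
      rc_ipC_smul_left, rc_ipC_smul_left, h0, h0', hΦΦ]
    ring
  rw [rc_ipC_self, rc_ipC_self] at h1
  have h2 : star a * a = ((‖a‖ ^ 2 : ℝ) : ℂ) := by
    rw [Complex.star_def, Complex.conj_mul']; norm_cast
  rw [h2] at h1
  have h3 : ‖w‖ ^ 2 = ‖y‖ ^ 2 + ‖a‖ ^ 2 := by exact_mod_cast h1
  have h4 : ‖y‖ ^ 2 ≤ ‖w‖ ^ 2 := by nlinarith [sq_nonneg ‖a‖]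
  exact (pow_le_pow_iff_left₀ (norm_nonneg _) (norm_nonneg _) two_ne_zero).1 h4

/-- `‖f(G) v‖² = ∑ f(λ_i)² |⟨u_i, v⟩|²` for a real symbol -/
theorem rc_norm_mfun_mul_sq {G : Matrix n n ℂ} (hG : G.IsHermitian) (f : ℝ → ℝ) (v : n → ℂ) :
    ‖mfun (fun x => (f x : ℂ)) G * colV v‖ ^ 2 = ∑ i, f (hG.eigenvalues i) ^ 2 * specW hG v i := by
  set F := mfun (fun x => (f x : ℂ)) G with hF
  have hFh : Fᴴ = F := mfun_isHermitian f G
  have hFF : F * F = mfun (fun x => ((f x ^ 2 : ℝ) : ℂ)) G := by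
    rw [hF, ← mfun_mul]; congr 1; funext x; push_cast; ring
  rw [← colV_mulVec, norm_sq_eq_ipC, ipC_colV, star_mulVec, ← dotProduct_mulVec, mulVec_mulVec, hFh,
    hFF, quad_mfun hG]
  rw [Complex.re_sum]
  refine Finset.sum_congr rfl fun i _ => ?_
  rw [← Complex.ofReal_mul, Complex.ofReal_re]

theorem rc_norm_colV_sq_eq_sum_specW {G : Matrix n n ℂ} (hG : G.IsHermitian) (v : n → ℂ) :
    ‖colV v‖ ^ 2 = ∑ i, specW hG v i := by
  rw [norm_sq_eq_ipC, ipC_colV, ← sum_specW hG, Complex.ofReal_re]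

theorem rc_abs_eigenvalues_le {G : Matrix n n ℂ} (hG : G.IsHermitian) (i : n) :
    |hG.eigenvalues i| ≤ ‖G‖ := by
  have h1 : hG.eigenvalues i ∈ spectrum ℝ G := hG.eigenvalues_mem_spectrum_real i
  have h2 : ((hG.eigenvalues i : ℝ) : ℂ) ∈ spectrum ℂ G :=
    (spectrum.algebraMap_mem_iff ℂ).2 h1
  have : Nonempty n := ⟨i⟩
  have h3 := spectrum.norm_le_norm_of_mem h2
  simpa using h3

theorem rc_cos_sq_le {t : ℝ} (ht : |t| ≤ Real.pi / 2) :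
    Real.cos t ^ 2 ≤ 1 - (2 / Real.pi * t) ^ 2 := by
  have hpi := Real.pi_pos
  have h1 : 2 / Real.pi * |t| ≤ Real.sin |t| := Real.mul_le_sin (abs_nonneg t) ht
  have h2 : (2 / Real.pi * |t|) ^ 2 ≤ Real.sin |t| ^ 2 :=
    pow_le_pow_left₀ (by positivity) h1 2
  have h3 : Real.sin |t| ^ 2 = Real.sin t ^ 2 := by
    rcases abs_cases t with ⟨h, _⟩ | ⟨h, _⟩
    · rw [h]
    · rw [h]; simp
  have h4 : (2 / Real.pi * |t|) ^ 2 = (2 / Real.pi * t) ^ 2 := by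
    rw [mul_pow, mul_pow, sq_abs]
  have h5 := Real.sin_sq_add_cos_sq t
  rw [h3, h4] at h2
  linarith

/-- the filter as a spectral function -/
theorem rc_cos_eq_mfun {G : Matrix n n ℂ} (hG : G.IsHermitian) (dl : ℝ) :
    (1 / 2 : ℂ) • (lrU G dl + lrU G (-dl)) = mfun (fun x => ((Real.cos (dl * x) : ℝ) : ℂ)) G := by
  rw [rc_lrU_eq_mfun hG, rc_lrU_eq_mfun hG, ← mfun_add, ← mfun_smul]
  congr 1
  funext x
  rw [Complex.ofReal_cos, Complex.cos]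
  push_cast
  ring_nf

/-- gap + Cauchy-Schwarz: `Δ ‖y‖ ≤ ‖G y‖` on the orthogonal complement of `Φ` -/
theorem rc_gap_norm {G : Matrix n n ℂ} {Φ : Matrix n Unit ℂ} {Δ : ℝ}
    (hgap : (Δ : ℂ) • (1 - Φ * Φᴴ) ≤ G) {y : Matrix n Unit ℂ} (hy : ipC Φ y = 0) :
    Δ * ‖y‖ ≤ ‖G * y‖ := by
  have hps : (G - (Δ : ℂ) • (1 - Φ * Φᴴ)).PosSemidef := Matrix.le_iff.1 hgap
  have h1 : (yᴴ * (G - (Δ : ℂ) • (1 - Φ * Φᴴ)) * y).PosSemidef := hps.conjTranspose_mul_mul_same y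
  have h2 : 0 ≤ (yᴴ * (G - (Δ : ℂ) • (1 - Φ * Φᴴ)) * y : Matrix Unit Unit ℂ) () () :=
    h1.diag_nonneg
  have hΦy : Φᴴ * y = 0 := by
    rw [conjTranspose_mul_eq_ipC, hy, zero_smul]
  have h3 : yᴴ * (G - (Δ : ℂ) • (1 - Φ * Φᴴ)) * y = yᴴ * (G * y) - (Δ : ℂ) • (yᴴ * y) := by
    rw [Matrix.mul_assoc, Matrix.sub_mul, Matrix.smul_mul, Matrix.sub_mul, Matrix.one_mul,
      Matrix.mul_assoc Φ, hΦy, Matrix.mul_zero, sub_zero, Matrix.mul_sub, Matrix.mul_smul]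
  rw [h3] at h2
  have h4 : (yᴴ * (G * y) - (Δ : ℂ) • (yᴴ * y)) () () = ipC y (G * y) - (Δ : ℂ) * ipC y y := by
    simp [ipC]
  rw [h4, rc_ipC_self] at h2
  have h5 : Δ * ‖y‖ ^ 2 ≤ (ipC y (G * y)).re := by
    have := (Complex.le_def.1 h2).1
    simp only [Complex.zero_re, Complex.sub_re, Complex.mul_re, Complex.ofReal_re,
      Complex.ofReal_im, zero_mul, sub_zero] at this
    linarith
  have h6 : (ipC y (G * y)).re ≤ ‖y‖ * ‖G * y‖ :=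
    (Complex.re_le_norm _).trans (rc_norm_ipC_le _ _)
  rcases eq_or_lt_of_le (norm_nonneg y) with h0 | h0
  · rw [← h0]; simp
  · have : ‖y‖ * (Δ * ‖y‖) ≤ ‖y‖ * ‖G * y‖ := by nlinarith
    exact le_of_mul_le_mul_left this h0

/-- one step of the filter on the orthogonal complement of the ground vector -/
theorem rc_cos_step {G : Matrix n n ℂ} (hG : G.IsHermitian) {Φ : Matrix n Unit ℂ}
    (hGΦ : G * Φ = 0) {Δ : ℝ} (hΔ : 0 < Δ)
    (hgap : (Δ : ℂ) • (1 - Φ * Φᴴ) ≤ G) {dl : ℝ} (hdl : 0 < dl) (hdlG : dl * ‖G‖ ≤ Real.pi / 2)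
    {y : Matrix n Unit ℂ} (hy : ipC Φ y = 0) :
    ipC Φ (((1 / 2 : ℂ) • (lrU G dl + lrU G (-dl))) * y) = 0 ∧
    ‖((1 / 2 : ℂ) • (lrU G dl + lrU G (-dl))) * y‖ ≤
      Real.exp (-(2 * dl ^ 2 * Δ ^ 2 / Real.pi ^ 2)) * ‖y‖ := by
  have hpi := Real.pi_pos
  have hcΦ : ((1 / 2 : ℂ) • (lrU G dl + lrU G (-dl))) * Φ = Φ := by
    have hE : G * Φ = ((0 : ℝ) : ℂ) • Φ := by rw [hGΦ]; simp
    rw [Matrix.smul_mul, Matrix.add_mul, lrU_mul_eigen hE, lrU_mul_eigen hE]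
    simp only [Complex.ofReal_zero, mul_zero, zero_mul, Complex.exp_zero, one_smul]
    rw [← two_smul ℂ Φ, smul_smul]
    norm_num
  rw [rc_cos_eq_mfun hG] at hcΦ ⊢
  set c := mfun (fun x => ((Real.cos (dl * x) : ℝ) : ℂ)) G with hc
  have hch : cᴴ = c := mfun_isHermitian (fun x => Real.cos (dl * x)) G
  refine ⟨by rw [rc_ipC_mul_left, hch, hcΦ, hy], ?_⟩
  -- spectral computation
  set v : n → ℂ := fun i => y i () with hv
  have hyv : y = colV v := rc_col_eq_colV y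
  have e1 : ‖c * y‖ ^ 2 = ∑ i, Real.cos (dl * hG.eigenvalues i) ^ 2 * specW hG v i := by
    rw [hyv, hc, rc_norm_mfun_mul_sq hG (fun x => Real.cos (dl * x))]
  have e2 : ‖G * y‖ ^ 2 = ∑ i, hG.eigenvalues i ^ 2 * specW hG v i := by
    have := rc_norm_mfun_mul_sq hG (fun x => x) v
    rwa [mfun_id hG, ← hyv] at this
  have e3 : ‖y‖ ^ 2 = ∑ i, specW hG v i := by
    rw [hyv]; exact rc_norm_colV_sq_eq_sum_specW hG v
  have e4 : ‖c * y‖ ^ 2 ≤ ‖y‖ ^ 2 - (2 / Real.pi * dl) ^ 2 * ‖G * y‖ ^ 2 := by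
    rw [e1, e2, e3, Finset.mul_sum, ← Finset.sum_sub_distrib]
    refine Finset.sum_le_sum fun i _ => ?_
    have hb : |dl * hG.eigenvalues i| ≤ Real.pi / 2 := by
      rw [abs_mul, abs_of_pos hdl]
      exact (mul_le_mul_of_nonneg_left (rc_abs_eigenvalues_le hG i) hdl.le).trans hdlG
    have h1 := rc_cos_sq_le hb
    have h2 := specW_nonneg hG v i
    have h3 := mul_le_mul_of_nonneg_right h1 h2
    calc Real.cos (dl * hG.eigenvalues i) ^ 2 * specW hG v i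
        ≤ (1 - (2 / Real.pi * (dl * hG.eigenvalues i)) ^ 2) * specW hG v i := h3
      _ = _ := by ring
  have e5 : Δ * ‖y‖ ≤ ‖G * y‖ := rc_gap_norm hgap hy
  have e6 : (Δ * ‖y‖) ^ 2 ≤ ‖G * y‖ ^ 2 := pow_le_pow_left₀ (by positivity) e5 2
  set κ := Real.exp (-(2 * dl ^ 2 * Δ ^ 2 / Real.pi ^ 2)) with hκ
  have hκ2 : 1 - 4 * dl ^ 2 * Δ ^ 2 / Real.pi ^ 2 ≤ κ ^ 2 := by
    rw [hκ, ← Real.exp_nat_mul]
    have := Real.add_one_le_exp (((2 : ℕ) : ℝ) * -(2 * dl ^ 2 * Δ ^ 2 / Real.pi ^ 2))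
    refine le_trans (le_of_eq ?_) this
    push_cast
    ring
  have e7 : ‖c * y‖ ^ 2 ≤ (κ * ‖y‖) ^ 2 := by
    have h1 : (2 / Real.pi * dl) ^ 2 * (Δ * ‖y‖) ^ 2 ≤ (2 / Real.pi * dl) ^ 2 * ‖G * y‖ ^ 2 :=
      mul_le_mul_of_nonneg_left e6 (by positivity)
    have h2 : ‖y‖ ^ 2 - (2 / Real.pi * dl) ^ 2 * (Δ * ‖y‖) ^ 2
        = (1 - 4 * dl ^ 2 * Δ ^ 2 / Real.pi ^ 2) * ‖y‖ ^ 2 := by
      field_simp
      ring
    have h3 : (1 - 4 * dl ^ 2 * Δ ^ 2 / Real.pi ^ 2) * ‖y‖ ^ 2 ≤ κ ^ 2 * ‖y‖ ^ 2 :=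
      mul_le_mul_of_nonneg_right hκ2 (by positivity)
    rw [mul_pow]
    linarith
  exact (pow_le_pow_iff_left₀ (norm_nonneg _) (by positivity) two_ne_zero).1 e7

/-- the filter `c = cos(dl G)` contracts the orthogonal complement of the ground vector:
`c² ≤ 1 - (4 dl²/π²) G² ≤ 1 - (4 dl² Δ²/π²)(1 - ΦΦ^*)`  (Jordan's inequality `sin y ≥ 2y/π`). -/
theorem cos_filter {G : Matrix n n ℂ} (hG : G.IsHermitian) {Φ : Matrix n Unit ℂ}
    (hΦ : ‖Φ‖ = 1) (hGΦ : G * Φ = 0) {Δ : ℝ} (hΔ : 0 < Δ)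
    (hgap : (Δ : ℂ) • (1 - Φ * Φᴴ) ≤ G) {dl : ℝ} (hdl : 0 < dl) (hdlG : dl * ‖G‖ ≤ Real.pi / 2)
    (N : ℕ) (w : Matrix n Unit ℂ) :
    ‖((1 / 2 : ℂ) • (lrU G dl + lrU G (-dl))) ^ N * w - ipC Φ w • Φ‖ ≤
      Real.exp (-(2 * N * dl ^ 2 * Δ ^ 2 / Real.pi ^ 2)) * ‖w‖ := by
  set c := (1 / 2 : ℂ) • (lrU G dl + lrU G (-dl)) with hc
  set κ := Real.exp (-(2 * dl ^ 2 * Δ ^ 2 / Real.pi ^ 2)) with hκ
  have hκ0 : 0 ≤ κ := (Real.exp_pos _).le
  obtain ⟨hy0, hyw⟩ := rc_norm_sub_proj_le hΦ w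
  set y := w - ipC Φ w • Φ with hy
  have hcΦ : c * Φ = Φ := by
    have hE : G * Φ = ((0 : ℝ) : ℂ) • Φ := by rw [hGΦ]; simp
    rw [hc, Matrix.smul_mul, Matrix.add_mul, lrU_mul_eigen hE, lrU_mul_eigen hE]
    simp only [Complex.ofReal_zero, mul_zero, zero_mul, Complex.exp_zero, one_smul]
    rw [← two_smul ℂ Φ, smul_smul]
    norm_num
  have hcNΦ : ∀ k : ℕ, c ^ k * Φ = Φ := by
    intro k
    induction k with
    | zero => simp
    | succ k ih => rw [pow_succ, Matrix.mul_assoc, hcΦ, ih]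
  have key : ∀ k : ℕ, ipC Φ (c ^ k * y) = 0 ∧ ‖c ^ k * y‖ ≤ κ ^ k * ‖y‖ := by
    intro k
    induction k with
    | zero => simpa using hy0
    | succ k ih =>
      obtain ⟨h1, h2⟩ := rc_cos_step hG hGΦ hΔ hgap hdl hdlG ih.1
      rw [← Matrix.mul_assoc, ← pow_succ'] at h1 h2
      refine ⟨h1, h2.trans ?_⟩
      calc κ * ‖c ^ k * y‖ ≤ κ * (κ ^ k * ‖y‖) := mul_le_mul_of_nonneg_left ih.2 hκ0
        _ = κ ^ (k + 1) * ‖y‖ := by ring
  have e1 : c ^ N * w - ipC Φ w • Φ = c ^ N * y := by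
    rw [hy, Matrix.mul_sub, Matrix.mul_smul, hcNΦ]
  have e2 : Real.exp (-(2 * N * dl ^ 2 * Δ ^ 2 / Real.pi ^ 2)) = κ ^ N := by
    rw [hκ, ← Real.exp_nat_mul]
    congr 1
    ring
  rw [e1, e2]
  exact (key N).2.trans (mul_le_mul_of_nonneg_left hyw (pow_nonneg hκ0 N))

end Claimed.Agent.R296
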