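import Claimed.Agent.R296.P2.ResetLoc
import Claimed.Agent.R296.P2.ResetBin
import Claimed.Agent.R296.P2.ResetCos

/-!
# ResetCoreA: one-sided filter estimate (package CORE-A)
Row 296, paper 2, Lemma 2.3 (`lem:reset`), abstract analytic core.  Blueprint: `Notes/P2S01_03.lean` (2.3) R4-R6.
Chain: ResetU -> ResetData -> ResetLoc ; ResetBin, ResetCos ; ResetPol ; ResetCoreA -> ResetCore.
-/

set_option autoImplicit false
set_option linter.unusedSectionVars false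

namespace Claimed.Agent.R296

open Matrix
open scoped MatrixOrder Matrix.Norms.L2Operator ComplexOrder

variable {n m ι s : Type} [Fintype n] [DecidableEq n] [Fintype m] [DecidableEq m]
  [Fintype ι] [DecidableEq ι] [Fintype s] [DecidableEq s]

/-- one half of the two-sided estimate (package CORE-A, 300-500 lines):
for suitable `N`, `dl` with `N dl² = h` the truncated, localised binomial average `M` satisfies
`‖M Ψ - z Φ‖ ≤ ε`.  Stated for a given pair `(N, dl)` so that both halves use the same `M`. -/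
theorem filter_one_sided (d : ResetData n ι s) (ℓ : ℕ) (hℓ : 1 ≤ ℓ)
    (Ψ Φ : Matrix n Unit ℂ) (hΨ : ‖Ψ‖ = 1) (hΦ : ‖Φ‖ = 1) (E Δ : ℝ) (hΔ : 0 < Δ)
    (hKΨ : d.K * Ψ = (E : ℂ) • Ψ) (hKΦ : d.K' * Φ = (E : ℂ) • Φ)
    (hgap' : (Δ : ℂ) • (1 - Φ * Φᴴ) ≤ d.K' - (E : ℂ) • 1)
    (μ T dl : ℝ) (hμ : 0 ≤ μ) (hT : 0 < T) (hdl : 0 < dl) (N : ℕ) (hN : 1 ≤ N)
    (hdlG : dl * ‖d.K' - (E : ℂ) • 1‖ ≤ Real.pi / 2) :
    ‖(∑ j ∈ (Finset.range (N + 1)).filter (fun j : ℕ => |2 * (j : ℝ) - N| * dl ≤ T),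
        ((N.choose j : ℂ) / 2 ^ N) • d.YS ℓ ((2 * (j : ℝ) - N) * dl)) * Ψ
        - ipC Φ (d.W * Ψ) • Φ‖ ≤
      Real.exp (-(2 * (N * dl ^ 2) * Δ ^ 2 / Real.pi ^ 2)) +
        2 * Real.exp (-(T ^ 2) / (2 * (N * dl ^ 2))) + d.epsLoc μ ℓ T := by
  classical
  set R := Finset.range (N + 1) with hR
  set tj : ℕ → ℝ := fun j => (2 * (j : ℝ) - N) * dl with htj
  set p : ℕ → ℂ := fun j => (N.choose j : ℂ) / 2 ^ N with hp
  have hpn : ∀ j, ‖p j‖ = (N.choose j : ℝ) / 2 ^ N := by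
    intro j
    simp [hp]
  have hq0 : ∀ j : ℕ, 0 ≤ (N.choose j : ℝ) / 2 ^ N := fun j => by positivity
  have hsum1 : ∑ j ∈ R, (N.choose j : ℝ) / 2 ^ N = 1 := by
    rw [← Finset.sum_div, ← Nat.cast_sum, Nat.sum_range_choose]
    simp
  have hK : d.K.IsHermitian := ResetData.loc_herm_sum d.k d.herm _
  have hK' : d.K'.IsHermitian := ResetData.loc_herm_sum d.k' d.herm' _
  have hYn : ∀ t, ‖d.Y t‖ ≤ 1 := fun t => by
    unfold ResetData.Y
    rw [norm_lrU_mul_mul hK' hK]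
    exact d.normW
  have heps : 0 ≤ d.epsLoc μ ℓ T :=
    (norm_nonneg _).trans (d.localize μ hμ ℓ hℓ T 0 (by simpa using hT.le))
  -- term 1: localisation
  have h1 : ‖(∑ j ∈ R.filter (fun j : ℕ => |2 * (j : ℝ) - N| * dl ≤ T), p j • d.YS ℓ (tj j))
      - ∑ j ∈ R.filter (fun j : ℕ => |2 * (j : ℝ) - N| * dl ≤ T), p j • d.Y (tj j)‖
      ≤ d.epsLoc μ ℓ T := by
    rw [← Finset.sum_sub_distrib]
    calc ‖∑ j ∈ R.filter (fun j : ℕ => |2 * (j : ℝ) - N| * dl ≤ T),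
          (p j • d.YS ℓ (tj j) - p j • d.Y (tj j))‖
        ≤ ∑ j ∈ R.filter (fun j : ℕ => |2 * (j : ℝ) - N| * dl ≤ T),
          ‖p j • d.YS ℓ (tj j) - p j • d.Y (tj j)‖ := norm_sum_le _ _
      _ ≤ ∑ j ∈ R.filter (fun j : ℕ => |2 * (j : ℝ) - N| * dl ≤ T),
          (N.choose j : ℝ) / 2 ^ N * d.epsLoc μ ℓ T := by
          refine Finset.sum_le_sum fun j hj => ?_
          rw [← smul_sub, norm_smul, hpn, norm_sub_rev]
          refine mul_le_mul_of_nonneg_left (d.localize μ hμ ℓ hℓ T _ ?_) (hq0 j)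
          have := (Finset.mem_filter.1 hj).2
          rwa [htj, abs_mul, abs_of_pos hdl]
      _ = (∑ j ∈ R.filter (fun j : ℕ => |2 * (j : ℝ) - N| * dl ≤ T),
          (N.choose j : ℝ) / 2 ^ N) * d.epsLoc μ ℓ T := by rw [Finset.sum_mul]
      _ ≤ 1 * d.epsLoc μ ℓ T := by
          refine mul_le_mul_of_nonneg_right ?_ heps
          rw [← hsum1]
          exact Finset.sum_le_sum_of_subset_of_nonneg (Finset.filter_subset _ _)
            (fun j _ _ => hq0 j)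
      _ = d.epsLoc μ ℓ T := one_mul _
  -- term 2: binomial tail
  have h2 : ‖(∑ j ∈ R.filter (fun j : ℕ => |2 * (j : ℝ) - N| * dl ≤ T), p j • d.Y (tj j))
      - ∑ j ∈ R, p j • d.Y (tj j)‖ ≤ 2 * Real.exp (-(T ^ 2) / (2 * (N * dl ^ 2))) := by
    have hsplit : ∑ j ∈ R, p j • d.Y (tj j)
        = ∑ j ∈ R.filter (fun j : ℕ => |2 * (j : ℝ) - N| * dl ≤ T), p j • d.Y (tj j)
          + ∑ j ∈ R.filter (fun j : ℕ => ¬ |2 * (j : ℝ) - N| * dl ≤ T), p j • d.Y (tj j) :=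
      (Finset.sum_filter_add_sum_filter_not R _ _).symm
    rw [hsplit, sub_add_cancel_left, norm_neg]
    have hfil : R.filter (fun j : ℕ => ¬ |2 * (j : ℝ) - N| * dl ≤ T)
        = R.filter (fun j : ℕ => T / dl < |2 * (j : ℝ) - N|) := by
      refine Finset.filter_congr fun j _ => ?_
      rw [not_le, div_lt_iff₀ hdl]
    calc ‖∑ j ∈ R.filter (fun j : ℕ => ¬ |2 * (j : ℝ) - N| * dl ≤ T), p j • d.Y (tj j)‖
        ≤ ∑ j ∈ R.filter (fun j : ℕ => ¬ |2 * (j : ℝ) - N| * dl ≤ T), ‖p j • d.Y (tj j)‖ :=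
          norm_sum_le _ _
      _ ≤ ∑ j ∈ R.filter (fun j : ℕ => ¬ |2 * (j : ℝ) - N| * dl ≤ T),
          (N.choose j : ℝ) / 2 ^ N := by
          refine Finset.sum_le_sum fun j _ => ?_
          rw [norm_smul, hpn]
          exact mul_le_of_le_one_right (hq0 j) (hYn _)
      _ = ∑ j ∈ R.filter (fun j : ℕ => T / dl < |2 * (j : ℝ) - N|),
          (N.choose j : ℝ) / 2 ^ N := by rw [hfil]
      _ ≤ 2 * Real.exp (-((T / dl) ^ 2) / (2 * N)) := binom_tail N (T / dl) (by positivity)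
      _ = 2 * Real.exp (-(T ^ 2) / (2 * (N * dl ^ 2))) := by
          congr 2
          have hN' : (N : ℝ) ≠ 0 := by
            have : 0 < N := hN
            positivity
          field_simp
  -- term 3: the cosine filter
  have hw : ‖d.W * Ψ‖ ≤ 1 := by
    calc ‖d.W * Ψ‖ ≤ ‖d.W‖ * ‖Ψ‖ := Matrix.l2_opNorm_mul _ _
      _ ≤ 1 * 1 := by rw [hΨ]; exact mul_le_mul_of_nonneg_right d.normW zero_le_one
      _ = 1 := one_mul _
  have h3 : ‖(∑ j ∈ R, p j • d.Y (tj j)) * Ψ - ipC Φ (d.W * Ψ) • Φ‖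
      ≤ Real.exp (-(2 * (N * dl ^ 2) * Δ ^ 2 / Real.pi ^ 2)) := by
    have hb := binom_filter_apply (K := d.K) (K' := d.K') (W := d.W) hKΨ dl N
    have hb' : (∑ j ∈ R, p j • d.Y (tj j)) * Ψ
        = ((1 / 2 : ℂ) • (lrU (d.K' - (E : ℂ) • 1) dl + lrU (d.K' - (E : ℂ) • 1) (-dl))) ^ N
          * (d.W * Ψ) := hb
    rw [hb']
    have hG : (d.K' - (E : ℂ) • (1 : Matrix n n ℂ)).IsHermitian := by
      refine hK'.sub ?_
      rw [Matrix.IsHermitian, Matrix.conjTranspose_smul, Matrix.conjTranspose_one]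
      simp
    have hGΦ : (d.K' - (E : ℂ) • (1 : Matrix n n ℂ)) * Φ = 0 := by
      rw [Matrix.sub_mul, hKΦ, Matrix.smul_mul, Matrix.one_mul, sub_self]
    refine (cos_filter hG hΦ hGΦ hΔ hgap' hdl hdlG N (d.W * Ψ)).trans ?_
    have e : Real.exp (-(2 * N * dl ^ 2 * Δ ^ 2 / Real.pi ^ 2))
        = Real.exp (-(2 * (N * dl ^ 2) * Δ ^ 2 / Real.pi ^ 2)) := by
      congr 2
      ring
    rw [e]
    exact mul_le_of_le_one_right (Real.exp_pos _).le hw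
  -- assembly
  have hmul : ∀ A : Matrix n n ℂ, ‖A * Ψ‖ ≤ ‖A‖ := fun A => by
    have := Matrix.l2_opNorm_mul A Ψ
    rwa [hΨ, mul_one] at this
  have e : (∑ j ∈ R.filter (fun j : ℕ => |2 * (j : ℝ) - N| * dl ≤ T), p j • d.YS ℓ (tj j)) * Ψ
      - ipC Φ (d.W * Ψ) • Φ
      = ((∑ j ∈ R.filter (fun j : ℕ => |2 * (j : ℝ) - N| * dl ≤ T), p j • d.YS ℓ (tj j))
          - ∑ j ∈ R.filter (fun j : ℕ => |2 * (j : ℝ) - N| * dl ≤ T), p j • d.Y (tj j)) * Ψ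
        + ((∑ j ∈ R.filter (fun j : ℕ => |2 * (j : ℝ) - N| * dl ≤ T), p j • d.Y (tj j))
          - ∑ j ∈ R, p j • d.Y (tj j)) * Ψ
        + ((∑ j ∈ R, p j • d.Y (tj j)) * Ψ - ipC Φ (d.W * Ψ) • Φ) := by
    rw [Matrix.sub_mul, Matrix.sub_mul]
    abel
  rw [e]
  have n1 := (hmul _).trans h1
  have n2 := (hmul _).trans h2
  have n3 := norm_add₃_le
    (a := ((∑ j ∈ R.filter (fun j : ℕ => |2 * (j : ℝ) - N| * dl ≤ T), p j • d.YS ℓ (tj j))
          - ∑ j ∈ R.filter (fun j : ℕ => |2 * (j : ℝ) - N| * dl ≤ T), p j • d.Y (tj j)) * Ψ)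
    (b := ((∑ j ∈ R.filter (fun j : ℕ => |2 * (j : ℝ) - N| * dl ≤ T), p j • d.Y (tj j))
          - ∑ j ∈ R, p j • d.Y (tj j)) * Ψ)
    (c := (∑ j ∈ R, p j • d.Y (tj j)) * Ψ - ipC Φ (d.W * Ψ) • Φ)
  linarith

end Claimed.Agent.R296
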