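import Claimed.Agent.R296.P2.ResetU

/-!
# ResetData: the locality data of the reset core (definitions only)
Row 296, paper 2, Lemma 2.3 (`lem:reset`), abstract analytic core.  Blueprint: `Notes/P2S01_03.lean` (2.3) R4-R6.
Chain: ResetU -> ResetData -> ResetLoc ; ResetBin, ResetCos ; ResetPol ; ResetCoreA -> ResetCore.
-/

set_option autoImplicit false
set_option linter.unusedSectionVars false

namespace Claimed.Agent.R296

open Matrix
open scoped MatrixOrder Matrix.Norms.L2Operator ComplexOrder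

variable {n m ι s : Type} [Fintype n] [DecidableEq n] [Fintype m] [DecidableEq m]
  [Fintype ι] [DecidableEq ι] [Fintype s] [DecidableEq s]

/-! ### the locality data -/

/-- two families of interaction terms `k`, `k'` with label sets `X i`, which agree away from a "defect", and an
operator `W`;  `δ x` = distance of the label (site) `x` from the defect and from the support of `W`. -/
structure ResetData (n ι s : Type) [Fintype n] [DecidableEq n] [Fintype ι] [DecidableEq ι]
    [Fintype s] [DecidableEq s] where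
  k : ι → Matrix n n ℂ
  k' : ι → Matrix n n ℂ
  W : Matrix n n ℂ
  X : ι → Finset s
  δ : s → ℕ
  Jt : ℝ
  mX : ℕ
  deg : ℕ
  herm : ∀ i, (k i).IsHermitian
  herm' : ∀ i, (k' i).IsHermitian
  bd : ∀ i, ‖k i‖ ≤ Jt
  bd' : ∀ i, ‖k' i‖ ≤ Jt
  card_X : ∀ i, (X i).card ≤ mX
  card_at : ∀ x, (Finset.univ.filter fun i => x ∈ X i).card ≤ deg
  comm : ∀ i j, Disjoint (X i) (X j) → Commute (k i) (k j) ∧ Commute (k' i) (k' j) ∧
    Commute (k i) (k' j)
  lip : ∀ i, ∀ x ∈ X i, ∀ y ∈ X i, δ x ≤ δ y + 1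
  far : ∀ i, (∀ x ∈ X i, 0 < δ x) → k' i = k i ∧ Commute (k i) W
  normW : ‖W‖ ≤ 1

namespace ResetData

variable (d : ResetData n ι s)

/-- full Hamiltonians -/
def K : Matrix n n ℂ := ∑ i, d.k i
def K' : Matrix n n ℂ := ∑ i, d.k' i

/-- the terms inside `S = { δ ≤ ℓ }` -/
def inS (ℓ : ℕ) : Finset ι := Finset.univ.filter fun i => ∀ x ∈ d.X i, d.δ x ≤ ℓ

/-- Hamiltonians truncated to the terms inside `S` -/
def KS (ℓ : ℕ) : Matrix n n ℂ := ∑ i ∈ d.inS ℓ, d.k i
def KS' (ℓ : ℕ) : Matrix n n ℂ := ∑ i ∈ d.inS ℓ, d.k' i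

/-- `Y(t) = e^{itK'} W e^{-itK}` and its truncation -/
noncomputable def Y (t : ℝ) : Matrix n n ℂ := lrU d.K' t * d.W * lrU d.K (-t)
noncomputable def YS (ℓ : ℕ) (t : ℝ) : Matrix n n ℂ := lrU (d.KS' ℓ) t * d.W * lrU (d.KS ℓ) (-t)

/-- the localisation error; Lieb-Robinson velocity `v = 2 e^μ mX deg Jt` -/
noncomputable def epsLoc (μ : ℝ) (ℓ : ℕ) (T : ℝ) : ℝ :=
  T * (Fintype.card ι) * (2 * d.Jt * d.mX) * (1 + 2 * d.Jt * (Fintype.card ι) * T) *
    Real.exp (2 * Real.exp μ * d.mX * (d.deg * d.Jt) * T - μ * ((ℓ : ℝ) - 1))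

/-- the data with the roles of `k` and `k'` exchanged and `W` replaced by its adjoint -/
def swap : ResetData n ι s where
  k := d.k'
  k' := d.k
  W := d.Wᴴ
  X := d.X
  δ := d.δ
  Jt := d.Jt
  mX := d.mX
  deg := d.deg
  herm := d.herm'
  herm' := d.herm
  bd := d.bd'
  bd' := d.bd
  card_X := d.card_X
  card_at := d.card_at
  comm := fun i j h => ⟨(d.comm i j h).2.1, (d.comm i j h).1, ((d.comm j i h.symm).2.2).symm⟩
  lip := d.lip
  far := fun i h => by
    obtain ⟨h1, h2⟩ := d.far i h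
    refine ⟨h1.symm, ?_⟩
    rw [h1]
    have h3 := congrArg Matrix.conjTranspose h2.eq
    rw [Matrix.conjTranspose_mul, Matrix.conjTranspose_mul, (d.herm i).eq] at h3
    exact h3.symm
  normW := by
    rw [Matrix.l2_opNorm_conjTranspose]
    exact d.normW

end ResetData

end Claimed.Agent.R296
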