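import Claimed.Agent.R296.P2.ResetSite
import Claimed.Agent.R296.Count

/-!
# Row 296, paper 2, Lemma 2.3: geometry of the defect (package RG)
`D = (R ∪ Cc)ᶜ ∪ crossEnds R`, `δ = distTo D dflt`.
Proved by helper291 (helper prefix `rgeo_`).
-/

set_option autoImplicit false
set_option linter.unusedSectionVars false

namespace Claimed.Agent.R296

open Matrix
open scoped MatrixOrder Matrix.Norms.L2Operator ComplexOrder

variable {q : ℕ} [NeZero q] {J Δ : ℝ} {L : ℕ}

theorem rgeo_gd_triangle (x y z : GSite L) : gd x z ≤ gd x y + gd y z := ct_dInf_triangle _ _ _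

theorem rgeo_gd_nonneg (x y : GSite L) : 0 ≤ gd x y := ct_dInf_nonneg _ _

theorem rgeo_gd_eq_zero_iff (x y : GSite L) : gd x y = 0 ↔ x = y := by
  constructor
  · intro h
    unfold gd dInf gpt at h
    have h1 : |(((x.1 : ℕ) : ℤ)) - ((y.1 : ℕ) : ℤ)| ≤ 0 := h ▸ le_max_left _ _
    have h2 : |(((x.2 : ℕ) : ℤ)) - ((y.2 : ℕ) : ℤ)| ≤ 0 := h ▸ le_max_right _ _
    have h3 := abs_nonpos_iff.1 h1
    have h4 := abs_nonpos_iff.1 h2
    apply Prod.ext
    · apply Fin.ext; omega
    · apply Fin.ext; omega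
  · rintro rfl
    exact ct_dInf_self _

/-- `distTo` is attained -/
theorem rgeo_distTo_exists {D : Finset (GSite L)} (hD : D.Nonempty) (dflt : ℕ) (x : GSite L) :
    ∃ z ∈ D, distTo D dflt x = (gd x z).toNat := by
  unfold distTo
  rw [dif_pos hD]
  exact Finset.exists_mem_eq_inf' hD _

theorem rgeo_distTo_le {D : Finset (GSite L)} (dflt : ℕ) (x : GSite L) {z : GSite L} (hz : z ∈ D) :
    distTo D dflt x ≤ (gd x z).toNat := by
  unfold distTo
  rw [dif_pos ⟨z, hz⟩]
  exact Finset.inf'_le _ hz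

theorem distTo_lip (D : Finset (GSite L)) (dflt : ℕ) (i : GTerm L) {x y : GSite L}
    (hx : x ∈ gsupp i) (hy : y ∈ gsupp i) : distTo D dflt x ≤ distTo D dflt y + 1 := by
  by_cases hD : D.Nonempty
  · obtain ⟨z, hz, hyz⟩ := rgeo_distTo_exists hD dflt y
    have h1 := rgeo_distTo_le dflt x hz
    have h2 := gd_le_one_of_mem_gsupp i hx hy
    have h3 := rgeo_gd_triangle x y z
    have h4 := rgeo_gd_nonneg y z
    omega
  · unfold distTo
    rw [dif_neg hD, dif_neg hD]
    omega

theorem distTo_pos_iff {D : Finset (GSite L)} {dflt : ℕ} (hd : 0 < dflt) (x : GSite L) :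
    0 < distTo D dflt x ↔ x ∉ D := by
  by_cases hD : D.Nonempty
  · constructor
    · intro h hx
      have h1 := rgeo_distTo_le dflt x hx
      rw [(rgeo_gd_eq_zero_iff x x).2 rfl] at h1
      simp at h1
      omega
    · intro hx
      obtain ⟨z, hz, hxz⟩ := rgeo_distTo_exists hD dflt x
      have h1 : gd x z ≠ 0 := fun h => hx ((rgeo_gd_eq_zero_iff x z).1 h ▸ hz)
      have h2 := rgeo_gd_nonneg x z
      omega
  · have hD' : D = ∅ := Finset.not_nonempty_iff_eq_empty.1 hD
    unfold distTo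
    rw [dif_neg hD]
    simp [hD', hd]

/-- a term whose support avoids the end points of the crossing edges does not cross `R` -/
theorem gsupp_not_crossing (R : Finset (GSite L)) (i : GTerm L)
    (h : Disjoint (gsupp i) (crossEnds R)) : gsupp i ⊆ R ∨ Disjoint (gsupp i) R := by
  cases i with
  | inl v =>
    by_cases hv : v ∈ R
    · left
      simpa [gsupp] using hv
    · right
      simpa [gsupp] using hv
  | inr e =>
    have hiff : (e.1.1 ∈ R ↔ e.1.2 ∈ R) := by
      by_contra hcon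
      have h1 : e.1.1 ∈ gsupp (Sum.inr e : GTerm L) := by
        simp [gsupp, Claims.C0474.GridEdge.support]
      have h2 : e.1.1 ∈ crossEnds R := by
        unfold crossEnds
        rw [Finset.mem_filter]
        exact ⟨Finset.mem_univ _, e, by simp [Claims.C0474.GridEdge.support], hcon⟩
      exact Finset.disjoint_left.1 h h1 h2
    by_cases h1 : e.1.1 ∈ R
    · left
      intro x hx
      simp only [gsupp, Claims.C0474.GridEdge.support, Finset.mem_insert,
        Finset.mem_singleton] at hx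
      rcases hx with rfl | rfl
      · exact h1
      · exact hiff.1 h1
    · right
      rw [Finset.disjoint_left]
      intro x hx
      simp only [gsupp, Claims.C0474.GridEdge.support, Finset.mem_insert,
        Finset.mem_singleton] at hx
      rcases hx with rfl | rfl
      · exact h1
      · exact fun h2 => h1 (hiff.2 h2)

/-- an end point of a crossing edge is within distance one of a point of `R` and of a point
outside `R` -/
theorem rgeo_crossEnds {R : Finset (GSite L)} {z : GSite L} (hz : z ∈ crossEnds R) :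
    (∃ y, y ∉ R ∧ gd z y ≤ 1) ∧ ∃ y, y ∈ R ∧ gd z y ≤ 1 := by
  unfold crossEnds at hz
  rw [Finset.mem_filter] at hz
  obtain ⟨-, e, hze, hcr⟩ := hz
  have hz' : z ∈ gsupp (Sum.inr e : GTerm L) := hze
  have h1 : e.1.1 ∈ gsupp (Sum.inr e : GTerm L) := by
    simp [gsupp, Claims.C0474.GridEdge.support]
  have h2 : e.1.2 ∈ gsupp (Sum.inr e : GTerm L) := by
    simp [gsupp, Claims.C0474.GridEdge.support]
  have d1 := gd_le_one_of_mem_gsupp _ hz' h1
  have d2 := gd_le_one_of_mem_gsupp _ hz' h2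
  by_cases ha : e.1.1 ∈ R
  · have hb : e.1.2 ∉ R := fun hb => hcr ⟨fun _ => hb, fun _ => ha⟩
    exact ⟨⟨_, hb, d2⟩, ⟨_, ha, d1⟩⟩
  · have hb : e.1.2 ∈ R := by
      by_contra hb
      exact hcr ⟨fun h => absurd h ha, fun h => absurd h hb⟩
    exact ⟨⟨_, ha, d1⟩, ⟨_, hb, d2⟩⟩

/-- support check of the paper: the `ℓ`-neighbourhood of the defect misses both cores -/
theorem reset_support_check (R Cc R0 C0 : Finset (GSite L)) (hd : Disjoint R Cc) (h0 : R0 ⊆ R)
    (h1 : C0 ⊆ Cc) (w : ℝ) (ℓ : ℕ) (hℓ : (ℓ : ℝ) + 1 ≤ w)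
    (hR : ∀ x ∈ R0, ∀ y, y ∉ R → w < ((gd x y : ℤ) : ℝ))
    (hC : ∀ x ∈ C0, ∀ y, y ∉ Cc → w < ((gd x y : ℤ) : ℝ)) :
    Disjoint (Finset.univ.filter fun x => distTo ((R ∪ Cc)ᶜ ∪ crossEnds R) (ℓ + 1) x ≤ ℓ)
      (R0 ∪ C0) := by
  rw [Finset.disjoint_left]
  intro x hx hx2
  rw [Finset.mem_filter] at hx
  have hx1 := hx.2
  have hD : ((R ∪ Cc)ᶜ ∪ crossEnds R).Nonempty := by
    by_contra hD
    unfold distTo at hx1
    rw [dif_neg hD] at hx1
    omega
  obtain ⟨z, hz, hxz⟩ := rgeo_distTo_exists hD (ℓ + 1) x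
  have hzl : gd x z ≤ ℓ := by omega
  -- a point `y` with `gd x y ≤ ℓ + 1` cannot be far
  have key : ∀ y, gd x y ≤ ℓ + 1 → ¬ w < ((gd x y : ℤ) : ℝ) := by
    intro y hy hw
    have : ((gd x y : ℤ) : ℝ) ≤ (ℓ : ℝ) + 1 := by exact_mod_cast hy
    linarith
  rw [Finset.mem_union] at hz hx2
  rcases hz with hz | hz
  · rw [Finset.mem_compl, Finset.mem_union, not_or] at hz
    rcases hx2 with hx2 | hx2
    · exact key z (by omega) (hR x hx2 z hz.1)
    · exact key z (by omega) (hC x hx2 z hz.2)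
  · obtain ⟨⟨y, hy, hzy⟩, ⟨y', hy', hzy'⟩⟩ := rgeo_crossEnds hz
    rcases hx2 with hx2 | hx2
    · have := rgeo_gd_triangle x z y
      exact key y (by omega) (hR x hx2 y hy)
    · have := rgeo_gd_triangle x z y'
      exact key y' (by omega) (hC x hx2 y' (Finset.disjoint_left.1 hd hy'))

end Claimed.Agent.R296
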