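import Claimed.Agent.R296.P2.ResetData

/-!
# ResetLoc: localisation of `e^{itK'} W e^{-itK}` (package LOC)
Row 296, paper 2, Lemma 2.3 (`lem:reset`), abstract analytic core.  Blueprint: `Notes/P2S01_03.lean` (2.3) R4-R6.
Chain: ResetU -> ResetData -> ResetLoc ; ResetBin, ResetCos ; ResetPol ; ResetCoreA -> ResetCore.
Proved by helper291 (helper prefix `loc_`).
-/

set_option autoImplicit false
set_option linter.unusedSectionVars false

namespace Claimed.Agent.R296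

open Matrix
open scoped MatrixOrder Matrix.Norms.L2Operator ComplexOrder

variable {n m ι s : Type} [Fintype n] [DecidableEq n] [Fintype m] [DecidableEq m]
  [Fintype ι] [DecidableEq ι] [Fintype s] [DecidableEq s]

namespace ResetData

variable (d : ResetData n ι s)

/-- the terms outside `S` -/
def Xout (ℓ : ℕ) : Matrix n n ℂ := ∑ i ∈ (d.inS ℓ)ᶜ, d.k i

theorem loc_defs_eqns_cite : True := by
  have := @Xout.eq_1
  trivial

theorem loc_le_of_not_inS {ℓ : ℕ} {i : ι} (hi : i ∉ d.inS ℓ) : ∀ y ∈ d.X i, ℓ ≤ d.δ y := by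
  intro y hy
  have h1 : ¬ ∀ x ∈ d.X i, d.δ x ≤ ℓ := by
    intro h
    exact hi (by simpa [inS] using h)
  push Not at h1
  obtain ⟨x, hx, hxl⟩ := h1
  have := d.lip i x hx y hy
  omega

theorem loc_K_eq (ℓ : ℕ) : d.K = d.KS ℓ + d.Xout ℓ := by
  unfold K KS Xout
  rw [Finset.sum_add_sum_compl]

theorem loc_K'_eq {ℓ : ℕ} (hℓ : 1 ≤ ℓ) : d.K' = d.KS' ℓ + d.Xout ℓ := by
  unfold K' KS' Xout
  rw [← Finset.sum_add_sum_compl (d.inS ℓ)]
  congr 1
  refine Finset.sum_congr rfl fun i hi => ?_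
  have hi' : i ∉ d.inS ℓ := Finset.mem_compl.1 hi
  exact (d.far i fun x hx => lt_of_lt_of_le hℓ (d.loc_le_of_not_inS hi' x hx)).1

theorem loc_herm_sum (g : ι → Matrix n n ℂ) (hg : ∀ j, (g j).IsHermitian) (S : Finset ι) :
    (∑ j ∈ S, g j).IsHermitian :=
  isSelfAdjoint_sum S fun j _ => (hg j : IsSelfAdjoint (g j))

theorem loc_norm_sum_le (g : ι → Matrix n n ℂ) (hgb : ∀ j, ‖g j‖ ≤ d.Jt) (hJ : 0 ≤ d.Jt)
    (S : Finset ι) : ‖∑ j ∈ S, g j‖ ≤ d.Jt * Fintype.card ι := by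
  calc ‖∑ j ∈ S, g j‖ ≤ ∑ j ∈ S, ‖g j‖ := norm_sum_le _ _
    _ ≤ ∑ _j ∈ S, d.Jt := Finset.sum_le_sum fun j _ => hgb j
    _ = S.card * d.Jt := by simp
    _ ≤ Fintype.card ι * d.Jt :=
        mul_le_mul_of_nonneg_right (by exact_mod_cast Finset.card_le_univ S) hJ
    _ = d.Jt * Fintype.card ι := mul_comm _ _

/-- the Lieb-Robinson bound for a truncated family, with the weight `exp (-μ (δ - r))` -/
theorem loc_lr (g : ι → Matrix n n ℂ) (hg : ∀ j, (g j).IsHermitian) (hgb : ∀ j, ‖g j‖ ≤ d.Jt)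
    (hgc : ∀ j l, Disjoint (d.X j) (d.X l) → Commute (g j) (g l))
    (S : Finset ι) (a B : Matrix n n ℂ) (i : ι) (ha : ‖a‖ ≤ d.Jt)
    (haj : ∀ j, Disjoint (d.X i) (d.X j) → Commute a (g j)) (r : ℕ)
    (hBj : ∀ j, (∀ x ∈ d.X j, r < d.δ x) → Commute (g j) B)
    (haB : (∀ x ∈ d.X i, r < d.δ x) → Commute a B)
    (μ : ℝ) (hμ : 0 ≤ μ) (ℓ : ℕ) (hi : ∀ x ∈ d.X i, ℓ ≤ d.δ x) (b : ℝ) (hb : ‖B‖ ≤ b)
    (T u : ℝ) (hu : |u| ≤ T) :
    ‖lrDyn (∑ j ∈ S, g j) u a * B - B * lrDyn (∑ j ∈ S, g j) u a‖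
      ≤ 2 * d.Jt * b * d.mX *
        Real.exp (2 * Real.exp μ * d.mX * (d.deg * d.Jt) * T - μ * ((ℓ : ℝ) - r)) := by
  have hJ : 0 ≤ d.Jt := (norm_nonneg _).trans ha
  have hb0 : 0 ≤ b := (norm_nonneg _).trans hb
  have hdisj : ∀ Z : Finset s, Disjoint Z (Finset.univ.filter fun x => d.δ x ≤ r) →
      ∀ x ∈ Z, r < d.δ x := by
    intro Z hZ x hx
    by_contra hcon
    exact Finset.disjoint_left.1 hZ hx (by simp; omega)
  have hsum : ∑ j, (if j ∈ S then g j else 0) = ∑ j ∈ S, g j := by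
    rw [Finset.sum_ite_mem, Finset.univ_inter]
  have h := lr_abstract (A := Matrix n n ℂ) d.X (fun j => if j ∈ S then g j else 0)
    (fun j => by
      by_cases hj : j ∈ S
      · rw [if_pos hj]
        exact (hg j : IsSelfAdjoint (g j))
      · simp [hj])
    (fun j l hjl => by
      by_cases hj : j ∈ S <;> by_cases hl : l ∈ S <;> simp [hj, hl, hgc j l hjl])
    a B (d.X i) (Finset.univ.filter fun x => d.δ x ≤ r)
    (fun j hj => by
      by_cases hjS : j ∈ S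
      · simpa [hjS] using haj j hj
      · simp [hjS])
    (fun j hj => by
      by_cases hjS : j ∈ S
      · simpa [hjS] using hBj j (hdisj _ hj)
      · simp [hjS])
    (fun hd => haB (hdisj _ hd))
    (d.deg * d.Jt) d.mX (Real.exp μ) (fun x => Real.exp (-μ * ((d.δ x : ℝ) - r)))
    (fun x => by
      calc ∑ j with x ∈ d.X j, ‖(if j ∈ S then g j else 0 : Matrix n n ℂ)‖
          ≤ ∑ _j with x ∈ d.X _j, d.Jt := by
            refine Finset.sum_le_sum fun j _ => ?_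
            by_cases hj : j ∈ S
            · simpa [hj] using hgb j
            · simpa [hj] using hJ
        _ = (Finset.univ.filter fun j => x ∈ d.X j).card * d.Jt := by simp
        _ ≤ d.deg * d.Jt := mul_le_mul_of_nonneg_right (by exact_mod_cast d.card_at x) hJ)
    d.card_X (fun x => (Real.exp_pos _).le)
    (fun x hx => by
      have hx' : d.δ x ≤ r := by simpa using hx
      have hx'' : (d.δ x : ℝ) ≤ r := by exact_mod_cast hx'
      refine Real.one_le_exp ?_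
      nlinarith)
    (Real.exp_pos _).le
    (fun j x hx x' hx' => by
      rw [← Real.exp_add, Real.exp_le_exp]
      have h1 : (d.δ x : ℝ) ≤ d.δ x' + 1 := by exact_mod_cast d.lip j x hx x' hx'
      nlinarith)
    u
  rw [hsum] at h
  refine h.trans ?_
  have hw : ∑ x ∈ d.X i, Real.exp (-μ * ((d.δ x : ℝ) - r))
      ≤ d.mX * Real.exp (-μ * ((ℓ : ℝ) - r)) := by
    calc ∑ x ∈ d.X i, Real.exp (-μ * ((d.δ x : ℝ) - r))
        ≤ ∑ _x ∈ d.X i, Real.exp (-μ * ((ℓ : ℝ) - r)) := by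
          refine Finset.sum_le_sum fun x hx => ?_
          rw [Real.exp_le_exp]
          have h1 : (ℓ : ℝ) ≤ d.δ x := by exact_mod_cast hi x hx
          nlinarith
      _ = (d.X i).card * Real.exp (-μ * ((ℓ : ℝ) - r)) := by simp
      _ ≤ d.mX * Real.exp (-μ * ((ℓ : ℝ) - r)) :=
          mul_le_mul_of_nonneg_right (by exact_mod_cast d.card_X i) (Real.exp_pos _).le
  have hv : 0 ≤ 2 * Real.exp μ * d.mX * (d.deg * d.Jt) := by positivity
  have he : Real.exp (2 * Real.exp μ * d.mX * (d.deg * d.Jt) * |u|)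
      ≤ Real.exp (2 * Real.exp μ * d.mX * (d.deg * d.Jt) * T) :=
    Real.exp_le_exp.2 (mul_le_mul_of_nonneg_left hu hv)
  calc 2 * ‖a‖ * ‖B‖ * Real.exp (2 * Real.exp μ * d.mX * (d.deg * d.Jt) * |u|)
        * ∑ x ∈ d.X i, Real.exp (-μ * ((d.δ x : ℝ) - r))
      ≤ 2 * d.Jt * b * Real.exp (2 * Real.exp μ * d.mX * (d.deg * d.Jt) * T)
        * (d.mX * Real.exp (-μ * ((ℓ : ℝ) - r))) := by
        gcongr
    _ = 2 * d.Jt * b * d.mX *
        Real.exp (2 * Real.exp μ * d.mX * (d.deg * d.Jt) * T - μ * ((ℓ : ℝ) - r)) := by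
        rw [Real.exp_sub, neg_mul, Real.exp_neg]
        ring

/-- an operator living at distance `> 1` from the defect commutes with `K'_S - K_S` -/
theorem loc_commute_D (ℓ : ℕ) (a : Matrix n n ℂ) (Z : Finset s) (hZ : ∀ x ∈ Z, 1 < d.δ x)
    (ha : ∀ l, Disjoint Z (d.X l) → Commute a (d.k l) ∧ Commute a (d.k' l)) :
    Commute a (d.KS' ℓ - d.KS ℓ) := by
  unfold KS' KS
  rw [← Finset.sum_sub_distrib]
  refine Commute.sum_right _ _ _ fun l _ => ?_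
  by_cases hl : ∀ x ∈ d.X l, 0 < d.δ x
  · rw [(d.far l hl).1, sub_self]
    exact Commute.zero_right a
  · push Not at hl
    obtain ⟨x, hx, hx0⟩ := hl
    have hdis : Disjoint Z (d.X l) := by
      rw [Finset.disjoint_left]
      intro y hyZ hyl
      have h1 := d.lip l y hyl x hx
      have h2 := hZ y hyZ
      omega
    exact (ha l hdis).2.sub_right (ha l hdis).1

/-- the commutator of `a` with `P W Q`, `P = e^{iuK'}`, `Q = e^{-iuK}` -/
theorem loc_comm_identity (K K' W a : Matrix n n ℂ) (u : ℝ) :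
    a * (lrU K' u * W * lrU K (-u)) - (lrU K' u * W * lrU K (-u)) * a
      = lrU K' u * ((lrDyn K' (-u) a * W - W * lrDyn K' (-u) a)
          + W * (lrDyn K' (-u) a - lrDyn K (-u) a)) * lrU K (-u) := by
  have e1 : lrU K' u * lrDyn K' (-u) a = a * lrU K' u := by
    unfold lrDyn
    rw [neg_neg, ← mul_assoc, ← mul_assoc, lrU_mul_neg, one_mul]
  have e2 : lrDyn K (-u) a * lrU K (-u) = lrU K (-u) * a := by
    unfold lrDyn
    rw [neg_neg, mul_assoc, lrU_mul_neg, mul_one]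
  have e3 : (lrDyn K' (-u) a * W - W * lrDyn K' (-u) a)
          + W * (lrDyn K' (-u) a - lrDyn K (-u) a) = lrDyn K' (-u) a * W - W * lrDyn K (-u) a := by
    rw [mul_sub]
    abel
  rw [e3, mul_sub, sub_mul]
  have e4 : lrU K' u * (lrDyn K' (-u) a * W) * lrU K (-u)
      = (lrU K' u * lrDyn K' (-u) a) * W * lrU K (-u) := by simp only [mul_assoc]
  have e5 : lrU K' u * (W * lrDyn K (-u) a) * lrU K (-u)
      = lrU K' u * W * (lrDyn K (-u) a * lrU K (-u)) := by simp only [mul_assoc]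
  rw [e4, e5, e1, e2]
  simp only [mul_assoc]

/-- the commutator of one far term with `Y_S(u)` -/
theorem loc_term (μ : ℝ) (hμ : 0 ≤ μ) (ℓ : ℕ) (hℓ : 1 ≤ ℓ) (T u : ℝ) (hu : |u| ≤ T) (i : ι)
    (hi : i ∉ d.inS ℓ) :
    ‖d.k i * (lrU (d.KS' ℓ) u * d.W * lrU (d.KS ℓ) (-u))
        - (lrU (d.KS' ℓ) u * d.W * lrU (d.KS ℓ) (-u)) * d.k i‖
      ≤ (2 * d.Jt * d.mX) * (1 + 2 * d.Jt * (Fintype.card ι) * T) *
        Real.exp (2 * Real.exp μ * d.mX * (d.deg * d.Jt) * T - μ * ((ℓ : ℝ) - 1)) := by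
  have hJ : 0 ≤ d.Jt := (norm_nonneg _).trans (d.bd i)
  have hT : 0 ≤ T := (abs_nonneg u).trans hu
  have hfar := d.loc_le_of_not_inS hi
  have hKS : (d.KS ℓ).IsHermitian := loc_herm_sum d.k d.herm _
  have hKS' : (d.KS' ℓ).IsHermitian := loc_herm_sum d.k' d.herm' _
  set E : ℝ := Real.exp (2 * Real.exp μ * d.mX * (d.deg * d.Jt) * T - μ * ((ℓ : ℝ) - 1)) with hE
  -- first Lieb-Robinson bound
  have h1 : ‖lrDyn (d.KS' ℓ) (-u) (d.k i) * d.W - d.W * lrDyn (d.KS' ℓ) (-u) (d.k i)‖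
      ≤ 2 * d.Jt * d.mX * E := by
    have h := d.loc_lr d.k' d.herm' d.bd' (fun j l hjl => (d.comm j l hjl).2.1) (d.inS ℓ)
      (d.k i) d.W i (d.bd i) (fun j hj => (d.comm i j hj).2.2) 0
      (fun j hj => by
        obtain ⟨e, hc⟩ := d.far j hj
        rw [e]
        exact hc)
      (fun hj => (d.far i hj).2) μ hμ ℓ hfar 1 d.normW T (-u) (by rwa [abs_neg])
    refine h.trans ?_
    have hexp : Real.exp (2 * Real.exp μ * d.mX * (d.deg * d.Jt) * T - μ * ((ℓ : ℝ) - (0 : ℕ)))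
        ≤ E := by
      rw [hE, Real.exp_le_exp]
      push_cast
      nlinarith
    calc 2 * d.Jt * 1 * d.mX
          * Real.exp (2 * Real.exp μ * d.mX * (d.deg * d.Jt) * T - μ * ((ℓ : ℝ) - (0 : ℕ)))
        ≤ 2 * d.Jt * 1 * d.mX * E := mul_le_mul_of_nonneg_left hexp (by positivity)
      _ = 2 * d.Jt * d.mX * E := by ring
  -- second Lieb-Robinson bound
  have hD : ‖d.KS' ℓ - d.KS ℓ‖ ≤ 2 * d.Jt * Fintype.card ι := by
    have a1 := d.loc_norm_sum_le d.k' d.bd' hJ (d.inS ℓ)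
    have a2 := d.loc_norm_sum_le d.k d.bd hJ (d.inS ℓ)
    have a3 := norm_sub_le (d.KS' ℓ) (d.KS ℓ)
    unfold KS' KS at *
    linarith
  have h2 : ∀ v : ℝ, |v| ≤ |(-u)| →
      ‖(d.KS' ℓ - d.KS ℓ) * lrDyn (d.KS ℓ) v (d.k i)
        - lrDyn (d.KS ℓ) v (d.k i) * (d.KS' ℓ - d.KS ℓ)‖
      ≤ 2 * d.Jt * (2 * d.Jt * Fintype.card ι) * d.mX * E := by
    intro v hv
    rw [norm_sub_rev]
    have h := d.loc_lr d.k d.herm d.bd (fun j l hjl => (d.comm j l hjl).1) (d.inS ℓ)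
      (d.k i) (d.KS' ℓ - d.KS ℓ) i (d.bd i) (fun j hj => (d.comm i j hj).1) 1
      (fun j hj => d.loc_commute_D ℓ (d.k j) (d.X j) hj
        fun l hl => ⟨(d.comm j l hl).1, (d.comm j l hl).2.2⟩)
      (fun hj => d.loc_commute_D ℓ (d.k i) (d.X i) hj
        fun l hl => ⟨(d.comm i l hl).1, (d.comm i l hl).2.2⟩)
      μ hμ ℓ hfar _ hD T v (hv.trans (by rwa [abs_neg]))
    simpa [hE, KS] using h
  have h3 := conj_diff_le hKS hKS' (d.k i) (-u) _ h2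
  rw [loc_comm_identity, norm_lrU_mul_mul hKS' hKS]
  have h4 : ‖d.W * (lrDyn (d.KS' ℓ) (-u) (d.k i) - lrDyn (d.KS ℓ) (-u) (d.k i))‖
      ≤ T * (2 * d.Jt * (2 * d.Jt * Fintype.card ι) * d.mX * E) := by
    have hE0 : 0 ≤ E := (Real.exp_pos _).le
    calc ‖d.W * (lrDyn (d.KS' ℓ) (-u) (d.k i) - lrDyn (d.KS ℓ) (-u) (d.k i))‖
        ≤ ‖d.W‖ * ‖lrDyn (d.KS' ℓ) (-u) (d.k i) - lrDyn (d.KS ℓ) (-u) (d.k i)‖ :=
          norm_mul_le _ _
      _ ≤ 1 * (|(-u)| * (2 * d.Jt * (2 * d.Jt * Fintype.card ι) * d.mX * E)) :=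
          mul_le_mul d.normW h3 (norm_nonneg _) zero_le_one
      _ ≤ T * (2 * d.Jt * (2 * d.Jt * Fintype.card ι) * d.mX * E) := by
          rw [one_mul, abs_neg]
          exact mul_le_mul_of_nonneg_right hu (by positivity)
  refine (norm_add_le _ _).trans ((add_le_add h1 h4).trans (le_of_eq ?_))
  ring

/-- package LOC (400-700 lines): `‖Y(t) - Y_S(t)‖ ≤ epsLoc` for `|t| ≤ T`, `ℓ ≥ 1`.
`K = K_S + X`, `K' = K'_S + X` with the same `X = ∑_{i ∉ inS ℓ} k_i` (`far`); `twoSided_diff_le`.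
A term `i ∉ inS ℓ` has `δ ≥ ℓ` on all of `X i` (`lip`).
`[k_i, Y_S(u)] = [k_i, τ'_u(W)] V + τ'_u(W) [k_i, V]`, `V = e^{iuK'_S} e^{-iuK_S}`;
`‖[k_i, τ'_u(W)]‖ = ‖[τ'_{-u}(k_i), W]‖`: `lr_abstract` for the family `i ↦ if i ∈ inS ℓ then k' i else 0`,
   `a = k_i = k'_i`, `B = W`, `Y = {δ = 0}`, `w x = exp (-μ δ x)`, `lam = exp μ`;
`‖[k_i, V]‖ = ‖τ'_{-u}(k_i) - τ_{-u}(k_i)‖`: `conj_diff_le`, then `lr_abstract` for the family `k`,
   `B = K'_S - K_S` (norm `≤ 2 Jt card ι`), `Y = {δ ≤ 1}`, `w x = exp (-μ (δ x - 1))`. -/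
theorem localize (μ : ℝ) (hμ : 0 ≤ μ) (ℓ : ℕ) (hℓ : 1 ≤ ℓ) (T t : ℝ) (ht : |t| ≤ T) :
    ‖d.Y t - d.YS ℓ t‖ ≤ d.epsLoc μ ℓ T := by
  have hT : 0 ≤ T := (abs_nonneg t).trans ht
  rcases isEmpty_or_nonempty ι with hι | ⟨⟨i0⟩⟩
  · simp [Y, YS, K, K', KS, KS', epsLoc, Finset.eq_empty_of_isEmpty]
  have hJ : 0 ≤ d.Jt := (norm_nonneg _).trans (d.bd i0)
  have hKS : (d.KS ℓ).IsHermitian := loc_herm_sum d.k d.herm _
  have hKS' : (d.KS' ℓ).IsHermitian := loc_herm_sum d.k' d.herm' _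
  have hX : (d.Xout ℓ).IsHermitian := loc_herm_sum d.k d.herm _
  set c1 : ℝ := (2 * d.Jt * d.mX) * (1 + 2 * d.Jt * (Fintype.card ι) * T) *
        Real.exp (2 * Real.exp μ * d.mX * (d.deg * d.Jt) * T - μ * ((ℓ : ℝ) - 1)) with hc1
  have hc1' : 0 ≤ c1 := by positivity
  have hc : ∀ u : ℝ, |u| ≤ |t| →
      ‖d.Xout ℓ * (lrU (d.KS' ℓ) u * d.W * lrU (d.KS ℓ) (-u))
        - (lrU (d.KS' ℓ) u * d.W * lrU (d.KS ℓ) (-u)) * d.Xout ℓ‖ ≤ Fintype.card ι * c1 := by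
    intro u hu
    unfold Xout
    rw [Finset.sum_mul, Finset.mul_sum, ← Finset.sum_sub_distrib]
    calc ‖∑ i ∈ (d.inS ℓ)ᶜ, (d.k i * (lrU (d.KS' ℓ) u * d.W * lrU (d.KS ℓ) (-u))
            - (lrU (d.KS' ℓ) u * d.W * lrU (d.KS ℓ) (-u)) * d.k i)‖
        ≤ ∑ i ∈ (d.inS ℓ)ᶜ, ‖d.k i * (lrU (d.KS' ℓ) u * d.W * lrU (d.KS ℓ) (-u))
            - (lrU (d.KS' ℓ) u * d.W * lrU (d.KS ℓ) (-u)) * d.k i‖ := norm_sum_le _ _
      _ ≤ ∑ _i ∈ (d.inS ℓ)ᶜ, c1 := Finset.sum_le_sum fun i hi =>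
          d.loc_term μ hμ ℓ hℓ T u (hu.trans ht) i (Finset.mem_compl.1 hi)
      _ = ((d.inS ℓ)ᶜ).card * c1 := by simp
      _ ≤ Fintype.card ι * c1 :=
          mul_le_mul_of_nonneg_right (by exact_mod_cast Finset.card_le_univ _) hc1'
  have h := twoSided_diff_le hKS hKS' hX d.W t _ hc
  unfold Y YS
  rw [d.loc_K_eq ℓ, d.loc_K'_eq hℓ]
  refine h.trans ?_
  calc |t| * (Fintype.card ι * c1) ≤ T * (Fintype.card ι * c1) :=
        mul_le_mul_of_nonneg_right ht (by positivity)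
    _ = d.epsLoc μ ℓ T := by
        unfold epsLoc
        rw [hc1]
        ring

end ResetData

end Claimed.Agent.R296
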