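import Claimed.Agent.R296.P2.ResetCore
import Claimed.Agent.R296.P2.ResetDS
import Claimed.Agent.R296.P2.ResetOv
import Claimed.Agent.R296.P2.ResetGeo

/-!
# Row 296, paper 2, Lemma 2.3: the local unitary on the doubled grid (one-owner file, package P2-ResetRA, 500-800 lines)
Build `ResetData` (k = dterm, k' = dterm' R, X = gsupp, δ = distTo D (ℓ+1), Jt = 2J, mX = 2, deg = 5) and apply `reset_core`
with `φ = embHom (dreg (resetS R Cc ℓ))`, `μ = 1`; compare `epsLoc` with `epsG`; `z ≥ exp (-2b)`.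
-/

set_option autoImplicit false
set_option linter.unusedSectionVars false

namespace Claimed.Agent.R296

open Matrix
open scoped MatrixOrder Matrix.Norms.L2Operator ComplexOrder

variable {q : ℕ} [NeZero q] {J Δ : ℝ} {L : ℕ}

theorem rra_dreg_mono {A B : Finset (GSite L)} (h : A ⊆ B) : dreg A ⊆ dreg B :=
  Finset.product_subset_product (Finset.Subset.refl _) h

theorem rra_dreg_disjoint {A B : Finset (GSite L)} (h : Disjoint A B) :
    Disjoint (dreg A) (dreg B) := by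
  rw [Finset.disjoint_left]
  intro p hp hp'
  exact Finset.disjoint_left.1 h (Finset.mem_product.1 hp).2 (Finset.mem_product.1 hp').2

/-- the locality data of the doubled grid -/
noncomputable def GModel.rraData (hJ : 0 ≤ J) (M : GModel q J Δ L) (R Cc : Finset (GSite L))
    (ℓ : ℕ) (W : Matrix (DCfg q L) (DCfg q L) ℂ)
    (hW : SuppIn (io := rio (gio q L) (Fin 2)) (dreg (R ∪ Cc)ᶜ) W) (hWn : ‖W‖ ≤ 1) :
    ResetData (DCfg q L) (GTerm L) (GSite L) where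
  k := M.dterm
  k' := M.dterm' R
  W := W
  X := gsupp
  δ := distTo ((R ∪ Cc)ᶜ ∪ crossEnds R) (ℓ + 1)
  Jt := 2 * J
  mX := 2
  deg := 5
  herm := M.dterm_herm
  herm' := M.dterm'_herm R
  bd := M.norm_dterm_le hJ
  bd' := M.norm_dterm'_le hJ R
  card_X := gsupp_card_le
  card_at := card_terms_at_le
  comm := fun i j hij =>
    ⟨(M.dterm_suppIn i).commute (rra_dreg_disjoint hij) (M.dterm_suppIn j),
      (M.dterm'_suppIn R i).commute (rra_dreg_disjoint hij) (M.dterm'_suppIn R j),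
      (M.dterm_suppIn i).commute (rra_dreg_disjoint hij) (M.dterm'_suppIn R j)⟩
  lip := fun i x hx y hy => distTo_lip _ _ i hx hy
  far := fun i hi => by
    have hout : ∀ x ∈ gsupp i, x ∉ (R ∪ Cc)ᶜ ∪ crossEnds R := fun x hx =>
      (distTo_pos_iff (Nat.succ_pos ℓ) x).1 (hi x hx)
    have h1 : Disjoint (gsupp i) (crossEnds R) :=
      Finset.disjoint_left.2 fun x hx hx' => hout x hx (Finset.mem_union_right _ hx')
    have h2 : Disjoint (gsupp i) (R ∪ Cc)ᶜ :=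
      Finset.disjoint_left.2 fun x hx hx' => hout x hx (Finset.mem_union_left _ hx')
    exact ⟨M.dterm'_eq R i (gsupp_not_crossing R i h1),
      (M.dterm_suppIn i).commute (rra_dreg_disjoint h2) hW⟩
  normW := hWn

theorem rra_defs_eqns_cite : True := by
  have := @GModel.rraData.eq_1
  trivial

/-- comparison of the localisation errors -/
theorem rra_eps_le (hJ : 0 ≤ J) (N L ℓ : ℕ) (hN : N ≤ 3 * L ^ 2) (T : ℝ) (hT : 0 ≤ T) :
    T * (N : ℝ) * (2 * (2 * J) * ((2 : ℕ) : ℝ)) * (1 + 2 * (2 * J) * (N : ℝ) * T) *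
      Real.exp (2 * Real.exp 1 * ((2 : ℕ) : ℝ) * (((5 : ℕ) : ℝ) * (2 * J)) * T
        - 1 * ((ℓ : ℝ) - 1)) ≤ epsG J L ℓ T := by
  have hN' : (N : ℝ) ≤ 3 * (L : ℝ) ^ 2 := by exact_mod_cast hN
  unfold epsG
  have e : 2 * Real.exp 1 * ((2 : ℕ) : ℝ) * (((5 : ℕ) : ℝ) * (2 * J)) * T - 1 * ((ℓ : ℝ) - 1)
      = 2 * Real.exp 1 * 2 * (5 * (2 * J)) * T - ((ℓ : ℝ) - 1) := by
    push_cast
    ring
  rw [e]
  push_cast
  gcongr

theorem GModel.exists_local_unitary (hJ : 0 ≤ J) (hΔ : 0 < Δ) (M : GModel q J Δ L)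
    (R Cc : Finset (GSite L)) (hd : Disjoint R Cc) (ℓ : ℕ) (hℓ : 1 ≤ ℓ) (b : ℝ)
    (hb : M.I R Cc ≤ b) (h T : ℝ) (hh : 0 < h) (hT : 0 < T) :
    ∃ U : Matrix (DCfg q L) (DCfg q L) ℂ, U * Uᴴ = 1 ∧
      SuppIn (io := rio (gio q L) (Fin 2)) (dreg (resetS R Cc ℓ)) U ∧
      ‖U * colV M.Ψ2 - colV (M.Φ2 R)‖ ≤
        4 * (Real.exp (-(2 * h * Δ ^ 2 / Real.pi ^ 2)) + 2 * Real.exp (-(T ^ 2) / (2 * h)) +
          epsG J L ℓ T) * Real.exp (4 * b) := by
  obtain ⟨W, z, hW, hWn, hzI, hzW⟩ := M.exists_overlap_op R Cc hd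
  set d := M.rraData hJ R Cc ℓ W hW hWn with hd'
  set S := resetS R Cc ℓ with hS
  have hΨ := M.norm_Ψ2
  have hΦ := M.norm_Φ2 R
  have hz : 0 < z := lt_of_lt_of_le (Real.exp_pos _) hzI
  have hz1 : z ≤ 1 := by
    have h1 := rc_norm_ipC_le (colV (M.Φ2 R)) (W * colV M.Ψ2)
    have h2 : ‖W * colV M.Ψ2‖ ≤ 1 := by
      calc ‖W * colV M.Ψ2‖ ≤ ‖W‖ * ‖colV M.Ψ2‖ := Matrix.l2_opNorm_mul _ _
        _ ≤ 1 * 1 := by rw [hΨ]; exact mul_le_mul_of_nonneg_right hWn zero_le_one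
        _ = 1 := one_mul _
    rw [hzW, hΦ, one_mul, Complex.norm_real, Real.norm_of_nonneg hz.le] at h1
    exact h1.trans h2
  have hmemS : ∀ x, x ∈ S ↔ distTo ((R ∪ Cc)ᶜ ∪ crossEnds R) (ℓ + 1) x ≤ ℓ := by
    intro x
    simp [hS, resetS]
  have hrange : ∀ {A : Finset (GSite L)} {X : Matrix (DCfg q L) (DCfg q L) ℂ}, A ⊆ S →
      SuppIn (io := rio (gio q L) (Fin 2)) (dreg A) X →
      X ∈ Set.range (embHom (io := rio (gio q L) (Fin 2)) (dreg S)) := by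
    intro A X hA hX
    obtain ⟨K, hK⟩ := hX.mono (rra_dreg_mono hA)
    exact ⟨K, hK.symm⟩
  have hφk : ∀ i ∈ d.inS ℓ, d.k i ∈ Set.range (embHom (io := rio (gio q L) (Fin 2)) (dreg S)) ∧
      d.k' i ∈ Set.range (embHom (io := rio (gio q L) (Fin 2)) (dreg S)) := by
    intro i hi
    have hi' : ∀ x ∈ gsupp i, distTo ((R ∪ Cc)ᶜ ∪ crossEnds R) (ℓ + 1) x ≤ ℓ :=
      (Finset.mem_filter.1 hi).2
    have hsub : gsupp i ⊆ S := fun x hx => (hmemS x).2 (hi' x hx)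
    exact ⟨hrange hsub (M.dterm_suppIn i), hrange hsub (M.dterm'_suppIn R i)⟩
  have hφW : d.W ∈ Set.range (embHom (io := rio (gio q L) (Fin 2)) (dreg S)) := by
    refine hrange (A := (R ∪ Cc)ᶜ) (fun x hx => (hmemS x).2 ?_) hW
    have h1 : ¬ 0 < distTo ((R ∪ Cc)ᶜ ∪ crossEnds R) (ℓ + 1) x := fun h0 =>
      (distTo_pos_iff (Nat.succ_pos ℓ) x).1 h0 (Finset.mem_union_left _ hx)
    omega
  obtain ⟨U0, hU0, hU0n⟩ := reset_core d (embHom (io := rio (gio q L) (Fin 2)) (dreg S)) ℓ hℓ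
    hφk hφW (colV M.Ψ2) (colV (M.Φ2 R)) hΨ hΦ (2 * M.E₀) Δ hΔ M.dterm_eig (M.dterm'_eig R)
    (M.dterm_gap hΔ.le) (M.dterm'_gap hΔ.le R) z hz hz1 hzW 1 h T zero_le_one hh hT
  refine ⟨embHom (io := rio (gio q L) (Fin 2)) (dreg S) U0, ?_, ⟨U0, rfl⟩, hU0n.trans ?_⟩
  · have h1 : U0 * star U0 = 1 := (Matrix.mem_unitaryGroup_iff).1 hU0
    rw [← Matrix.star_eq_conjTranspose, ← map_star, ← map_mul, h1, map_one]
  · have heps : d.epsLoc 1 ℓ T ≤ epsG J L ℓ T :=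
      rra_eps_le hJ (Fintype.card (GTerm L)) L ℓ (card_GTerm_le L) T hT.le
    have hzb : Real.exp (-(2 * b)) ≤ z :=
      (Real.exp_le_exp.2 (by linarith)).trans hzI
    have hz2 : Real.exp (-(4 * b)) ≤ z ^ 2 := by
      have e : Real.exp (-(4 * b)) = Real.exp (-(2 * b)) ^ 2 := by
        rw [← Real.exp_nat_mul]
        congr 1
        push_cast
        ring
      rw [e]
      exact pow_le_pow_left₀ (Real.exp_pos _).le hzb 2
    have hinv : (z ^ 2)⁻¹ ≤ Real.exp (4 * b) := by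
      have := inv_anti₀ (Real.exp_pos _) hz2
      rwa [← Real.exp_neg, neg_neg] at this
    have hG0 : 0 ≤ epsG J L ℓ T := by
      unfold epsG
      positivity
    rw [div_eq_mul_inv]
    have hA : 4 * (Real.exp (-(2 * h * Δ ^ 2 / Real.pi ^ 2)) + 2 * Real.exp (-(T ^ 2) / (2 * h)) +
        d.epsLoc 1 ℓ T) ≤ 4 * (Real.exp (-(2 * h * Δ ^ 2 / Real.pi ^ 2))
          + 2 * Real.exp (-(T ^ 2) / (2 * h)) + epsG J L ℓ T) := by linarith
    exact mul_le_mul hA hinv (by positivity) (by positivity)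

end Claimed.Agent.R296
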