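import Claimed.Agent.R296.P2.ModelFacts
import Claimed.Agent.R296.P2.EntSet
import Claimed.Agent.R296.Replica.Basic

/-!
# Row 296, paper 2, Lemma 2.3 (`lem:reset`): the doubled system (definitions)

Two replicas = the system with site set `Fin 2 × GSite L` (`Replica/Basic.lean`).
`dswap R` = partial swap `F_R`, `M.Ψ2 = Ω ⊗ Ω`, `M.Φ2 R = F_R Ψ`, doubled terms `M.dterm i = h_i ⊗ 1 + 1 ⊗ h_i`,
`M.dterm' R i = F_R (M.dterm i) F_R`, `dreg A = Fin 2 × A`.
-/

set_option autoImplicit false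
set_option linter.unusedSectionVars false

namespace Claimed.Agent.R296

open Matrix
open scoped MatrixOrder Matrix.Norms.L2Operator ComplexOrder

variable {q : ℕ} [NeZero q] {J Δ : ℝ} {L : ℕ}

/-- configurations of the doubled grid -/
abbrev DCfg (q L : ℕ) : Type := RCfg (gio q L) (Fin 2)

/-- the region of the doubled system over a region of the grid -/
def dreg (A : Finset (GSite L)) : Finset (Fin 2 × GSite L) := Finset.univ ×ˢ A

/-- one copy of a region -/
def dcopy (j : Fin 2) (A : Finset (GSite L)) : Finset (Fin 2 × GSite L) := {j} ×ˢ A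

/-- the partial swap `F_R` -/
def dswap (q : ℕ) (R : Finset (GSite L)) : Matrix (DCfg q L) (DCfg q L) ℂ :=
  UQ (io := gio q L) R (Equiv.swap (0 : Fin 2) 1)

/-- `Ψ = Ω ⊗ Ω` -/
def GModel.Ψ2 (M : GModel q J Δ L) : DCfg q L → ℂ := tpow (Fin 2) M.Ω

/-- `Φ = F_R Ψ` -/
def GModel.Φ2 (M : GModel q J Δ L) (R : Finset (GSite L)) : DCfg q L → ℂ := dswap q R *ᵥ M.Ψ2

/-- doubled interaction terms -/
def GModel.dterm (M : GModel q J Δ L) (i : GTerm L) : Matrix (DCfg q L) (DCfg q L) ℂ :=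
  ∑ j : Fin 2, copyOp j (M.term i)

/-- doubled interaction terms conjugated by the partial swap -/
def GModel.dterm' (M : GModel q J Δ L) (R : Finset (GSite L)) (i : GTerm L) :
    Matrix (DCfg q L) (DCfg q L) ℂ :=
  dswap q R * M.dterm i * dswap q R

/-- end points of the grid edges crossing `R` -/
noncomputable def crossEnds (R : Finset (GSite L)) : Finset (GSite L) :=
  Finset.univ.filter fun x => ∃ e : Claims.C0474.GridEdge L,
    x ∈ e.support ∧ ¬ (e.1.1 ∈ R ↔ e.1.2 ∈ R)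

/-- distance from a set, with a default value for the empty set -/
noncomputable def distTo (D : Finset (GSite L)) (dflt : ℕ) (x : GSite L) : ℕ :=
  if h : D.Nonempty then D.inf' h fun y => (gd x y).toNat else dflt

/-- the neighbourhood `S = N_ℓ(Q ∪ Z_R)` -/
noncomputable def resetS (R Cc : Finset (GSite L)) (ℓ : ℕ) : Finset (GSite L) :=
  Finset.univ.filter fun x => distTo ((R ∪ Cc)ᶜ ∪ crossEnds R) (ℓ + 1) x ≤ ℓ

/-- the localisation error for the grid (`μ = 1`, `Jt = 2J`, `mX = 2`, `deg = 5`, `card ι ≤ 3L²`) -/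
noncomputable def epsG (J : ℝ) (L ℓ : ℕ) (T : ℝ) : ℝ :=
  T * (3 * (L : ℝ) ^ 2) * (2 * (2 * J) * 2) * (1 + 2 * (2 * J) * (3 * (L : ℝ) ^ 2) * T) *
    Real.exp (2 * Real.exp 1 * 2 * (5 * (2 * J)) * T - ((ℓ : ℝ) - 1))

end Claimed.Agent.R296
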