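import Claimed.Agent.R296.LRAbs
import Claimed.Agent.R296.P2.Vec

/-!
# ResetU: supplements to the `lrU` API and Duhamel estimates (packages U, DU)
Row 296, paper 2, Lemma 2.3 (`lem:reset`), abstract analytic core.  Blueprint: `Notes/P2S01_03.lean` (2.3) R4-R6.
Chain: ResetU -> ResetData -> ResetLoc ; ResetBin, ResetCos ; ResetPol ; ResetCoreA -> ResetCore.
Proved by helper291 (helper prefix `resetU_`); statements verbatim from the skeleton.
-/

set_option autoImplicit false
set_option linter.unusedSectionVars false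

namespace Claimed.Agent.R296

open Matrix
open scoped MatrixOrder Matrix.Norms.L2Operator ComplexOrder

variable {n m ι s : Type} [Fintype n] [DecidableEq n] [Fintype m] [DecidableEq m]
  [Fintype ι] [DecidableEq ι] [Fintype s] [DecidableEq s]

theorem lrU_add_time (K : Matrix n n ℂ) (a b : ℝ) : lrU K (a + b) = lrU K a * lrU K b := by
  let +nondep : NormedAlgebra ℚ (Matrix n n ℂ) := .restrictScalars ℚ ℂ (Matrix n n ℂ)
  unfold lrU
  rw [← NormedSpace.exp_add_of_commute]
  · congr 1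
    rw [← add_smul]
    push_cast
    ring_nf
  · exact (Commute.refl K).smul_left _ |>.smul_right _

theorem resetU_sa {K : Matrix n n ℂ} (hK : K.IsHermitian) : IsSelfAdjoint K := hK

theorem norm_lrU_le {K : Matrix n n ℂ} (hK : K.IsHermitian) (t : ℝ) : ‖lrU K t‖ ≤ 1 := by
  rcases subsingleton_or_nontrivial (Matrix n n ℂ) with h | h
  · rw [Subsingleton.elim (lrU K t) 0, norm_zero]
    exact zero_le_one
  · exact (CStarRing.norm_of_mem_unitary (lrU_mem_unitary (resetU_sa hK) t)).le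

/-- multiplication by unitaries `lrU` from both sides preserves the norm -/
theorem norm_lrU_mul_mul {K K' : Matrix n n ℂ} (hK : K.IsHermitian) (hK' : K'.IsHermitian)
    (a b : ℝ) (A : Matrix n n ℂ) : ‖lrU K a * A * lrU K' b‖ = ‖A‖ := by
  have h1 := CStarRing.norm_mul_coe_unitary (lrU K a * A)
    ⟨lrU K' b, lrU_mem_unitary (resetU_sa hK') b⟩
  have h2 := CStarRing.norm_coe_unitary_mul ⟨lrU K a, lrU_mem_unitary (resetU_sa hK) a⟩ A
  simp only at h1 h2
  rw [h1, h2]

/-- shifting the Hamiltonian by a scalar -/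
theorem resetU_lrU_sub_smul_one (K : Matrix n n ℂ) (E t : ℝ) :
    lrU (K - (E : ℂ) • 1) t = Complex.exp (-((t : ℂ) * E * Complex.I)) • lrU K t := by
  let +nondep : NormedAlgebra ℚ (Matrix n n ℂ) := .restrictScalars ℚ ℂ (Matrix n n ℂ)
  unfold lrU
  have e : ((t : ℂ) * Complex.I) • (K - (E : ℂ) • (1 : Matrix n n ℂ))
      = algebraMap ℂ (Matrix n n ℂ) (-((t : ℂ) * E * Complex.I)) + ((t : ℂ) * Complex.I) • K := by
    rw [Algebra.algebraMap_eq_smul_one, smul_sub, smul_smul, neg_smul]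
    rw [show (t : ℂ) * Complex.I * E = (t : ℂ) * E * Complex.I by ring]
    abel
  rw [e, NormedSpace.exp_add_of_commute (Algebra.commutes _ _), ← NormedSpace.algebraMap_exp_comm,
    ← Complex.exp_eq_exp_ℂ, Algebra.algebraMap_eq_smul_one, smul_mul_assoc, one_mul]

/-- star-algebra homomorphisms commute with `lrU` -/
theorem map_lrU (φ : Matrix m m ℂ →⋆ₐ[ℂ] Matrix n n ℂ) (K : Matrix m m ℂ) (t : ℝ) :
    φ (lrU K t) = lrU (φ K) t := by
  let +nondep : NormedAlgebra ℚ (Matrix n n ℂ) := .restrictScalars ℚ ℂ (Matrix n n ℂ)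
  let +nondep : NormedAlgebra ℚ (Matrix m m ℂ) := .restrictScalars ℚ ℂ (Matrix m m ℂ)
  unfold lrU
  have hc : Continuous φ := (φ.toAlgHom.toLinearMap).continuous_of_finiteDimensional
  rw [NormedSpace.map_exp φ hc, map_smul]


/-- on an eigenvector -/
theorem lrU_mul_eigen {K : Matrix n n ℂ} {v : Matrix n Unit ℂ} {E : ℝ}
    (h : K * v = (E : ℂ) • v) (t : ℝ) :
    lrU K t * v = Complex.exp ((t : ℂ) * E * Complex.I) • v := by
  let +nondep : NormedAlgebra ℚ (Matrix n n ℂ) := .restrictScalars ℚ ℂ (Matrix n n ℂ)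
  set a : ℂ := (t : ℂ) * Complex.I with ha
  have hpow : ∀ k : ℕ, (a • K) ^ k * v = (a * E) ^ k • v := by
    intro k
    induction k with
    | zero => simp
    | succ k ih =>
      rw [pow_succ, Matrix.mul_assoc, Matrix.smul_mul, h, Matrix.mul_smul, Matrix.mul_smul, ih,
        smul_smul, smul_smul, pow_succ]
      congr 1
      ring
  let L : Matrix n n ℂ →ₗ[ℂ] Matrix n Unit ℂ :=
    { toFun := fun A => A * v
      map_add' := fun A B => Matrix.add_mul A B v
      map_smul' := fun c A => Matrix.smul_mul c A v }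
  have hL : Continuous L := L.continuous_of_finiteDimensional
  have h1 : HasSum (fun k : ℕ => ((k.factorial : ℂ)⁻¹) • (a • K) ^ k) (NormedSpace.exp (a • K)) :=
    NormedSpace.exp_series_hasSum_exp' (𝕂 := ℂ) (a • K)
  have h2 : HasSum (fun k : ℕ => L (((k.factorial : ℂ)⁻¹) • (a • K) ^ k))
      (L (NormedSpace.exp (a • K))) := h1.map L hL
  have h3 : HasSum (fun k : ℕ => ((k.factorial : ℂ)⁻¹) • (a * E) ^ k) (NormedSpace.exp (a * E)) :=
    NormedSpace.exp_series_hasSum_exp' (𝕂 := ℂ) (a * E)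
  have h4 := h3.smul_const v
  have e : (fun k : ℕ => L (((k.factorial : ℂ)⁻¹) • (a • K) ^ k))
      = fun k : ℕ => (((k.factorial : ℂ)⁻¹) • (a * E) ^ k) • v := by
    funext k
    change (((k.factorial : ℂ)⁻¹) • (a • K) ^ k) * v = _
    rw [Matrix.smul_mul, hpow, smul_smul, smul_eq_mul]
  rw [e] at h2
  have h5 := h2.unique h4
  change NormedSpace.exp (a • K) * v = _ at h5
  unfold lrU
  rw [h5, ← Complex.exp_eq_exp_ℂ, ha]
  congr 2
  ring

/-- membership in the unordered interval `[0,t]` -/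
theorem resetU_abs_le {t u : ℝ} (hu : u ∈ Set.uIcc 0 t) : |u| ≤ |t| ∧ |t - u| ≤ |t| := by
  rcases le_total 0 t with h | h
  · rw [Set.uIcc_of_le h] at hu
    rw [abs_of_nonneg h, abs_of_nonneg hu.1, abs_of_nonneg (by linarith [hu.2])]
    exact ⟨hu.2, by linarith [hu.1]⟩
  · rw [Set.uIcc_of_ge h] at hu
    rw [abs_of_nonpos h, abs_of_nonpos hu.2, abs_of_nonpos (by linarith [hu.1])]
    exact ⟨by linarith [hu.1], by linarith [hu.2]⟩

/-- mean value inequality on the unordered interval `[0,t]` -/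
theorem resetU_mvt {G : ℝ → Matrix n n ℂ} {G' : ℝ → Matrix n n ℂ} {t c : ℝ}
    (hG : ∀ u, HasDerivAt G (G' u) u) (hc : ∀ u ∈ Set.uIcc 0 t, ‖G' u‖ ≤ c) :
    ‖G t - G 0‖ ≤ |t| * c := by
  have h := Convex.norm_image_sub_le_of_norm_hasDerivWithin_le (f := G) (f' := G') (C := c)
    (s := Set.uIcc 0 t) (x := 0) (y := t) (fun u _ => (hG u).hasDerivWithinAt) hc
    (convex_uIcc 0 t) Set.left_mem_uIcc Set.right_mem_uIcc
  rw [sub_zero, Real.norm_eq_abs, mul_comm] at h
  exact h

theorem resetU_hasDerivAt_sub (K A : Matrix n n ℂ) (t u : ℝ) :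
    HasDerivAt (fun w : ℝ => lrDyn K (t - w) A)
      (-(Complex.I • (K * lrDyn K (t - u) A - lrDyn K (t - u) A * K))) u := by
  have h := (lrDyn_hasDerivAt K A (t - u)).scomp u ((hasDerivAt_id u).const_sub t)
  have e : lrDyn K (t - u) (Complex.I • (K * A - A * K))
      = Complex.I • (K * lrDyn K (t - u) A - lrDyn K (t - u) A * K) := by
    rw [lrDyn_smul, lrDyn_sub, lrDyn_mul, lrDyn_mul, lrDyn_of_commute (Commute.refl K)]
  rw [e] at h
  have h' : HasDerivAt (fun w : ℝ => lrDyn K (t - w) A)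
      ((-1 : ℝ) • (Complex.I • (K * lrDyn K (t - u) A - lrDyn K (t - u) A * K))) u := h
  simpa using h'

/-- `‖τ'_t(A) - τ_t(A)‖ ≤ |t| sup ‖[K' - K, τ_v(A)]‖`   (differentiate `v ↦ τ'_{t-v}(τ_v(A))`) -/
theorem conj_diff_le {K K' : Matrix n n ℂ} (hK : K.IsHermitian) (hK' : K'.IsHermitian)
    (A : Matrix n n ℂ) (t c : ℝ)
    (hc : ∀ v : ℝ, |v| ≤ |t| → ‖(K' - K) * lrDyn K v A - lrDyn K v A * (K' - K)‖ ≤ c) :
    ‖lrDyn K' t A - lrDyn K t A‖ ≤ |t| * c := by
  have hG : ∀ u : ℝ, HasDerivAt (fun w : ℝ => lrDyn K' w (lrDyn K (t - w) A))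
      (lrDyn K' u (Complex.I • (K' * lrDyn K (t - u) A - lrDyn K (t - u) A * K')
        + -(Complex.I • (K * lrDyn K (t - u) A - lrDyn K (t - u) A * K)))) u := fun u =>
    lrDyn_hasDerivAt' K' (resetU_hasDerivAt_sub K A t u)
  have h := resetU_mvt (t := t) (c := c) hG ?_
  · simpa [lrDyn_zero] using h
  · intro u hu
    rw [norm_lrDyn (resetU_sa hK')]
    have e : Complex.I • (K' * lrDyn K (t - u) A - lrDyn K (t - u) A * K')
        + -(Complex.I • (K * lrDyn K (t - u) A - lrDyn K (t - u) A * K))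
        = Complex.I • ((K' - K) * lrDyn K (t - u) A - lrDyn K (t - u) A * (K' - K)) := by
      rw [← smul_neg, ← smul_add]
      congr 1
      noncomm_ring
    rw [e, norm_smul, Complex.norm_I, one_mul]
    exact hc _ (resetU_abs_le hu).2

theorem resetU_hasDerivAt_lrU_sub (K : Matrix n n ℂ) (t u : ℝ) :
    HasDerivAt (fun w : ℝ => lrU K (t - w)) (-(lrU K (t - u) * (Complex.I • K))) u := by
  have h := (lrU_hasDerivAt K (t - u)).scomp u ((hasDerivAt_id u).const_sub t)
  have h' : HasDerivAt (fun w : ℝ => lrU K (t - w))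
      ((-1 : ℝ) • (lrU K (t - u) * (Complex.I • K))) u := h
  simpa using h'

theorem resetU_hasDerivAt_lrU_sub' (K : Matrix n n ℂ) (t u : ℝ) :
    HasDerivAt (fun w : ℝ => lrU K (-(t - w))) ((Complex.I • K) * lrU K (-(t - u))) u := by
  have h := (lrU_hasDerivAt K (-(t - u))).scomp u (((hasDerivAt_id u).const_sub t).neg)
  have hc : Commute K (lrU K (-(t - u))) := lrU_commute (Commute.refl K) _
  have e1 : lrU K (-(t - u)) * (Complex.I • K) = (Complex.I • K) * lrU K (-(t - u)) := by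
    rw [mul_smul_comm, smul_mul_assoc, hc.eq]
  have h' : HasDerivAt (fun w : ℝ => lrU K (-(t - w)))
      ((- -1 : ℝ) • (lrU K (-(t - u)) * (Complex.I • K))) u := h
  rw [e1] at h'
  simpa using h'

theorem resetU_hasDerivAt_lrU_left (K : Matrix n n ℂ) (u : ℝ) :
    HasDerivAt (fun w : ℝ => lrU K w) ((Complex.I • K) * lrU K u) u := by
  have h := lrU_hasDerivAt K u
  have hc : Commute K (lrU K u) := lrU_commute (Commute.refl K) _
  have e1 : lrU K u * (Complex.I • K) = (Complex.I • K) * lrU K u := by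
    rw [mul_smul_comm, smul_mul_assoc, hc.eq]
  rwa [e1] at h

/-- `Y(t) = e^{it(K'+X)} W e^{-it(K+X)}` against `Y_S(t) = e^{itK'} W e^{-itK}`
(differentiate `u ↦ e^{i(t-u)(K'+X)} Y_S(u) e^{-i(t-u)(K+X)}`) -/
theorem twoSided_diff_le {K K' X : Matrix n n ℂ} (hK : K.IsHermitian) (hK' : K'.IsHermitian)
    (hX : X.IsHermitian) (W : Matrix n n ℂ) (t c : ℝ)
    (hc : ∀ u : ℝ, |u| ≤ |t| →
      ‖X * (lrU K' u * W * lrU K (-u)) - (lrU K' u * W * lrU K (-u)) * X‖ ≤ c) :
    ‖lrU (K' + X) t * W * lrU (K + X) (-t) - lrU K' t * W * lrU K (-t)‖ ≤ |t| * c := by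
  have hYS : ∀ u : ℝ, HasDerivAt (fun w : ℝ => lrU K' w * W * lrU K (-w))
      ((Complex.I • K') * lrU K' u * W * lrU K (-u)
        + lrU K' u * W * -(lrU K (-u) * (Complex.I • K))) u := fun u =>
    ((resetU_hasDerivAt_lrU_left K' u).mul_const W).mul (lrU_neg_hasDerivAt K u)
  have hG : ∀ u : ℝ, HasDerivAt
      (fun w : ℝ => lrU (K' + X) (t - w) * (lrU K' w * W * lrU K (-w)) * lrU (K + X) (-(t - w)))
      (lrU (K' + X) (t - u) * (-(Complex.I • (X * (lrU K' u * W * lrU K (-u))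
        - (lrU K' u * W * lrU K (-u)) * X))) * lrU (K + X) (-(t - u))) u := by
    intro u
    have h := ((resetU_hasDerivAt_lrU_sub (K' + X) t u).mul (hYS u)).mul
      (resetU_hasDerivAt_lrU_sub' (K + X) t u)
    have h' : HasDerivAt
        (fun w : ℝ => lrU (K' + X) (t - w) * (lrU K' w * W * lrU K (-w)) * lrU (K + X) (-(t - w)))
        ((-(lrU (K' + X) (t - u) * Complex.I • (K' + X)) * (lrU K' u * W * lrU K (-u))
          + lrU (K' + X) (t - u) * (Complex.I • K' * lrU K' u * W * lrU K (-u)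
            + lrU K' u * W * -(lrU K (-u) * Complex.I • K))) * lrU (K + X) (-(t - u))
          + (lrU (K' + X) (t - u) * (lrU K' u * W * lrU K (-u)))
            * (Complex.I • (K + X) * lrU (K + X) (-(t - u)))) u := h
    have e2 : lrU (K' + X) (t - u) * (-(Complex.I • (X * (lrU K' u * W * lrU K (-u))
        - (lrU K' u * W * lrU K (-u)) * X))) * lrU (K + X) (-(t - u))
        = (-(lrU (K' + X) (t - u) * Complex.I • (K' + X)) * (lrU K' u * W * lrU K (-u))
          + lrU (K' + X) (t - u) * (Complex.I • K' * lrU K' u * W * lrU K (-u)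
            + lrU K' u * W * -(lrU K (-u) * Complex.I • K))) * lrU (K + X) (-(t - u))
          + (lrU (K' + X) (t - u) * (lrU K' u * W * lrU K (-u)))
            * (Complex.I • (K + X) * lrU (K + X) (-(t - u))) := by
      simp only [mul_add, add_mul, mul_sub, sub_mul, smul_sub, smul_add, mul_smul_comm,
        smul_mul_assoc, mul_assoc, mul_neg, neg_mul, neg_sub]
      abel
    rw [e2]
    exact h'
  have h := resetU_mvt (t := t) (c := c) hG ?_
  · rw [← norm_neg, neg_sub]
    simpa [lrU_zero] using h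
  · intro u hu
    rw [norm_lrU_mul_mul (hK'.add hX) (hK.add hX), norm_neg, norm_smul, Complex.norm_I, one_mul]
    exact hc _ (resetU_abs_le hu).1

end Claimed.Agent.R296
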