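import Claimed.Agent.R296.EntProd
import Claimed.Agent.R296.EntPtr
import Claimed.Agent.R296.EntBasic
import Claimed.Agent.R296.MatFun2
import Claimed.Agent.R296.P2.Vec

/-!
# Row 296, paper 2, Lemma 1.2: the affinity bound AFF (one-owner file, package P2-AFF)
Blueprint: `Notes/P2S01_03.lean` (1.2).
Proved by helper143 (prefix `saff`): spectral sums `saffPhi f g h = tr f(ρ) (g(ρ_a) ⊗ h(ρ_b))` over the
eigenbasis of `ρ` and the product eigenbasis of the marginals, marginal identities, Jensen for `exp`.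
-/

set_option autoImplicit false
set_option linter.unusedSectionVars false

namespace Claimed.Agent.R296

open Matrix
open scoped MatrixOrder Matrix.Norms.L2Operator ComplexOrder Kronecker

section Gen
variable {n : Type} [Fintype n] [DecidableEq n]

/-- `√ρ` of the C⋆-calculus is the spectral `mfun √`. -/
theorem saff_sqrt_eq_mfun {ρ : Matrix n n ℂ} (hρ : ρ.PosSemidef) :
    CFC.sqrt ρ = mfun (fun x => (Real.sqrt x : ℂ)) ρ := by
  have h1 : (mfun (fun x => (Real.sqrt x : ℂ)) ρ).PosSemidef :=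
    mfun_posSemidef hρ.1 Real.sqrt fun i => Real.sqrt_nonneg _
  have h2 : mfun (fun x => (Real.sqrt x : ℂ)) ρ * mfun (fun x => (Real.sqrt x : ℂ)) ρ = ρ := by
    rw [← mfun_mul]
    conv_rhs => rw [← mfun_id hρ.1]
    refine mfun_congr hρ.1 fun i => ?_
    rw [← Complex.ofReal_mul, Real.mul_self_sqrt (hρ.eigenvalues_nonneg i)]
  exact CFC.sqrt_unique h2 (Matrix.nonneg_iff_posSemidef.mpr h1)

/-- `tr (f(ρ) V D Vᴴ) = ∑ f(p_i) d_j |(Uᴴ V)_{ij}|²`. -/
theorem saff_trace_mfun_mul {ρ : Matrix n n ℂ} (hρ : ρ.IsHermitian) (V : Matrix n n ℂ)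
    (f : ℝ → ℂ) (d : n → ℂ) :
    (mfun f ρ * (V * diagonal d * Vᴴ)).trace
      = ∑ i, ∑ j, f (hρ.eigenvalues i) * d j *
          ((‖((hρ.eigenvectorUnitary : Matrix n n ℂ)ᴴ * V) i j‖ ^ 2 : ℝ) : ℂ) := by
  rw [mfun_eq hρ]
  set U := (hρ.eigenvectorUnitary : Matrix n n ℂ) with hU
  set F : Matrix n n ℂ := diagonal fun i => f (hρ.eigenvalues i)
  set G : Matrix n n ℂ := diagonal d
  have e1 : (U * F * Uᴴ * (V * G * Vᴴ)).trace = (F * ((Uᴴ * V) * (G * (Uᴴ * V)ᴴ))).trace := by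
    calc (U * F * Uᴴ * (V * G * Vᴴ)).trace = (U * (F * (Uᴴ * V) * G * Vᴴ)).trace := by
          simp only [Matrix.mul_assoc]
      _ = ((F * (Uᴴ * V) * G * Vᴴ) * U).trace := Matrix.trace_mul_comm _ _
      _ = _ := by
          rw [conjTranspose_mul, conjTranspose_conjTranspose]
          simp only [Matrix.mul_assoc]
  rw [e1]
  simp only [Matrix.trace, Matrix.diag_apply, F, G, diagonal_mul]
  refine Finset.sum_congr rfl fun i _ => ?_
  rw [Matrix.mul_apply, Finset.mul_sum]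
  refine Finset.sum_congr rfl fun j _ => ?_
  rw [diagonal_mul, conjTranspose_apply]
  have h1 : (Uᴴ * V) i j * star ((Uᴴ * V) i j) = ((‖(Uᴴ * V) i j‖ ^ 2 : ℝ) : ℂ) := by
    rw [RCLike.star_def, Complex.mul_conj, Complex.normSq_eq_norm_sq]
  rw [← h1]
  ring

end Gen

variable {a b u : Type} [Fintype a] [DecidableEq a] [Fintype b] [DecidableEq b]
  [Fintype u] [DecidableEq u]

/-- overlap weights between the eigenbasis of `ρ` and the product eigenbasis of `A`, `B`. -/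
noncomputable def saffO {ρ : Matrix (a × b) (a × b) ℂ} {A : Matrix a a ℂ} {B : Matrix b b ℂ}
    (hρ : ρ.IsHermitian) (hA : A.IsHermitian) (hB : B.IsHermitian) (i j : a × b) : ℝ :=
  ‖((hρ.eigenvectorUnitary : Matrix (a × b) (a × b) ℂ)ᴴ *
    ((hA.eigenvectorUnitary : Matrix a a ℂ) ⊗ₖ (hB.eigenvectorUnitary : Matrix b b ℂ))) i j‖ ^ 2

theorem saffO_nonneg {ρ : Matrix (a × b) (a × b) ℂ} {A : Matrix a a ℂ} {B : Matrix b b ℂ}
    (hρ : ρ.IsHermitian) (hA : A.IsHermitian) (hB : B.IsHermitian) (i j : a × b) :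
    0 ≤ saffO hρ hA hB i j := by unfold saffO; positivity

/-- the three-function spectral sum. -/
noncomputable def saffPhi {ρ : Matrix (a × b) (a × b) ℂ} {A : Matrix a a ℂ} {B : Matrix b b ℂ}
    (hρ : ρ.IsHermitian) (hA : A.IsHermitian) (hB : B.IsHermitian) (f g h : ℝ → ℝ) : ℝ :=
  ∑ i, ∑ j, f (hρ.eigenvalues i) * (g (hA.eigenvalues j.1) * h (hB.eigenvalues j.2)) *
    saffO hρ hA hB i j

theorem saffPhi_eq_trace {ρ : Matrix (a × b) (a × b) ℂ} {A : Matrix a a ℂ} {B : Matrix b b ℂ}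
    (hρ : ρ.IsHermitian) (hA : A.IsHermitian) (hB : B.IsHermitian) (f g h : ℝ → ℝ) :
    ((saffPhi hρ hA hB f g h : ℝ) : ℂ)
      = (mfun (fun x => (f x : ℂ)) ρ *
          (mfun (fun x => (g x : ℂ)) A ⊗ₖ mfun (fun x => (h x : ℂ)) B)).trace := by
  have hK : mfun (fun x => (g x : ℂ)) A ⊗ₖ mfun (fun x => (h x : ℂ)) B
      = ((hA.eigenvectorUnitary : Matrix a a ℂ) ⊗ₖ (hB.eigenvectorUnitary : Matrix b b ℂ))
        * diagonal (fun j : a × b => (g (hA.eigenvalues j.1) : ℂ) * (h (hB.eigenvalues j.2) : ℂ))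
        * ((hA.eigenvectorUnitary : Matrix a a ℂ) ⊗ₖ (hB.eigenvectorUnitary : Matrix b b ℂ))ᴴ := by
    rw [mfun_eq hA, mfun_eq hB, mul_kronecker_mul, mul_kronecker_mul,
      diagonal_kronecker_diagonal, conjTranspose_kronecker]
  rw [hK, saff_trace_mfun_mul hρ]
  unfold saffPhi saffO
  push_cast
  rfl

theorem saffPhi_one_one {ρ : Matrix (a × b) (a × b) ℂ} {A : Matrix a a ℂ} {B : Matrix b b ℂ}
    (hρ : ρ.IsHermitian) (hA : A.IsHermitian) (hB : B.IsHermitian) (f : ℝ → ℝ) :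
    saffPhi hρ hA hB f (fun _ => 1) (fun _ => 1) = ∑ i, f (hρ.eigenvalues i) := by
  have h := saffPhi_eq_trace hρ hA hB f (fun _ => 1) (fun _ => 1)
  simp only [Complex.ofReal_one] at h
  rw [mfun_one hA, mfun_one hB, one_kronecker_one, Matrix.mul_one, trace_mfun hρ,
    ← Complex.ofReal_sum] at h
  exact_mod_cast h

theorem saffPhi_fst {ρ : Matrix (a × b) (a × b) ℂ} {B : Matrix b b ℂ}
    (hρ : ρ.IsHermitian) (hA : (ptrFst ρ).IsHermitian) (hB : B.IsHermitian) (g : ℝ → ℝ) :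
    saffPhi hρ hA hB (fun x => x) g (fun _ => 1)
      = ∑ j, hA.eigenvalues j * g (hA.eigenvalues j) := by
  have h := saffPhi_eq_trace hρ hA hB (fun x => x) g (fun _ => 1)
  simp only [Complex.ofReal_one] at h
  rw [mfun_one hB, mfun_id hρ, ← ptrFst_trace_mul] at h
  have e : ptrFst ρ * mfun (fun x => (g x : ℂ)) (ptrFst ρ)
      = mfun (fun x => (x : ℂ) * (g x : ℂ)) (ptrFst ρ) := by rw [mfun_mul, mfun_id hA]
  rw [e, trace_mfun hA] at h
  simp only [← Complex.ofReal_mul, ← Complex.ofReal_sum] at h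
  exact_mod_cast h

theorem saffPhi_snd {ρ : Matrix (a × b) (a × b) ℂ} {A : Matrix a a ℂ}
    (hρ : ρ.IsHermitian) (hA : A.IsHermitian) (hB : (ptrSnd ρ).IsHermitian) (g : ℝ → ℝ) :
    saffPhi hρ hA hB (fun x => x) (fun _ => 1) g
      = ∑ j, hB.eigenvalues j * g (hB.eigenvalues j) := by
  have h := saffPhi_eq_trace hρ hA hB (fun x => x) (fun _ => 1) g
  simp only [Complex.ofReal_one] at h
  rw [mfun_one hA, mfun_id hρ, ← ptrSnd_trace_mul] at h
  have e : ptrSnd ρ * mfun (fun x => (g x : ℂ)) (ptrSnd ρ)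
      = mfun (fun x => (x : ℂ) * (g x : ℂ)) (ptrSnd ρ) := by rw [mfun_mul, mfun_id hB]
  rw [e, trace_mfun hB] at h
  simp only [← Complex.ofReal_mul, ← Complex.ofReal_sum] at h
  exact_mod_cast h

/-- support: a vanishing eigenvalue of the first marginal kills the weight. -/
theorem saff_supp_fst {ρ : Matrix (a × b) (a × b) ℂ} {B : Matrix b b ℂ}
    (hρ : ρ.PosSemidef) (hA : (ptrFst ρ).IsHermitian) (hB : B.IsHermitian) (i j : a × b)
    (h0 : hA.eigenvalues j.1 = 0) : hρ.1.eigenvalues i * saffO hρ.1 hA hB i j = 0 := by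
  have h := saffPhi_fst hρ.1 hA hB (fun x => if x = 0 then 1 else 0)
  have hz : ∑ j, hA.eigenvalues j * (if hA.eigenvalues j = 0 then (1 : ℝ) else 0) = 0 :=
    Finset.sum_eq_zero fun j _ => by split_ifs with hj <;> simp [hj]
  rw [hz] at h
  unfold saffPhi at h
  have hnn : ∀ i j : a × b, 0 ≤ hρ.1.eigenvalues i *
      ((if hA.eigenvalues j.1 = 0 then (1 : ℝ) else 0) * 1) * saffO hρ.1 hA hB i j := fun i j =>
    mul_nonneg (mul_nonneg (hρ.eigenvalues_nonneg i) (by split_ifs <;> simp))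
      (saffO_nonneg _ _ _ _ _)
  have h1 := (Finset.sum_eq_zero_iff_of_nonneg
    (fun i _ => Finset.sum_nonneg fun j _ => hnn i j)).mp h i (Finset.mem_univ i)
  have h2 := (Finset.sum_eq_zero_iff_of_nonneg (fun j _ => hnn i j)).mp h1 j (Finset.mem_univ j)
  simpa [h0] using h2

theorem saff_supp_snd {ρ : Matrix (a × b) (a × b) ℂ} {A : Matrix a a ℂ}
    (hρ : ρ.PosSemidef) (hA : A.IsHermitian) (hB : (ptrSnd ρ).IsHermitian) (i j : a × b)
    (h0 : hB.eigenvalues j.2 = 0) : hρ.1.eigenvalues i * saffO hρ.1 hA hB i j = 0 := by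
  have h := saffPhi_snd hρ.1 hA hB (fun x => if x = 0 then 1 else 0)
  have hz : ∑ j, hB.eigenvalues j * (if hB.eigenvalues j = 0 then (1 : ℝ) else 0) = 0 :=
    Finset.sum_eq_zero fun j _ => by split_ifs with hj <;> simp [hj]
  rw [hz] at h
  unfold saffPhi at h
  have hnn : ∀ i j : a × b, 0 ≤ hρ.1.eigenvalues i *
      (1 * (if hB.eigenvalues j.2 = 0 then (1 : ℝ) else 0)) * saffO hρ.1 hA hB i j := fun i j =>
    mul_nonneg (mul_nonneg (hρ.eigenvalues_nonneg i) (by split_ifs <;> simp))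
      (saffO_nonneg _ _ _ _ _)
  have h1 := (Finset.sum_eq_zero_iff_of_nonneg
    (fun i _ => Finset.sum_nonneg fun j _ => hnn i j)).mp h i (Finset.mem_univ i)
  have h2 := (Finset.sum_eq_zero_iff_of_nonneg (fun j _ => hnn i j)).mp h1 j (Finset.mem_univ j)
  simpa [h0] using h2

/-- the scalar step: `p e^{(log α + log β - log p)/2} = √p √α √β`. -/
theorem saff_scalar {p α β : ℝ} (hp : 0 < p) (hα : 0 < α) (hβ : 0 < β) :
    p * Real.exp ((Real.log α + Real.log β - Real.log p) / 2)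
      = Real.sqrt p * (Real.sqrt α * Real.sqrt β) := by
  have e : ∀ x : ℝ, 0 < x → Real.sqrt x = Real.exp (Real.log x / 2) := fun x hx => by
    rw [Real.sqrt_eq_rpow, Real.rpow_def_of_pos hx]; congr 1; ring
  rw [e p hp, e α hα, e β hβ, ← Real.exp_add, ← Real.exp_add]
  conv_lhs => rw [← Real.exp_log hp]
  rw [Real.log_exp, ← Real.exp_add]
  congr 1; ring

/-- mutual information of a bipartite density matrix -/
noncomputable def miAB (ρ : Matrix (a × b) (a × b) ℂ) : ℝ :=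
  vnEnt (ptrFst ρ) + vnEnt (ptrSnd ρ) - vnEnt ρ

/-- **AFF** (package AFF, 500-700 lines).
Eigenbases `|i⟩, p_i` of `ρ`, `|j⟩ = |j₁⟩|j₂⟩`, `q_j = α_{j₁} β_{j₂}` of `σ = ρ_a ⊗ ρ_b`; `w_ij = p_i |⟨i|j⟩|²`, `∑ w = 1`;
`w_ij > 0 → q_j > 0` (because `⟨j|ρ|j⟩ ≤ ⟨j₁|ρ_a|j₁⟩ = α_{j₁}`);
`Tr = ∑ w_ij √(q_j/p_i) ≥ ∏ (q_j/p_i)^{w_ij/2}` (`Real.geom_mean_le_arith_mean_weighted`),
`∑ w_ij log p_i = -S(ρ)`, `∑ w_ij log α_{j₁} = -S(ρ_a)`, `∑ w_ij log β_{j₂} = -S(ρ_b)`.
(helper19's `relEnt_eq_sum` in `EntRelMain.lean` contains the spectral bookkeeping.) -/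
theorem affinity_ge {ρ : Matrix (a × b) (a × b) ℂ} (hρ : IsDensity ρ) :
    Real.exp (-(miAB ρ) / 2) ≤
      (Matrix.trace (CFC.sqrt ρ * (CFC.sqrt (ptrFst ρ) ⊗ₖ CFC.sqrt (ptrSnd ρ)))).re := by
  have hdA := ptrFst_isDensity hρ
  have hdB := ptrSnd_isDensity hρ
  have hH := hρ.1.1
  have hA := hdA.1.1
  have hB := hdB.1.1
  rw [saff_sqrt_eq_mfun hρ.1, saff_sqrt_eq_mfun hdA.1, saff_sqrt_eq_mfun hdB.1,
    ← saffPhi_eq_trace hH hA hB Real.sqrt Real.sqrt Real.sqrt, Complex.ofReal_re]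
  set p := hH.eigenvalues with hp
  set α := hA.eigenvalues with hα
  set β := hB.eigenvalues with hβ
  set o := saffO hH hA hB with ho
  have hp0 : ∀ i, 0 ≤ p i := fun i => hρ.1.eigenvalues_nonneg i
  have hα0 : ∀ i, 0 ≤ α i := fun i => hdA.1.eigenvalues_nonneg i
  have hβ0 : ∀ i, 0 ≤ β i := fun i => hdB.1.eigenvalues_nonneg i
  have ho0 : ∀ i j, 0 ≤ o i j := fun i j => saffO_nonneg _ _ _ _ _
  -- the weights
  have hw1 : ∑ k : (a × b) × (a × b), p k.1 * o k.1 k.2 = 1 := by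
    have h := saffPhi_one_one hH hA hB (fun x => x)
    rw [hρ.sum_eigenvalues] at h
    rw [Fintype.sum_prod_type, ← h]
    unfold saffPhi
    simp only [mul_one]
    rfl
  -- Jensen
  have hJ := convexOn_exp.map_sum_le (t := (Finset.univ : Finset ((a × b) × (a × b))))
    (w := fun k => p k.1 * o k.1 k.2)
    (p := fun k => (Real.log (α k.2.1) + Real.log (β k.2.2) - Real.log (p k.1)) / 2)
    (fun k _ => mul_nonneg (hp0 _) (ho0 _ _)) hw1 (fun _ _ => Set.mem_univ _)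
  -- the exponent
  have hE : ∑ k : (a × b) × (a × b), (p k.1 * o k.1 k.2) •
      ((Real.log (α k.2.1) + Real.log (β k.2.2) - Real.log (p k.1)) / 2) = -(miAB ρ) / 2 := by
    have h1 := saffPhi_fst hH hA hB Real.log
    have h2 := saffPhi_snd hH hA hB Real.log
    have h3 := saffPhi_one_one hH hA hB (fun x => x * Real.log x)
    unfold miAB
    rw [vnEnt_eq_sum_eigenvalues hH, vnEnt_eq_sum_eigenvalues hA, vnEnt_eq_sum_eigenvalues hB]
    simp only [Real.negMulLog, neg_mul, Finset.sum_neg_distrib]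
    rw [← h1, ← h2, ← h3, Fintype.sum_prod_type]
    unfold saffPhi
    simp only [smul_eq_mul]
    have : ∀ x y z : ℝ, -(-x + -y - -z) / 2 = (x + y - z) / 2 := fun x y z => by ring
    rw [this, ← Finset.sum_add_distrib, ← Finset.sum_sub_distrib, Finset.sum_div]
    refine Finset.sum_congr rfl fun i _ => ?_
    rw [← Finset.sum_add_distrib, ← Finset.sum_sub_distrib, Finset.sum_div]
    refine Finset.sum_congr rfl fun j _ => ?_
    ring
  rw [hE] at hJ
  refine hJ.trans ?_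
  unfold saffPhi
  rw [Fintype.sum_prod_type]
  refine Finset.sum_le_sum fun i _ => Finset.sum_le_sum fun j _ => ?_
  simp only [smul_eq_mul]
  by_cases hw : p i * o i j = 0
  · rw [hw, zero_mul]
    exact mul_nonneg (mul_nonneg (Real.sqrt_nonneg _)
      (mul_nonneg (Real.sqrt_nonneg _) (Real.sqrt_nonneg _))) (ho0 _ _)
  · have hpi : 0 < p i := lt_of_le_of_ne (hp0 i) fun h => hw (by rw [← h, zero_mul])
    have hαj : 0 < α j.1 := lt_of_le_of_ne (hα0 _) fun h =>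
      hw (saff_supp_fst hρ.1 hA hB i j h.symm)
    have hβj : 0 < β j.2 := lt_of_le_of_ne (hβ0 _) fun h =>
      hw (saff_supp_snd hρ.1 hA hB i j h.symm)
    rw [← saff_scalar hpi hαj hβj]
    exact le_of_eq (by ring)

end Claimed.Agent.R296
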