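import Claimed.Agent.R296.P2.SplitAff
import Claimed.Agent.R296.PhaseAbs
import Claimed.Agent.R296.FidAff

/-!
# Row 296, paper 2, Lemma 1.2 / Lemma 5.5: the splitting isometry SPLIT (one-owner file, package P2-SPLIT)
Blueprint: `Notes/P2S01_03.lean` (1.2).   Owner: helper19.

`A x k = Ω (x, k)`, `ρ = A Aᴴ`, `R = ρ^{-1/2}` (pseudo-inverse), `B = R A`, `Π = Bᴴ B` a projection, `A Bᴴ = √ρ`.
`V ((i, none), γ) k = conj (B (i, γ) k)`, `V ((i, some l), γ) k = [(i, γ) = x₀] conj ((1 - Π) l k)`.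
-/

set_option autoImplicit false
set_option linter.unusedSectionVars false

namespace Claimed.Agent.R296

open Matrix
open scoped MatrixOrder Matrix.Norms.L2Operator ComplexOrder Kronecker

variable {a b u : Type} [Fintype a] [DecidableEq a] [Fintype b] [DecidableEq b]
  [Fintype u] [DecidableEq u]

/-- the marginal on `a × b` of a vector on `a × b × u` -/
def margAB (Ω : a × b × u → ℂ) : Matrix (a × b) (a × b) ℂ :=
  Matrix.of fun x y => ∑ k, Ω (x.1, x.2, k) * star (Ω (y.1, y.2, k))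

/-! ### square roots -/

theorem cfc_sqrt_eq_spow {n : Type} [Fintype n] [DecidableEq n] {ρ : Matrix n n ℂ}
    (hρ : ρ.PosSemidef) : CFC.sqrt ρ = spow ρ (1 / 2) := by
  have h : (1 / 2 : ℂ) = ((1 / 2 : ℝ) : ℂ) := by push_cast; rfl
  refine CFC.sqrt_unique (sqrt_mul_sqrt hρ) ?_
  rw [Matrix.nonneg_iff_posSemidef, h]
  exact spow_posSemidef hρ.isHermitian _

theorem cfc_sqrt_posSemidef {n : Type} [Fintype n] [DecidableEq n] (ρ : Matrix n n ℂ) :
    (CFC.sqrt ρ).PosSemidef := Matrix.nonneg_iff_posSemidef.1 (CFC.sqrt_nonneg ρ)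

theorem cfc_sqrt_mul_self {n : Type} [Fintype n] [DecidableEq n] {ρ : Matrix n n ℂ}
    (hρ : ρ.PosSemidef) : CFC.sqrt ρ * CFC.sqrt ρ = ρ :=
  CFC.sqrt_mul_sqrt_self ρ (Matrix.nonneg_iff_posSemidef.2 hρ)

/-- `∑ |√ρ i j|² = tr ρ` -/
theorem sum_star_sqrt_mul {n : Type} [Fintype n] [DecidableEq n] {ρ : Matrix n n ℂ}
    (hρ : ρ.PosSemidef) :
    ∑ i, ∑ j, star (CFC.sqrt ρ i j) * CFC.sqrt ρ i j = ρ.trace := by
  conv_rhs => rw [← cfc_sqrt_mul_self hρ]
  simp only [Matrix.trace, Matrix.diag_apply, Matrix.mul_apply]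
  refine Finset.sum_congr rfl fun i _ => Finset.sum_congr rfl fun j _ => ?_
  have h := congrFun (congrFun (cfc_sqrt_posSemidef ρ).isHermitian.eq j) i
  rw [conjTranspose_apply] at h
  rw [h, mul_comm]

/-! ### the coefficient matrix -/

/-- coefficient matrix of `Ω` -/
def spA (Ω : a × b × u → ℂ) : Matrix (a × b) u ℂ := Matrix.of fun x k => Ω (x.1, x.2, k)

theorem margAB_eq (Ω : a × b × u → ℂ) : margAB Ω = spA Ω * (spA Ω)ᴴ := by
  ext x y
  simp [margAB, spA, Matrix.mul_apply, conjTranspose_apply]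

theorem margAB_posSemidef (Ω : a × b × u → ℂ) : (margAB Ω).PosSemidef := by
  rw [margAB_eq]
  exact posSemidef_self_mul_conjTranspose _

theorem trace_margAB (Ω : a × b × u → ℂ) : (margAB Ω).trace = star Ω ⬝ᵥ Ω := by
  simp only [Matrix.trace, Matrix.diag_apply, margAB, Matrix.of_apply, dotProduct, Pi.star_apply]
  rw [Fintype.sum_prod_type, Fintype.sum_prod_type]
  refine Finset.sum_congr rfl fun i _ => ?_
  rw [Fintype.sum_prod_type]
  refine Finset.sum_congr rfl fun j _ => Finset.sum_congr rfl fun k _ => ?_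
  rw [mul_comm]

theorem isDensity_margAB (Ω : a × b × u → ℂ) (hΩ : star Ω ⬝ᵥ Ω = 1) : IsDensity (margAB Ω) :=
  ⟨margAB_posSemidef Ω, by rw [trace_margAB, hΩ]⟩

/-- `B = ρ^{-1/2} A` -/
noncomputable def spB (Ω : a × b × u → ℂ) : Matrix (a × b) u ℂ :=
  spow (margAB Ω) (-(1 / 2)) * spA Ω

theorem spB_conjTranspose (Ω : a × b × u → ℂ) :
    (spB Ω)ᴴ = (spA Ω)ᴴ * spow (margAB Ω) (-(1 / 2)) := by
  unfold spB
  rw [conjTranspose_mul, spow_conjTranspose]
  congr 2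
  apply Complex.ext <;> simp

theorem spA_mul_spB (Ω : a × b × u → ℂ) : spA Ω * (spB Ω)ᴴ = spow (margAB Ω) (1 / 2) := by
  rw [spB_conjTranspose, ← Matrix.mul_assoc, ← margAB_eq, ← sqrt_eq_mul (margAB_posSemidef Ω)]

theorem spB_mul_spB (Ω : a × b × u → ℂ) : spB Ω * (spB Ω)ᴴ = supp (margAB Ω) := by
  rw [spB_conjTranspose]
  unfold spB
  calc spow (margAB Ω) (-(1 / 2)) * spA Ω * ((spA Ω)ᴴ * spow (margAB Ω) (-(1 / 2)))
      = spow (margAB Ω) (-(1 / 2)) * (spA Ω * (spA Ω)ᴴ) * spow (margAB Ω) (-(1 / 2)) := by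
        simp only [Matrix.mul_assoc]
    _ = spow (margAB Ω) (-(1 / 2)) * spow (margAB Ω) 1 * spow (margAB Ω) (-(1 / 2)) := by
        rw [← margAB_eq, spow_one (margAB_posSemidef Ω)]
    _ = supp (margAB Ω) := by
        rw [← spow_add, ← spow_add, ← spow_zero]
        congr 1
        norm_num

theorem supp_mul_spB (Ω : a × b × u → ℂ) : supp (margAB Ω) * spB Ω = spB Ω := by
  unfold spB
  rw [← Matrix.mul_assoc, supp_mul_spow]

/-- the projection `Π = Bᴴ B` -/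
noncomputable def spP (Ω : a × b × u → ℂ) : Matrix u u ℂ := (spB Ω)ᴴ * spB Ω

theorem spP_isHermitian (Ω : a × b × u → ℂ) : (spP Ω).IsHermitian :=
  isHermitian_conjTranspose_mul_self _

theorem spP_mul_self (Ω : a × b × u → ℂ) : spP Ω * spP Ω = spP Ω := by
  unfold spP
  calc (spB Ω)ᴴ * spB Ω * ((spB Ω)ᴴ * spB Ω) = (spB Ω)ᴴ * ((spB Ω * (spB Ω)ᴴ) * spB Ω) := by
        simp only [Matrix.mul_assoc]
    _ = _ := by rw [spB_mul_spB, supp_mul_spB]

theorem spP_complete (Ω : a × b × u → ℂ) :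
    (spB Ω)ᴴ * spB Ω + (1 - spP Ω)ᴴ * (1 - spP Ω) = 1 := by
  rw [conjTranspose_sub, conjTranspose_one, (spP_isHermitian Ω).eq, Matrix.sub_mul, Matrix.mul_sub,
    Matrix.mul_sub, Matrix.one_mul, Matrix.one_mul, Matrix.mul_one, spP_mul_self]
  unfold spP
  abel

/-! ### the isometry -/

/-- the isometry built from a block `B` and a complement block `Q` placed at `x₀` -/
def spV (x₀ : a × b) (B : Matrix (a × b) u ℂ) (Q : Matrix u u ℂ) :
    Matrix ((a × Option u) × b) u ℂ :=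
  Matrix.of fun y k => match y.1.2 with
    | none => star (B (y.1.1, y.2) k)
    | some l => if (y.1.1, y.2) = x₀ then star (Q l k) else 0

theorem spV_none (x₀ : a × b) (B : Matrix (a × b) u ℂ) (Q : Matrix u u ℂ) (i : a) (γ : b) (k : u) :
    spV x₀ B Q ((i, none), γ) k = star (B (i, γ) k) := rfl

theorem spV_some (x₀ : a × b) (B : Matrix (a × b) u ℂ) (Q : Matrix u u ℂ) (i : a) (l : u) (γ : b)
    (k : u) : spV x₀ B Q ((i, some l), γ) k = if (i, γ) = x₀ then star (Q l k) else 0 := rfl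

theorem spV_isometry (x₀ : a × b) (B : Matrix (a × b) u ℂ) (Q : Matrix u u ℂ)
    (h : Bᴴ * B + Qᴴ * Q = 1) : (spV x₀ B Q)ᴴ * spV x₀ B Q = 1 := by
  ext k k'
  have h1 := congrFun (congrFun h k) k'
  rw [Matrix.add_apply, Matrix.mul_apply, Matrix.mul_apply] at h1
  have h2 := congrArg star h1
  rw [Matrix.mul_apply, Fintype.sum_prod_type, Fintype.sum_prod_type]
  simp only [Fintype.sum_option, conjTranspose_apply, spV_none, spV_some, star_star]
  have h3 : star ((1 : Matrix u u ℂ) k k') = (1 : Matrix u u ℂ) k k' := by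
    by_cases hk : k = k' <;> simp [Matrix.one_apply, hk]
  rw [h3] at h2
  rw [← h2, star_add, star_sum, star_sum, Fintype.sum_prod_type]
  simp only [conjTranspose_apply, star_mul', star_star, Finset.sum_add_distrib]
  congr 1
  -- the complement block
  have h4 : ∀ (i : a) (l : u) (γ : b),
      star (if (i, γ) = x₀ then star (Q l k) else 0) * (if (i, γ) = x₀ then star (Q l k') else 0)
        = if (i, γ) = x₀ then Q l k * star (Q l k') else 0 := by
    intro i l γ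
    split_ifs <;> simp
  simp only [h4]
  calc ∑ i : a, ∑ l : u, ∑ γ : b, (if (i, γ) = x₀ then Q l k * star (Q l k') else 0)
      = ∑ i : a, ∑ γ : b, ∑ l : u, (if (i, γ) = x₀ then Q l k * star (Q l k') else 0) :=
        Finset.sum_congr rfl fun i _ => Finset.sum_comm
    _ = ∑ y : a × b, ∑ l : u, (if y = x₀ then Q l k * star (Q l k') else 0) := by
        rw [Fintype.sum_prod_type]
    _ = ∑ y : a × b, (if y = x₀ then ∑ l : u, Q l k * star (Q l k') else 0) := by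
        refine Finset.sum_congr rfl fun y _ => ?_
        split_ifs <;> simp
    _ = _ := by simp

/-! ### the product vector -/

/-- `s = vec(S) ⊗ |none⟩` -/
def spS (S : Matrix a a ℂ) : a × (a × Option u) → ℂ :=
  fun y => match y.2.2 with
    | none => S y.1 y.2.1
    | some _ => 0

theorem spS_none (S : Matrix a a ℂ) (i i' : a) : spS (u := u) S (i, (i', none)) = S i i' := rfl

theorem spS_some (S : Matrix a a ℂ) (i i' : a) (l : u) : spS S (i, (i', some l)) = 0 := rfl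

/-- `s' = vec(S)` -/
def spS' (S : Matrix b b ℂ) : b × b → ℂ := fun y => S y.1 y.2

theorem spS_norm (S : Matrix a a ℂ) :
    star (spS (u := u) S) ⬝ᵥ spS S = ∑ i, ∑ j, star (S i j) * S i j := by
  simp only [dotProduct, Pi.star_apply]
  rw [Fintype.sum_prod_type]
  refine Finset.sum_congr rfl fun i _ => ?_
  rw [Fintype.sum_prod_type]
  refine Finset.sum_congr rfl fun j _ => ?_
  simp [Fintype.sum_option, spS_none, spS_some]

theorem spS'_norm (S : Matrix b b ℂ) :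
    star (spS' S) ⬝ᵥ spS' S = ∑ i, ∑ j, star (S i j) * S i j := by
  simp only [dotProduct, Pi.star_apply]
  rw [Fintype.sum_prod_type]
  rfl

theorem sp_overlap_eq (x₀ : a × b) (Ω : a × b × u → ℂ) (Q : Matrix u u ℂ) {Sa : Matrix a a ℂ}
    {Sb : Matrix b b ℂ} (hSa : Sa.IsHermitian) (hSb : Sb.IsHermitian) :
    ∑ i : a, ∑ j : b, ∑ β : a × Option u, ∑ γ : b,
        star (spS Sa (i, β)) * star (spS' Sb (j, γ)) *
          ∑ k, spV x₀ (spB Ω) Q (β, γ) k * Ω (i, j, k)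
      = (spow (margAB Ω) (1 / 2) * (Sa ⊗ₖ Sb)).trace := by
  rw [← spA_mul_spB]
  simp only [Matrix.trace, Matrix.diag_apply]
  rw [Fintype.sum_prod_type]
  refine Finset.sum_congr rfl fun i _ => Finset.sum_congr rfl fun j _ => ?_
  rw [Matrix.mul_apply, Fintype.sum_prod_type, Fintype.sum_prod_type]
  refine Finset.sum_congr rfl fun i' _ => ?_
  rw [Fintype.sum_option]
  simp only [spS_some, star_zero, zero_mul, Finset.sum_const_zero, add_zero, spS_none, spV_none]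
  refine Finset.sum_congr rfl fun γ _ => ?_
  have h1 : star (Sa i i') = Sa i' i := by
    have := congrFun (congrFun hSa.eq i') i
    rwa [conjTranspose_apply] at this
  have h2 : star (spS' Sb (j, γ)) = Sb γ j := by
    have := congrFun (congrFun hSb.eq γ) j
    rwa [conjTranspose_apply] at this
  rw [h1, h2, Matrix.mul_apply, kroneckerMap_apply]
  simp only [spA, Matrix.of_apply, conjTranspose_apply]
  rw [mul_comm]
  congr 1
  refine Finset.sum_congr rfl fun k _ => ?_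
  rw [mul_comm]

theorem ptrFst_posSemidef' {ρ : Matrix (a × b) (a × b) ℂ} (hρ : ρ.PosSemidef) :
    (ptrFst ρ).PosSemidef := ptrE_posSemidef (Equiv.refl _) hρ

theorem ptrSnd_posSemidef' {ρ : Matrix (a × b) (a × b) ℂ} (hρ : ρ.PosSemidef) :
    (ptrSnd ρ).PosSemidef := ptrE_posSemidef (Equiv.prodComm a b) hρ

theorem trace_ptrFst' (ρ : Matrix (a × b) (a × b) ℂ) : (ptrFst ρ).trace = ρ.trace :=
  trace_ptrE (Equiv.refl _) ρ

theorem trace_ptrSnd' (ρ : Matrix (a × b) (a × b) ℂ) : (ptrSnd ρ).trace = ρ.trace :=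
  trace_ptrE (Equiv.prodComm a b) ρ

/-- **SPLIT**. -/
theorem split_overlap (Ω : a × b × u → ℂ) (hΩ : star Ω ⬝ᵥ Ω = 1) :
    ∃ (V : Matrix ((a × Option u) × b) u ℂ) (s : a × (a × Option u) → ℂ) (s' : b × b → ℂ) (x : ℝ),
      Vᴴ * V = 1 ∧ star s ⬝ᵥ s = 1 ∧ star s' ⬝ᵥ s' = 1 ∧
      Real.exp (-(miAB (margAB Ω)) / 2) ≤ x ∧
      ∑ i : a, ∑ j : b, ∑ β : a × Option u, ∑ γ : b,
        star (s (i, β)) * star (s' (j, γ)) * ∑ k, V (β, γ) k * Ω (i, j, k) = (x : ℂ) := by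
  have hne : Nonempty (a × b × u) := by
    by_contra h
    rw [not_nonempty_iff] at h
    simp [dotProduct] at hΩ
  obtain ⟨i₀, j₀, -⟩ := hne
  have hd := isDensity_margAB Ω hΩ
  have hρ := hd.1
  have hA := ptrFst_posSemidef' hρ
  have hB := ptrSnd_posSemidef' hρ
  have hT : (0 : ℂ) ≤ (CFC.sqrt (margAB Ω) *
      (CFC.sqrt (ptrFst (margAB Ω)) ⊗ₖ CFC.sqrt (ptrSnd (margAB Ω)))).trace :=
    trace_mul_nonneg_of_psd (cfc_sqrt_posSemidef _)
      ((cfc_sqrt_posSemidef _).kronecker (cfc_sqrt_posSemidef _))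
  refine ⟨spV (i₀, j₀) (spB Ω) (1 - spP Ω), spS (CFC.sqrt (ptrFst (margAB Ω))),
    spS' (CFC.sqrt (ptrSnd (margAB Ω))), _, spV_isometry _ _ _ (spP_complete Ω), ?_, ?_,
    affinity_ge hd, ?_⟩
  · rw [spS_norm, sum_star_sqrt_mul hA, trace_ptrFst', hd.2]
  · rw [spS'_norm, sum_star_sqrt_mul hB, trace_ptrSnd', hd.2]
  · rw [sp_overlap_eq _ _ _ (cfc_sqrt_posSemidef _).isHermitian (cfc_sqrt_posSemidef _).isHermitian,
      ← cfc_sqrt_eq_spow hρ]
    exact Complex.eq_re_of_ofReal_le hT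

/-! ### distance form -/

theorem sp_norm_sub_sq (z w : ℂ) : ‖z - w‖ ^ 2 = ‖z‖ ^ 2 + ‖w‖ ^ 2 - 2 * (star w * z).re := by
  simp only [← Complex.normSq_eq_norm_sq, Complex.normSq_apply, Complex.sub_re, Complex.sub_im,
    Complex.mul_re, Complex.star_def, Complex.conj_re, Complex.conj_im]
  ring

theorem sp_sum_norm_sq_mulVec {m n : Type} [Fintype m] [Fintype n] [DecidableEq n]
    (V : Matrix m n ℂ) (hV : Vᴴ * V = 1) (v : n → ℂ) :
    ∑ y, ‖(V *ᵥ v) y‖ ^ 2 = ∑ k, ‖v k‖ ^ 2 := by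
  classical
  have h1 : star (V *ᵥ v) ⬝ᵥ (V *ᵥ v) = star v ⬝ᵥ v := by
    rw [star_mulVec, ← dotProduct_mulVec, Matrix.mulVec_mulVec, hV, Matrix.one_mulVec]
  rw [star_dotProduct_self_eq, star_dotProduct_self_eq] at h1
  exact_mod_cast h1

theorem sp_sum_norm_sq_eq_one {n : Type} [Fintype n] {v : n → ℂ} (h : star v ⬝ᵥ v = 1) :
    ∑ k, ‖v k‖ ^ 2 = 1 := by
  classical
  rw [star_dotProduct_self_eq] at h
  exact_mod_cast h

/-- `‖(1 ⊗ V) Ω‖² = 1` -/
theorem sp_norm_image {c : Type} [Fintype c] (V : Matrix (c × b) u ℂ) (hV : Vᴴ * V = 1)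
    (Ω : a × b × u → ℂ) (hΩ : star Ω ⬝ᵥ Ω = 1) :
    ∑ i : a, ∑ j : b, ∑ β : c, ∑ γ : b, ‖∑ k, V (β, γ) k * Ω (i, j, k)‖ ^ 2 = 1 := by
  rw [← sp_sum_norm_sq_eq_one hΩ, Fintype.sum_prod_type]
  refine Finset.sum_congr rfl fun i _ => ?_
  rw [Fintype.sum_prod_type]
  refine Finset.sum_congr rfl fun j _ => ?_
  rw [← sp_sum_norm_sq_mulVec V hV (fun k => Ω (i, j, k)), Fintype.sum_prod_type]
  rfl

/-- `‖s ⊗ s'‖² = 1` -/
theorem sp_norm_prod {c : Type} [Fintype c] {s : a × c → ℂ} {s' : b × b → ℂ}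
    (hs : star s ⬝ᵥ s = 1) (hs' : star s' ⬝ᵥ s' = 1) :
    ∑ i : a, ∑ j : b, ∑ β : c, ∑ γ : b, ‖s (i, β) * s' (j, γ)‖ ^ 2 = 1 := by
  have h1 := sp_sum_norm_sq_eq_one hs
  have h2 := sp_sum_norm_sq_eq_one hs'
  rw [Fintype.sum_prod_type] at h1 h2
  calc ∑ i : a, ∑ j : b, ∑ β : c, ∑ γ : b, ‖s (i, β) * s' (j, γ)‖ ^ 2
      = ∑ i : a, ∑ j : b, (∑ β : c, ‖s (i, β)‖ ^ 2) * ∑ γ : b, ‖s' (j, γ)‖ ^ 2 := by
        refine Finset.sum_congr rfl fun i _ => Finset.sum_congr rfl fun j _ => ?_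
        rw [Finset.sum_mul_sum]
        refine Finset.sum_congr rfl fun β _ => Finset.sum_congr rfl fun γ _ => ?_
        rw [norm_mul, mul_pow]
    _ = (∑ i : a, ∑ β : c, ‖s (i, β)‖ ^ 2) * ∑ j : b, ∑ γ : b, ‖s' (j, γ)‖ ^ 2 := by
        rw [Finset.sum_mul_sum]
    _ = 1 := by rw [h1, h2, one_mul]

/-- distance form of `split_overlap` (Lemma 5.5 of paper 2): `‖(1 ⊗ V)Ω - s ⊗ s'‖² ≤ I(a:b)`. -/
theorem split_dist (Ω : a × b × u → ℂ) (hΩ : star Ω ⬝ᵥ Ω = 1) :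
    ∃ (V : Matrix ((a × Option u) × b) u ℂ) (s : a × (a × Option u) → ℂ) (s' : b × b → ℂ),
      Vᴴ * V = 1 ∧ star s ⬝ᵥ s = 1 ∧ star s' ⬝ᵥ s' = 1 ∧
      ∑ i : a, ∑ j : b, ∑ β : a × Option u, ∑ γ : b,
        ‖(∑ k, V (β, γ) k * Ω (i, j, k)) - s (i, β) * s' (j, γ)‖ ^ 2 ≤ miAB (margAB Ω) := by
  obtain ⟨V, s, s', x, hV, hs, hs', hx, hov⟩ := split_overlap Ω hΩ
  refine ⟨V, s, s', hV, hs, hs', ?_⟩
  simp only [sp_norm_sub_sq, Finset.sum_sub_distrib, Finset.sum_add_distrib]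
  rw [sp_norm_image V hV Ω hΩ, sp_norm_prod hs hs']
  have h1 : ∑ i : a, ∑ j : b, ∑ β : a × Option u, ∑ γ : b,
      2 * (star (s (i, β) * s' (j, γ)) * ∑ k, V (β, γ) k * Ω (i, j, k)).re = 2 * x := by
    have h2 := congrArg Complex.re hov
    simp only [Complex.re_sum, Complex.ofReal_re] at h2
    simp only [← Finset.mul_sum, star_mul']
    rw [h2]
  rw [h1]
  have h3 := Real.add_one_le_exp (-(miAB (margAB Ω)) / 2)
  linarith

end Claimed.Agent.R296
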