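import Claimed.Agent.R296.P2.SplitIso

/-!
# Row 296, paper 2, Lemma 2.3: the swap overlap R3 (one-owner file, package P2-SWAP)
Blueprint: `Notes/P2S01_03.lean` (2.3) R3.   Owner: helper19.  Prefix `sw`.

`W = (V ⊗ V)ᴴ F (V ⊗ V)`, `F` = exchange of the `c = bA` components; `X` = matrix of `(1 ⊗ V) Ω`
(rows `(a, c)`, columns `(b, b)`), `τ = X Xᴴ`, `z = ‖τ‖₂² = Tr τ²`.
-/

set_option autoImplicit false
set_option linter.unusedSectionVars false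

namespace Claimed.Agent.R296

open Matrix
open scoped MatrixOrder Matrix.Norms.L2Operator ComplexOrder Kronecker

variable {a b u c : Type} [Fintype a] [DecidableEq a] [Fintype b] [DecidableEq b]
  [Fintype u] [DecidableEq u] [Fintype c] [DecidableEq c]

/-- exchange of the `c` components -/
def swC : (c × b) × (c × b) ≃ (c × b) × (c × b) where
  toFun y := ((y.2.1, y.1.2), (y.1.1, y.2.2))
  invFun y := ((y.2.1, y.1.2), (y.1.1, y.2.2))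
  left_inv _ := rfl
  right_inv _ := rfl

theorem swC_swC (y : (c × b) × (c × b)) : swC (swC y) = y := rfl

/-- `F (V ⊗ V)` -/
def swFG (V : Matrix (c × b) u ℂ) : Matrix ((c × b) × (c × b)) (u × u) ℂ :=
  (V ⊗ₖ V).submatrix swC (Equiv.refl _)

/-- `W = (V ⊗ V)ᴴ F (V ⊗ V)` -/
def swW (V : Matrix (c × b) u ℂ) : Matrix (u × u) (u × u) ℂ := (V ⊗ₖ V)ᴴ * swFG V

theorem sw_G_iso {V : Matrix (c × b) u ℂ} (hV : Vᴴ * V = 1) : (V ⊗ₖ V)ᴴ * (V ⊗ₖ V) = 1 := by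
  rw [conjTranspose_kronecker, ← mul_kronecker_mul, hV, one_kronecker_one]

theorem sw_FG_iso {V : Matrix (c × b) u ℂ} (hV : Vᴴ * V = 1) : (swFG V)ᴴ * swFG V = 1 := by
  unfold swFG
  rw [conjTranspose_submatrix, submatrix_mul_equiv, sw_G_iso hV]
  simp

theorem swW_isHermitian (V : Matrix (c × b) u ℂ) : (swW V).IsHermitian := by
  unfold swW swFG
  rw [IsHermitian, conjTranspose_mul, conjTranspose_conjTranspose, conjTranspose_submatrix]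
  have h : (V ⊗ₖ V) = ((V ⊗ₖ V).submatrix swC (Equiv.refl _)).submatrix swC (Equiv.refl _) := by
    ext y k
    rfl
  conv_lhs => rw [h]
  rw [submatrix_mul_equiv]
  ext k l
  rfl

theorem sw_norm_le_one_of_iso {m n : Type} [Fintype m] [DecidableEq m] [Fintype n] [DecidableEq n]
    {G : Matrix m n ℂ} (hG : Gᴴ * G = 1) : ‖G‖ ≤ 1 :=
  opNorm_le_of_l2n zero_le_one fun v => by rw [l2n_isometry_mulVec G hG, one_mul]

theorem swW_norm_le {V : Matrix (c × b) u ℂ} (hV : Vᴴ * V = 1) : ‖swW V‖ ≤ 1 := by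
  unfold swW
  calc ‖(V ⊗ₖ V)ᴴ * swFG V‖ ≤ ‖(V ⊗ₖ V)ᴴ‖ * ‖swFG V‖ := l2_opNorm_mul _ _
    _ ≤ 1 * 1 := by
        rw [l2_opNorm_conjTranspose]
        exact mul_le_mul (sw_norm_le_one_of_iso (sw_G_iso hV))
          (sw_norm_le_one_of_iso (sw_FG_iso hV)) (norm_nonneg _) zero_le_one
    _ = 1 := one_mul 1

/-- product vector -/
def swT {k l : Type} (v : k → ℂ) (w : l → ℂ) : k × l → ℂ := fun x => v x.1 * w x.2

theorem sw_kron_mulVec (V : Matrix (c × b) u ℂ) (v w : u → ℂ) :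
    (V ⊗ₖ V) *ᵥ swT v w = swT (V *ᵥ v) (V *ᵥ w) := by
  funext y
  simp only [mulVec, dotProduct, swT, kroneckerMap_apply]
  rw [Fintype.sum_prod_type, Finset.sum_mul_sum]
  refine Finset.sum_congr rfl fun k _ => Finset.sum_congr rfl fun l _ => ?_
  ring

theorem sw_FG_mulVec (V : Matrix (c × b) u ℂ) (v w : u → ℂ) (y : (c × b) × (c × b)) :
    (swFG V *ᵥ swT v w) y = swT (V *ᵥ v) (V *ᵥ w) (swC y) := by
  rw [← sw_kron_mulVec]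
  rfl

/-- the bilinear identity for `W` -/
theorem sw_form (V : Matrix (c × b) u ℂ) (p q v w : u → ℂ) :
    star (swT p q) ⬝ᵥ (swW V *ᵥ swT v w)
      = ∑ y : (c × b) × (c × b), star (swT (V *ᵥ p) (V *ᵥ q) y) * swT (V *ᵥ v) (V *ᵥ w) (swC y) := by
  unfold swW
  rw [← Matrix.mulVec_mulVec, dotProduct_mulVec, ← star_mulVec, sw_kron_mulVec]
  simp only [dotProduct, Pi.star_apply, sw_FG_mulVec]

/-- matrix of `(1 ⊗ V) Ω`: rows `(a, c)`, columns `(b, b)` -/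
def swX (V : Matrix (c × b) u ℂ) (Ω : a × b × u → ℂ) : Matrix (a × c) (b × b) ℂ :=
  Matrix.of fun r col => ∑ k, V (r.2, col.2) k * Ω (r.1, col.1, k)

theorem swX_apply (V : Matrix (c × b) u ℂ) (Ω : a × b × u → ℂ) (i : a) (β : c) (j γ : b) :
    swX V Ω (i, β) (j, γ) = (V *ᵥ fun k => Ω (i, j, k)) (β, γ) := rfl

/-- reordering of the eight summation indices -/
def swE : (a × c) × (a × c) × (b × b) × (b × b) ≃ a × b × a × b × c × b × c × b where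
  toFun t := (t.1.1, t.2.2.1.1, t.2.1.1, t.2.2.2.1, t.2.1.2, t.2.2.1.2, t.1.2, t.2.2.2.2)
  invFun t := ((t.1, t.2.2.2.2.2.2.1), (t.2.2.1, t.2.2.2.2.1), (t.2.1, t.2.2.2.2.2.1),
    (t.2.2.2.1, t.2.2.2.2.2.2.2))
  left_inv _ := rfl
  right_inv _ := rfl

theorem sw_reorder (f : a → b → a → b → c → b → c → b → ℂ) :
    ∑ i₁, ∑ j₁, ∑ i₂, ∑ j₂, ∑ β₁, ∑ γ₁, ∑ β₂, ∑ γ₂, f i₁ j₁ i₂ j₂ β₁ γ₁ β₂ γ₂
      = ∑ r : a × c, ∑ r' : a × c, ∑ x : b × b, ∑ x' : b × b,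
          f r.1 x.1 r'.1 x'.1 r'.2 x.2 r.2 x'.2 := by
  have h1 : ∑ i₁, ∑ j₁, ∑ i₂, ∑ j₂, ∑ β₁, ∑ γ₁, ∑ β₂, ∑ γ₂, f i₁ j₁ i₂ j₂ β₁ γ₁ β₂ γ₂
      = ∑ t : a × b × a × b × c × b × c × b,
        f t.1 t.2.1 t.2.2.1 t.2.2.2.1 t.2.2.2.2.1 t.2.2.2.2.2.1 t.2.2.2.2.2.2.1 t.2.2.2.2.2.2.2 := by
    simp only [Fintype.sum_prod_type]
  have h2 : ∑ r : a × c, ∑ r' : a × c, ∑ x : b × b, ∑ x' : b × b,
          f r.1 x.1 r'.1 x'.1 r'.2 x.2 r.2 x'.2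
      = ∑ t : (a × c) × (a × c) × (b × b) × (b × b),
          f t.1.1 t.2.2.1.1 t.2.1.1 t.2.2.2.1 t.2.1.2 t.2.2.1.2 t.1.2 t.2.2.2.2 := by
    symm
    refine (Fintype.sum_prod_type _).trans (Finset.sum_congr rfl fun r _ => ?_)
    refine (Fintype.sum_prod_type _).trans (Finset.sum_congr rfl fun r' _ => ?_)
    exact Fintype.sum_prod_type _
  rw [h1, h2]
  exact (swE.sum_comp (fun t : a × b × a × b × c × b × c × b =>
    f t.1 t.2.1 t.2.2.1 t.2.2.2.1 t.2.2.2.2.1 t.2.2.2.2.2.1 t.2.2.2.2.2.2.1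
      t.2.2.2.2.2.2.2)).symm

/-- `∑ conj(X r' x) conj(X r x') X r x X r' x' = ‖X Xᴴ‖₂²` -/
theorem sw_sum_eq_hsSq {m n : Type} [Fintype m] [Fintype n] (X : Matrix m n ℂ) :
    ∑ r : m, ∑ r' : m, ∑ x : n, ∑ x' : n, star (X r' x * X r x') * (X r x * X r' x')
      = ((hsSq (X * Xᴴ) : ℝ) : ℂ) := by
  unfold hsSq
  push_cast
  refine Finset.sum_congr rfl fun r _ => Finset.sum_congr rfl fun r' _ => ?_
  rw [← Complex.mul_conj', Matrix.mul_apply, map_sum, Finset.sum_mul_sum]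
  refine Finset.sum_congr rfl fun x _ => Finset.sum_congr rfl fun x' _ => ?_
  simp only [conjTranspose_apply, map_mul, Complex.star_def, Complex.conj_conj]
  ring

theorem sw_identity (V : Matrix (c × b) u ℂ) (Ω : a × b × u → ℂ) :
    ∑ i₁ : a, ∑ j₁ : b, ∑ k₁ : u, ∑ i₂ : a, ∑ j₂ : b, ∑ k₂ : u,
        star (Ω (i₂, j₁, k₁) * Ω (i₁, j₂, k₂)) *
          ∑ l₁ : u, ∑ l₂ : u, swW V (k₁, k₂) (l₁, l₂) * (Ω (i₁, j₁, l₁) * Ω (i₂, j₂, l₂))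
      = ((hsSq (swX V Ω * (swX V Ω)ᴴ) : ℝ) : ℂ) := by
  rw [← sw_sum_eq_hsSq, ← sw_reorder (fun i₁ j₁ i₂ j₂ β₁ γ₁ β₂ γ₂ =>
    star (swX V Ω (i₂, β₁) (j₁, γ₁) * swX V Ω (i₁, β₂) (j₂, γ₂)) *
      (swX V Ω (i₁, β₂) (j₁, γ₁) * swX V Ω (i₂, β₁) (j₂, γ₂)))]
  refine Finset.sum_congr rfl fun i₁ _ => Finset.sum_congr rfl fun j₁ _ => ?_
  rw [Finset.sum_comm]
  refine Finset.sum_congr rfl fun i₂ _ => ?_
  rw [Finset.sum_comm]
  refine Finset.sum_congr rfl fun j₂ _ => ?_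
  have h := sw_form V (fun k => Ω (i₂, j₁, k)) (fun k => Ω (i₁, j₂, k)) (fun k => Ω (i₁, j₁, k))
    (fun k => Ω (i₂, j₂, k))
  have hL : star (swT (fun k => Ω (i₂, j₁, k)) (fun k => Ω (i₁, j₂, k))) ⬝ᵥ
      (swW V *ᵥ swT (fun k => Ω (i₁, j₁, k)) (fun k => Ω (i₂, j₂, k)))
      = ∑ k₁ : u, ∑ k₂ : u, star (Ω (i₂, j₁, k₁) * Ω (i₁, j₂, k₂)) *
          ∑ l₁ : u, ∑ l₂ : u, swW V (k₁, k₂) (l₁, l₂) * (Ω (i₁, j₁, l₁) * Ω (i₂, j₂, l₂)) := by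
    simp only [dotProduct, mulVec, Pi.star_apply, swT, Fintype.sum_prod_type]
  rw [← hL, h]
  simp only [Fintype.sum_prod_type]
  rfl

theorem sw_overlap_eq (V : Matrix (c × b) u ℂ) (Ω : a × b × u → ℂ) (s : a × c → ℂ)
    (s' : b × b → ℂ) :
    ∑ i : a, ∑ j : b, ∑ β : c, ∑ γ : b,
        star (s (i, β)) * star (s' (j, γ)) * ∑ k, V (β, γ) k * Ω (i, j, k)
      = star s ⬝ᵥ (swX V Ω *ᵥ star s') := by
  simp only [dotProduct, mulVec, Pi.star_apply, Fintype.sum_prod_type, Finset.mul_sum]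
  refine Finset.sum_congr rfl fun i _ => ?_
  rw [Finset.sum_comm]
  refine Finset.sum_congr rfl fun β _ => Finset.sum_congr rfl fun j _ =>
    Finset.sum_congr rfl fun γ _ => ?_
  simp only [swX, Matrix.of_apply, Finset.sum_mul, Finset.mul_sum]
  refine Finset.sum_congr rfl fun k _ => ?_
  ring

theorem sw_bound {m n : Type} [Fintype m] [DecidableEq m] [Fintype n] [DecidableEq n]
    (X : Matrix m n ℂ) (s : m → ℂ) (t : n → ℂ) (hs : l2n s = 1) (ht : l2n t = 1) :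
    ‖star s ⬝ᵥ (X *ᵥ t)‖ ^ 4 ≤ hsSq (X * Xᴴ) := by
  have h1 : star s ⬝ᵥ (X *ᵥ t) = star (Xᴴ *ᵥ s) ⬝ᵥ t := by
    rw [star_mulVec, conjTranspose_conjTranspose, dotProduct_mulVec]
  have h2 : ‖star s ⬝ᵥ (X *ᵥ t)‖ ≤ l2n (Xᴴ *ᵥ s) := by
    rw [h1]
    have := norm_dotProduct_le (Xᴴ *ᵥ s) t
    rwa [ht, mul_one] at this
  have h3 : l2n (Xᴴ *ᵥ s) ^ 2 ≤ hsn (X * Xᴴ) := by
    rw [l2n_sq_eq_re, star_mulVec, conjTranspose_conjTranspose, ← dotProduct_mulVec,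
      Matrix.mulVec_mulVec]
    calc (star s ⬝ᵥ ((X * Xᴴ) *ᵥ s)).re ≤ ‖star s ⬝ᵥ ((X * Xᴴ) *ᵥ s)‖ := Complex.re_le_norm _
      _ ≤ l2n s * l2n ((X * Xᴴ) *ᵥ s) := norm_dotProduct_le _ _
      _ ≤ 1 * (‖X * Xᴴ‖ * l2n s) := by
          rw [hs]
          have := l2n_mulVec_le (X * Xᴴ) s
          rw [hs] at this
          linarith
      _ ≤ hsn (X * Xᴴ) := by
          rw [hs]
          simpa using opNorm_le_hsn (X * Xᴴ)
  calc ‖star s ⬝ᵥ (X *ᵥ t)‖ ^ 4 = (‖star s ⬝ᵥ (X *ᵥ t)‖ ^ 2) ^ 2 := by ring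
    _ ≤ (l2n (Xᴴ *ᵥ s) ^ 2) ^ 2 := by gcongr
    _ ≤ (hsn (X * Xᴴ)) ^ 2 := by
        have := l2n_nonneg (Xᴴ *ᵥ s)
        gcongr
    _ = hsSq (X * Xᴴ) := hsn_sq _

/-- **R3**. -/
theorem swap_overlap (Ω : a × b × u → ℂ) (hΩ : star Ω ⬝ᵥ Ω = 1) :
    ∃ (W : Matrix (u × u) (u × u) ℂ) (z : ℝ), W.IsHermitian ∧ ‖W‖ ≤ 1 ∧
      Real.exp (-(2 * miAB (margAB Ω))) ≤ z ∧
      ∑ i₁ : a, ∑ j₁ : b, ∑ k₁ : u, ∑ i₂ : a, ∑ j₂ : b, ∑ k₂ : u,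
        star (Ω (i₂, j₁, k₁) * Ω (i₁, j₂, k₂)) *
          ∑ l₁ : u, ∑ l₂ : u, W (k₁, k₂) (l₁, l₂) * (Ω (i₁, j₁, l₁) * Ω (i₂, j₂, l₂)) = (z : ℂ) := by
  obtain ⟨V, s, s', x, hV, hs, hs', hx, hov⟩ := split_overlap Ω hΩ
  refine ⟨swW V, hsSq (swX V Ω * (swX V Ω)ᴴ), swW_isHermitian V, swW_norm_le hV, ?_,
    sw_identity V Ω⟩
  rw [sw_overlap_eq] at hov
  have hs1 : l2n s = 1 := (l2n_eq_one_iff s).2 hs
  have hs2 : l2n (star s') = 1 := by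
    rw [l2n_eq_one_iff, star_star, dotProduct_comm]
    exact hs'
  have h := sw_bound (swX V Ω) s (star s') hs1 hs2
  rw [hov, Complex.norm_real, Real.norm_eq_abs] at h
  refine le_trans ?_ h
  have h0 : 0 < Real.exp (-(miAB (margAB Ω)) / 2) := Real.exp_pos _
  have h1 : Real.exp (-(2 * miAB (margAB Ω))) = Real.exp (-(miAB (margAB Ω)) / 2) ^ 4 := by
    rw [← Real.exp_nat_mul]
    congr 1
    push_cast
    ring
  rw [h1, abs_of_nonneg (h0.le.trans hx)]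
  gcongr

end Claimed.Agent.R296
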